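import Mathlib
import Crest.Prelude.Def_RieszRectifiability

/-!
R085 (S0113): definitions shared by all files of the row.
`n` = dimension of the measure, `d` = dimension of the ambient space.
-/

set_option autoImplicit false

namespace Crest.Agent.R085

open MeasureTheory Metric Set Filter
open scoped ENNReal NNReal Topology

/-- ambient space -/
abbrev V (d : ℕ) := EuclideanSpace ℝ (Fin d)

/-- `n`-regularity with constant `C`: upper bound for ALL centres and radii, lower bound for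
centres in the support and radii `≤ D` (`D = ⊤` allowed). -/
structure ADR {d : ℕ} (n : ℕ) (C : ℝ) (D : ℝ≥0∞) (μ : Measure (V d)) : Prop where
  one_le : 1 ≤ C
  upper : ∀ (x : V d) (r : ℝ), 0 < r → μ (ball x r) ≤ ENNReal.ofReal (C * r ^ n)
  lower : ∀ x ∈ μ.support, ∀ r : ℝ, 0 < r → ENNReal.ofReal r ≤ D →
    ENNReal.ofReal (C⁻¹ * r ^ n) ≤ μ (ball x r)

/-- `cut t = 1` for `t ≤ 1`, `= 0` for `t ≥ 2`, linear in between. -/
noncomputable def cut (t : ℝ) : ℝ := max 0 (min 1 (2 - t))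

/-- the scalar kernel `|z|^{-(n+1)}` cut off at `|z| ~ N`. -/
noncomputable def kN {d : ℕ} (n : ℕ) (N : ℝ) (z : V d) : ℝ := cut (‖z‖ / N) * (‖z‖ ^ (n + 1))⁻¹

/-- The (symmetric) truncated form
`Bf n μ N u ψ = 1/2 ∬ (u x - u y) (ψ x - ψ y) k_N(x - y) dμ dμ`.
For `u = ⟪·, e⟫` this is the Riesz form `⟨R μ, ψ e⟩_μ` truncated at distance `N`. -/
noncomputable def Bf {d : ℕ} (n : ℕ) (μ : Measure (V d)) (N : ℝ) (u ψ : V d → ℝ) : ℝ :=
  (1 / 2 : ℝ) * ∫ p : V d × V d,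
    (u p.1 - u p.2) * (ψ p.1 - ψ p.2) * kN n N (p.1 - p.2) ∂(μ.prod μ)

/-- linear coordinate `y ↦ ⟪y, e⟫`. -/
noncomputable def lin {d : ℕ} (e : V d) : V d → ℝ := fun y => inner ℝ y e

/-- Lipschitz compactly supported test function. -/
structure IsTest {d : ℕ} (ψ : V d → ℝ) : Prop where
  lip : ∃ K : ℝ≥0, LipschitzWith K ψ
  cpt : HasCompactSupport ψ

/-- `μ` is reflectionless. -/
def Refl {d : ℕ} (n : ℕ) (μ : Measure (V d)) : Prop :=
  ∀ (e : V d) (ψ : V d → ℝ), IsTest ψ → ∫ y, ψ y ∂μ = 0 →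
    Tendsto (fun N : ℝ => Bf n μ N (lin e) ψ) atTop (𝓝 0)

/-- the Riesz oscillation of `μ` around `x` at scale `r` is at most `δ`
(tested with functions living in `ball x (M r)`). -/
def EtaS {d : ℕ} (n : ℕ) (μ : Measure (V d)) (x : V d) (r M δ : ℝ) : Prop :=
  ∀ e : V d, ‖e‖ ≤ 1 → ∀ ψ : V d → ℝ, (∀ y z, |ψ y - ψ z| ≤ dist y z / r) →
    (∀ y, |ψ y| ≤ 1) → (∀ y, y ∉ ball x (M * r) → ψ y = 0) → ∫ y, ψ y ∂μ = 0 →
    ∀ᶠ N : ℝ in atTop, |Bf n μ N (lin e) ψ| ≤ δ * r ^ n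

/-- squared distance to the standard `n`-plane: sum of squares of the coordinates `i ≥ n`. -/
noncomputable def nsq {d : ℕ} (n : ℕ) (z : V d) : ℝ := ∑ i : Fin d, if n ≤ (i : ℕ) then (z i) ^ 2 else 0

/-- Flatness window: there is ONE plane `L = {y : nsq (g y - b) = 0}` such that
`∫_{B(x,R)} dist(y,L)² dμ ≤ ε² (R/ρ) R^{n+2}` for all `ρ ≤ R ≤ M ρ`. -/
def FlatW {d : ℕ} (n : ℕ) (μ : Measure (V d)) (x : V d) (ρ ε M : ℝ) : Prop :=
  ∃ (g : V d ≃ₗᵢ[ℝ] V d) (b : V d), ∀ R : ℝ, ρ ≤ R → R ≤ M * ρ →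
    ∫ y in ball x R, nsq n (g y - b) ∂μ ≤ ε ^ 2 * (R / ρ) * R ^ (n + 2)

/-- Bilateral (sup) flatness of `supp μ` in `ball x (M r)`: there is an affine `n`-plane
`P = b + range ι` such that every point of `supp μ ∩ ball x (M r)` is within `ε r` of `P` and every
point of `P ∩ ball x (M r)` is within `ε r` of `supp μ`. -/
def BiFlat {d : ℕ} (n : ℕ) (μ : Measure (V d)) (x : V d) (r ε M : ℝ) : Prop :=
  ∃ (ι : V n →ₗᵢ[ℝ] V d) (b : V d),
    (∀ y ∈ μ.support, y ∈ ball x (M * r) → ∃ z : V n, dist y (b + ι z) ≤ ε * r) ∧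
    (∀ z : V n, b + ι z ∈ ball x (M * r) → ∃ y ∈ μ.support, dist y (b + ι z) ≤ ε * r)

/-- rescaled measure `μ_{x,r}(A) = r^{-n} μ(x + r A)`. -/
noncomputable def resc {d : ℕ} (n : ℕ) (x : V d) (r : ℝ) (μ : Measure (V d)) : Measure (V d) :=
  ENNReal.ofReal ((r ^ n)⁻¹) • μ.map (fun y => r⁻¹ • (y - x))

/-- vague convergence along a filter. -/
def VagueLim {d : ℕ} (l : Filter ℕ) (μs : ℕ → Measure (V d)) (μ : Measure (V d)) : Prop :=
  ∀ f : V d → ℝ, Continuous f → HasCompactSupport f →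
    Tendsto (fun k => ∫ y, f y ∂(μs k)) l (𝓝 (∫ y, f y ∂μ))

/-- inclusion of the standard `n`-plane. -/
noncomputable def inc (n d : ℕ) (z : V n) : V d :=
  (WithLp.toLp 2 fun i : Fin d => if h : (i : ℕ) < n then z ⟨i, h⟩ else 0)

/-- projection to the first `n` coordinates. -/
noncomputable def prj (n : ℕ) {d : ℕ} (y : V d) : V n :=
  (WithLp.toLp 2 fun j : Fin n => if h : (j : ℕ) < d then y ⟨j, h⟩ else 0)

end Crest.Agent.R085
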