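import Mathlib

/-!
Row 85: integral estimates for measures with upper growth `μ (ball x r) ≤ C r ^ n`.
-/

set_option autoImplicit false
set_option linter.unusedSectionVars false

open MeasureTheory Metric Set
open scoped ENNReal NNReal

noncomputable section

namespace Crest.Agent.R085

variable {X : Type*} [PseudoMetricSpace X] [MeasurableSpace X] [OpensMeasurableSpace X]

/-- `μ (ball x r) ≤ C r ^ n` for all centres and all radii. -/
def UpperReg (n : ℕ) (C : ℝ) (μ : Measure X) : Prop :=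
  ∀ x : X, ∀ r : ℝ, 0 < r → μ (ball x r) ≤ ENNReal.ofReal (C * r ^ n)

/-- Dyadic shell lemma, outer part. -/
theorem lintegral_tail_rpow {n : ℕ} {C : ℝ} {μ : Measure X} (hμ : UpperReg n C μ) (hC : 0 ≤ C)
    {s : ℝ} (hs : (n : ℝ) < s) (x : X) {r : ℝ} (hr : 0 < r) :
    ∫⁻ y in {y | r ≤ dist x y}, ENNReal.ofReal ((dist x y) ^ (-s)) ∂μ
      ≤ ENNReal.ofReal (C * 2 ^ n / (1 - 2 ^ ((n : ℝ) - s)) * r ^ ((n : ℝ) - s)) := by
  set q : ℝ := 2 ^ ((n : ℝ) - s) with hq
  have hq0 : 0 < q := by positivity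
  have hq1 : q < 1 := by
    rw [hq]
    exact Real.rpow_lt_one_of_one_lt_of_neg (by norm_num) (by linarith)
  have hs0 : 0 < s := lt_of_le_of_lt (Nat.cast_nonneg n) hs
  set A : ℕ → Set X := fun k => {y | 2 ^ k * r ≤ dist x y ∧ dist x y < 2 ^ (k + 1) * r} with hA
  have hcover : {y | r ≤ dist x y} ⊆ ⋃ k, A k := by
    intro y hy
    have hy' : r ≤ dist x y := hy
    have h1 : 1 ≤ dist x y / r := by rwa [le_div_iff₀ hr, one_mul]
    obtain ⟨k, hk1, hk2⟩ := exists_nat_pow_near h1 (one_lt_two : (1 : ℝ) < 2)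
    refine mem_iUnion.2 ⟨k, ?_, ?_⟩
    · rwa [le_div_iff₀ hr] at hk1
    · rwa [div_lt_iff₀ hr] at hk2
  have hterm : ∀ k, ∫⁻ y in A k, ENNReal.ofReal ((dist x y) ^ (-s)) ∂μ
      ≤ ENNReal.ofReal (C * 2 ^ n * r ^ ((n : ℝ) - s) * q ^ k) := by
    intro k
    have hk0 : (0 : ℝ) < 2 ^ k * r := by positivity
    have hmeas : MeasurableSet (A k) := by
      have h1 : MeasurableSet {y : X | 2 ^ k * r ≤ dist x y} :=
        (isClosed_le continuous_const (continuous_const.dist continuous_id)).measurableSet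
      have h2 : MeasurableSet {y : X | dist x y < 2 ^ (k + 1) * r} :=
        (isOpen_lt (continuous_const.dist continuous_id) continuous_const).measurableSet
      exact h1.inter h2
    calc ∫⁻ y in A k, ENNReal.ofReal ((dist x y) ^ (-s)) ∂μ
        ≤ ∫⁻ y in A k, ENNReal.ofReal ((2 ^ k * r) ^ (-s)) ∂μ := by
          apply setLIntegral_mono' hmeas
          intro y hy
          apply ENNReal.ofReal_le_ofReal
          exact Real.rpow_le_rpow_of_nonpos hk0 hy.1 (by linarith)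
      _ = ENNReal.ofReal ((2 ^ k * r) ^ (-s)) * μ (A k) := by
          rw [setLIntegral_const]
      _ ≤ ENNReal.ofReal ((2 ^ k * r) ^ (-s)) * ENNReal.ofReal (C * (2 ^ (k + 1) * r) ^ n) := by
          gcongr
          refine le_trans (measure_mono ?_) (hμ x (2 ^ (k + 1) * r) (by positivity))
          intro y hy
          rw [mem_ball, dist_comm]
          exact hy.2
      _ = ENNReal.ofReal (C * 2 ^ n * r ^ ((n : ℝ) - s) * q ^ k) := by
          rw [← ENNReal.ofReal_mul (by positivity)]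
          congr 1
          have e1 : ((2 : ℝ) ^ k * r) ^ (-s) = ((2 : ℝ) ^ k) ^ (-s) * r ^ (-s) :=
            Real.mul_rpow (by positivity) hr.le
          have e2 : ((2 : ℝ) ^ (k + 1) * r) ^ n = 2 ^ n * (((2 : ℝ) ^ k) ^ n * r ^ n) := by
            rw [pow_succ]; ring
          have e3 : r ^ ((n : ℝ) - s) = r ^ n * r ^ (-s) := by
            rw [sub_eq_add_neg, Real.rpow_add hr, Real.rpow_natCast]
          have e4 : q ^ k = ((2 : ℝ) ^ k) ^ n * ((2 : ℝ) ^ k) ^ (-s) := by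
            rw [hq, sub_eq_add_neg, Real.rpow_add two_pos, Real.rpow_natCast, mul_pow, ← pow_mul,
              ← pow_mul, mul_comm n k]
            congr 1
            rw [← Real.rpow_natCast ((2 : ℝ) ^ (-s)) k, ← Real.rpow_natCast (2 : ℝ) k,
              ← Real.rpow_mul (by norm_num), ← Real.rpow_mul (by norm_num), mul_comm]
          rw [e1, e2, e3, e4]
          ring
  calc ∫⁻ y in {y | r ≤ dist x y}, ENNReal.ofReal ((dist x y) ^ (-s)) ∂μ
      ≤ ∫⁻ y in ⋃ k, A k, ENNReal.ofReal ((dist x y) ^ (-s)) ∂μ := lintegral_mono_set hcover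
    _ ≤ ∑' k, ∫⁻ y in A k, ENNReal.ofReal ((dist x y) ^ (-s)) ∂μ := lintegral_iUnion_le _ _
    _ ≤ ∑' k, ENNReal.ofReal (C * 2 ^ n * r ^ ((n : ℝ) - s) * q ^ k) :=
        ENNReal.tsum_le_tsum hterm
    _ = ENNReal.ofReal (∑' k, C * 2 ^ n * r ^ ((n : ℝ) - s) * q ^ k) := by
        rw [ENNReal.ofReal_tsum_of_nonneg]
        · intro k; positivity
        · exact (summable_geometric_of_lt_one hq0.le hq1).mul_left _
    _ = ENNReal.ofReal (C * 2 ^ n / (1 - q) * r ^ ((n : ℝ) - s)) := by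
        rw [tsum_mul_left, tsum_geometric_of_lt_one hq0.le hq1]
        congr 1
        field_simp


/-- The set of points at distance zero from `x` is null. -/
theorem measure_dist_eq_zero {n : ℕ} {C : ℝ} {μ : Measure X} (hμ : UpperReg n C μ)
    (hn : 0 < n) (x : X) : μ {y | dist x y = 0} = 0 := by
  have h : ∀ ε : ℝ, 0 < ε → μ {y | dist x y = 0} ≤ ENNReal.ofReal (C * ε ^ n) := by
    intro ε hε
    refine le_trans (measure_mono ?_) (hμ x ε hε)
    intro y hy
    have hy' : dist x y = 0 := hy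
    rw [mem_ball, dist_comm, hy']
    exact hε
  have hlim : Filter.Tendsto (fun ε : ℝ => ENNReal.ofReal (C * ε ^ n)) (nhdsWithin 0 (Ioi 0))
      (nhds 0) := by
    have : Filter.Tendsto (fun ε : ℝ => C * ε ^ n) (nhds 0) (nhds (C * 0 ^ n)) :=
      (continuous_const.mul (continuous_pow n)).tendsto 0
    rw [zero_pow hn.ne', mul_zero] at this
    have h2 := (ENNReal.continuous_ofReal.tendsto (0 : ℝ)).comp this
    rw [ENNReal.ofReal_zero] at h2
    exact h2.mono_left nhdsWithin_le_nhds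
  refine le_antisymm (ge_of_tendsto hlim ?_) bot_le
  filter_upwards [self_mem_nhdsWithin] with ε hε
  exact h ε hε

/-- `μ (closedBall x r) ≤ C 2 ^ n r ^ n`. -/
theorem UpperReg.closedBall_le {n : ℕ} {C : ℝ} {μ : Measure X} (hμ : UpperReg n C μ) (x : X)
    {r : ℝ} (hr : 0 < r) : μ (closedBall x r) ≤ ENNReal.ofReal (C * 2 ^ n * r ^ n) := by
  refine le_trans (measure_mono (closedBall_subset_ball (by linarith : r < 2 * r))) ?_
  refine le_trans (hμ x (2 * r) (by linarith)) ?_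
  rw [mul_pow, mul_assoc]

/-- Dyadic shell lemma, inner part. -/
theorem lintegral_near_rpow {n : ℕ} {C : ℝ} {μ : Measure X} (hμ : UpperReg n C μ) (hC : 0 ≤ C)
    {s : ℝ} (hs0 : 0 ≤ s) (hs : s < (n : ℝ)) (x : X) {r : ℝ} (hr : 0 < r) :
    ∫⁻ y in closedBall x r, ENNReal.ofReal ((dist x y) ^ (-s)) ∂μ
      ≤ ENNReal.ofReal (C * 2 ^ n * 2 ^ s / (1 - 2 ^ (s - (n : ℝ))) * r ^ ((n : ℝ) - s)) := by
  set q : ℝ := 2 ^ (s - (n : ℝ)) with hq
  have hq0 : 0 < q := by positivity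
  have hq1 : q < 1 := by
    rw [hq]
    exact Real.rpow_lt_one_of_one_lt_of_neg (by norm_num) (by linarith)
  have hn : 0 < n := by
    have : (0 : ℝ) < n := lt_of_le_of_lt hs0 hs
    exact_mod_cast this
  set A : ℕ → Set X := fun k => {y | (2 ^ (k + 1))⁻¹ * r < dist x y ∧ dist x y ≤ (2 ^ k)⁻¹ * r}
    with hA
  have hcover : closedBall x r ⊆ {y | dist x y = 0} ∪ ⋃ k, A k := by
    intro y hy
    rw [mem_closedBall, dist_comm] at hy
    rcases eq_or_lt_of_le (dist_nonneg : 0 ≤ dist x y) with h0 | h0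
    · left; exact h0.symm
    · right
      have h1 : 1 ≤ r / dist x y := by rwa [le_div_iff₀ h0, one_mul]
      obtain ⟨k, hk1, hk2⟩ := exists_nat_pow_near h1 (one_lt_two : (1 : ℝ) < 2)
      rw [le_div_iff₀ h0] at hk1
      rw [div_lt_iff₀ h0] at hk2
      refine mem_iUnion.2 ⟨k, ?_, ?_⟩
      · rw [inv_mul_lt_iff₀ (by positivity)]; exact hk2
      · rw [← inv_mul_le_iff₀ (by positivity), inv_inv]; exact hk1
  have hterm : ∀ k, ∫⁻ y in A k, ENNReal.ofReal ((dist x y) ^ (-s)) ∂μ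
      ≤ ENNReal.ofReal (C * 2 ^ n * 2 ^ s * r ^ ((n : ℝ) - s) * q ^ k) := by
    intro k
    have hk0 : (0 : ℝ) < (2 ^ (k + 1))⁻¹ * r := by positivity
    have hmeas : MeasurableSet (A k) := by
      have h1 : MeasurableSet {y : X | (2 ^ (k + 1))⁻¹ * r < dist x y} :=
        (isOpen_lt continuous_const (continuous_const.dist continuous_id)).measurableSet
      have h2 : MeasurableSet {y : X | dist x y ≤ (2 ^ k)⁻¹ * r} :=
        (isClosed_le (continuous_const.dist continuous_id) continuous_const).measurableSet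
      exact h1.inter h2
    calc ∫⁻ y in A k, ENNReal.ofReal ((dist x y) ^ (-s)) ∂μ
        ≤ ∫⁻ y in A k, ENNReal.ofReal (((2 ^ (k + 1))⁻¹ * r) ^ (-s)) ∂μ := by
          apply setLIntegral_mono' hmeas
          intro y hy
          apply ENNReal.ofReal_le_ofReal
          exact Real.rpow_le_rpow_of_nonpos hk0 hy.1.le (by linarith)
      _ = ENNReal.ofReal (((2 ^ (k + 1))⁻¹ * r) ^ (-s)) * μ (A k) := by
          rw [setLIntegral_const]
      _ ≤ ENNReal.ofReal (((2 ^ (k + 1))⁻¹ * r) ^ (-s)) *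
            ENNReal.ofReal (C * 2 ^ n * ((2 ^ k)⁻¹ * r) ^ n) := by
          gcongr
          refine le_trans (measure_mono ?_) (hμ.closedBall_le x (r := (2 ^ k)⁻¹ * r)
            (by positivity))
          intro y hy
          rw [mem_closedBall, dist_comm]
          exact hy.2
      _ = ENNReal.ofReal (C * 2 ^ n * 2 ^ s * r ^ ((n : ℝ) - s) * q ^ k) := by
          rw [← ENNReal.ofReal_mul (by positivity)]
          congr 1
          have e1 : (((2 : ℝ) ^ (k + 1))⁻¹ * r) ^ (-s) = ((2 : ℝ) ^ k) ^ s * 2 ^ s * r ^ (-s) := by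
            rw [Real.mul_rpow (by positivity) hr.le, Real.inv_rpow (by positivity),
              Real.rpow_neg (by positivity), inv_inv, pow_succ, Real.mul_rpow (by positivity)
              (by norm_num)]
          have e3 : r ^ ((n : ℝ) - s) = r ^ n * r ^ (-s) := by
            rw [sub_eq_add_neg, Real.rpow_add hr, Real.rpow_natCast]
          have e4 : q ^ k = ((2 : ℝ) ^ k) ^ s * (((2 : ℝ) ^ k)⁻¹) ^ n := by
            rw [hq, sub_eq_add_neg, Real.rpow_add two_pos, Real.rpow_neg (by norm_num),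
              Real.rpow_natCast, mul_pow, inv_pow, inv_pow, ← pow_mul, ← pow_mul, mul_comm n k]
            congr 1
            rw [← Real.rpow_natCast ((2 : ℝ) ^ s) k, ← Real.rpow_natCast (2 : ℝ) k,
              ← Real.rpow_mul (by norm_num), ← Real.rpow_mul (by norm_num), mul_comm]
          rw [e1, e3, e4, mul_pow]
          ring
  have hzero : ∫⁻ y in {y | dist x y = 0}, ENNReal.ofReal ((dist x y) ^ (-s)) ∂μ = 0 :=
    setLIntegral_measure_zero _ _ (measure_dist_eq_zero hμ hn x)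
  calc ∫⁻ y in closedBall x r, ENNReal.ofReal ((dist x y) ^ (-s)) ∂μ
      ≤ ∫⁻ y in {y | dist x y = 0} ∪ ⋃ k, A k, ENNReal.ofReal ((dist x y) ^ (-s)) ∂μ :=
        lintegral_mono_set hcover
    _ ≤ ∫⁻ y in {y | dist x y = 0}, ENNReal.ofReal ((dist x y) ^ (-s)) ∂μ
        + ∫⁻ y in ⋃ k, A k, ENNReal.ofReal ((dist x y) ^ (-s)) ∂μ := lintegral_union_le _ _ _
    _ = ∫⁻ y in ⋃ k, A k, ENNReal.ofReal ((dist x y) ^ (-s)) ∂μ := by rw [hzero, zero_add]
    _ ≤ ∑' k, ∫⁻ y in A k, ENNReal.ofReal ((dist x y) ^ (-s)) ∂μ := lintegral_iUnion_le _ _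
    _ ≤ ∑' k, ENNReal.ofReal (C * 2 ^ n * 2 ^ s * r ^ ((n : ℝ) - s) * q ^ k) :=
        ENNReal.tsum_le_tsum hterm
    _ = ENNReal.ofReal (∑' k, C * 2 ^ n * 2 ^ s * r ^ ((n : ℝ) - s) * q ^ k) := by
        rw [ENNReal.ofReal_tsum_of_nonneg]
        · intro k; positivity
        · exact (summable_geometric_of_lt_one hq0.le hq1).mul_left _
    _ = ENNReal.ofReal (C * 2 ^ n * 2 ^ s / (1 - q) * r ^ ((n : ℝ) - s)) := by
        rw [tsum_mul_left, tsum_geometric_of_lt_one hq0.le hq1]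
        congr 1
        field_simp

/-! ### Natural exponents -/

/-- `∫_{r ≤ |x-y|} |x-y|^{-(n+m)} dμ(y) ≤ C 2 ^ (n+1) r^{-m}`, `m ≥ 1`. -/
theorem lintegral_tail {n : ℕ} {C : ℝ} {μ : Measure X} (hμ : UpperReg n C μ) (hC : 0 ≤ C)
    {m : ℕ} (hm : 1 ≤ m) (x : X) {r : ℝ} (hr : 0 < r) :
    ∫⁻ y in {y | r ≤ dist x y}, ENNReal.ofReal (((dist x y) ^ (n + m))⁻¹) ∂μ
      ≤ ENNReal.ofReal (C * 2 ^ (n + 1) / r ^ m) := by
  have hs : (n : ℝ) < ((n + m : ℕ) : ℝ) := by exact_mod_cast Nat.lt_add_of_pos_right hm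
  have key := lintegral_tail_rpow hμ hC hs x hr
  have e1 : ∀ y : X, (dist x y) ^ (-((n + m : ℕ) : ℝ)) = ((dist x y) ^ (n + m))⁻¹ := by
    intro y
    rw [Real.rpow_neg dist_nonneg, Real.rpow_natCast]
  simp only [e1] at key
  refine key.trans (ENNReal.ofReal_le_ofReal ?_)
  have e2 : (n : ℝ) - ((n + m : ℕ) : ℝ) = -(m : ℝ) := by push_cast; ring
  rw [e2, Real.rpow_neg hr.le, Real.rpow_natCast, Real.rpow_neg (by norm_num), Real.rpow_natCast]
  have h2 : (2 : ℝ) ≤ 2 ^ m := by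
    calc (2 : ℝ) = 2 ^ 1 := by norm_num
      _ ≤ 2 ^ m := pow_le_pow_right₀ (by norm_num) hm
  have h3 : (2 : ℝ)⁻¹ ≤ 1 - (2 ^ m)⁻¹ := by
    have : ((2 : ℝ) ^ m)⁻¹ ≤ 2⁻¹ := inv_anti₀ (by norm_num) h2
    linarith [this, (by norm_num : (2 : ℝ)⁻¹ = 1 / 2)]
  have h4 : C * 2 ^ n / (1 - ((2 : ℝ) ^ m)⁻¹) ≤ C * 2 ^ n / 2⁻¹ := by
    apply div_le_div_of_nonneg_left (by positivity) (by norm_num) h3
  calc C * 2 ^ n / (1 - ((2 : ℝ) ^ m)⁻¹) * (r ^ m)⁻¹ ≤ C * 2 ^ n / 2⁻¹ * (r ^ m)⁻¹ := by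
        gcongr
    _ = C * 2 ^ (n + 1) / r ^ m := by
        rw [div_inv_eq_mul, pow_succ, div_eq_mul_inv]; ring

/-- `∫_{|x-y| ≤ r} |x-y|^{-k} dμ(y) ≤ C 4 ^ (n+1) r^{n-k}`, `k < n`. -/
theorem lintegral_near {n : ℕ} {C : ℝ} {μ : Measure X} (hμ : UpperReg n C μ) (hC : 0 ≤ C)
    {k : ℕ} (hk : k < n) (x : X) {r : ℝ} (hr : 0 < r) :
    ∫⁻ y in closedBall x r, ENNReal.ofReal (((dist x y) ^ k)⁻¹) ∂μ
      ≤ ENNReal.ofReal (C * 4 ^ n * r ^ (n - k)) := by
  have hs : (k : ℝ) < (n : ℝ) := by exact_mod_cast hk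
  have key := lintegral_near_rpow hμ hC (Nat.cast_nonneg k) hs x hr
  have e1 : ∀ y : X, (dist x y) ^ (-(k : ℝ)) = ((dist x y) ^ k)⁻¹ := by
    intro y
    rw [Real.rpow_neg dist_nonneg, Real.rpow_natCast]
  simp only [e1] at key
  refine key.trans (ENNReal.ofReal_le_ofReal ?_)
  have e2 : (n : ℝ) - (k : ℝ) = ((n - k : ℕ) : ℝ) := by rw [Nat.cast_sub hk.le]
  have e3 : (k : ℝ) - (n : ℝ) = -((n - k : ℕ) : ℝ) := by rw [Nat.cast_sub hk.le]; ring
  have hm : 1 ≤ n - k := by omega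
  rw [e2, e3, Real.rpow_natCast, Real.rpow_natCast, Real.rpow_neg (by norm_num),
    Real.rpow_natCast]
  set m := n - k with hmdef
  have h2 : (2 : ℝ) ≤ 2 ^ m := by
    calc (2 : ℝ) = 2 ^ 1 := by norm_num
      _ ≤ 2 ^ m := pow_le_pow_right₀ (by norm_num) hm
  have h3 : (2 : ℝ)⁻¹ ≤ 1 - (2 ^ m)⁻¹ := by
    have : ((2 : ℝ) ^ m)⁻¹ ≤ 2⁻¹ := inv_anti₀ (by norm_num) h2
    linarith [this, (by norm_num : (2 : ℝ)⁻¹ = 1 / 2)]
  have h4 : C * 2 ^ n * 2 ^ k / (1 - ((2 : ℝ) ^ m)⁻¹) ≤ C * 2 ^ n * 2 ^ k / 2⁻¹ := by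
    apply div_le_div_of_nonneg_left (by positivity) (by norm_num) h3
  have h5 : C * 2 ^ n * 2 ^ k / 2⁻¹ ≤ C * 4 ^ n := by
    rw [div_inv_eq_mul]
    have : (2 : ℝ) ^ k * 2 ≤ 2 ^ n := by
      rw [← pow_succ]
      exact pow_le_pow_right₀ (by norm_num) hk
    have h44 : (4 : ℝ) ^ n = 2 ^ n * 2 ^ n := by rw [← mul_pow]; norm_num
    calc C * 2 ^ n * 2 ^ k * 2 = C * 2 ^ n * (2 ^ k * 2) := by ring
      _ ≤ C * 2 ^ n * 2 ^ n := by gcongr
      _ = C * 4 ^ n := by rw [h44]; ring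
  calc C * 2 ^ n * 2 ^ k / (1 - ((2 : ℝ) ^ m)⁻¹) * r ^ m ≤ C * 4 ^ n * r ^ m := by
        gcongr
        exact h4.trans h5
    _ = C * 4 ^ n * r ^ m := rfl

/-- Logarithmic shells: `∫_{r ≤ |x-y| < 2^N r} |x-y|^{-n} dμ(y) ≤ C 2^n N`. -/
theorem lintegral_log {n : ℕ} {C : ℝ} {μ : Measure X} (hμ : UpperReg n C μ) (hC : 0 ≤ C)
    (x : X) {r : ℝ} (hr : 0 < r) (N : ℕ) :
    ∫⁻ y in {y | r ≤ dist x y ∧ dist x y < 2 ^ N * r}, ENNReal.ofReal (((dist x y) ^ n)⁻¹) ∂μ
      ≤ ENNReal.ofReal (C * 2 ^ n * N) := by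
  induction N with
  | zero =>
    have : {y : X | r ≤ dist x y ∧ dist x y < 2 ^ 0 * r} = ∅ := by
      ext y
      constructor
      · rintro ⟨h1, h2⟩
        rw [pow_zero, one_mul] at h2
        exact absurd h2 (not_lt.2 h1)
      · intro h; exact h.elim
    rw [this, setLIntegral_empty]
    exact bot_le
  | succ N ih =>
    have hsub : {y : X | r ≤ dist x y ∧ dist x y < 2 ^ (N + 1) * r} ⊆
        {y : X | r ≤ dist x y ∧ dist x y < 2 ^ N * r} ∪
          {y : X | 2 ^ N * r ≤ dist x y ∧ dist x y < 2 ^ (N + 1) * r} := by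
      rintro y ⟨h1, h2⟩
      rcases lt_or_ge (dist x y) (2 ^ N * r) with h | h
      · left; exact ⟨h1, h⟩
      · right; exact ⟨h, h2⟩
    have hshell : ∫⁻ y in {y : X | 2 ^ N * r ≤ dist x y ∧ dist x y < 2 ^ (N + 1) * r},
        ENNReal.ofReal (((dist x y) ^ n)⁻¹) ∂μ ≤ ENNReal.ofReal (C * 2 ^ n) := by
      have hk0 : (0 : ℝ) < 2 ^ N * r := by positivity
      have hmeas : MeasurableSet {y : X | 2 ^ N * r ≤ dist x y ∧ dist x y < 2 ^ (N + 1) * r} := by
        have h1 : MeasurableSet {y : X | 2 ^ N * r ≤ dist x y} :=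
          (isClosed_le continuous_const (continuous_const.dist continuous_id)).measurableSet
        have h2 : MeasurableSet {y : X | dist x y < 2 ^ (N + 1) * r} :=
          (isOpen_lt (continuous_const.dist continuous_id) continuous_const).measurableSet
        exact h1.inter h2
      calc ∫⁻ y in {y : X | 2 ^ N * r ≤ dist x y ∧ dist x y < 2 ^ (N + 1) * r},
            ENNReal.ofReal (((dist x y) ^ n)⁻¹) ∂μ
          ≤ ∫⁻ y in {y : X | 2 ^ N * r ≤ dist x y ∧ dist x y < 2 ^ (N + 1) * r},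
            ENNReal.ofReal (((2 ^ N * r) ^ n)⁻¹) ∂μ := by
            apply setLIntegral_mono' hmeas
            intro y hy
            apply ENNReal.ofReal_le_ofReal
            have : (2 ^ N * r) ^ n ≤ (dist x y) ^ n := pow_le_pow_left₀ hk0.le hy.1 n
            exact inv_anti₀ (by positivity) this
        _ = ENNReal.ofReal (((2 ^ N * r) ^ n)⁻¹) *
            μ {y : X | 2 ^ N * r ≤ dist x y ∧ dist x y < 2 ^ (N + 1) * r} := by
            rw [setLIntegral_const]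
        _ ≤ ENNReal.ofReal (((2 ^ N * r) ^ n)⁻¹) *
            ENNReal.ofReal (C * (2 ^ (N + 1) * r) ^ n) := by
            gcongr
            refine le_trans (measure_mono ?_) (hμ x (2 ^ (N + 1) * r) (by positivity))
            intro y hy
            rw [mem_ball, dist_comm]
            exact hy.2
        _ = ENNReal.ofReal (C * 2 ^ n) := by
            rw [← ENNReal.ofReal_mul (by positivity)]
            congr 1
            rw [pow_succ]
            field_simp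
            ring
    calc ∫⁻ y in {y : X | r ≤ dist x y ∧ dist x y < 2 ^ (N + 1) * r},
          ENNReal.ofReal (((dist x y) ^ n)⁻¹) ∂μ
        ≤ ∫⁻ y in {y : X | r ≤ dist x y ∧ dist x y < 2 ^ N * r} ∪
          {y : X | 2 ^ N * r ≤ dist x y ∧ dist x y < 2 ^ (N + 1) * r},
          ENNReal.ofReal (((dist x y) ^ n)⁻¹) ∂μ := lintegral_mono_set hsub
      _ ≤ _ := lintegral_union_le _ _ _
      _ ≤ ENNReal.ofReal (C * 2 ^ n * N) + ENNReal.ofReal (C * 2 ^ n) := add_le_add ih hshell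
      _ = ENNReal.ofReal (C * 2 ^ n * ((N + 1 : ℕ) : ℝ)) := by
          rw [← ENNReal.ofReal_add (by positivity) (by positivity)]
          congr 1
          push_cast
          ring

end Crest.Agent.R085
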