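import Mathlib

/-!
# R085, module M3 (weak compactness), part 1: vague limits along an ultrafilter.

Everything is stated in a proper metric space `E` with its Borel sigma-algebra.
-/

set_option autoImplicit false
set_option linter.unusedSectionVars false

open MeasureTheory Filter Topology Metric Set
open scoped ENNReal NNReal CompactlySupported

namespace Crest.Agent.R085

variable {E : Type*} [MetricSpace E] [ProperSpace E] [MeasurableSpace E] [BorelSpace E]
variable {ι : Type*}

/-- Vague convergence of `μ k` to `ν` along the filter `l`: integrals of continuous compactly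
supported real functions converge. -/
def VagueTendsto (l : Filter ι) (μ : ι → Measure E) (ν : Measure E) : Prop :=
  ∀ f : E → ℝ, Continuous f → HasCompactSupport f →
    Tendsto (fun k => ∫ x, f x ∂(μ k)) l (𝓝 (∫ x, f x ∂ν))

/-- A function which is eventually bounded along an ultrafilter has a limit. -/
theorem ultra_exists_lim (U : Ultrafilter ι) (g : ι → ℝ) (C : ℝ)
    (h : ∀ᶠ k in (U : Filter ι), |g k| ≤ C) : ∃ a : ℝ, Tendsto g U (𝓝 a) := by
  have hc : IsCompact (Icc (-C) C) := isCompact_Icc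
  have hm : Icc (-C) C ∈ (U.map g : Filter ℝ) := by
    change ∀ᶠ k in (U : Filter ι), g k ∈ Icc (-C) C
    filter_upwards [h] with k hk
    exact abs_le.mp hk
  obtain ⟨a, -, ha⟩ := hc.ultrafilter_le_nhds' (U.map g) hm
  exact ⟨a, ha⟩

theorem integrable_of_cc (μ : Measure E) [IsFiniteMeasureOnCompacts μ] {f : E → ℝ}
    (hf : Continuous f) (hc : HasCompactSupport f) : Integrable f μ :=
  hf.integrable_of_hasCompactSupport hc

theorem abs_integral_cc_le (μ : Measure E) [IsFiniteMeasureOnCompacts μ] {f : E → ℝ} {M : ℝ}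
    (_hM : 0 ≤ M) (hf : ∀ x, |f x| ≤ M) {K : Set E} (hK : IsCompact K)
    (hs : ∀ x, x ∉ K → f x = 0) : |∫ x, f x ∂μ| ≤ M * μ.real K := by
  have h1 : ∫ x, f x ∂μ = ∫ x in K, f x ∂μ := by
    rw [setIntegral_eq_integral_of_forall_compl_eq_zero hs]
  rw [h1]
  have h2 := norm_setIntegral_le_of_norm_le_const (μ := μ) (s := K) (f := f) (C := M)
    hK.measure_lt_top (fun x _ => by simpa using hf x)
  simpa using h2

/-- Uniform local boundedness along a filter. -/
def UnifLocBdd (l : Filter ι) (μ : ι → Measure E) : Prop :=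
  ∀ K : Set E, IsCompact K → ∃ C : ℝ≥0, ∀ᶠ k in l, μ k K ≤ C

theorem UnifLocBdd.of_closedBall {l : Filter ι} {μ : ι → Measure E} (x0 : E)
    (h : ∀ R : ℝ, ∃ C : ℝ≥0, ∀ᶠ k in l, μ k (closedBall x0 R) ≤ C) : UnifLocBdd l μ := by
  intro K hK
  obtain ⟨R, hR⟩ := hK.isBounded.subset_closedBall x0
  obtain ⟨C, hC⟩ := h R
  exact ⟨C, hC.mono fun k hk => (measure_mono hR).trans hk⟩

theorem exists_bound_cc {f : E → ℝ} (hf : Continuous f) (hc : HasCompactSupport f) :
    ∃ M : ℝ, 0 ≤ M ∧ ∀ x, |f x| ≤ M := by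
  obtain ⟨C, hC⟩ := hc.exists_bound_of_continuous hf
  exact ⟨max C 0, le_max_right _ _, fun x => (by simpa using hC x : |f x| ≤ C).trans (le_max_left _ _)⟩

theorem UnifLocBdd.exists_lim {U : Ultrafilter ι} {μ : ι → Measure E}
    [∀ k, IsFiniteMeasureOnCompacts (μ k)] (h : UnifLocBdd (U : Filter ι) μ) {f : E → ℝ}
    (hf : Continuous f) (hc : HasCompactSupport f) :
    ∃ a : ℝ, Tendsto (fun k => ∫ x, f x ∂(μ k)) U (𝓝 a) := by
  obtain ⟨M, hM0, hM⟩ := exists_bound_cc hf hc
  obtain ⟨C, hC⟩ := h (tsupport f) hc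
  refine ultra_exists_lim U _ (M * C) ?_
  filter_upwards [hC] with k hk
  refine (abs_integral_cc_le (μ k) hM0 hM hc (fun x hx => image_eq_zero_of_notMem_tsupport hx)).trans ?_
  refine mul_le_mul_of_nonneg_left ?_ hM0
  rw [Measure.real]
  exact ENNReal.toReal_le_of_le_ofReal C.2 (by simpa using hk)

/-- **Weak compactness**: a uniformly locally bounded family of measures on a proper metric space
has a vague limit along every ultrafilter. -/
theorem exists_vagueTendsto (U : Ultrafilter ι) (μ : ι → Measure E)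
    [∀ k, IsFiniteMeasureOnCompacts (μ k)] (h : UnifLocBdd (U : Filter ι) μ) :
    ∃ ν : Measure E, IsFiniteMeasureOnCompacts ν ∧ ν.Regular ∧ VagueTendsto (U : Filter ι) μ ν := by
  classical
  have hlim : ∀ f : C_c(E, ℝ), ∃ a : ℝ, Tendsto (fun k => ∫ x, f x ∂(μ k)) U (𝓝 a) :=
    fun f => h.exists_lim f.continuous f.hasCompactSupport
  choose L hL using hlim
  have hint : ∀ (f : C_c(E, ℝ)) (k : ι), Integrable (fun x => f x) (μ k) :=
    fun f k => integrable_of_cc (μ k) f.continuous f.hasCompactSupport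
  let Λ : C_c(E, ℝ) →ₚ[ℝ] ℝ :=
    { toFun := L
      map_add' := by
        intro f g
        refine tendsto_nhds_unique (hL (f + g)) ?_
        refine ((hL f).add (hL g)).congr fun k => ?_
        simp only [CompactlySupportedContinuousMap.coe_add, Pi.add_apply]
        rw [integral_add (hint f k) (hint g k)]
      map_smul' := by
        intro c f
        refine tendsto_nhds_unique (hL (c • f)) ?_
        refine ((hL f).const_mul c).congr fun k => ?_
        simp only [CompactlySupportedContinuousMap.coe_smul, Pi.smul_apply, smul_eq_mul]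
        rw [integral_const_mul]
      monotone' := by
        intro f g hfg
        refine le_of_tendsto_of_tendsto' (hL f) (hL g) fun k => ?_
        exact integral_mono (hint f k) (hint g k) hfg }
  refine ⟨RealRMK.rieszMeasure Λ, inferInstance, inferInstance, ?_⟩
  intro f hf hc
  have := RealRMK.integral_rieszMeasure Λ (⟨⟨f, hf⟩, hc⟩ : C_c(E, ℝ))
  have h2 : ∫ x, f x ∂(RealRMK.rieszMeasure Λ) = L ⟨⟨f, hf⟩, hc⟩ := this
  rw [h2]
  exact hL ⟨⟨f, hf⟩, hc⟩

/-- A compactly supported Urysohn function. -/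
theorem exists_urysohn_cc {K V : Set E} (hK : IsCompact K) (hV : IsOpen V) (hKV : K ⊆ V) :
    ∃ f : E → ℝ, Continuous f ∧ HasCompactSupport f ∧ (∀ x ∈ K, f x = 1) ∧ (∀ x, x ∉ V → f x = 0) ∧
      ∀ x, 0 ≤ f x ∧ f x ≤ 1 := by
  obtain ⟨f, hf1, hf2, hf3, hf4⟩ := exists_continuousMap_one_of_isCompact_subset_isOpen hK hV hKV
  refine ⟨f, f.continuous, hf2, fun x hx => hf1 hx, fun x hx => ?_, fun x => hf4 x⟩
  exact image_eq_zero_of_notMem_tsupport fun h => hx (hf3 h)

theorem measure_le_of_integral_cc {ν : Measure E} [IsFiniteMeasureOnCompacts ν] {f : E → ℝ}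
    (hf : Continuous f) (hc : HasCompactSupport f) (h0 : ∀ x, 0 ≤ f x) {K : Set E}
    (hK : IsCompact K) (h1 : ∀ x ∈ K, 1 ≤ f x) : ν K ≤ ENNReal.ofReal (∫ x, f x ∂ν) := by
  have hi := integrable_of_cc ν hf hc
  rw [ofReal_integral_eq_lintegral_ofReal hi (ae_of_all _ h0)]
  calc ν K = ∫⁻ x, K.indicator 1 x ∂ν := by
        rw [lintegral_indicator_one hK.measurableSet]
    _ ≤ ∫⁻ x, ENNReal.ofReal (f x) ∂ν := by
        refine lintegral_mono fun x => ?_
        by_cases hx : x ∈ K
        · simp only [hx, indicator_of_mem, Pi.one_apply]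
          rw [← ENNReal.ofReal_one]
          exact ENNReal.ofReal_le_ofReal (h1 x hx)
        · simp [hx]

theorem integral_cc_le_measure {ν : Measure E} [IsFiniteMeasureOnCompacts ν] {f : E → ℝ}
    (hf : Continuous f) (hc : HasCompactSupport f) (h0 : ∀ x, 0 ≤ f x) {V : Set E}
    (hV : MeasurableSet V) (h1 : ∀ x, f x ≤ 1) (h2 : ∀ x, x ∉ V → f x = 0) :
    ENNReal.ofReal (∫ x, f x ∂ν) ≤ ν V := by
  have hi := integrable_of_cc ν hf hc
  rw [ofReal_integral_eq_lintegral_ofReal hi (ae_of_all _ h0)]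
  calc ∫⁻ x, ENNReal.ofReal (f x) ∂ν ≤ ∫⁻ x, V.indicator 1 x ∂ν := by
        refine lintegral_mono fun x => ?_
        by_cases hx : x ∈ V
        · simp only [hx, indicator_of_mem, Pi.one_apply]
          rw [← ENNReal.ofReal_one]
          exact ENNReal.ofReal_le_ofReal (h1 x)
        · simp [hx, h2 x hx]
    _ = ν V := by rw [lintegral_indicator_one hV]

section portmanteau

variable {l : Filter ι} {μ : ι → Measure E} {ν : Measure E} [∀ k, IsFiniteMeasureOnCompacts (μ k)]
  [IsFiniteMeasureOnCompacts ν]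

/-- Upper bound on open sets passes to vague limits. -/
theorem VagueTendsto.measure_open_le (h : VagueTendsto l μ ν) {G : Set E} (hG : IsOpen G)
    {c : ℝ≥0∞} (hc : ∃ᶠ k in l, μ k G ≤ c) : ν G ≤ c := by
  rcases eq_or_ne c ∞ with rfl | hcT
  · exact le_top
  rw [hG.measure_eq_iSup_isCompact]
  refine iSup₂_le fun K hKG => iSup_le fun hK => ?_
  obtain ⟨f, hf, hfc, hf1, hf0, hf01⟩ := exists_urysohn_cc hK hG hKG
  have h1 : ν K ≤ ENNReal.ofReal (∫ x, f x ∂ν) :=
    measure_le_of_integral_cc hf hfc (fun x => (hf01 x).1) hK (fun x hx => (hf1 x hx).ge)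
  refine h1.trans ?_
  refine le_of_tendsto_of_frequently ((ENNReal.continuous_ofReal.tendsto _).comp (h f hf hfc)) ?_
  refine hc.mono fun k hk => ?_
  exact (integral_cc_le_measure hf hfc (fun x => (hf01 x).1) hG.measurableSet
    (fun x => (hf01 x).2) hf0).trans hk

/-- Lower bound on compact sets passes to vague limits. -/
theorem VagueTendsto.le_measure_compact (h : VagueTendsto l μ ν) {K : Set E} (hK : IsCompact K)
    {c : ℝ≥0∞} (hc : ∃ᶠ k in l, c ≤ μ k K) : c ≤ ν K := by
  rw [hK.measure_eq_iInf_isOpen]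
  refine le_iInf₂ fun V hKV => le_iInf fun hV => ?_
  obtain ⟨f, hf, hfc, hf1, hf0, hf01⟩ := exists_urysohn_cc hK hV hKV
  refine le_trans ?_ (integral_cc_le_measure (ν := ν) hf hfc (fun x => (hf01 x).1)
    hV.measurableSet (fun x => (hf01 x).2) hf0)
  refine ge_of_tendsto_of_frequently
    ((ENNReal.continuous_ofReal.tendsto _).comp (h f hf hfc)) ?_
  refine hc.mono fun k hk => ?_
  exact hk.trans (measure_le_of_integral_cc hf hfc (fun x => (hf01 x).1) hK
    (fun x hx => (hf1 x hx).ge))

/-- Upper bound for balls with moving centres. -/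
theorem VagueTendsto.measure_ball_le (h : VagueTendsto l μ ν) {x : ι → E} {y : E}
    (hx : Tendsto x l (𝓝 y)) {r : ℝ} {c : ℝ≥0∞} (hc : ∃ᶠ k in l, μ k (ball (x k) r) ≤ c) :
    ν (ball y r) ≤ c := by
  have hU : ball y r = ⋃ m : ℕ, ball y (r - 1 / ((m : ℝ) + 1)) := by
    ext z
    simp only [mem_ball, mem_iUnion]
    constructor
    · intro hz
      obtain ⟨m, hm⟩ := exists_nat_one_div_lt (sub_pos.mpr hz)
      exact ⟨m, by linarith⟩
    · rintro ⟨m, hm⟩
      have : (0 : ℝ) < 1 / ((m : ℝ) + 1) := by positivity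
      linarith
  have hmono : Monotone fun m : ℕ => ball y (r - 1 / ((m : ℝ) + 1)) := by
    intro a b hab
    apply ball_subset_ball
    have : 1 / ((b : ℝ) + 1) ≤ 1 / ((a : ℝ) + 1) := by
      apply one_div_le_one_div_of_le (by positivity)
      have : (a : ℝ) ≤ b := by exact_mod_cast hab
      linarith
    linarith
  rw [hU, hmono.measure_iUnion]
  refine iSup_le fun m => h.measure_open_le isOpen_ball ?_
  have hev : ∀ᶠ k in l, dist (x k) y < 1 / ((m : ℝ) + 1) :=
    (tendsto_iff_dist_tendsto_zero.mp hx).eventually_lt_const (by positivity)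
  refine (hc.and_eventually hev).mono fun k hk => (measure_mono ?_).trans hk.1
  apply ball_subset_ball'
  have := hk.2
  rw [dist_comm] at this
  linarith

/-- Lower bound for balls with moving centres. -/
theorem VagueTendsto.le_measure_ball (h : VagueTendsto l μ ν) {x : ι → E} {y : E}
    (hx : Tendsto x l (𝓝 y)) {r r' : ℝ} (hr : r' < r) {c : ℝ≥0∞}
    (hc : ∃ᶠ k in l, c ≤ μ k (ball (x k) r')) : c ≤ ν (ball y r) := by
  have h1 : c ≤ ν (closedBall y ((r + r') / 2)) := by
    refine h.le_measure_compact (isCompact_closedBall _ _) ?_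
    have hev : ∀ᶠ k in l, dist (x k) y < (r - r') / 2 :=
      (tendsto_iff_dist_tendsto_zero.mp hx).eventually_lt_const (by linarith)
    refine (hc.and_eventually hev).mono fun k hk => hk.1.trans (measure_mono ?_)
    refine (ball_subset_closedBall).trans (closedBall_subset_closedBall' ?_)
    linarith [hk.2]
  exact h1.trans (measure_mono (closedBall_subset_ball (by linarith)))

theorem mem_support_iff_ball {μ : Measure E} {x : E} :
    x ∈ μ.support ↔ ∀ r > 0, 0 < μ (ball x r) :=
  nhds_basis_ball.mem_measureSupport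

/-- Points of the support of the limit are approximated by points of the supports. -/
theorem VagueTendsto.exists_mem_support_near (h : VagueTendsto l μ ν) {y : E}
    (hy : y ∈ ν.support) {ε : ℝ} (hε : 0 < ε) :
    ∀ᶠ k in l, ∃ z ∈ (μ k).support, dist z y < ε := by
  by_contra hcon
  rw [Filter.not_eventually] at hcon
  have hz : ν (ball y ε) ≤ 0 := by
    refine h.measure_open_le isOpen_ball (hcon.mono fun k hk => ?_)
    by_contra hpos
    have hpos' : 0 < μ k (ball y ε) := lt_of_not_ge hpos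
    obtain ⟨z, hz1, hz2⟩ := Measure.nonempty_inter_support_of_pos hpos'
    exact hk ⟨z, hz2, hz1⟩
  exact absurd hz (not_le.mpr (mem_support_iff_ball.mp hy ε hε))

theorem VagueTendsto.exists_seq_support (h : VagueTendsto l μ ν) [l.NeBot] {y : E}
    (hy : y ∈ ν.support) :
    ∃ x : ι → E, (∀ᶠ k in l, x k ∈ (μ k).support) ∧ Tendsto x l (𝓝 y) := by
  classical
  have hch : ∀ k : ι, ∃ z : E, ((μ k).support.Nonempty → z ∈ (μ k).support ∧
      infDist y (μ k).support = dist y z) := by
    intro k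
    by_cases hne : (μ k).support.Nonempty
    · obtain ⟨z, hz1, hz2⟩ := Measure.isClosed_support.exists_infDist_eq_dist hne y
      exact ⟨z, fun _ => ⟨hz1, hz2⟩⟩
    · exact ⟨y, fun h => absurd h hne⟩
  choose x hx using hch
  refine ⟨x, ?_, ?_⟩
  · filter_upwards [h.exists_mem_support_near hy one_pos] with k hk
    obtain ⟨z, hz, -⟩ := hk
    exact (hx k ⟨z, hz⟩).1
  · rw [tendsto_iff_dist_tendsto_zero, Metric.tendsto_nhds]
    intro ε hε
    filter_upwards [h.exists_mem_support_near hy hε] with k hk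
    obtain ⟨z, hz, hzd⟩ := hk
    obtain ⟨-, h2⟩ := hx k ⟨z, hz⟩
    rw [Real.dist_0_eq_abs, abs_of_nonneg dist_nonneg, dist_comm, ← h2]
    exact (infDist_le_dist_of_mem hz).trans_lt (by rwa [dist_comm])

/-- Limits of points of the supports are in the support of the limit, given lower mass bounds. -/
theorem VagueTendsto.mem_support_of_tendsto (h : VagueTendsto l μ ν) {x : ι → E} {y : E}
    (hx : Tendsto x l (𝓝 y))
    (hc : ∀ r : ℝ, 0 < r → ∃ c : ℝ≥0∞, 0 < c ∧ ∃ᶠ k in l, c ≤ μ k (ball (x k) r)) :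
    y ∈ ν.support := by
  rw [mem_support_iff_ball]
  intro r hr
  obtain ⟨c, hc0, hc1⟩ := hc (r / 2) (by linarith)
  exact hc0.trans_le (h.le_measure_ball hx (by linarith) hc1)

end portmanteau

end Crest.Agent.R085
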