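import Mathlib
import Crest.Agent.R085.Lim1

/-!
# R085, module M3 (weak compactness), part 3: vector-valued integrals and double integrals

* `VagueTendsto.vector` : `∫ f dμ_k → ∫ f dν` for `f ∈ C_c(E; F)`, `F` finite dimensional;
* `VagueTendsto.double` : `∫∫ f(x,y) dμ'_k(y) dμ_k(x) → ∫∫ f(x,y) dν'(y) dν(x)` for
  `f ∈ C_c(E × E'; F)`;
* `VagueTendsto.prod` : the same for product measures;
* `VagueTendsto.prod_singular` : product integrals of functions with an integrable singularity.
-/

set_option autoImplicit false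
set_option linter.unusedSectionVars false

open MeasureTheory Filter Topology Metric Set
open scoped ENNReal NNReal

namespace Crest.Agent.R085


section Basic

variable {E : Type*} [MetricSpace E] [ProperSpace E] [MeasurableSpace E] [BorelSpace E]
variable {ι : Type*} {l : Filter ι}

theorem integrable_of_bdd_of_support {F : Type*} [NormedAddCommGroup F]
    {m : Measure E} {K : Set E} (hm : m K < ∞) {f : E → F}
    (hf : AEStronglyMeasurable f m) {c : ℝ} (hc : ∀ x, ‖f x‖ ≤ c)
    (h0 : ∀ x, x ∉ K → f x = 0) : Integrable f m := by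
  have h1 : IntegrableOn f K m :=
    Measure.integrableOn_of_bounded hm.ne hf (M := c) (ae_of_all _ hc)
  rwa [integrableOn_iff_integrable_of_support_subset] at h1
  intro x hx
  by_contra hxK
  exact hx (h0 x hxK)

theorem bdd_of_cont_of_support {E' : Type*} [TopologicalSpace E'] {F : Type*}
    [NormedAddCommGroup F] {K : Set E'} (hK : IsCompact K) {f : E' → F}
    (hf : Continuous f) (h0 : ∀ x, x ∉ K → f x = 0) : ∃ c : ℝ, 0 ≤ c ∧ ∀ x, ‖f x‖ ≤ c := by
  obtain ⟨c, hc⟩ := (hK.bddAbove_image (f := fun x => ‖f x‖) hf.norm.continuousOn)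
  refine ⟨max c 0, le_max_right _ _, fun x => ?_⟩
  by_cases hx : x ∈ K
  · exact (hc (mem_image_of_mem _ hx)).trans (le_max_left _ _)
  · rw [h0 x hx, norm_zero]; exact le_max_right _ _

theorem integrable_of_cont_of_support {F : Type*} [NormedAddCommGroup F]
    {m : Measure E} {K : Set E} (hK : IsCompact K) (hm : m K < ∞) {f : E → F}
    (hf : Continuous f) (h0 : ∀ x, x ∉ K → f x = 0) : Integrable f m := by
  obtain ⟨c, -, hc⟩ := bdd_of_cont_of_support hK hf h0
  refine integrable_of_bdd_of_support hm ?_ hc h0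
  have hcs : HasCompactSupport f := HasCompactSupport.intro hK h0
  exact (hf.stronglyMeasurable_of_hasCompactSupport hcs).aestronglyMeasurable

theorem norm_integral_le_of_support {F : Type*} [NormedAddCommGroup F] [NormedSpace ℝ F]
    {m : Measure E} {K : Set E} {c C : ℝ} (hm : m K ≤ ENNReal.ofReal C) (hC : 0 ≤ C)
    (hc0 : 0 ≤ c) {f : E → F} (hc : ∀ x, ‖f x‖ ≤ c) (h0 : ∀ x, x ∉ K → f x = 0) :
    ‖∫ x, f x ∂m‖ ≤ c * C := by
  rw [← setIntegral_eq_integral_of_forall_compl_eq_zero h0]
  have hfin : m K < ∞ := hm.trans_lt ENNReal.ofReal_lt_top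
  refine (norm_setIntegral_le_of_norm_le_const hfin (fun x _ => hc x)).trans ?_
  refine mul_le_mul_of_nonneg_left ?_ hc0
  exact ENNReal.toReal_le_of_le_ofReal hC hm

theorem UnifLocBdd.exists_pos {μ : ι → Measure E} (hb : UnifLocBdd l μ) {K : Set E}
    (hK : IsCompact K) : ∃ C : ℝ, 0 < C ∧ ∀ᶠ k in l, μ k K ≤ ENNReal.ofReal C := by
  obtain ⟨C, hC⟩ := hb K hK
  refine ⟨C + 1, by positivity, hC.mono fun k hk => hk.trans ?_⟩
  rw [ENNReal.ofReal_add (NNReal.coe_nonneg C) zero_le_one, ENNReal.ofReal_coe_nnreal]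
  exact le_self_add

section Vector

variable {F : Type*} [NormedAddCommGroup F] [NormedSpace ℝ F] [FiniteDimensional ℝ F]

theorem integral_eq_sum_basis {m : Measure E} {K : Set E} (hK : IsCompact K) (hm : m K < ∞)
    {f : E → F} (hf : Continuous f) (h0 : ∀ x, x ∉ K → f x = 0) :
    ∫ x, f x ∂m = ∑ j, (∫ x, (Module.finBasis ℝ F).coord j (f x) ∂m) • Module.finBasis ℝ F j := by
  have h1 : ∀ x, f x = ∑ j, ((Module.finBasis ℝ F).coord j (f x)) • Module.finBasis ℝ F j := by
    intro x
    simp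
  have hcont : ∀ j, Continuous (fun x => (Module.finBasis ℝ F).coord j (f x)) := fun j =>
    (LinearMap.continuous_of_finiteDimensional _).comp hf
  calc ∫ x, f x ∂m = ∫ x, ∑ j, ((Module.finBasis ℝ F).coord j (f x)) • Module.finBasis ℝ F j ∂m := by
        congr 1; ext x; exact h1 x
    _ = ∑ j, ∫ x, ((Module.finBasis ℝ F).coord j (f x)) • Module.finBasis ℝ F j ∂m := by
        refine integral_finsetSum _ fun j _ => ?_
        refine Integrable.smul_const ?_ _
        exact integrable_of_cont_of_support hK hm (hcont j) (fun x hx => by rw [h0 x hx, map_zero])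
    _ = _ := by
        refine Finset.sum_congr rfl fun j _ => ?_
        exact integral_smul_const _ _

/-- (a) vague convergence tests vector-valued functions. -/
theorem VagueTendsto.vector {μ : ι → Measure E} {ν : Measure E} [IsFiniteMeasureOnCompacts ν]
    (hb : UnifLocBdd l μ) (h : VagueTendsto l μ ν) {f : E → F} (hf : Continuous f)
    (hc : HasCompactSupport f) :
    Tendsto (fun k => ∫ x, f x ∂μ k) l (𝓝 (∫ x, f x ∂ν)) := by
  have h0 : ∀ x, x ∉ tsupport f → f x = 0 := fun x hx => image_eq_zero_of_notMem_tsupport hx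
  have hcont : ∀ j, Continuous (fun x => (Module.finBasis ℝ F).coord j (f x)) := fun j =>
    (LinearMap.continuous_of_finiteDimensional _).comp hf
  obtain ⟨C, -, hC⟩ := hb.exists_pos hc
  rw [integral_eq_sum_basis hc hc.measure_lt_top hf h0]
  have hev : ∀ᶠ k in l, ∫ x, f x ∂μ k =
      ∑ j, (∫ x, (Module.finBasis ℝ F).coord j (f x) ∂μ k) • Module.finBasis ℝ F j :=
    hC.mono fun k hk => integral_eq_sum_basis hc (hk.trans_lt ENNReal.ofReal_lt_top) hf h0
  refine Tendsto.congr' (hev.mono fun k hk => hk.symm) ?_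
  refine tendsto_finsetSum _ fun j _ => ?_
  refine Tendsto.smul_const ?_ _
  refine h _ (hcont j) ?_
  exact HasCompactSupport.intro hc (fun x hx => by rw [h0 x hx, map_zero])

end Vector

section Double

variable {E' : Type*} [MetricSpace E'] [ProperSpace E'] [MeasurableSpace E'] [BorelSpace E']
variable {F : Type*} [NormedAddCommGroup F] [NormedSpace ℝ F] [FiniteDimensional ℝ F]

/-- inner integrals are uniformly continuous with a modulus independent of the measure -/
theorem norm_integral_sub_le {K' : Set E'} {f : E × E' → F}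
    (h0' : ∀ x y, y ∉ K' → f (x, y) = 0) (hf : Continuous f) (hK' : IsCompact K')
    {m : Measure E'} {C : ℝ} (hC : 0 ≤ C) (hm : m K' ≤ ENNReal.ofReal C) {c : ℝ} (hc : 0 ≤ c)
    {x x' : E} (hx : ∀ y, ‖f (x, y) - f (x', y)‖ ≤ c) :
    ‖(∫ y, f (x, y) ∂m) - ∫ y, f (x', y) ∂m‖ ≤ c * C := by
  have hfin : m K' < ∞ := hm.trans_lt ENNReal.ofReal_lt_top
  rw [← integral_sub
    (integrable_of_cont_of_support hK' hfin (by fun_prop) (fun y hy => h0' x y hy))
    (integrable_of_cont_of_support hK' hfin (by fun_prop) (fun y hy => h0' x' y hy))]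
  refine norm_integral_le_of_support hm hC hc hx ?_
  intro y hy
  rw [h0' x y hy, h0' x' y hy, sub_zero]

theorem exists_modulus {f : E × E' → F} (hf : Continuous f) (hcs : HasCompactSupport f)
    {ε : ℝ} (hε : 0 < ε) : ∃ δ > 0, ∀ x x' y, dist x x' < δ → ‖f (x, y) - f (x', y)‖ ≤ ε := by
  have huc : UniformContinuous f := hcs.uniformContinuous_of_continuous hf
  rw [Metric.uniformContinuous_iff] at huc
  obtain ⟨δ, hδ, h⟩ := huc ε hε
  refine ⟨δ, hδ, fun x x' y hxx => ?_⟩
  rw [← dist_eq_norm]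
  refine (h ?_).le
  rw [Prod.dist_eq]
  simpa using hxx

theorem continuous_inner {f : E × E' → F} (hf : Continuous f) (hcs : HasCompactSupport f)
    {K' : Set E'} (hK' : IsCompact K') (h0' : ∀ x y, y ∉ K' → f (x, y) = 0)
    {m : Measure E'} {C : ℝ} (hC : 0 < C) (hm : m K' ≤ ENNReal.ofReal C) :
    Continuous (fun x => ∫ y, f (x, y) ∂m) := by
  rw [Metric.continuous_iff]
  intro x₀ ε hε
  obtain ⟨δ, hδ, h⟩ := exists_modulus hf hcs (ε := ε / (2 * C)) (by positivity)
  refine ⟨δ, hδ, fun x hx => ?_⟩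
  rw [dist_eq_norm]
  have := norm_integral_sub_le h0' hf hK' hC.le hm
    (c := ε / (2 * C)) (by positivity) (fun y => h x x₀ y hx)
  refine this.trans_lt ?_
  field_simp
  linarith

/-- (b) double integrals of continuous compactly supported functions converge -/
theorem VagueTendsto.double {μ : ι → Measure E} {μ' : ι → Measure E'} {ν : Measure E} {ν' : Measure E'}
    [IsFiniteMeasureOnCompacts ν] [IsFiniteMeasureOnCompacts ν']
    (hb : UnifLocBdd l μ) (hb' : UnifLocBdd l μ') (h : VagueTendsto l μ ν) (h' : VagueTendsto l μ' ν')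
    {f : E × E' → F} (hf : Continuous f) (hcs : HasCompactSupport f) :
    Tendsto (fun k => ∫ x, ∫ y, f (x, y) ∂μ' k ∂μ k) l (𝓝 (∫ x, ∫ y, f (x, y) ∂ν' ∂ν)) := by
  classical
  -- supports
  set K : Set E := Prod.fst '' tsupport f with hKdef
  set K' : Set E' := Prod.snd '' tsupport f with hK'def
  have hK : IsCompact K := hcs.image continuous_fst
  have hK' : IsCompact K' := hcs.image continuous_snd
  have h0 : ∀ x y, x ∉ K → f (x, y) = 0 := by
    intro x y hx
    refine image_eq_zero_of_notMem_tsupport fun hxy => hx ?_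
    exact ⟨(x, y), hxy, rfl⟩
  have h0' : ∀ x y, y ∉ K' → f (x, y) = 0 := by
    intro x y hy
    refine image_eq_zero_of_notMem_tsupport fun hxy => hy ?_
    exact ⟨(x, y), hxy, rfl⟩
  obtain ⟨C, hC0, hC⟩ := hb.exists_pos hK
  obtain ⟨C', hC'0, hC'⟩ := hb'.exists_pos hK'
  -- bound for ν'
  obtain ⟨D', hD'0, hD'⟩ : ∃ D' : ℝ, 0 < D' ∧ ν' K' ≤ ENNReal.ofReal D' := by
    refine ⟨(ν' K').toReal + 1, by positivity, ?_⟩
    rw [← ENNReal.ofReal_toReal hK'.measure_lt_top.ne]
    exact ENNReal.ofReal_le_ofReal (by simp)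
  -- limit inner function
  set G : E → F := fun x => ∫ y, f (x, y) ∂ν' with hG
  have hGc : Continuous G := continuous_inner hf hcs hK' h0' hD'0 hD'
  have hG0 : ∀ x, x ∉ K → G x = 0 := by
    intro x hx
    simp only [hG]
    rw [integral_congr_ae (g := fun _ => (0 : F)) (ae_of_all _ fun y => h0 x y hx), integral_zero]
  have hGcs : HasCompactSupport G := HasCompactSupport.intro hK hG0
  have hGlim := h.vector hb hGc hGcs
  -- uniform convergence of the inner integrals
  have hunif : ∀ ε : ℝ, 0 < ε → ∀ᶠ k in l, ∀ x, ‖(∫ y, f (x, y) ∂μ' k) - G x‖ ≤ ε := by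
    intro ε hε
    obtain ⟨δ, hδ, hmod⟩ := exists_modulus hf hcs (ε := ε / (3 * (C' + D'))) (by positivity)
    obtain ⟨t, ht, hcover⟩ := hK.finite_cover_balls hδ |>.imp fun t ht => ht
    have hfin : t.Finite := hcover.1
    have hpt : ∀ᶠ k in l, ∀ x ∈ t, ‖(∫ y, f (x, y) ∂μ' k) - G x‖ < ε / 3 := by
      rw [Filter.eventually_all_finite hfin]
      intro x _
      have hfx : Continuous (fun y => f (x, y)) := by fun_prop
      have hfxc : HasCompactSupport (fun y => f (x, y)) :=
        HasCompactSupport.intro hK' (fun y hy => h0' x y hy)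
      have := h'.vector hb' hfx hfxc
      have h2 := (tendsto_iff_norm_sub_tendsto_zero.1 this)
      exact h2.eventually (gt_mem_nhds (by positivity))
    filter_upwards [hpt, hC'] with k hk hCk x
    by_cases hx : x ∈ K
    · obtain ⟨z, hz, hxz⟩ : ∃ z ∈ t, x ∈ ball z δ := by
        have := hcover.2 hx
        simpa using this
      have hxz' : dist x z < δ := hxz
      have h1 : ‖(∫ y, f (x, y) ∂μ' k) - ∫ y, f (z, y) ∂μ' k‖ ≤ ε / 3 := by
        refine (norm_integral_sub_le h0' hf hK' hC'0.le hCk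
          (c := ε / (3 * (C' + D'))) (by positivity) (fun y => hmod x z y hxz')).trans ?_
        rw [div_mul_eq_mul_div, div_le_div_iff₀ (by positivity) (by positivity)]
        nlinarith
      have h2 : ‖G z - G x‖ ≤ ε / 3 := by
        rw [norm_sub_rev]
        refine (norm_integral_sub_le h0' hf hK' hD'0.le hD'
          (c := ε / (3 * (C' + D'))) (by positivity) (fun y => hmod x z y hxz')).trans ?_
        rw [div_mul_eq_mul_div, div_le_div_iff₀ (by positivity) (by positivity)]
        nlinarith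
      have h3 := (hk z hz).le
      calc ‖(∫ y, f (x, y) ∂μ' k) - G x‖
          = ‖((∫ y, f (x, y) ∂μ' k) - ∫ y, f (z, y) ∂μ' k) +
              ((∫ y, f (z, y) ∂μ' k) - G z) + (G z - G x)‖ := by congr 1; abel
        _ ≤ ‖(∫ y, f (x, y) ∂μ' k) - ∫ y, f (z, y) ∂μ' k‖ +
              ‖(∫ y, f (z, y) ∂μ' k) - G z‖ + ‖G z - G x‖ := norm_add₃_le
        _ ≤ ε / 3 + ε / 3 + ε / 3 := by gcongr
        _ = ε := by ring
    · rw [hG0 x hx, sub_zero,
        integral_congr_ae (g := fun _ => (0 : F)) (ae_of_all _ fun y => h0 x y hx), integral_zero,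
        norm_zero]
      exact hε.le
  -- conclusion
  rw [tendsto_iff_norm_sub_tendsto_zero, Metric.tendsto_nhds]
  intro ε hε
  have hGlim' := (tendsto_iff_norm_sub_tendsto_zero.1 hGlim).eventually
    (gt_mem_nhds (show (0 : ℝ) < ε / 3 by positivity))
  filter_upwards [hunif (ε / (3 * C)) (by positivity), hC, hC', hGlim'] with k hk hCk hC'k hGk
  rw [Real.dist_eq, sub_zero, abs_norm]
  have hfinK : μ k K < ∞ := hCk.trans_lt ENNReal.ofReal_lt_top
  have hin : Continuous (fun x => ∫ y, f (x, y) ∂μ' k) := continuous_inner hf hcs hK' h0' hC'0 hC'k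
  have hin0 : ∀ x, x ∉ K → (∫ y, f (x, y) ∂μ' k) = 0 := by
    intro x hx
    rw [integral_congr_ae (g := fun _ => (0 : F)) (ae_of_all _ fun y => h0 x y hx), integral_zero]
  have hint1 := integrable_of_cont_of_support hK hfinK hin hin0
  have hint2 := integrable_of_cont_of_support hK hfinK hGc hG0
  have h1 : ‖(∫ x, ∫ y, f (x, y) ∂μ' k ∂μ k) - ∫ x, G x ∂μ k‖ ≤ ε / (3 * C) * C := by
    rw [← integral_sub hint1 hint2]
    refine norm_integral_le_of_support hCk hC0.le (by positivity) hk ?_
    intro x hx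
    rw [hin0 x hx, hG0 x hx, sub_zero]
  have h2 : ε / (3 * C) * C = ε / 3 := by field_simp
  calc ‖(∫ x, ∫ y, f (x, y) ∂μ' k ∂μ k) - ∫ x, G x ∂ν‖
      = ‖((∫ x, ∫ y, f (x, y) ∂μ' k ∂μ k) - ∫ x, G x ∂μ k) +
          ((∫ x, G x ∂μ k) - ∫ x, G x ∂ν)‖ := by congr 1; abel
    _ ≤ _ := norm_add_le _ _
    _ ≤ ε / 3 + ε / 3 := by
        refine add_le_add (h1.trans h2.le) hGk.le
    _ < ε := by linarith

/-- (b') product measure version -/
theorem VagueTendsto.prod {μ : ι → Measure E} {μ' : ι → Measure E'} {ν : Measure E}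
    {ν' : Measure E'} [∀ k, IsFiniteMeasureOnCompacts (μ k)]
    [∀ k, IsFiniteMeasureOnCompacts (μ' k)]
    [IsFiniteMeasureOnCompacts ν] [IsFiniteMeasureOnCompacts ν']
    (hb : UnifLocBdd l μ) (hb' : UnifLocBdd l μ') (h : VagueTendsto l μ ν)
    (h' : VagueTendsto l μ' ν')
    {f : E × E' → F} (hf : Continuous f) (hcs : HasCompactSupport f) :
    Tendsto (fun k => ∫ p, f p ∂((μ k).prod (μ' k))) l (𝓝 (∫ p, f p ∂(ν.prod ν'))) := by
  have h1 : ∀ (a : Measure E) (b : Measure E') [IsFiniteMeasureOnCompacts a]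
      [IsFiniteMeasureOnCompacts b], ∫ p, f p ∂(a.prod b) = ∫ x, ∫ y, f (x, y) ∂b ∂a := by
    intro a b _ _
    refine integral_prod _ ?_
    exact hf.integrable_of_hasCompactSupport hcs
  simp_rw [h1]
  exact h.double hb hb' h' hf hcs

end Double

end Basic

end Crest.Agent.R085
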