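import Mathlib
import Crest.Agent.R085.AdrInt
import Crest.Agent.R085.LimDouble

/-!
# R085, module M3 (weak compactness), part 4: double integrals with a diagonal singularity

`VagueTendsto.prod_kernel` : if `μ_k → ν` vaguely, all `μ_k` are upper `n`-regular with the same
constant, `g` is compactly supported, continuous off the diagonal, zero on the diagonal and
`‖g(x,y)‖ ≤ A / |x-y|^m` with `m < n`, then `∫ g d(μ_k × μ_k) → ∫ g d(ν × ν)`.
-/

set_option autoImplicit false
set_option linter.unusedSectionVars false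

open MeasureTheory Filter Topology Metric Set
open scoped ENNReal NNReal

namespace Crest.Agent.R085

section Sing

variable {E : Type*} [MetricSpace E] [ProperSpace E] [MeasurableSpace E] [BorelSpace E]
variable {ι : Type*} {l : Filter ι}
variable {F : Type*} [NormedAddCommGroup F] [NormedSpace ℝ F] [FiniteDimensional ℝ F]

/-- cutoff away from the diagonal: `0` if `dist ≤ τ/2`, `1` if `dist ≥ τ`. -/
noncomputable def offDiag (τ : ℝ) (p : E × E) : ℝ := min 1 (max 0 (2 * dist p.1 p.2 / τ - 1))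

theorem continuous_offDiag (τ : ℝ) : Continuous (offDiag τ : E × E → ℝ) := by
  unfold offDiag
  fun_prop

theorem offDiag_nonneg (τ : ℝ) (p : E × E) : 0 ≤ offDiag τ p :=
  le_min zero_le_one (le_max_left _ _)

theorem offDiag_le_one (τ : ℝ) (p : E × E) : offDiag τ p ≤ 1 := min_le_left _ _

theorem offDiag_eq_one {τ : ℝ} (hτ : 0 < τ) {p : E × E} (h : τ ≤ dist p.1 p.2) :
    offDiag τ p = 1 := by
  unfold offDiag
  refine min_eq_left (le_max_of_le_right ?_)
  rw [le_sub_iff_add_le, le_div_iff₀ hτ]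
  linarith

theorem offDiag_eq_zero {τ : ℝ} (hτ : 0 < τ) {p : E × E} (h : dist p.1 p.2 ≤ τ / 2) :
    offDiag τ p = 0 := by
  unfold offDiag
  have : 2 * dist p.1 p.2 / τ - 1 ≤ 0 := by
    rw [sub_nonpos, div_le_one hτ]
    linarith
  rw [max_eq_left this]
  exact min_eq_right zero_le_one

theorem continuous_offDiag_smul {g : E × E → F} (hg : ContinuousOn g {p | p.1 ≠ p.2}) {τ : ℝ}
    (hτ : 0 < τ) : Continuous (fun p => offDiag τ p • g p) := by
  rw [continuous_iff_continuousAt]
  intro p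
  by_cases hp : p.1 = p.2
  · have hev : (fun p => offDiag τ p • g p) =ᶠ[𝓝 p] fun _ => 0 := by
      have hopen : {q : E × E | dist q.1 q.2 < τ / 2} ∈ 𝓝 p := by
        refine (isOpen_lt (by fun_prop) continuous_const).mem_nhds ?_
        show dist p.1 p.2 < τ / 2
        rw [hp, dist_self]; positivity
      filter_upwards [hopen] with q hq
      rw [offDiag_eq_zero hτ (le_of_lt hq), zero_smul]
    exact continuousAt_const.congr hev.symm
  · have hopen : {q : E × E | q.1 ≠ q.2} ∈ 𝓝 p :=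
      (isOpen_ne_fun continuous_fst continuous_snd).mem_nhds hp
    exact (continuous_offDiag τ).continuousAt.smul (hg.continuousAt hopen)

theorem stronglyMeasurable_of_offDiag {g : E × E → F} (hg : ContinuousOn g {p | p.1 ≠ p.2})
    (hg0 : ∀ x, g (x, x) = 0) : StronglyMeasurable g := by
  classical
  borelize F
  have hs : MeasurableSet {p : E × E | p.1 ≠ p.2} :=
    (isOpen_ne_fun continuous_fst continuous_snd).measurableSet
  have h1 : Measurable ({p : E × E | p.1 ≠ p.2}.piecewise g (fun _ => (0 : F))) :=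
    ContinuousOn.measurable_piecewise hg continuousOn_const hs
  have h2 : {p : E × E | p.1 ≠ p.2}.piecewise g (fun _ => (0 : F)) = g := by
    ext p
    by_cases hp : p.1 = p.2
    · have : p ∉ {p : E × E | p.1 ≠ p.2} := fun h => h hp
      rw [piecewise_eq_of_notMem _ _ _ this]
      have hpp : p = (p.1, p.1) := Prod.ext rfl hp.symm
      rw [hpp, hg0]
    · rw [piecewise_eq_of_mem _ _ _ (show p ∈ {p : E × E | p.1 ≠ p.2} from hp)]
  rw [h2] at h1
  exact h1.stronglyMeasurable

/-- estimate of the error made by removing the diagonal -/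
theorem integral_offDiag_sub_le {m : Measure (E × E)} [IsFiniteMeasureOnCompacts m]
    {g : E × E → F} (hg : ContinuousOn g {p | p.1 ≠ p.2}) (hg0 : ∀ x, g (x, x) = 0)
    {K : Set (E × E)} (hK : IsCompact K) (h0 : ∀ p, p ∉ K → g p = 0)
    {τ ε : ℝ} (hτ : 0 < τ) (hε : 0 ≤ ε)
    (hs : ∫⁻ p in {p | dist p.1 p.2 < τ}, ‖g p‖ₑ ∂m ≤ ENNReal.ofReal ε) :
    Integrable g m ∧ ‖(∫ p, g p ∂m) - ∫ p, offDiag τ p • g p ∂m‖ ≤ ε := by
  have hmeas : StronglyMeasurable g := stronglyMeasurable_of_offDiag hg hg0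
  have hc : Continuous (fun p => offDiag τ p • g p) := continuous_offDiag_smul hg hτ
  have hcs : HasCompactSupport (fun p => offDiag τ p • g p) :=
    HasCompactSupport.intro hK (fun p hp => by rw [h0 p hp, smul_zero])
  have hi : Integrable (fun p => offDiag τ p • g p) m := hc.integrable_of_hasCompactSupport hcs
  have hset : MeasurableSet {p : E × E | dist p.1 p.2 < τ} :=
    (isOpen_lt (by fun_prop) continuous_const).measurableSet
  -- the difference
  have hle : ∀ p, ‖(1 - offDiag τ p) • g p‖ₑ ≤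
      {p : E × E | dist p.1 p.2 < τ}.indicator (fun p => ‖g p‖ₑ) p := by
    intro p
    by_cases hp : dist p.1 p.2 < τ
    · rw [indicator_of_mem (show p ∈ {p : E × E | dist p.1 p.2 < τ} from hp), enorm_smul]
      refine mul_le_of_le_one_left zero_le ?_
      rw [Real.enorm_eq_ofReal (by linarith [offDiag_le_one τ p])]
      rw [← ENNReal.ofReal_one]
      exact ENNReal.ofReal_le_ofReal (by linarith [offDiag_nonneg τ p])
    · rw [offDiag_eq_one hτ (not_lt.1 hp)]
      simp
  have hlin : ∫⁻ p, ‖(1 - offDiag τ p) • g p‖ₑ ∂m ≤ ENNReal.ofReal ε := by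
    refine (lintegral_mono hle).trans ?_
    rwa [lintegral_indicator hset]
  have hmd : AEStronglyMeasurable (fun p => (1 - offDiag τ p) • g p) m :=
    ((continuous_const.sub (continuous_offDiag τ)).stronglyMeasurable.smul
      hmeas).aestronglyMeasurable
  have hid : Integrable (fun p => (1 - offDiag τ p) • g p) m :=
    ⟨hmd, hlin.trans_lt ENNReal.ofReal_lt_top⟩
  have hsum : g = fun p => (1 - offDiag τ p) • g p + offDiag τ p • g p := by
    ext p; rw [← add_smul]; simp
  have hig : Integrable g m := by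
    rw [hsum]; exact hid.add hi
  refine ⟨hig, ?_⟩
  rw [← integral_sub hig hi]
  have h3 : ∀ p, g p - offDiag τ p • g p = (1 - offDiag τ p) • g p := by
    intro p; rw [sub_smul, one_smul]
  simp_rw [h3]
  refine (norm_integral_le_lintegral_norm _).trans ?_
  refine ENNReal.toReal_le_of_le_ofReal hε ?_
  simpa only [ofReal_norm] using hlin

/-- (c) product integrals with a uniformly small diagonal singularity converge -/
theorem VagueTendsto.prod_singular {μ μ' : ι → Measure E} {ν ν' : Measure E}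
    [∀ k, IsFiniteMeasureOnCompacts (μ k)] [∀ k, IsFiniteMeasureOnCompacts (μ' k)]
    [IsFiniteMeasureOnCompacts ν] [IsFiniteMeasureOnCompacts ν']
    (hb : UnifLocBdd l μ) (hb' : UnifLocBdd l μ') (h : VagueTendsto l μ ν)
    (h' : VagueTendsto l μ' ν')
    {g : E × E → F} (hg : ContinuousOn g {p | p.1 ≠ p.2}) (hg0 : ∀ x, g (x, x) = 0)
    {K : Set (E × E)} (hK : IsCompact K) (h0 : ∀ p, p ∉ K → g p = 0)
    (hs : ∀ ε : ℝ, 0 < ε → ∃ τ > 0,
      (∀ᶠ k in l, ∫⁻ p in {p | dist p.1 p.2 < τ}, ‖g p‖ₑ ∂((μ k).prod (μ' k))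
        ≤ ENNReal.ofReal ε) ∧
      ∫⁻ p in {p | dist p.1 p.2 < τ}, ‖g p‖ₑ ∂(ν.prod ν') ≤ ENNReal.ofReal ε) :
    Tendsto (fun k => ∫ p, g p ∂((μ k).prod (μ' k))) l (𝓝 (∫ p, g p ∂(ν.prod ν'))) := by
  rw [tendsto_iff_norm_sub_tendsto_zero, Metric.tendsto_nhds]
  intro ε hε
  obtain ⟨τ, hτ, h1, h2⟩ := hs (ε / 4) (by positivity)
  have hc : Continuous (fun p => offDiag τ p • g p) := continuous_offDiag_smul hg hτ
  have hcs : HasCompactSupport (fun p => offDiag τ p • g p) :=
    HasCompactSupport.intro hK (fun p hp => by rw [h0 p hp, smul_zero])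
  have hlim := h.prod hb hb' h' hc hcs
  have hlim' := (tendsto_iff_norm_sub_tendsto_zero.1 hlim).eventually
    (gt_mem_nhds (show (0 : ℝ) < ε / 4 by positivity))
  obtain ⟨-, h3⟩ := integral_offDiag_sub_le hg hg0 hK h0 hτ (by positivity) h2
  filter_upwards [h1, hlim'] with k hk hk'
  obtain ⟨-, h4⟩ := integral_offDiag_sub_le hg hg0 hK h0 hτ (by positivity) hk
  rw [Real.dist_eq, sub_zero, abs_norm]
  rw [norm_sub_rev] at h3
  calc ‖(∫ p, g p ∂((μ k).prod (μ' k))) - ∫ p, g p ∂(ν.prod ν')‖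
      = ‖((∫ p, g p ∂((μ k).prod (μ' k))) - ∫ p, offDiag τ p • g p ∂((μ k).prod (μ' k))) +
        ((∫ p, offDiag τ p • g p ∂((μ k).prod (μ' k))) - ∫ p, offDiag τ p • g p ∂(ν.prod ν')) +
        ((∫ p, offDiag τ p • g p ∂(ν.prod ν')) - ∫ p, g p ∂(ν.prod ν'))‖ := by
          congr 1; abel
    _ ≤ _ := norm_add₃_le
    _ ≤ ε / 4 + ε / 4 + ε / 4 := add_le_add (add_le_add h4 hk'.le) h3
    _ < ε := by linarith

/-- near-diagonal mass of `|x-y|^{-m}` for the product of a locally finite measure and an upper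
regular one -/
theorem lintegral_near_diag {n m : ℕ} (hm : m < n) {C : ℝ} (hC : 0 ≤ C) {μ μ' : Measure E}
    [SFinite μ] [SFinite μ'] (hμ : UpperReg n C μ') {K : Set E} (hK : MeasurableSet K) {τ : ℝ}
    (hτ : 0 < τ) :
    ∫⁻ p in {p : E × E | p.1 ∈ K ∧ dist p.1 p.2 ≤ τ}, ENNReal.ofReal ((dist p.1 p.2 ^ m)⁻¹)
      ∂(μ.prod μ') ≤ ENNReal.ofReal (C * 4 ^ n * τ ^ (n - m)) * μ K := by
  have hset : MeasurableSet {p : E × E | p.1 ∈ K ∧ dist p.1 p.2 ≤ τ} := by
    refine (measurable_fst hK).inter ?_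
    exact (isClosed_le (continuous_fst.dist continuous_snd) continuous_const).measurableSet
  have hmeas : Measurable (fun p : E × E => ENNReal.ofReal ((dist p.1 p.2 ^ m)⁻¹)) := by
    have : Measurable (fun p : E × E => dist p.1 p.2) :=
      (continuous_fst.dist continuous_snd).measurable
    exact (this.pow_const m).inv.ennreal_ofReal
  rw [← lintegral_indicator hset, lintegral_prod _ (hmeas.indicator hset).aemeasurable]
  calc ∫⁻ x, ∫⁻ y, {p : E × E | p.1 ∈ K ∧ dist p.1 p.2 ≤ τ}.indicator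
          (fun p => ENNReal.ofReal ((dist p.1 p.2 ^ m)⁻¹)) (x, y) ∂μ' ∂μ
      ≤ ∫⁻ x, K.indicator (fun _ => ENNReal.ofReal (C * 4 ^ n * τ ^ (n - m))) x ∂μ := by
        refine lintegral_mono fun x => ?_
        by_cases hx : x ∈ K
        · rw [indicator_of_mem hx]
          refine le_trans (le_of_eq ?_) (lintegral_near hμ hC hm x hτ)
          rw [← lintegral_indicator isClosed_closedBall.measurableSet]
          refine lintegral_congr fun y => ?_
          by_cases hy : dist x y ≤ τ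
          · rw [indicator_of_mem (show (x, y) ∈ {p : E × E | p.1 ∈ K ∧ dist p.1 p.2 ≤ τ} from
              ⟨hx, hy⟩), indicator_of_mem (by rwa [mem_closedBall, dist_comm])]
          · rw [indicator_of_notMem (fun h : (x, y) ∈ {p : E × E | p.1 ∈ K ∧ dist p.1 p.2 ≤ τ} =>
              hy h.2), indicator_of_notMem (by rwa [mem_closedBall, dist_comm])]
        · rw [indicator_of_notMem hx]
          refine le_of_eq ?_
          rw [lintegral_eq_zero_of_ae_eq_zero]
          refine ae_of_all _ fun y => ?_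
          exact indicator_of_notMem
            (fun h : (x, y) ∈ {p : E × E | p.1 ∈ K ∧ dist p.1 p.2 ≤ τ} => hx h.1) _
    _ = _ := by rw [lintegral_indicator hK, setLIntegral_const]

theorem UnifLocBdd.of_upperReg {n : ℕ} {C : ℝ} {μ : ι → Measure E}
    (h : ∀ᶠ k in l, UpperReg n C (μ k)) : UnifLocBdd l μ := by
  intro K hK
  rcases K.eq_empty_or_nonempty with rfl | ⟨x0, hx0⟩
  · exact ⟨0, Eventually.of_forall fun k => by simp⟩
  obtain ⟨R, hR⟩ := hK.isBounded.subset_ball x0
  refine ⟨(C * (max R 1) ^ n).toNNReal, h.mono fun k hk => ?_⟩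
  refine (measure_mono (hR.trans (ball_subset_ball (le_max_left R 1)))).trans ?_
  exact hk x0 (max R 1) (by positivity)

theorem VagueTendsto.upperReg {n : ℕ} {C : ℝ} {μ : ι → Measure E} {ν : Measure E}
    [∀ k, IsFiniteMeasureOnCompacts (μ k)] [IsFiniteMeasureOnCompacts ν] [l.NeBot]
    (h : VagueTendsto l μ ν) (hμ : ∀ᶠ k in l, UpperReg n C (μ k)) : UpperReg n C ν := by
  intro x r hr
  exact h.measure_open_le isOpen_ball (hμ.frequently.mono fun k hk => hk x r hr)

/-- (c') product integrals of kernels with an integrable diagonal singularity converge -/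
theorem VagueTendsto.prod_kernel {n m : ℕ} (hm : m < n) {C : ℝ} (hC : 0 ≤ C)
    {μ : ι → Measure E} {ν : Measure E}
    [∀ k, IsFiniteMeasureOnCompacts (μ k)] [IsFiniteMeasureOnCompacts ν] [l.NeBot]
    (h : VagueTendsto l μ ν) (hμ : ∀ᶠ k in l, UpperReg n C (μ k))
    {g : E × E → F} (hg : ContinuousOn g {p | p.1 ≠ p.2}) (hg0 : ∀ x, g (x, x) = 0)
    {K : Set (E × E)} (hK : IsCompact K) (h0 : ∀ p, p ∉ K → g p = 0) {A : ℝ}
    (hA : ∀ p : E × E, ‖g p‖ ≤ A * (dist p.1 p.2 ^ m)⁻¹) :
    Tendsto (fun k => ∫ p, g p ∂((μ k).prod (μ k))) l (𝓝 (∫ p, g p ∂(ν.prod ν))) := by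
  have hb : UnifLocBdd l μ := UnifLocBdd.of_upperReg hμ
  have hν : UpperReg n C ν := h.upperReg hμ
  refine h.prod_singular hb hb h hg hg0 hK h0 ?_
  intro ε hε
  -- the first projection of the support
  set K1 : Set E := Prod.fst '' K with hK1def
  have hK1 : IsCompact K1 := hK.image continuous_fst
  obtain ⟨B, hB0, hB⟩ := hb.exists_pos hK1
  set B' : ℝ := max B ((ν K1).toReal) with hB'
  have hB'0 : 0 < B' := lt_max_of_lt_left hB0
  have hνB : ν K1 ≤ ENNReal.ofReal B' := by
    rw [← ENNReal.ofReal_toReal hK1.measure_lt_top.ne]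
    exact ENNReal.ofReal_le_ofReal (le_max_right _ _)
  set A' : ℝ := max A 1 with hA'
  have hA'0 : 0 < A' := lt_max_of_lt_right one_pos
  -- choice of `τ`
  have key : ∀ (a : Measure E) [IsFiniteMeasureOnCompacts a], UpperReg n C a →
      a K1 ≤ ENNReal.ofReal B' → ∀ τ : ℝ, 0 < τ →
      ∫⁻ p in {p : E × E | dist p.1 p.2 < τ}, ‖g p‖ₑ ∂(a.prod a) ≤
        ENNReal.ofReal (A' * (C * 4 ^ n * τ ^ (n - m)) * B') := by
    intro a _ ha haB τ hτ
    have hset : MeasurableSet {p : E × E | dist p.1 p.2 < τ} :=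
      (isOpen_lt (continuous_fst.dist continuous_snd) continuous_const).measurableSet
    have hset' : MeasurableSet {p : E × E | p.1 ∈ K1 ∧ dist p.1 p.2 ≤ τ} := by
      refine (measurable_fst hK1.measurableSet).inter ?_
      exact (isClosed_le (continuous_fst.dist continuous_snd) continuous_const).measurableSet
    calc ∫⁻ p in {p : E × E | dist p.1 p.2 < τ}, ‖g p‖ₑ ∂(a.prod a)
        = ∫⁻ p, {p : E × E | dist p.1 p.2 < τ}.indicator (fun p => ‖g p‖ₑ) p ∂(a.prod a) := by
          rw [lintegral_indicator hset]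
      _ ≤ ∫⁻ p, {p : E × E | p.1 ∈ K1 ∧ dist p.1 p.2 ≤ τ}.indicator
            (fun p => ENNReal.ofReal A' * ENNReal.ofReal ((dist p.1 p.2 ^ m)⁻¹)) p
            ∂(a.prod a) := by
          refine lintegral_mono fun p => ?_
          by_cases hp : dist p.1 p.2 < τ
          · rw [indicator_of_mem (show p ∈ {p : E × E | dist p.1 p.2 < τ} from hp)]
            by_cases hpK : p ∈ K
            · rw [indicator_of_mem (show p ∈ {p : E × E | p.1 ∈ K1 ∧ dist p.1 p.2 ≤ τ} from
                ⟨mem_image_of_mem _ hpK, hp.le⟩)]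
              rw [← ENNReal.ofReal_mul hA'0.le, ← ofReal_norm]
              refine ENNReal.ofReal_le_ofReal ((hA p).trans ?_)
              exact mul_le_mul_of_nonneg_right (le_max_left _ _) (by positivity)
            · rw [h0 p hpK]; simp
          · rw [indicator_of_notMem (show p ∉ {p : E × E | dist p.1 p.2 < τ} from hp)]
            exact zero_le
      _ = ENNReal.ofReal A' * ∫⁻ p in {p : E × E | p.1 ∈ K1 ∧ dist p.1 p.2 ≤ τ},
            ENNReal.ofReal ((dist p.1 p.2 ^ m)⁻¹) ∂(a.prod a) := by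
          rw [lintegral_indicator hset', lintegral_const_mul' _ _ ENNReal.ofReal_ne_top]
      _ ≤ ENNReal.ofReal A' * (ENNReal.ofReal (C * 4 ^ n * τ ^ (n - m)) * a K1) := by
          gcongr
          exact lintegral_near_diag hm hC ha hK1.measurableSet hτ
      _ ≤ ENNReal.ofReal A' * (ENNReal.ofReal (C * 4 ^ n * τ ^ (n - m)) * ENNReal.ofReal B') := by
          gcongr
      _ = _ := by
          rw [← ENNReal.ofReal_mul (by positivity), ← ENNReal.ofReal_mul hA'0.le]; congr 1; ring
  obtain ⟨τ, hτ, hτε⟩ : ∃ τ > 0, A' * (C * 4 ^ n * τ ^ (n - m)) * B' ≤ ε := by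
    have hlim : Tendsto (fun τ : ℝ => A' * (C * 4 ^ n * τ ^ (n - m)) * B') (𝓝[>] 0) (𝓝 0) := by
      have : Tendsto (fun τ : ℝ => A' * (C * 4 ^ n * τ ^ (n - m)) * B') (𝓝 0)
          (𝓝 (A' * (C * 4 ^ n * (0 : ℝ) ^ (n - m)) * B')) := by
        refine Continuous.tendsto ?_ _
        fun_prop
      rw [zero_pow (by omega)] at this
      simp only [mul_zero, zero_mul] at this
      exact this.mono_left nhdsWithin_le_nhds
    have h1 := (hlim.eventually (gt_mem_nhds hε)).and self_mem_nhdsWithin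
    obtain ⟨τ, h2, h3⟩ := h1.exists
    exact ⟨τ, h3, h2.le⟩
  refine ⟨τ, hτ, ?_, ?_⟩
  · filter_upwards [hμ, hB] with k hk hkB
    refine (key (μ k) hk (hkB.trans (ENNReal.ofReal_le_ofReal (le_max_left _ _))) τ hτ).trans ?_
    exact ENNReal.ofReal_le_ofReal hτε
  · exact (key ν hν hνB τ hτ).trans (ENNReal.ofReal_le_ofReal hτε)

end Sing

end Crest.Agent.R085
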