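import Crest.Agent.R085.Lim0
import Crest.Agent.R085.Lim1

/-!
# R085, module M3: `WLim` version of open/compact sets, moving balls, supports, and the bridge to
`VagueTendsto`
-/

set_option autoImplicit false
set_option linter.unusedSectionVars false

open MeasureTheory Filter Topology Metric Set
open scoped ENNReal NNReal

namespace Crest.Agent.R085

variable {E : Type*} [NormedAddCommGroup E] [NormedSpace ℝ E] [ProperSpace E]
  [MeasurableSpace E] [BorelSpace E] {ι : Type*}

section aux

variable {μ : Measure E} [IsLocallyFiniteMeasure μ] {f : E → ℝ}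

lemma lim_measure_le_ofReal_integral (hf : Continuous f) (hc : HasCompactSupport f)
    (h0 : ∀ x, 0 ≤ f x) {K : Set E} (hK : ∀ x ∈ K, 1 ≤ f x) : μ K ≤ ENNReal.ofReal (∫ x, f x ∂μ) := by
  rw [ofReal_integral_eq_lintegral_ofReal (hf.integrable_of_hasCompactSupport hc)
    (Eventually.of_forall h0)]
  have hm : MeasurableSet {x | 1 ≤ f x} := measurableSet_le measurable_const hf.measurable
  calc μ K ≤ μ {x | 1 ≤ f x} := measure_mono hK
    _ = ∫⁻ x in {x | 1 ≤ f x}, 1 ∂μ := by simp
    _ ≤ ∫⁻ x in {x | 1 ≤ f x}, ENNReal.ofReal (f x) ∂μ := by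
        apply setLIntegral_mono' hm
        intro x hx
        rw [← ENNReal.ofReal_one]
        exact ENNReal.ofReal_le_ofReal hx
    _ ≤ ∫⁻ x, ENNReal.ofReal (f x) ∂μ := setLIntegral_le_lintegral _ _

lemma lim_ofReal_integral_le_measure (hf : Continuous f) (hc : HasCompactSupport f)
    (h0 : ∀ x, 0 ≤ f x) (h1 : ∀ x, f x ≤ 1) {G : Set E} (hGm : MeasurableSet G)
    (hG : ∀ x, x ∉ G → f x = 0) : ENNReal.ofReal (∫ x, f x ∂μ) ≤ μ G := by
  rw [ofReal_integral_eq_lintegral_ofReal (hf.integrable_of_hasCompactSupport hc)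
    (Eventually.of_forall h0)]
  calc ∫⁻ x, ENNReal.ofReal (f x) ∂μ ≤ ∫⁻ x, G.indicator 1 x ∂μ := by
        apply lintegral_mono
        intro x
        by_cases hx : x ∈ G
        · simp only [indicator_of_mem hx, Pi.one_apply]
          rw [← ENNReal.ofReal_one]
          exact ENNReal.ofReal_le_ofReal (h1 x)
        · simp [hG x hx]
    _ = μ G := lintegral_indicator_one hGm

end aux

namespace WLim

variable {U : Ultrafilter ι} {m : ι → Measure E} {ν : Measure E}

/-- Open sets: an eventual upper bound passes to the limit. -/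
theorem open_le (h : WLim U m ν) {G : Set E} (hG : IsOpen G) {c : ℝ≥0∞}
    (hc : ∀ᶠ k in (U : Filter ι), m k G ≤ c) : ν G ≤ c := by
  have := h.lf
  rcases eq_or_ne c ∞ with rfl | hctop
  · exact le_top
  rw [hG.measure_eq_iSup_isCompact]
  refine iSup₂_le fun K hKG => iSup_le fun hK => ?_
  obtain ⟨f, hf1, hf0, hfc, hf⟩ := exists_continuous_one_zero_of_isCompact hK hG.isClosed_compl
    (by rw [disjoint_compl_right_iff_subset]; exact hKG)
  have hlim := h.tendsto f f.continuous hfc
  have hle : ∫ x, f x ∂ν ≤ c.toReal := by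
    refine le_of_tendsto hlim ?_
    filter_upwards [hc] with k hk
    have := h.lfk k
    have h1 := lim_ofReal_integral_le_measure (μ := m k) f.continuous hfc (fun x => (hf x).1)
      (fun x => (hf x).2) hG.measurableSet (fun x hx => hf0 hx)
    exact (ENNReal.ofReal_le_iff_le_toReal hctop).1 (h1.trans hk)
  calc ν K ≤ ENNReal.ofReal (∫ x, f x ∂ν) :=
        lim_measure_le_ofReal_integral f.continuous hfc (fun x => (hf x).1)
          (fun x hx => (hf1 hx).symm.le)
    _ ≤ ENNReal.ofReal c.toReal := ENNReal.ofReal_le_ofReal hle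
    _ = c := ENNReal.ofReal_toReal hctop

/-- Compact sets: an eventual lower bound passes to the limit. -/
theorem le_compact (h : WLim U m ν) {K : Set E} (hK : IsCompact K) {c : ℝ≥0∞}
    (hc : ∀ᶠ k in (U : Filter ι), c ≤ m k K) : c ≤ ν K := by
  have := h.lf
  obtain ⟨k0, hk0⟩ := hc.exists
  have hctop : c ≠ ∞ := by
    have := h.lfk k0
    exact (hk0.trans_lt hK.measure_lt_top).ne
  rw [hK.measure_eq_iInf_isOpen]
  refine le_iInf₂ fun G hKG => le_iInf fun hG => ?_
  obtain ⟨f, hf1, hf0, hfc, hf⟩ := exists_continuous_one_zero_of_isCompact hK hG.isClosed_compl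
    (by rw [disjoint_compl_right_iff_subset]; exact hKG)
  have hlim := h.tendsto f f.continuous hfc
  have hle : c.toReal ≤ ∫ x, f x ∂ν := by
    refine ge_of_tendsto hlim ?_
    filter_upwards [hc] with k hk
    have := h.lfk k
    have h1 := lim_measure_le_ofReal_integral (μ := m k) f.continuous hfc (fun x => (hf x).1)
          (fun x hx => (hf1 hx).symm.le)
    exact (ENNReal.le_ofReal_iff_toReal_le hctop (integral_nonneg fun x => (hf x).1)).1
      (hk.trans h1)
  calc c = ENNReal.ofReal c.toReal := (ENNReal.ofReal_toReal hctop).symm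
    _ ≤ ENNReal.ofReal (∫ x, f x ∂ν) := ENNReal.ofReal_le_ofReal hle
    _ ≤ ν G := lim_ofReal_integral_le_measure f.continuous hfc (fun x => (hf x).1)
      (fun x => (hf x).2) hG.measurableSet (fun x hx => hf0 hx)

/-- Upper bounds on moving balls pass to the limit. -/
theorem ball_le (h : WLim U m ν) {x : ι → E} {x0 : E} {r : ι → ℝ} {r0 : ℝ}
    (hx : Tendsto x (U : Filter ι) (𝓝 x0)) (hr : Tendsto r (U : Filter ι) (𝓝 r0)) {c : ℝ≥0∞}
    (hc : ∀ᶠ k in (U : Filter ι), m k (ball (x k) (r k)) ≤ c) : ν (ball x0 r0) ≤ c := by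
  have hU : ball x0 r0 = ⋃ j : ℕ, ball x0 (r0 - 1 / ((j : ℝ) + 1)) := by
    ext y
    simp only [mem_ball, mem_iUnion]
    constructor
    · intro hy
      obtain ⟨j, hj⟩ := exists_nat_one_div_lt (sub_pos.2 hy)
      exact ⟨j, by linarith⟩
    · rintro ⟨j, hj⟩
      have : (0 : ℝ) < 1 / ((j : ℝ) + 1) := Nat.one_div_pos_of_nat
      linarith
  have hmono : Monotone fun j : ℕ => ball x0 (r0 - 1 / ((j : ℝ) + 1)) := by
    intro i j hij
    apply ball_subset_ball
    have := Nat.one_div_le_one_div (α := ℝ) hij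
    linarith
  rw [hU, hmono.measure_iUnion]
  refine iSup_le fun j => ?_
  refine h.open_le isOpen_ball ?_
  have hpos : (0 : ℝ) < 1 / ((j : ℝ) + 1) := Nat.one_div_pos_of_nat
  have h1 : ∀ᶠ k in (U : Filter ι), dist (x k) x0 < 1 / ((j : ℝ) + 1) / 2 :=
    hx (ball_mem_nhds x0 (by positivity))
  have h2 : ∀ᶠ k in (U : Filter ι), r0 - 1 / ((j : ℝ) + 1) / 2 < r k :=
    hr (lt_mem_nhds (by linarith))
  filter_upwards [hc, h1, h2] with k hk hk1 hk2
  refine (measure_mono ?_).trans hk
  apply ball_subset_ball'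
  rw [dist_comm]
  linarith

/-- Lower bounds on moving closed balls pass to the limit. -/
theorem le_closedBall (h : WLim U m ν) {x : ι → E} {x0 : E} {r : ι → ℝ} {r0 : ℝ}
    (hx : Tendsto x (U : Filter ι) (𝓝 x0)) (hr : Tendsto r (U : Filter ι) (𝓝 r0)) {c : ℝ≥0∞}
    (hc : ∀ᶠ k in (U : Filter ι), c ≤ m k (closedBall (x k) (r k))) :
    c ≤ ν (closedBall x0 r0) := by
  have := h.lf
  have hI : closedBall x0 r0 = ⋂ j : ℕ, closedBall x0 (r0 + 1 / ((j : ℝ) + 1)) := by
    ext y
    simp only [mem_closedBall, mem_iInter]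
    constructor
    · intro hy j
      have : (0 : ℝ) < 1 / ((j : ℝ) + 1) := Nat.one_div_pos_of_nat
      linarith
    · intro hy
      by_contra hlt
      obtain ⟨j, hj⟩ := exists_nat_one_div_lt (sub_pos.2 (not_le.1 hlt))
      have := hy j
      linarith
  have hanti : Antitone fun j : ℕ => closedBall x0 (r0 + 1 / ((j : ℝ) + 1)) := by
    intro i j hij
    apply closedBall_subset_closedBall
    have := Nat.one_div_le_one_div (α := ℝ) hij
    linarith
  rw [hI, hanti.measure_iInter (fun j => measurableSet_closedBall.nullMeasurableSet)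
    ⟨0, (isCompact_closedBall _ _).measure_lt_top.ne⟩]
  refine le_iInf fun j => ?_
  refine h.le_compact (isCompact_closedBall _ _) ?_
  have hpos : (0 : ℝ) < 1 / ((j : ℝ) + 1) := Nat.one_div_pos_of_nat
  have h1 : ∀ᶠ k in (U : Filter ι), dist (x k) x0 < 1 / ((j : ℝ) + 1) / 2 :=
    hx (ball_mem_nhds x0 (by positivity))
  have h2 : ∀ᶠ k in (U : Filter ι), r k < r0 + 1 / ((j : ℝ) + 1) / 2 :=
    hr (gt_mem_nhds (by linarith))
  filter_upwards [hc, h1, h2] with k hk hk1 hk2
  refine hk.trans (measure_mono ?_)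
  apply closedBall_subset_closedBall'
  linarith

/-- Points of the support of the limit are approximated by the supports. -/
theorem support_meets (h : WLim U m ν) {x0 : E} (hx : x0 ∈ ν.support) {ε : ℝ} (hε : 0 < ε) :
    ∀ᶠ k in (U : Filter ι), ∃ y ∈ (m k).support, dist y x0 < ε := by
  by_contra hcon
  rw [Ultrafilter.frequently_iff_eventually.symm.not, not_frequently] at hcon
  have h0 : ν (ball x0 ε) ≤ 0 := by
    refine h.open_le isOpen_ball ?_
    filter_upwards [hcon] with k hk
    push Not at hk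
    rw [← Measure.measure_compl_support (μ := m k)]
    apply measure_mono
    intro y hy hys
    exact absurd hy (not_lt.2 (hk y hys))
  have h1 := (Measure.mem_support_iff_forall x0).1 hx _ (ball_mem_nhds x0 hε)
  exact absurd h0 (not_le.2 h1)

/-- Points of the support of the limit are limits of points of the supports. -/
theorem exists_tendsto_support (h : WLim U m ν) {x0 : E} (hx : x0 ∈ ν.support) :
    ∃ y : ι → E, (∀ᶠ k in (U : Filter ι), y k ∈ (m k).support) ∧
      Tendsto y (U : Filter ι) (𝓝 x0) := by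
  classical
  have hex : ∀ k, ∃ y, (m k).support.Nonempty → y ∈ (m k).support ∧
      infDist x0 (m k).support = dist x0 y := by
    intro k
    by_cases hne : (m k).support.Nonempty
    · obtain ⟨y, hy, hy2⟩ := Measure.isClosed_support.exists_infDist_eq_dist hne x0
      exact ⟨y, fun _ => ⟨hy, hy2⟩⟩
    · exact ⟨x0, fun h => absurd h hne⟩
  choose y hy using hex
  refine ⟨y, ?_, ?_⟩
  · filter_upwards [h.support_meets hx one_pos] with k hk
    obtain ⟨z, hz, _⟩ := hk
    exact (hy k ⟨z, hz⟩).1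
  · rw [Metric.tendsto_nhds]
    intro ε hε
    filter_upwards [h.support_meets hx hε] with k hk
    obtain ⟨z, hz, hzd⟩ := hk
    rw [dist_comm, ← (hy k ⟨z, hz⟩).2]
    refine lt_of_le_of_lt (infDist_le_dist_of_mem hz) ?_
    rwa [dist_comm]

/-- Limits of points of the supports with uniform lower mass bounds are in the support. -/
theorem mem_support_of_tendsto (h : WLim U m ν) {x : ι → E} {x0 : E}
    (hx : Tendsto x (U : Filter ι) (𝓝 x0)) {c : ℝ → ℝ≥0∞} (hc : ∀ r, 0 < r → 0 < c r)
    (hlow : ∀ r, 0 < r → ∀ᶠ k in (U : Filter ι), c r ≤ m k (closedBall (x k) r)) :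
    x0 ∈ ν.support := by
  rw [Measure.mem_support_iff_forall]
  intro V hV
  obtain ⟨ε, hε, hεV⟩ := Metric.mem_nhds_iff.1 hV
  have h1 := h.le_closedBall hx (tendsto_const_nhds (x := ε / 2)) (hlow (ε / 2) (by positivity))
  calc 0 < c (ε / 2) := hc _ (by positivity)
    _ ≤ ν (closedBall x0 (ε / 2)) := h1
    _ ≤ ν V := measure_mono ((closedBall_subset_ball (by linarith)).trans hεV)

/-- Bridge to `VagueTendsto`. -/
theorem vague (h : WLim U m ν) : VagueTendsto (U : Filter ι) m ν := h.tendsto

theorem unifLocBdd (h : WLim U m ν) : UnifLocBdd (U : Filter ι) m := by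
  apply UnifLocBdd.of_closedBall 0
  intro R
  obtain ⟨C, hC⟩ := h.bdd R
  exact ⟨C.toNNReal, hC⟩

theorem of_vague (hlfk : ∀ k, IsLocallyFiniteMeasure (m k)) (hlf : IsLocallyFiniteMeasure ν)
    (hb : UnifLocBdd (U : Filter ι) m) (h : VagueTendsto (U : Filter ι) m ν) : WLim U m ν where
  lfk := hlfk
  lf := hlf
  bdd R := by
    obtain ⟨C, hC⟩ := hb _ (isCompact_closedBall (0 : E) R)
    exact ⟨C, by simpa using hC⟩
  tendsto := h

end WLim

end Crest.Agent.R085
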