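import Mathlib
import Crest.Agent.R085.Defs
import Crest.Agent.R085.LimW
import Crest.Agent.R085.LimSing

/-!
# R085, module M3 (weak compactness), part 5: `Bf` passes to the limit

Auxiliary lemmas are in the namespace `Crest.Agent.R085.LimBf`.
-/

set_option autoImplicit false

open MeasureTheory Filter Topology Metric Set
open scoped ENNReal NNReal

namespace Crest.Agent.R085

namespace LimBf

variable {d n : ℕ}

theorem continuous_cut : Continuous cut := by
  unfold cut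
  fun_prop

theorem kN_nonneg (N : ℝ) (z : V d) : 0 ≤ kN n N z :=
  mul_nonneg (le_max_left _ _) (by positivity)

theorem kN_le (N : ℝ) (z : V d) : kN n N z ≤ (‖z‖ ^ (n + 1))⁻¹ :=
  mul_le_of_le_one_left (by positivity) (max_le zero_le_one (min_le_left _ _))

theorem kN_eq_zero {N : ℝ} (hN : 0 < N) {z : V d} (h : 2 * N ≤ ‖z‖) : kN n N z = 0 := by
  unfold kN cut
  have h1 : 2 ≤ ‖z‖ / N := by rwa [le_div_iff₀ hN]
  rw [max_eq_left ((min_le_right _ _).trans (by linarith)), zero_mul]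

/-- the kernel `kN` is continuous away from the origin -/
theorem continuousOn_kN (N : ℝ) : ContinuousOn (kN n N : V d → ℝ) {z | z ≠ 0} := by
  unfold kN
  refine ContinuousOn.mul ?_ ?_
  · exact (continuous_cut.comp (continuous_norm.div_const N)).continuousOn
  · refine ContinuousOn.inv₀ (by fun_prop) ?_
    intro z hz
    exact pow_ne_zero _ (norm_ne_zero_iff.2 hz)

/-- the integrand of `Bf` -/
noncomputable def bI (n : ℕ) (N : ℝ) (u ψ : V d → ℝ) (p : V d × V d) : ℝ :=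
  (u p.1 - u p.2) * (ψ p.1 - ψ p.2) * kN n N (p.1 - p.2)

theorem Bf_eq (μ : Measure (V d)) (N : ℝ) (u ψ : V d → ℝ) :
    Bf n μ N u ψ = (1 / 2 : ℝ) * ∫ p, bI n N u ψ p ∂(μ.prod μ) := rfl

theorem continuousOn_bI {N : ℝ} {u ψ : V d → ℝ} (hu : Continuous u) (hψ : Continuous ψ) :
    ContinuousOn (bI n N u ψ) {p | p.1 ≠ p.2} := by
  unfold bI
  refine ContinuousOn.mul (by fun_prop) ?_
  refine (continuousOn_kN (n := n) (d := d) N).comp (by fun_prop) ?_
  intro p hp
  exact sub_ne_zero.2 hp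

theorem bI_diag (N : ℝ) (u ψ : V d → ℝ) (x : V d) : bI n N u ψ (x, x) = 0 := by
  unfold bI; simp

theorem abs_bI_le (hn : 1 ≤ n) {N : ℝ} {u ψ : V d → ℝ} {L K : ℝ} (hL : 0 ≤ L) (hK : 0 ≤ K)
    (hu : ∀ x y, |u x - u y| ≤ L * dist x y) (hψ : ∀ x y, |ψ x - ψ y| ≤ K * dist x y)
    (p : V d × V d) :
    |bI n N u ψ p| ≤ L * K * (dist p.1 p.2 ^ (n - 1))⁻¹ := by
  obtain ⟨x, y⟩ := p
  unfold bI
  rw [abs_mul, abs_mul, abs_of_nonneg (kN_nonneg _ _)]
  have hnn : n + 1 = 2 + (n - 1) := by omega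
  have h1 : kN n N (x - y) ≤ (dist x y ^ (n + 1))⁻¹ := by
    rw [dist_eq_norm]; exact kN_le _ _
  calc |u x - u y| * |ψ x - ψ y| * kN n N (x - y)
      ≤ (L * dist x y) * (K * dist x y) * (dist x y ^ (n + 1))⁻¹ := by
        gcongr
        · exact kN_nonneg _ _
        · exact hu x y
        · exact hψ x y
    _ ≤ L * K * (dist x y ^ (n - 1))⁻¹ := by
        rcases eq_or_lt_of_le (dist_nonneg : 0 ≤ dist x y) with h | h
        · rw [← h]; simp; positivity
        · rw [hnn, pow_add]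
          field_simp
          exact le_refl _

/-- the integrand of `Bf` is compactly supported -/
theorem bI_compact_support {N : ℝ} (hN : 0 < N) {u ψ : V d → ℝ} {c : V d} {R : ℝ}
    (hsupp : ∀ y, y ∉ closedBall c R → ψ y = 0) (p : V d × V d)
    (hp : p ∉ closedBall c (R + 2 * N) ×ˢ closedBall c (R + 4 * N)) : bI n N u ψ p = 0 := by
  by_cases hfar : 2 * N ≤ dist p.1 p.2
  · unfold bI
    rw [kN_eq_zero hN (by rwa [← dist_eq_norm]), mul_zero]
  push Not at hfar
  have key : R < dist p.1 c ∧ R < dist p.2 c := by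
    by_contra hcon
    apply hp
    rw [not_and_or, not_lt, not_lt] at hcon
    rw [mem_prod, mem_closedBall, mem_closedBall]
    rcases hcon with h | h
    · have := dist_triangle p.2 p.1 c
      rw [dist_comm p.2 p.1] at this
      constructor <;> linarith
    · have := dist_triangle p.1 p.2 c
      constructor <;> linarith
  have z1 : ψ p.1 = 0 := hsupp _ (by rw [mem_closedBall, not_le]; exact key.1)
  have z2 : ψ p.2 = 0 := hsupp _ (by rw [mem_closedBall, not_le]; exact key.2)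
  unfold bI
  rw [z1, z2]; ring

theorem lipschitzWith_lin (e : V d) : LipschitzWith ‖e‖₊ (lin e) := by
  refine LipschitzWith.of_dist_le_mul fun x y => ?_
  unfold lin
  rw [Real.dist_eq, ← inner_sub_left, dist_eq_norm, coe_nnnorm, mul_comm]
  exact abs_real_inner_le_norm _ _

end LimBf

open LimBf in
/-- `Bf` passes to vague limits (fixed truncation, fixed Lipschitz functions). -/
theorem VagueTendsto.Bf_tendsto {d n : ℕ} {ι : Type*} {l : Filter ι} [l.NeBot] (hn : 1 ≤ n)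
    {C : ℝ} (hC : 0 ≤ C)
    {μ : ι → Measure (V d)} {ν : Measure (V d)}
    [∀ k, IsFiniteMeasureOnCompacts (μ k)] [IsFiniteMeasureOnCompacts ν]
    (h : VagueTendsto l μ ν) (hμ : ∀ᶠ k in l, UpperReg n C (μ k)) {N : ℝ} (hN : 0 < N)
    {u ψ : V d → ℝ} {L K : ℝ≥0} (hu : LipschitzWith L u) (hψ : LipschitzWith K ψ)
    (hc : HasCompactSupport ψ) :
    Tendsto (fun k => Bf n (μ k) N u ψ) l (𝓝 (Bf n ν N u ψ)) := by
  obtain ⟨R, hR⟩ := hc.isCompact.isBounded.subset_closedBall (0 : V d)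
  have hsupp : ∀ y, y ∉ closedBall (0 : V d) R → ψ y = 0 := fun y hy =>
    image_eq_zero_of_notMem_tsupport fun hy' => hy (hR hy')
  have hu' : ∀ x y, |u x - u y| ≤ L * dist x y := fun x y => by
    rw [← Real.dist_eq]; exact hu.dist_le_mul x y
  have hψ' : ∀ x y, |ψ x - ψ y| ≤ K * dist x y := fun x y => by
    rw [← Real.dist_eq]; exact hψ.dist_le_mul x y
  simp_rw [LimBf.Bf_eq]
  refine Tendsto.const_mul _ ?_
  refine h.prod_kernel (n := n) (m := n - 1) (by omega) hC hμ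
    (continuousOn_bI hu.continuous hψ.continuous) (bI_diag N u ψ)
    (K := closedBall (0 : V d) (R + 2 * N) ×ˢ closedBall (0 : V d) (R + 4 * N))
    ((isCompact_closedBall _ _).prod (isCompact_closedBall _ _))
    (bI_compact_support hN hsupp) (A := L * K) ?_
  intro p
  exact abs_bI_le hn L.2 K.2 hu' hψ' p

/-- the truncated Riesz form passes to vague limits -/
theorem VagueTendsto.Bf_lin_tendsto {d n : ℕ} {ι : Type*} {l : Filter ι} [l.NeBot] (hn : 1 ≤ n)
    {C : ℝ} (hC : 0 ≤ C)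
    {μ : ι → Measure (V d)} {ν : Measure (V d)}
    [∀ k, IsFiniteMeasureOnCompacts (μ k)] [IsFiniteMeasureOnCompacts ν]
    (h : VagueTendsto l μ ν) (hμ : ∀ᶠ k in l, UpperReg n C (μ k)) {N : ℝ} (hN : 0 < N)
    (e : V d) {ψ : V d → ℝ} (hψ : IsTest ψ) :
    Tendsto (fun k => Bf n (μ k) N (lin e) ψ) l (𝓝 (Bf n ν N (lin e) ψ)) := by
  obtain ⟨K, hK⟩ := hψ.lip
  exact h.Bf_tendsto hn hC hμ hN (LimBf.lipschitzWith_lin e) hK hψ.cpt

/-! ### versions for `WLim` -/

section WLimVersions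

variable {d n : ℕ} {ι : Type*}
variable {U : Ultrafilter ι} {μ : ι → Measure (V d)} {ν : Measure (V d)}

theorem WLim.Bf_tendsto (h : WLim U μ ν) (hn : 1 ≤ n) {C : ℝ} (hC : 0 ≤ C)
    (hμ : ∀ᶠ k in (U : Filter ι), UpperReg n C (μ k)) {N : ℝ} (hN : 0 < N)
    {u ψ : V d → ℝ} {L K : ℝ≥0} (hu : LipschitzWith L u) (hψ : LipschitzWith K ψ)
    (hc : HasCompactSupport ψ) :
    Tendsto (fun k => Bf n (μ k) N u ψ) (U : Filter ι) (𝓝 (Bf n ν N u ψ)) := by
  have := h.lfk
  have := h.lf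
  exact VagueTendsto.Bf_tendsto hn hC h.vague hμ hN hu hψ hc

theorem WLim.Bf_lin_tendsto (h : WLim U μ ν) (hn : 1 ≤ n) {C : ℝ} (hC : 0 ≤ C)
    (hμ : ∀ᶠ k in (U : Filter ι), UpperReg n C (μ k)) {N : ℝ} (hN : 0 < N)
    (e : V d) {ψ : V d → ℝ} (hψ : IsTest ψ) :
    Tendsto (fun k => Bf n (μ k) N (lin e) ψ) (U : Filter ι) (𝓝 (Bf n ν N (lin e) ψ)) := by
  have := h.lfk
  have := h.lf
  exact VagueTendsto.Bf_lin_tendsto hn hC h.vague hμ hN e hψ

theorem WLim.upperReg (h : WLim U μ ν) {C : ℝ}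
    (hμ : ∀ᶠ k in (U : Filter ι), UpperReg n C (μ k)) : UpperReg n C ν := by
  have := h.lfk
  have := h.lf
  exact VagueTendsto.upperReg h.vague hμ

/-- vector-valued test functions -/
theorem WLim.tendsto_vector {F : Type*} [NormedAddCommGroup F] [NormedSpace ℝ F]
    [FiniteDimensional ℝ F] (h : WLim U μ ν) {f : V d → F} (hf : Continuous f)
    (hc : HasCompactSupport f) :
    Tendsto (fun k => ∫ x, f x ∂μ k) (U : Filter ι) (𝓝 (∫ x, f x ∂ν)) := by
  have := h.lf
  exact VagueTendsto.vector h.unifLocBdd h.vague hf hc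

/-- test functions of two variables, product measures -/
theorem WLim.tendsto_prod {F : Type*} [NormedAddCommGroup F] [NormedSpace ℝ F]
    [FiniteDimensional ℝ F] (h : WLim U μ ν) {f : V d × V d → F} (hf : Continuous f)
    (hc : HasCompactSupport f) :
    Tendsto (fun k => ∫ p, f p ∂((μ k).prod (μ k))) (U : Filter ι) (𝓝 (∫ p, f p ∂(ν.prod ν))) := by
  have := h.lfk
  have := h.lf
  exact VagueTendsto.prod h.unifLocBdd h.unifLocBdd h.vague h.vague hf hc

/-- two-variable kernels, continuous off the diagonal with an integrable singularity -/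
theorem WLim.tendsto_kernel {F : Type*} [NormedAddCommGroup F] [NormedSpace ℝ F]
    [FiniteDimensional ℝ F] (h : WLim U μ ν) {m : ℕ} (hm : m < n) {C : ℝ} (hC : 0 ≤ C)
    (hμ : ∀ᶠ k in (U : Filter ι), UpperReg n C (μ k))
    {g : V d × V d → F} (hg : ContinuousOn g {p | p.1 ≠ p.2}) (hg0 : ∀ x, g (x, x) = 0)
    {K : Set (V d × V d)} (hK : IsCompact K) (h0 : ∀ p, p ∉ K → g p = 0) {A : ℝ}
    (hA : ∀ p : V d × V d, ‖g p‖ ≤ A * (dist p.1 p.2 ^ m)⁻¹) :
    Tendsto (fun k => ∫ p, g p ∂((μ k).prod (μ k))) (U : Filter ι) (𝓝 (∫ p, g p ∂(ν.prod ν))) := by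
  have := h.lfk
  have := h.lf
  exact VagueTendsto.prod_kernel hm hC h.vague hμ hg hg0 hK h0 hA

end WLimVersions

end Crest.Agent.R085
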