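import Crest.Agent.R085.Cacc

/-!
R085: tail estimate for the form `Bf` (dependence on the outer truncation `N`), for an upper
`n`-regular measure; integrability of the integrand of `Bf`.
-/

set_option autoImplicit false

namespace Crest.Agent.R085

open MeasureTheory Metric Set Filter
open scoped ENNReal NNReal Topology

variable {d : ℕ}

theorem IsTest.continuous {ψ : V d → ℝ} (h : IsTest ψ) : Continuous ψ := by
  obtain ⟨K, hK⟩ := h.lip
  exact hK.continuous

theorem IsTest.bounded {ψ : V d → ℝ} (h : IsTest ψ) : ∃ M : ℝ, 0 ≤ M ∧ ∀ y, |ψ y| ≤ M := by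
  obtain ⟨M, hM⟩ := h.cpt.exists_bound_of_continuous h.continuous
  exact ⟨M, (norm_nonneg _).trans (hM 0), hM⟩

theorem kN_abs_sub_le (n : ℕ) (N N' : ℝ) (z : V d) :
    |kN n N' z - kN n N z| ≤ (‖z‖ ^ (n + 1))⁻¹ := by
  have h1 := kN_nonneg n N z
  have h2 := kN_nonneg n N' z
  have h3 := kN_le n N z
  have h4 := kN_le n N' z
  rw [abs_le]
  constructor <;> linarith

theorem IsTest.supp_ball {ψ : V d → ℝ} (h : IsTest ψ) :
    ∃ R : ℝ, 0 < R ∧ ∀ y, y ∉ ball (0 : V d) R → ψ y = 0 := by
  obtain ⟨R, hR⟩ := h.cpt.isCompact.isBounded.subset_ball (0 : V d)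
  refine ⟨max R 1, lt_of_lt_of_le one_pos (le_max_right _ _), fun y hy => ?_⟩
  by_contra hne
  exact hy (ball_subset_ball (le_max_left _ _) (hR (subset_tsupport _ hne)))

/-- The integrand of `Bf` is integrable. -/
theorem integrable_Bf {n : ℕ} {C : ℝ} (hC : 0 ≤ C) (hn : 1 ≤ n) {μ : Measure (V d)}
    (hμ : UpperReg n C μ) {u : V d → ℝ} (hu : LocLip u) {ψ : V d → ℝ} (hψ : IsTest ψ)
    {N : ℝ} (hN : 0 < N) :
    Integrable (fun p : V d × V d => (u p.1 - u p.2) * (ψ p.1 - ψ p.2) * kN n N (p.1 - p.2))
      (μ.prod μ) := by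
  have hσ : SigmaFinite μ := hμ.sigmaFinite
  obtain ⟨R, hR, hs⟩ := hψ.supp_ball
  obtain ⟨K, hK⟩ := hψ.lip
  obtain ⟨L, hL0, hL⟩ := hu.ball 0 (R + 2 * N)
  have hum : Measurable u := hu.continuous.measurable
  have hψm : Measurable ψ := hψ.continuous.measurable
  have hkm : Measurable fun p : V d × V d => kN n N (p.1 - p.2) :=
    (measurable_kN n N).comp (measurable_fst.sub measurable_snd)
  refine integrable_of_near hμ hC hn 0 (by positivity : 0 < R + 2 * N)
    ((((hum.comp measurable_fst).sub (hum.comp measurable_snd)).mul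
      ((hψm.comp measurable_fst).sub (hψm.comp measurable_snd))).mul hkm)
    (M := L * K) (by positivity) ?_ ?_
  · intro p h1 h2
    rw [abs_mul, abs_mul, abs_of_nonneg (kN_nonneg _ _ _)]
    have e1 := hL _ h1 _ h2
    have e2 := hK.dist_le_mul p.1 p.2
    rw [Real.dist_eq] at e2
    calc |u p.1 - u p.2| * |ψ p.1 - ψ p.2| * kN n N (p.1 - p.2)
        ≤ (L * dist p.1 p.2) * (K * dist p.1 p.2) * kN n N (p.1 - p.2) := by
          gcongr
          exact kN_nonneg _ _ _
      _ = L * K * (‖p.1 - p.2‖ ^ 2 * kN n N (p.1 - p.2)) := by rw [dist_eq_norm]; ring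
      _ ≤ _ := by
          gcongr
          exact (mul_le_mul_of_nonneg_left (kN_le n N _) (by positivity)).trans
            (norm_sq_mul_inv_le n hn _)
  · intro p hp
    have key : (ψ p.1 = 0 ∧ ψ p.2 = 0) ∨ kN n N (p.1 - p.2) = 0 := by
      by_cases h1 : p.1 ∈ ball (0 : V d) R
      · right
        have h2 : ¬ (p.2 ∈ ball (0 : V d) (R + 2 * N)) :=
          fun h => hp ⟨ball_subset_ball (by linarith) h1, h⟩
        rw [mem_ball, not_lt] at h2
        rw [mem_ball] at h1
        refine kN_eq_zero hN ?_
        rw [← dist_eq_norm]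
        have := dist_triangle p.2 p.1 0
        rw [dist_comm p.2 p.1] at this
        linarith
      · by_cases h3 : p.2 ∈ ball (0 : V d) R
        · right
          have h2 : ¬ (p.1 ∈ ball (0 : V d) (R + 2 * N)) :=
            fun h => hp ⟨h, ball_subset_ball (by linarith) h3⟩
          rw [mem_ball, not_lt] at h2
          rw [mem_ball] at h3
          refine kN_eq_zero hN ?_
          rw [← dist_eq_norm]
          have := dist_triangle p.1 p.2 0
          linarith
        · exact Or.inl ⟨hs _ h1, hs _ h3⟩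
    rcases key with ⟨h1, h2⟩ | h
    · rw [h1, h2]; ring
    · rw [h, mul_zero]

theorem tail_aux {n : ℕ} {C : ℝ} (hC : 0 ≤ C) (hn : 1 ≤ n) {μ : Measure (V d)}
    (hμ : UpperReg n C μ) {u : V d → ℝ} (hu : LocLip u) {ψ : V d → ℝ} (hψ : IsTest ψ)
    (hz : ∫ y, ψ y ∂μ = 0) (x : V d) {R N N' a : ℝ} (hR : 0 < R)
    (hs : ∀ y, y ∉ ball x R → ψ y = 0) (hN : 8 * R ≤ N) (hNN : N ≤ N') :
    |Bf n μ N' u ψ - Bf n μ N u ψ| ≤ C * 2 ^ (n + 1) * (N⁻¹ * (∫ y, |ψ y| * |u y - a| ∂μ))
      + (n + 3) * 2 ^ (n + 3) * (R * (∫ y, |ψ y| ∂μ)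
        * farI n μ (fun y => u y - a) x (N / 2) (4 * N')) := by
  have hσ : SigmaFinite μ := hμ.sigmaFinite
  have hN0 : 0 < N := by linarith
  have hN'0 : 0 < N' := by linarith
  set w : V d → ℝ := fun y => u y - a with hwdef
  have hum : Measurable u := hu.continuous.measurable
  have hwm : Measurable w := hum.sub_const a
  have hψm : Measurable ψ := hψ.continuous.measurable
  obtain ⟨Mψ, hMψ0, hMψ⟩ := hψ.bounded
  obtain ⟨L, hL0, hL⟩ := hu.ball x (4 * N')
  obtain ⟨M, hM0, hM⟩ : ∃ M : ℝ, 0 ≤ M ∧ ∀ y ∈ ball x (4 * N'), |w y| ≤ M := by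
    refine ⟨|w x| + L * (4 * N'), by positivity, fun y hy => ?_⟩
    have h1 := hL y hy x (mem_ball_self (by positivity))
    have h2 : |w y| ≤ |w x| + |u y - u x| := by
      have : w y = w x + (u y - u x) := by simp only [hwdef]; ring
      rw [this]; exact abs_add_le _ _
    have h3 : L * dist y x ≤ L * (4 * N') := by
      gcongr
      exact (mem_ball.1 hy).le
    linarith
  set κ : V d → ℝ := fun z => kN n N' z - kN n N z with hκ
  have hκm : Measurable κ := (measurable_kN n N').sub (measurable_kN n N)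
  have hκp : Measurable fun p : V d × V d => κ (p.1 - p.2) :=
    hκm.comp (measurable_fst.sub measurable_snd)
  have hκ0 : ∀ z : V d, ‖z‖ ≤ N → κ z = 0 := by
    intro z hz
    simp only [hκ]
    rw [kN_eq hN0 hz, kN_eq hN'0 (hz.trans hNN), sub_self]
  have hκ1 : ∀ z : V d, 2 * N' ≤ ‖z‖ → κ z = 0 := by
    intro z hz
    simp only [hκ]
    rw [kN_eq_zero hN'0 hz, kN_eq_zero hN0 (by linarith), sub_self]
  have hκb : ∀ z : V d, |κ z| ≤ (‖z‖ ^ (n + 1))⁻¹ := fun z => kN_abs_sub_le n N N' z
  have hκb2 : ∀ z : V d, |κ z| ≤ (N ^ (n + 1))⁻¹ := by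
    intro z
    rcases le_or_gt ‖z‖ N with h | h
    · rw [hκ0 z h, abs_zero]; positivity
    · exact (hκb z).trans (by gcongr)
  have hκs : ∀ z : V d, κ (-z) = κ z := fun z => by simp only [hκ, kN_neg]
  set B : Set (V d) := ball x (4 * N') with hB
  set BB : Set (V d × V d) := B ×ˢ B with hBB
  have hBm : MeasurableSet B := measurableSet_ball
  have hBBm : MeasurableSet BB := hBm.prod hBm
  have hBBfin : (μ.prod μ) BB < ∞ := by
    rw [hBB, Measure.prod_prod]
    exact ENNReal.mul_lt_top (hμ.ball_lt_top _ _) (hμ.ball_lt_top _ _)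
  -- localisation of products `ψ p.1 * κ (p.1 - p.2)`
  have hloc : ∀ p : V d × V d, p ∉ BB → ψ p.1 * κ (p.1 - p.2) = 0 := by
    intro p hp
    by_cases h1 : p.1 ∈ ball x R
    · have h1' := mem_ball.1 h1
      have hp2 : p.2 ∉ B := fun h => hp ⟨ball_subset_ball (by linarith) h1, h⟩
      rw [hκ1, mul_zero]
      rw [← dist_eq_norm]
      have h3 : 4 * N' ≤ dist p.2 x := not_lt.1 (fun h => hp2 (mem_ball.2 h))
      have := dist_triangle p.2 p.1 x
      rw [dist_comm p.2 p.1] at this
      linarith
    · rw [hs _ h1, zero_mul]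
  set G1 : V d × V d → ℝ := fun p => w p.1 * (ψ p.1 * κ (p.1 - p.2)) with hG1
  set G2 : V d × V d → ℝ := fun p => w p.2 * (ψ p.1 * κ (p.1 - p.2)) with hG2
  have hψ1m : Measurable fun p : V d × V d => ψ p.1 := hψm.comp measurable_fst
  have hw1m : Measurable fun p : V d × V d => w p.1 := hwm.comp measurable_fst
  have hw2m : Measurable fun p : V d × V d => w p.2 := hwm.comp measurable_snd
  have hG1m : Measurable G1 := hw1m.mul (hψ1m.mul hκp)
  have hG2m : Measurable G2 := hw2m.mul (hψ1m.mul hκp)
  have hint : ∀ G : V d × V d → ℝ, Measurable G → (∀ p ∉ BB, G p = 0) →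
      (∀ p ∈ BB, |G p| ≤ M * (Mψ * (N ^ (n + 1))⁻¹)) → Integrable G (μ.prod μ) := by
    intro G hGm hG0 hGb
    have e : G = BB.indicator G := by
      ext p
      by_cases hp : p ∈ BB
      · rw [indicator_of_mem hp]
      · rw [indicator_of_notMem hp, hG0 p hp]
    rw [e, integrable_indicator_iff hBBm]
    refine Measure.integrableOn_of_bounded hBBfin.ne hGm.aestronglyMeasurable
      (M := M * (Mψ * (N ^ (n + 1))⁻¹)) ?_
    filter_upwards [ae_restrict_mem hBBm] with p hp
    exact hGb p hp
  have hG1i : Integrable G1 (μ.prod μ) := by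
    refine hint G1 hG1m (fun p hp => by simp only [hG1]; rw [hloc p hp, mul_zero]) (fun p hp => ?_)
    simp only [hG1]
    rw [abs_mul, abs_mul]
    gcongr
    · exact hM _ hp.1
    · exact hMψ _
    · exact hκb2 _
  have hG2i : Integrable G2 (μ.prod μ) := by
    refine hint G2 hG2m (fun p hp => by simp only [hG2]; rw [hloc p hp, mul_zero]) (fun p hp => ?_)
    simp only [hG2]
    rw [abs_mul, abs_mul]
    gcongr
    · exact hM _ hp.2
    · exact hMψ _
    · exact hκb2 _
  -- integrability of the two integrands of `Bf`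
  have hdiff : Bf n μ N' u ψ - Bf n μ N u ψ = (∫ p, G1 p ∂(μ.prod μ)) - ∫ p, G2 p ∂(μ.prod μ) := by
    unfold Bf
    rw [← mul_sub, ← integral_sub (integrable_Bf hC hn hμ hu hψ hN'0)
      (integrable_Bf hC hn hμ hu hψ hN0),
      ← integral_sub hG1i hG2i]
    have h1 : ∫ p : V d × V d, ((u p.1 - u p.2) * (ψ p.1 - ψ p.2) * kN n N' (p.1 - p.2)
        - (u p.1 - u p.2) * (ψ p.1 - ψ p.2) * kN n N (p.1 - p.2)) ∂(μ.prod μ)
        = ∫ p : V d × V d, ((G1 p - G2 p) + (G1 p.swap - G2 p.swap)) ∂(μ.prod μ) := by
      refine integral_congr_ae (Eventually.of_forall fun p => ?_)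
      simp only [hG1, hG2, hwdef, Prod.fst_swap, Prod.snd_swap]
      have : κ (p.2 - p.1) = κ (p.1 - p.2) := by rw [← hκs, neg_sub]
      rw [this]
      simp only [hκ]
      ring
    have hGi : Integrable (fun p : V d × V d => G1 p - G2 p) (μ.prod μ) := hG1i.sub hG2i
    have hGs : Integrable (fun p : V d × V d => G1 p.swap - G2 p.swap) (μ.prod μ) := hGi.swap
    rw [h1, integral_add hGi hGs, integral_prod_swap (f := fun p => G1 p - G2 p)]
    ring
  have hb1 : |∫ p, G1 p ∂(μ.prod μ)| ≤ C * 2 ^ (n + 1) * (N⁻¹ * (∫ y, |ψ y| * |u y - a| ∂μ)) := by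
    rw [integral_prod _ hG1i]
    have hκi : ∀ z : V d, Integrable (fun y => κ (z - y)) μ ∧
        ∫ y, |κ (z - y)| ∂μ ≤ C * 2 ^ (n + 1) / N ^ 1 := by
      intro z
      have h1 := integrableOn_tail hμ hC (m := 1) le_rfl z hN0
      have hTm : MeasurableSet {y : V d | N ≤ dist z y} :=
        measurableSet_le measurable_const (measurable_const.dist measurable_id)
      have e : (fun y => κ (z - y)) = {y : V d | N ≤ dist z y}.indicator (fun y => κ (z - y)) := by
        ext y
        by_cases hy : y ∈ {y : V d | N ≤ dist z y}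
        · rw [indicator_of_mem hy]
        · rw [indicator_of_notMem hy, hκ0]
          rw [← dist_eq_norm]
          exact (not_le.1 hy).le
      have hm : Measurable fun y => κ (z - y) := hκm.comp (measurable_const.sub measurable_id)
      have hi : IntegrableOn (fun y => κ (z - y)) {y : V d | N ≤ dist z y} μ := by
        refine h1.1.mono' hm.aestronglyMeasurable (Eventually.of_forall fun y => ?_)
        rw [Real.norm_eq_abs, dist_eq_norm]
        exact hκb _
      have hi' : Integrable (fun y => κ (z - y)) μ := by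
        rw [e, integrable_indicator_iff hTm]
        exact hi
      refine ⟨hi', ?_⟩
      have e2 : (fun y => |κ (z - y)|)
          = {y : V d | N ≤ dist z y}.indicator (fun y => |κ (z - y)|) := by
        ext y
        by_cases hy : y ∈ {y : V d | N ≤ dist z y}
        · rw [indicator_of_mem hy]
        · rw [indicator_of_notMem hy, hκ0, abs_zero]
          rw [← dist_eq_norm]
          exact (not_le.1 hy).le
      rw [e2, integral_indicator hTm]
      refine (integral_mono_ae hi.abs h1.1 (Eventually.of_forall fun y => ?_)).trans h1.2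
      simp only [dist_eq_norm]
      exact hκb _
    have hinner : ∀ z, |∫ y, G1 (z, y) ∂μ| ≤ |ψ z| * |w z| * (C * 2 ^ (n + 1) / N ^ 1) := by
      intro z
      have e1 : ∫ y, G1 (z, y) ∂μ = (w z * ψ z) * ∫ y, κ (z - y) ∂μ := by
        rw [← integral_const_mul]
        refine integral_congr_ae (Eventually.of_forall fun y => ?_)
        simp only [hG1]; ring
      rw [e1, abs_mul, abs_mul]
      have h2 : |∫ y, κ (z - y) ∂μ| ≤ ∫ y, |κ (z - y)| ∂μ := abs_integral_le_integral_abs
      calc |w z| * |ψ z| * |∫ y, κ (z - y) ∂μ| ≤ |w z| * |ψ z| * (C * 2 ^ (n + 1) / N ^ 1) := by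
            gcongr
            exact h2.trans (hκi z).2
        _ = _ := by ring
    have hψwi : Integrable (fun z => |ψ z| * |w z|) μ := by
      have e : (fun z => |ψ z| * |w z|) = (ball x R).indicator (fun z => |ψ z| * |w z|) := by
        ext y
        by_cases hy : y ∈ ball x R
        · rw [indicator_of_mem hy]
        · rw [indicator_of_notMem hy, hs y hy, abs_zero, zero_mul]
      rw [e, integrable_indicator_iff measurableSet_ball]
      refine Measure.integrableOn_of_bounded (M := Mψ * M) (hμ.ball_lt_top _ _).ne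
        (hψm.abs.mul hwm.abs).aestronglyMeasurable ?_
      filter_upwards [ae_restrict_mem measurableSet_ball] with y hy
      rw [Real.norm_eq_abs, abs_mul, abs_abs, abs_abs]
      gcongr
      · exact hMψ _
      · exact hM _ (ball_subset_ball (by linarith) hy)
    rw [← Real.norm_eq_abs]
    refine (norm_integral_le_of_norm_le (hψwi.mul_const (C * 2 ^ (n + 1) / N ^ 1))
      (Eventually.of_forall fun z => by rw [Real.norm_eq_abs]; exact hinner z)).trans ?_
    rw [integral_mul_const]
    refine le_of_eq ?_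
    simp only [hwdef, pow_one]
    field_simp
  have hb2 : |∫ p, G2 p ∂(μ.prod μ)| ≤ (n + 3) * 2 ^ (n + 3) * (R * (∫ y, |ψ y| ∂μ)
        * farI n μ (fun y => u y - a) x (N / 2) (4 * N')) := by
    rw [integral_prod_symm _ hG2i]
    set W : ℝ := ∫ y, |ψ y| ∂μ with hW
    set D : ℝ := (n + 3) * 2 ^ (n + 3) * (R * W) with hD
    have hW0 : 0 ≤ W := integral_nonneg fun y => abs_nonneg _
    have hD0 : 0 ≤ D := by positivity
    set P : Set (V d) := ball x (4 * N') \ ball x (N / 2) with hP
    have hPm : MeasurableSet P := measurableSet_ball.diff measurableSet_ball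
    have hψi : Integrable ψ μ := by
      have e : ψ = (ball x R).indicator ψ := by
        ext y
        by_cases hy : y ∈ ball x R
        · rw [indicator_of_mem hy]
        · rw [indicator_of_notMem hy, hs y hy]
      rw [e, integrable_indicator_iff measurableSet_ball]
      exact Measure.integrableOn_of_bounded (M := Mψ) (hμ.ball_lt_top _ _).ne
        hψm.aestronglyMeasurable (Eventually.of_forall fun y => hMψ y)
    have hinner : ∀ y, |∫ z, G2 (z, y) ∂μ|
        ≤ P.indicator (fun y => D * (|w y| * (dist y x ^ (n + 2))⁻¹)) y := by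
      intro y
      by_cases hyP : y ∈ P
      · rw [indicator_of_mem hyP]
        have hdy : N / 2 ≤ dist y x := not_lt.1 (fun h => hyP.2 (mem_ball.2 h))
        have hdy0 : 0 < dist y x := lt_of_lt_of_le (by positivity) hdy
        have hker : ∀ z ∈ ball x R, |κ (z - y) - κ (x - y)|
            ≤ (n + 3) * 2 ^ (n + 3) * R * (dist y x ^ (n + 2))⁻¹ := by
          intro z hz2
          have hz3 := mem_ball.1 hz2
          have hm : 0 < dist y x / 2 := by linarith
          have h1 : dist y x / 2 ≤ ‖z - y‖ := by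
            rw [← dist_eq_norm]
            have := dist_triangle y z x
            rw [dist_comm y z] at this
            linarith
          have h2 : dist y x / 2 ≤ ‖x - y‖ := by
            rw [← dist_eq_norm, dist_comm x y]; linarith
          have h3 : ‖(z - y) - (x - y)‖ ≤ R := by
            rw [sub_sub_sub_cancel_right, ← dist_eq_norm]; exact hz3.le
          have e1 := kN_diff (n := n) hN0 hm h1 h2
          have e2 := kN_diff (n := n) hN'0 hm h1 h2
          have e3 : |κ (z - y) - κ (x - y)| ≤ |kN n N' (z - y) - kN n N' (x - y)|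
              + |kN n N (z - y) - kN n N (x - y)| := by
            simp only [hκ]
            have : kN n N' (z - y) - kN n N (z - y) - (kN n N' (x - y) - kN n N (x - y))
              = (kN n N' (z - y) - kN n N' (x - y)) - (kN n N (z - y) - kN n N (x - y)) := by ring
            rw [this]
            exact abs_sub _ _
          calc |κ (z - y) - κ (x - y)|
              ≤ ((n : ℝ) + 3) * ‖(z - y) - (x - y)‖ * ((dist y x / 2) ^ (n + 2))⁻¹
                + ((n : ℝ) + 3) * ‖(z - y) - (x - y)‖ * ((dist y x / 2) ^ (n + 2))⁻¹ :=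
                e3.trans (add_le_add e2 e1)
            _ ≤ ((n : ℝ) + 3) * R * ((dist y x / 2) ^ (n + 2))⁻¹
                + ((n : ℝ) + 3) * R * ((dist y x / 2) ^ (n + 2))⁻¹ := by gcongr
            _ = (n + 3) * 2 ^ (n + 3) * R * (dist y x ^ (n + 2))⁻¹ := by
                rw [div_pow, inv_div]
                ring
        have hI1 : Integrable (fun z => ψ z * (κ (z - y) - κ (x - y))) μ := by
          refine (hψi.mul_const ((n + 3) * 2 ^ (n + 3) * R * (dist y x ^ (n + 2))⁻¹)).mono
            (hψm.mul ((hκm.comp (measurable_id.sub_const y)).sub_const _)).aestronglyMeasurable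
            (Eventually.of_forall fun z => ?_)
          rw [Real.norm_eq_abs, Real.norm_eq_abs, abs_mul, abs_mul]
          by_cases hz2 : z ∈ ball x R
          · exact mul_le_mul_of_nonneg_left ((hker z hz2).trans (le_abs_self _)) (abs_nonneg _)
          · rw [hs z hz2, abs_zero, zero_mul, zero_mul]
        have hI2 : Integrable (fun z => ψ z * κ (x - y)) μ := hψi.mul_const _
        have e2 : ∫ z, G2 (z, y) ∂μ = w y * ∫ z, ψ z * (κ (z - y) - κ (x - y)) ∂μ := by
          have e1 : ∀ z, G2 (z, y) = w y * (ψ z * (κ (z - y) - κ (x - y)) + ψ z * κ (x - y)) := by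
            intro z
            simp only [hG2]; ring
          simp only [e1]
          rw [integral_const_mul, integral_add hI1 hI2, integral_mul_const, hz]
          ring
        rw [e2, abs_mul]
        have h3 : |∫ z, ψ z * (κ (z - y) - κ (x - y)) ∂μ| ≤ D * (dist y x ^ (n + 2))⁻¹ := by
          rw [← Real.norm_eq_abs]
          refine (norm_integral_le_of_norm_le (g := fun z => |ψ z| *
            ((n + 3) * 2 ^ (n + 3) * R * (dist y x ^ (n + 2))⁻¹)) (hψi.abs.mul_const _) ?_).trans ?_
          · refine Eventually.of_forall fun z => ?_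
            rw [Real.norm_eq_abs, abs_mul]
            by_cases hz2 : z ∈ ball x R
            · gcongr
              exact hker z hz2
            · rw [hs z hz2, abs_zero, zero_mul, zero_mul]
          · rw [integral_mul_const]
            refine le_of_eq ?_
            simp only [hD, hW]
            ring
        calc |w y| * |∫ z, ψ z * (κ (z - y) - κ (x - y)) ∂μ|
            ≤ |w y| * (D * (dist y x ^ (n + 2))⁻¹) := by gcongr
          _ = _ := by ring
      · rw [indicator_of_notMem hyP]
        refine le_of_eq ?_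
        rw [abs_eq_zero]
        have : ∀ z, G2 (z, y) = 0 := by
          intro z
          simp only [hG2]
          by_cases hzR : z ∈ ball x R
          · have hzR' := mem_ball.1 hzR
            have : κ (z - y) = 0 := by
              by_cases h1 : y ∈ ball x (4 * N')
              · have h2 : y ∈ ball x (N / 2) := by
                  by_contra h
                  exact hyP ⟨h1, h⟩
                apply hκ0
                rw [← dist_eq_norm]
                have h3 := mem_ball.1 h2
                have := dist_triangle_right z y x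
                linarith
              · apply hκ1
                rw [mem_ball, not_lt] at h1
                rw [← dist_eq_norm]
                have := dist_triangle y z x
                rw [dist_comm y z] at this
                linarith
            rw [this]; ring
          · rw [hs z hzR]; ring
        simp only [this, integral_zero]
    have hPi : IntegrableOn (fun y => |w y| * (dist y x ^ (n + 2))⁻¹) P μ := by
      refine Measure.integrableOn_of_bounded (M := M * ((N / 2) ^ (n + 2))⁻¹)
        ((measure_mono sdiff_subset).trans_lt (hμ.ball_lt_top x (4 * N'))).ne ?_ ?_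
      · exact (hwm.abs.mul (((continuous_id.dist continuous_const).measurable.pow_const _).inv)).aestronglyMeasurable
      · filter_upwards [ae_restrict_mem hPm] with y hy
        rw [Real.norm_eq_abs, abs_of_nonneg (by positivity)]
        have h1 : N / 2 ≤ dist y x := not_lt.1 (fun h => hy.2 (mem_ball.2 h))
        gcongr
        exact hM _ hy.1
    rw [← Real.norm_eq_abs]
    refine (norm_integral_le_of_norm_le (g := P.indicator (fun y => D * (|w y| * (dist y x ^ (n + 2))⁻¹)))
      ?_ (Eventually.of_forall fun y => by rw [Real.norm_eq_abs]; exact hinner y)).trans ?_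
    · rw [integrable_indicator_iff hPm]
      exact hPi.const_mul _
    · rw [integral_indicator hPm, integral_const_mul]
      refine le_of_eq ?_
      simp only [hD, farI, hwdef, hP]
      ring
  rw [hdiff]
  exact (abs_sub _ _).trans (add_le_add hb1 hb2)


theorem tail (n d : ℕ) (C : ℝ) (hC : 0 ≤ C) (hn : 1 ≤ n) :
    ∃ K : ℝ, 0 < K ∧ ∀ (μ : Measure (V d)), UpperReg n C μ → ∀ u : V d → ℝ, LocLip u →
      ∀ ψ : V d → ℝ, IsTest ψ → ∫ y, ψ y ∂μ = 0 →
      ∀ (x : V d) (R N N' a : ℝ), 0 < R → (∀ y, y ∉ ball x R → ψ y = 0) → 8 * R ≤ N → N ≤ N' →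
      |Bf n μ N' u ψ - Bf n μ N u ψ| ≤ K * (N⁻¹ * (∫ y, |ψ y| * |u y - a| ∂μ)
          + R * (∫ y, |ψ y| ∂μ) * farI n μ (fun y => u y - a) x (N / 2) (4 * N')) := by
  refine ⟨C * 2 ^ (n + 1) + (n + 3) * 2 ^ (n + 3), by positivity, ?_⟩
  intro μ hμ u hu ψ hψ hz x R N N' a hR hs hN hNN
  refine (tail_aux (a := a) hC hn hμ hu hψ hz x hR hs hN hNN).trans ?_
  have h1 : 0 ≤ N⁻¹ * (∫ y, |ψ y| * |u y - a| ∂μ) :=
    mul_nonneg (inv_nonneg.2 (by linarith)) (integral_nonneg fun y => by positivity)
  have h2 : 0 ≤ R * (∫ y, |ψ y| ∂μ) * farI n μ (fun y => u y - a) x (N / 2) (4 * N') :=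
    mul_nonneg (mul_nonneg hR.le (integral_nonneg fun y => abs_nonneg _))
      (integral_nonneg fun y => by positivity)
  have h3 : 0 ≤ C * 2 ^ (n + 1) := by positivity
  have h4 : (0 : ℝ) ≤ (n + 3) * 2 ^ (n + 3) := by positivity
  nlinarith [mul_nonneg h3 h2, mul_nonneg h4 h1]

end Crest.Agent.R085
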