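import Crest.Agent.R085.AdrInt

/-!
Row 85: integrability versions of the kernel estimates, Poincaré inequality for the `H^{1/2}` energy,
and the coercive algebraic identity.
-/

set_option autoImplicit false
set_option linter.unusedSectionVars false

open MeasureTheory Metric Set
open scoped ENNReal NNReal

noncomputable section

namespace Crest.Agent.R085

section Integrable

variable {X : Type*} [MeasurableSpace X]

/-- A nonnegative function with finite lower integral is integrable, with the same bound. -/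
theorem integrable_and_integral_le_of_lintegral {ν : Measure X} {f : X → ℝ}
    (hf : AEStronglyMeasurable f ν) (h0 : ∀ x, 0 ≤ f x) {B : ℝ} (hB : 0 ≤ B)
    (h : ∫⁻ y, ENNReal.ofReal (f y) ∂ν ≤ ENNReal.ofReal B) :
    Integrable f ν ∧ ∫ y, f y ∂ν ≤ B := by
  have hfin : ∫⁻ y, ENNReal.ofReal (f y) ∂ν < ∞ := lt_of_le_of_lt h ENNReal.ofReal_lt_top
  have hint : Integrable f ν := by
    refine ⟨hf, ?_⟩
    rw [hasFiniteIntegral_iff_ofReal (Filter.Eventually.of_forall h0)]
    exact hfin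
  refine ⟨hint, ?_⟩
  rw [integral_eq_lintegral_of_nonneg_ae (Filter.Eventually.of_forall h0) hf]
  exact ENNReal.toReal_le_of_le_ofReal hB h

end Integrable

section Kernels

variable {X : Type*} [PseudoMetricSpace X] [MeasurableSpace X] [OpensMeasurableSpace X]

theorem measurable_dist_pow_inv (x : X) (k : ℕ) :
    Measurable fun y : X => ((dist x y) ^ k)⁻¹ :=
  ((continuous_const.dist continuous_id).measurable.pow_const k).inv

theorem measurable_dist_rpow (x : X) (s : ℝ) :
    Measurable fun y : X => (dist x y) ^ s :=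
  (continuous_const.dist continuous_id).measurable.pow_const s

theorem integrableOn_tail {n : ℕ} {C : ℝ} {μ : Measure X} (hμ : UpperReg n C μ) (hC : 0 ≤ C)
    {m : ℕ} (hm : 1 ≤ m) (x : X) {r : ℝ} (hr : 0 < r) :
    IntegrableOn (fun y => ((dist x y) ^ (n + m))⁻¹) {y | r ≤ dist x y} μ ∧
      ∫ y in {y | r ≤ dist x y}, ((dist x y) ^ (n + m))⁻¹ ∂μ ≤ C * 2 ^ (n + 1) / r ^ m :=
  integrable_and_integral_le_of_lintegral (measurable_dist_pow_inv x _).aestronglyMeasurable
    (fun y => by positivity) (by positivity) (lintegral_tail hμ hC hm x hr)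

theorem integrableOn_near {n : ℕ} {C : ℝ} {μ : Measure X} (hμ : UpperReg n C μ) (hC : 0 ≤ C)
    {k : ℕ} (hk : k < n) (x : X) {r : ℝ} (hr : 0 < r) :
    IntegrableOn (fun y => ((dist x y) ^ k)⁻¹) (closedBall x r) μ ∧
      ∫ y in closedBall x r, ((dist x y) ^ k)⁻¹ ∂μ ≤ C * 4 ^ n * r ^ (n - k) :=
  integrable_and_integral_le_of_lintegral (measurable_dist_pow_inv x _).aestronglyMeasurable
    (fun y => by positivity) (by positivity) (lintegral_near hμ hC hk x hr)

theorem integrableOn_tail_rpow {n : ℕ} {C : ℝ} {μ : Measure X} (hμ : UpperReg n C μ)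
    (hC : 0 ≤ C) {s : ℝ} (hs : (n : ℝ) < s) (x : X) {r : ℝ} (hr : 0 < r) :
    IntegrableOn (fun y => (dist x y) ^ (-s)) {y | r ≤ dist x y} μ ∧
      ∫ y in {y | r ≤ dist x y}, (dist x y) ^ (-s) ∂μ
        ≤ C * 2 ^ n / (1 - 2 ^ ((n : ℝ) - s)) * r ^ ((n : ℝ) - s) := by
  have hq1 : (2 : ℝ) ^ ((n : ℝ) - s) < 1 :=
    Real.rpow_lt_one_of_one_lt_of_neg (by norm_num) (by linarith)
  have h1 : 0 < 1 - (2 : ℝ) ^ ((n : ℝ) - s) := by linarith
  exact integrable_and_integral_le_of_lintegral (measurable_dist_rpow x _).aestronglyMeasurable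
    (fun y => Real.rpow_nonneg dist_nonneg _) (by positivity) (lintegral_tail_rpow hμ hC hs x hr)

theorem integrableOn_near_rpow {n : ℕ} {C : ℝ} {μ : Measure X} (hμ : UpperReg n C μ)
    (hC : 0 ≤ C) {s : ℝ} (hs0 : 0 ≤ s) (hs : s < (n : ℝ)) (x : X) {r : ℝ} (hr : 0 < r) :
    IntegrableOn (fun y => (dist x y) ^ (-s)) (closedBall x r) μ ∧
      ∫ y in closedBall x r, (dist x y) ^ (-s) ∂μ
        ≤ C * 2 ^ n * 2 ^ s / (1 - 2 ^ (s - (n : ℝ))) * r ^ ((n : ℝ) - s) := by
  have hq1 : (2 : ℝ) ^ (s - (n : ℝ)) < 1 :=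
    Real.rpow_lt_one_of_one_lt_of_neg (by norm_num) (by linarith)
  have h1 : 0 < 1 - (2 : ℝ) ^ (s - (n : ℝ)) := by linarith
  exact integrable_and_integral_le_of_lintegral (measurable_dist_rpow x _).aestronglyMeasurable
    (fun y => Real.rpow_nonneg dist_nonneg _) (by positivity)
    (lintegral_near_rpow hμ hC hs0 hs x hr)

end Kernels

section Poincare

variable {X : Type*} [MetricSpace X] [MeasurableSpace X] [BorelSpace X]
  [SecondCountableTopology X]
variable {V : Type*} [NormedAddCommGroup V] [MeasurableSpace V] [BorelSpace V]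
  [SecondCountableTopology V]

/-- There is a point `y` of `B` such that `f y` approximates `f` on `B` in mean square by the
average of the double integral of `‖f x - f y‖ ^ 2`. -/
theorem exists_mem_lintegral_sq_sub_le {μ : Measure X} [SFinite μ] {B : Set X}
    (hB0 : μ B ≠ 0) (hB1 : μ B ≠ ∞) {f : X → V} (hf : Measurable f) :
    ∃ y ∈ B, ∫⁻ x in B, ENNReal.ofReal (‖f x - f y‖ ^ 2) ∂μ
      ≤ (μ B)⁻¹ * ∫⁻ y in B, ∫⁻ x in B, ENNReal.ofReal (‖f x - f y‖ ^ 2) ∂μ ∂μ := by
  have hm : Measurable (fun p : X × X => ENNReal.ofReal (‖f p.2 - f p.1‖ ^ 2)) := by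
    have h1 : Measurable fun p : X × X => f p.2 - f p.1 :=
      (hf.comp measurable_snd).sub (hf.comp measurable_fst)
    exact (h1.norm.pow_const 2).ennreal_ofReal
  have hmeas : Measurable fun y => ∫⁻ x in B, ENNReal.ofReal (‖f x - f y‖ ^ 2) ∂μ :=
    Measurable.lintegral_prod_right' (ν := μ.restrict B) hm
  obtain ⟨y, hy, hle⟩ := exists_le_setLAverage hB0 hB1 hmeas.aemeasurable
  refine ⟨y, hy, hle.trans (le_of_eq ?_)⟩
  rw [setLAverage_eq, ENNReal.div_eq_inv_mul]

/-- Poincaré inequality for the `H^{1/2}` energy on a set of diameter at most `D`. -/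
theorem exists_mem_lintegral_sq_sub_le_energy {μ : Measure X} [SFinite μ] {B : Set X}
    (hB0 : μ B ≠ 0) (hB1 : μ B ≠ ∞) (hBm : MeasurableSet B) {f : X → V} (hf : Measurable f)
    (n : ℕ) {D : ℝ} (hD : ∀ x ∈ B, ∀ y ∈ B, dist x y ≤ D) :
    ∃ y ∈ B, ∫⁻ x in B, ENNReal.ofReal (‖f x - f y‖ ^ 2) ∂μ
      ≤ (μ B)⁻¹ * ENNReal.ofReal (D ^ (n + 1)) *
        ∫⁻ y in B, ∫⁻ x in B, ENNReal.ofReal (‖f x - f y‖ ^ 2 / (dist x y) ^ (n + 1)) ∂μ ∂μ := by
  obtain ⟨y, hy, hle⟩ := exists_mem_lintegral_sq_sub_le hB0 hB1 hf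
  refine ⟨y, hy, hle.trans ?_⟩
  rw [mul_assoc]
  gcongr
  rw [← lintegral_const_mul' _ _ ENNReal.ofReal_ne_top]
  apply setLIntegral_mono' hBm
  intro z hz
  rw [← lintegral_const_mul' _ _ ENNReal.ofReal_ne_top]
  apply setLIntegral_mono' hBm
  intro x hx
  have hD0 : 0 ≤ D := dist_nonneg.trans (hD x hx z hz)
  rw [← ENNReal.ofReal_mul (by positivity)]
  apply ENNReal.ofReal_le_ofReal
  rcases eq_or_ne x z with rfl | hne
  · simp
  · have hpos : 0 < dist x z := dist_pos.2 hne
    rw [mul_div_assoc', le_div_iff₀ (by positivity), mul_comm]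
    gcongr
    exact hD x hx z hz

end Poincare

section Identity

variable {V : Type*} [NormedAddCommGroup V] [InnerProductSpace ℝ V]

/-- The algebraic identity behind the Caccioppoli inequality. -/
theorem inner_sq_smul_sub (a b : V) (p q : ℝ) :
    inner ℝ (p ^ 2 • a - q ^ 2 • b) (a - b)
      = ‖p • a - q • b‖ ^ 2 - (p - q) ^ 2 * inner ℝ a b := by
  rw [← real_inner_self_eq_norm_sq]
  simp only [inner_sub_left, inner_sub_right, real_inner_smul_left, real_inner_smul_right]
  rw [real_inner_comm a b]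
  ring

end Identity

end Crest.Agent.R085
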