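import Crest.Agent.R085.Defs
import Crest.Agent.R085.LimW
import Crest.Agent.R085.AdrInt2

/-!
# R085, module M3: AD regularity and weak limits
-/

set_option autoImplicit false
set_option linter.unusedSectionVars false

open MeasureTheory Filter Topology Metric Set
open scoped ENNReal NNReal

namespace Crest.Agent.R085

variable {ι : Type*} {d n : ℕ} {C : ℝ} {D : ℝ≥0∞} {μ : Measure (V d)}

namespace ADR

theorem nonneg (h : ADR n C D μ) : 0 ≤ C := le_trans zero_le_one h.one_le

theorem pos (h : ADR n C D μ) : 0 < C := lt_of_lt_of_le zero_lt_one h.one_le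

theorem upperReg (h : ADR n C D μ) : UpperReg n C μ := h.upper

theorem ball_lt_top (h : ADR n C D μ) (x : V d) (r : ℝ) : μ (ball x r) < ∞ := by
  rcases lt_or_ge 0 r with hr | hr
  · exact (h.upper x r hr).trans_lt ENNReal.ofReal_lt_top
  · rw [ball_eq_empty.2 hr]; simp

theorem isLocallyFiniteMeasure (h : ADR n C D μ) : IsLocallyFiniteMeasure μ :=
  ⟨fun x => ⟨ball x 1, ball_mem_nhds x one_pos, h.ball_lt_top x 1⟩⟩

theorem mono (h : ADR n C D μ) {C' : ℝ} (hC : C ≤ C') {D' : ℝ≥0∞} (hD : D' ≤ D) :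
    ADR n C' D' μ where
  one_le := h.one_le.trans hC
  upper x r hr := (h.upper x r hr).trans
    (ENNReal.ofReal_le_ofReal (mul_le_mul_of_nonneg_right hC (by positivity)))
  lower x hx r hr hrD := by
    refine le_trans (ENNReal.ofReal_le_ofReal ?_) (h.lower x hx r hr (hrD.trans hD))
    have := h.pos
    gcongr

/-- upper bound for closed balls -/
theorem upper_closedBall (h : ADR n C D μ) (x : V d) {r : ℝ} (hr : 0 ≤ r) :
    μ (closedBall x r) ≤ ENNReal.ofReal (C * r ^ n) := by
  have h1 : Tendsto (fun s : ℝ => ENNReal.ofReal (C * s ^ n)) (𝓝[>] r)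
      (𝓝 (ENNReal.ofReal (C * r ^ n))) := by
    refine Tendsto.mono_left (Continuous.tendsto ?_ r) nhdsWithin_le_nhds
    exact ENNReal.continuous_ofReal.comp (by fun_prop)
  refine ge_of_tendsto h1 ?_
  filter_upwards [self_mem_nhdsWithin] with s hs
  exact (measure_mono (closedBall_subset_ball hs)).trans (h.upper x s (hr.trans_lt hs))

theorem real_ball_le (h : ADR n C D μ) (x : V d) {r : ℝ} (hr : 0 < r) :
    μ.real (ball x r) ≤ C * r ^ n := by
  rw [measureReal_def]
  exact ENNReal.toReal_le_of_le_ofReal (by have := h.pos; positivity) (h.upper x r hr)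

theorem real_closedBall_le (h : ADR n C D μ) (x : V d) {r : ℝ} (hr : 0 ≤ r) :
    μ.real (closedBall x r) ≤ C * r ^ n := by
  rw [measureReal_def]
  exact ENNReal.toReal_le_of_le_ofReal (by have := h.pos; positivity) (h.upper_closedBall x hr)

theorem le_real_ball (h : ADR n C D μ) {x : V d} (hx : x ∈ μ.support) {r : ℝ} (hr : 0 < r)
    (hrD : ENNReal.ofReal r ≤ D) : C⁻¹ * r ^ n ≤ μ.real (ball x r) := by
  rw [measureReal_def]
  exact (ENNReal.ofReal_le_iff_le_toReal (h.ball_lt_top x r).ne).1 (h.lower x hx r hr hrD)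

/-- no atoms if `1 ≤ n` -/
theorem singleton (h : ADR n C D μ) (hn : 1 ≤ n) (x : V d) : μ {x} = 0 := by
  have h1 := h.upper_closedBall x le_rfl
  rw [zero_pow (by omega), mul_zero, ENNReal.ofReal_zero] at h1
  rw [closedBall_zero] at h1
  exact le_antisymm h1 bot_le

end ADR

/-- Sequences of AD regular measures are uniformly locally bounded. -/
theorem bdd_of_adr {U : Ultrafilter ι} {m : ι → Measure (V d)} {D : ι → ℝ≥0∞}
    (hA : ∀ᶠ k in (U : Filter ι), ADR n C (D k) (m k)) (R : ℝ) :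
    ∃ C' : ℝ, ∀ᶠ k in (U : Filter ι), m k (closedBall 0 R) ≤ ENNReal.ofReal C' := by
  refine ⟨C * (max R 0) ^ n, ?_⟩
  filter_upwards [hA] with k hk
  exact (measure_mono (closedBall_subset_closedBall (le_max_left _ _))).trans
    (hk.upper_closedBall 0 (le_max_right _ _))

/-- AD regularity passes to weak limits. -/
theorem WLim.adr {U : Ultrafilter ι} {m : ι → Measure (V d)} {ν : Measure (V d)}
    (h : WLim U m ν) {D : ι → ℝ≥0∞} {D0 : ℝ≥0∞}
    (hA : ∀ᶠ k in (U : Filter ι), ADR n C (D k) (m k))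
    (hD : ∀ s : ℝ, ENNReal.ofReal s < D0 → ∀ᶠ k in (U : Filter ι), ENNReal.ofReal s ≤ D k) :
    ADR n C D0 ν := by
  obtain ⟨k0, hk0⟩ := hA.exists
  refine ⟨hk0.one_le, fun x r hr => ?_, fun x hx r hr hrD => ?_⟩
  · refine h.open_le isOpen_ball ?_
    filter_upwards [hA] with k hk using hk.upper x r hr
  · obtain ⟨y, hy1, hy2⟩ := h.exists_tendsto_support hx
    have h1 : Tendsto (fun s : ℝ => ENNReal.ofReal (C⁻¹ * s ^ n)) (𝓝[<] r)
        (𝓝 (ENNReal.ofReal (C⁻¹ * r ^ n))) := by
      refine Tendsto.mono_left (Continuous.tendsto ?_ r) nhdsWithin_le_nhds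
      exact ENNReal.continuous_ofReal.comp (by fun_prop)
    refine le_of_tendsto h1 ?_
    filter_upwards [Ioo_mem_nhdsLT hr] with s hs
    have hsD : ENNReal.ofReal s < D0 :=
      lt_of_lt_of_le ((ENNReal.ofReal_lt_ofReal_iff hr).2 hs.2) hrD
    refine le_trans ?_ (measure_mono (closedBall_subset_ball hs.2))
    refine h.le_closedBall hy2 (tendsto_const_nhds (x := s)) ?_
    filter_upwards [hA, hD s hsD, hy1] with k hk1 hk2 hk3
    exact (hk1.lower _ hk3 s hs.1 hk2).trans (measure_mono ball_subset_closedBall)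

/-- Existence of AD regular weak limits along an ultrafilter. -/
theorem exists_wLim_adr (U : Ultrafilter ι) (m : ι → Measure (V d)) {D : ι → ℝ≥0∞} {D0 : ℝ≥0∞}
    (hA : ∀ k, ADR n C (D k) (m k))
    (hD : ∀ s : ℝ, ENNReal.ofReal s < D0 → ∀ᶠ k in (U : Filter ι), ENNReal.ofReal s ≤ D k) :
    ∃ ν : Measure (V d), WLim U m ν ∧ ADR n C D0 ν := by
  obtain ⟨ν, hν⟩ := exists_wLim U m (fun k => (hA k).isLocallyFiniteMeasure)
    (fun R => bdd_of_adr (Eventually.of_forall hA) R)
  exact ⟨ν, hν, hν.adr (Eventually.of_forall hA) hD⟩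

/-- Limits of points of the supports are in the support of the limit. -/
theorem WLim.mem_support_adr {U : Ultrafilter ι} {m : ι → Measure (V d)} {ν : Measure (V d)}
    (h : WLim U m ν) {D : ι → ℝ≥0∞} (hA : ∀ᶠ k in (U : Filter ι), ADR n C (D k) (m k))
    {s0 : ℝ} (hs0 : 0 < s0) (hD : ∀ᶠ k in (U : Filter ι), ENNReal.ofReal s0 ≤ D k)
    {x : ι → V d} {x0 : V d} (hx : Tendsto x (U : Filter ι) (𝓝 x0))
    (hxs : ∀ᶠ k in (U : Filter ι), x k ∈ (m k).support) : x0 ∈ ν.support := by
  obtain ⟨k0, hk0⟩ := hA.exists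
  have hC := hk0.pos
  refine h.mem_support_of_tendsto hx (c := fun r => ENNReal.ofReal (C⁻¹ * (min r s0) ^ n)) ?_ ?_
  · intro r hr
    have : 0 < min r s0 := lt_min hr hs0
    exact ENNReal.ofReal_pos.2 (by positivity)
  · intro r hr
    have hmin : 0 < min r s0 := lt_min hr hs0
    filter_upwards [hA, hD, hxs] with k hk1 hk2 hk3
    refine (hk1.lower _ hk3 (min r s0) hmin
      ((ENNReal.ofReal_le_ofReal (min_le_right _ _)).trans hk2)).trans (measure_mono ?_)
    exact ball_subset_closedBall.trans (closedBall_subset_closedBall (min_le_left _ _))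

end Crest.Agent.R085
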