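import Crest.Agent.R085.CutBasic
import Crest.Agent.R085.Lim2

/-!
Row 85, module M4: kernel estimates, integrability of the integrand of `Bf`.
-/

set_option autoImplicit false

namespace Crest.Agent.R085.Touch

open MeasureTheory Metric Set Filter
open scoped ENNReal NNReal Topology

/-! ### the kernel -/

variable {d n : ℕ}

theorem tendsto_kN (z : V d) : Tendsto (fun N : ℝ => kN n N z) atTop (𝓝 ((‖z‖ ^ (n + 1))⁻¹)) := by
  apply tendsto_const_nhds.congr'
  filter_upwards [eventually_ge_atTop ‖z‖, eventually_gt_atTop 0] with N hN hN0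
  rw [kN_eq hN0 hN]

theorem abs_inner_mul_kN_le (N : ℝ) (e z : V d) (he : ‖e‖ ≤ 1) :
    |inner ℝ z e * kN n N z| ≤ (‖z‖ ^ n)⁻¹ := by
  rw [abs_mul, abs_of_nonneg (kN_nonneg n N z)]
  rcases eq_or_ne z 0 with rfl | hz
  · simp
  have hz' : 0 < ‖z‖ := norm_pos_iff.2 hz
  have h1 : |inner ℝ z e| ≤ ‖z‖ := by
    calc |inner ℝ z e| ≤ ‖z‖ * ‖e‖ := abs_real_inner_le_norm z e
      _ ≤ ‖z‖ * 1 := by gcongr
      _ = ‖z‖ := mul_one _
  calc |inner ℝ z e| * kN n N z ≤ ‖z‖ * (‖z‖ ^ (n + 1))⁻¹ := by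
        gcongr
        · exact kN_nonneg _ _ _
        · exact kN_le _ _ _
    _ = (‖z‖ ^ n)⁻¹ := by
        rw [pow_succ]; field_simp

/-- Kernel difference estimate (ordered version). -/
theorem kN_smul_sub_le_aux {N : ℝ} (hN : 0 < N) {u v : V d} (hu : u ≠ 0) (huv : ‖u‖ ≤ ‖v‖) :
    ‖kN n N u • u - kN n N v • v‖ ≤ (n + 4) * ‖u - v‖ / ‖u‖ ^ (n + 1) := by
  have hs : 0 < ‖u‖ := norm_pos_iff.2 hu
  have ht : 0 < ‖v‖ := hs.trans_le huv
  set s := ‖u‖ with hsdef
  set t := ‖v‖ with htdef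
  have hst : t - s ≤ ‖u - v‖ := by
    rw [norm_sub_rev]; exact norm_sub_norm_le v u
  have hD : 0 ≤ ‖u - v‖ := norm_nonneg _
  -- difference of the cut-offs
  have hcut : |cut (s / N) - cut (t / N)| ≤ 2 * ‖u - v‖ / s := by
    rcases le_or_gt (2 * N) s with h | h
    · have h1 : cut (s / N) = 0 := cut_of_ge (by rwa [le_div_iff₀ hN])
      have h2 : cut (t / N) = 0 := cut_of_ge (by rw [le_div_iff₀ hN]; linarith)
      rw [h1, h2, sub_zero, abs_zero]; positivity
    · calc |cut (s / N) - cut (t / N)| ≤ |s / N - t / N| := cut_lip _ _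
        _ = (t - s) / N := by
            rw [← sub_div, abs_div, abs_of_pos hN, abs_sub_comm, abs_of_nonneg (by linarith)]
        _ ≤ ‖u - v‖ / N := by gcongr
        _ ≤ 2 * ‖u - v‖ / s := by
            rw [div_le_div_iff₀ hN hs]
            nlinarith
  -- difference of powers
  have hpow : (s ^ (n + 1))⁻¹ - (t ^ (n + 1))⁻¹ ≤ (n + 1) * ‖u - v‖ / (s * s ^ (n + 1)) := by
    have hb : 1 + ((n + 1 : ℕ) : ℝ) * (s / t - 1) ≤ (1 + (s / t - 1)) ^ (n + 1) := by
      apply one_add_mul_le_pow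
      have : 0 < s / t := by positivity
      linarith
    have e1 : (1 + (s / t - 1)) ^ (n + 1) = s ^ (n + 1) * (t ^ (n + 1))⁻¹ := by
      rw [add_sub_cancel, div_pow, div_eq_mul_inv]
    rw [e1] at hb
    have e2 : (s ^ (n + 1))⁻¹ - (t ^ (n + 1))⁻¹
        = (1 - s ^ (n + 1) * (t ^ (n + 1))⁻¹) * (s ^ (n + 1))⁻¹ := by
      have : s ^ (n + 1) ≠ 0 := by positivity
      field_simp
    have h3 : 1 - s ^ (n + 1) * (t ^ (n + 1))⁻¹ ≤ (n + 1) * ‖u - v‖ / s := by
      have h4 : 1 - s ^ (n + 1) * (t ^ (n + 1))⁻¹ ≤ ((n : ℝ) + 1) * ((t - s) / t) := by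
        have e5 : (t - s) / t = 1 - s / t := by field_simp
        rw [e5]
        push_cast at hb
        linarith
      have h6 : (t - s) / t ≤ ‖u - v‖ / s := by
        gcongr
      calc 1 - s ^ (n + 1) * (t ^ (n + 1))⁻¹ ≤ ((n : ℝ) + 1) * ((t - s) / t) := h4
        _ ≤ ((n : ℝ) + 1) * (‖u - v‖ / s) := by gcongr
        _ = _ := by ring
    rw [e2]
    calc (1 - s ^ (n + 1) * (t ^ (n + 1))⁻¹) * (s ^ (n + 1))⁻¹
        ≤ ((n + 1) * ‖u - v‖ / s) * (s ^ (n + 1))⁻¹ := by gcongr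
      _ = (n + 1) * ‖u - v‖ / (s * s ^ (n + 1)) := by field_simp
  have hpow0 : (t ^ (n + 1))⁻¹ ≤ (s ^ (n + 1))⁻¹ := by
    apply inv_anti₀ (by positivity)
    gcongr
  have hk : |kN n N u - kN n N v| ≤ (n + 3) * ‖u - v‖ / (s * s ^ (n + 1)) := by
    have e : kN n N u - kN n N v = (cut (s / N) - cut (t / N)) * (s ^ (n + 1))⁻¹
        + cut (t / N) * ((s ^ (n + 1))⁻¹ - (t ^ (n + 1))⁻¹) := by
      unfold kN; rw [← hsdef, ← htdef]; ring
    rw [e]
    calc |(cut (s / N) - cut (t / N)) * (s ^ (n + 1))⁻¹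
        + cut (t / N) * ((s ^ (n + 1))⁻¹ - (t ^ (n + 1))⁻¹)|
        ≤ |(cut (s / N) - cut (t / N)) * (s ^ (n + 1))⁻¹|
          + |cut (t / N) * ((s ^ (n + 1))⁻¹ - (t ^ (n + 1))⁻¹)| := abs_add_le _ _
      _ ≤ (2 * ‖u - v‖ / s) * (s ^ (n + 1))⁻¹ + 1 * ((n + 1) * ‖u - v‖ / (s * s ^ (n + 1))) := by
          rw [abs_mul, abs_mul, abs_of_nonneg (by positivity : 0 ≤ (s ^ (n + 1))⁻¹),
            abs_of_nonneg (cut_nonneg _), abs_of_nonneg (by linarith : 0 ≤ (s ^ (n + 1))⁻¹ - (t ^ (n + 1))⁻¹)]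
          gcongr
          exact cut_le_one _
      _ = (n + 3) * ‖u - v‖ / (s * s ^ (n + 1)) := by
          field_simp; ring
  have e0 : kN n N u • u - kN n N v • v = kN n N v • (u - v) + (kN n N u - kN n N v) • u := by
    rw [smul_sub, sub_smul]; abel
  rw [e0]
  calc ‖kN n N v • (u - v) + (kN n N u - kN n N v) • u‖
      ≤ ‖kN n N v • (u - v)‖ + ‖(kN n N u - kN n N v) • u‖ := norm_add_le _ _
    _ = kN n N v * ‖u - v‖ + |kN n N u - kN n N v| * s := by
        rw [norm_smul, norm_smul, Real.norm_eq_abs, Real.norm_eq_abs,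
          abs_of_nonneg (kN_nonneg _ _ _)]
    _ ≤ (s ^ (n + 1))⁻¹ * ‖u - v‖ + (n + 3) * ‖u - v‖ / (s * s ^ (n + 1)) * s := by
        gcongr
        exact (kN_le _ _ _).trans hpow0
    _ = (n + 4) * ‖u - v‖ / s ^ (n + 1) := by
        field_simp; ring

/-- Kernel difference estimate. -/
theorem kN_smul_sub_le {N : ℝ} (hN : 0 < N) {u v : V d} {m : ℝ} (hm : 0 < m) (hu : m ≤ ‖u‖)
    (hv : m ≤ ‖v‖) :
    ‖kN n N u • u - kN n N v • v‖ ≤ (n + 4) * ‖u - v‖ / m ^ (n + 1) := by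
  rcases le_total ‖u‖ ‖v‖ with h | h
  · have hu0 : u ≠ 0 := norm_pos_iff.1 (hm.trans_le hu)
    refine (kN_smul_sub_le_aux hN hu0 h).trans ?_
    gcongr
  · have hv0 : v ≠ 0 := norm_pos_iff.1 (hm.trans_le hv)
    rw [norm_sub_rev, norm_sub_rev u v]
    refine (kN_smul_sub_le_aux hN hv0 h).trans ?_
    gcongr

/-- Kernel difference estimate, one component. -/
theorem abs_inner_kN_sub_le {N : ℝ} (hN : 0 < N) {u v : V d} {m : ℝ} (hm : 0 < m) (hu : m ≤ ‖u‖)
    (hv : m ≤ ‖v‖) (e : V d) (he : ‖e‖ ≤ 1) :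
    |inner ℝ u e * kN n N u - inner ℝ v e * kN n N v| ≤ (n + 4) * ‖u - v‖ / m ^ (n + 1) := by
  have e1 : inner ℝ u e * kN n N u - inner ℝ v e * kN n N v
      = inner ℝ (kN n N u • u - kN n N v • v) e := by
    rw [inner_sub_left, real_inner_smul_left, real_inner_smul_left]; ring
  rw [e1]
  calc |inner ℝ (kN n N u • u - kN n N v • v) e| ≤ ‖kN n N u • u - kN n N v • v‖ * ‖e‖ :=
        abs_real_inner_le_norm _ _
    _ ≤ ((n + 4) * ‖u - v‖ / m ^ (n + 1)) * 1 := by
        gcongr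
        exact kN_smul_sub_le hN hm hu hv
    _ = _ := mul_one _

/-! ### upper regular measures -/

section General

variable {X : Type*} [PseudoMetricSpace X] [MeasurableSpace X] {C : ℝ} {μ : Measure X}

theorem lf_of_upper (h : UpperReg n C μ) : IsLocallyFiniteMeasure μ :=
  ⟨fun x => ⟨ball x 1, ball_mem_nhds x one_pos, (h x 1 one_pos).trans_lt ENNReal.ofReal_lt_top⟩⟩

theorem closedBall_lt_top (h : UpperReg n C μ) (x : X) (r : ℝ) :
    μ (closedBall x r) < ⊤ :=
  (measure_mono (closedBall_subset_ball (by linarith : r < r + 1))).trans_lt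
    (h.ball_lt_top x (r + 1))

end General

/-! ### integrability of the integrand of `Bf` -/

theorem integrable_near_prod {C : ℝ} (hC : 0 ≤ C) {μ : Measure (V d)}
    (hμ : UpperReg n C μ) (hn : 1 ≤ n) (p : V d) (R : ℝ) {S : ℝ} (hS : 0 < S) :
    Integrable (fun q : V d × V d =>
      {q : V d × V d | q.1 ∈ closedBall p R ∧ q.2 ∈ closedBall q.1 S}.indicator
        (fun q => (dist q.1 q.2 ^ (n - 1))⁻¹) q) (μ.prod μ) ∧
    ∫ q : V d × V d,
      {q : V d × V d | q.1 ∈ closedBall p R ∧ q.2 ∈ closedBall q.1 S}.indicator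
        (fun q => (dist q.1 q.2 ^ (n - 1))⁻¹) q ∂(μ.prod μ)
      ≤ C * 4 ^ n * S * μ.real (closedBall p R) := by
  have := lf_of_upper hμ
  set A : Set (V d × V d) := {q | q.1 ∈ closedBall p R ∧ q.2 ∈ closedBall q.1 S} with hA
  have hAc : IsClosed A := by
    have h1 : IsClosed {q : V d × V d | dist q.1 p ≤ R} :=
      isClosed_le (by fun_prop) continuous_const
    have h2 : IsClosed {q : V d × V d | dist q.2 q.1 ≤ S} :=
      isClosed_le (by fun_prop) continuous_const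
    exact h1.inter h2
  have hmeas : Measurable (fun q : V d × V d => (dist q.1 q.2 ^ (n - 1))⁻¹) :=
    ((measurable_fst.dist measurable_snd).pow_const _).inv
  have hmeasA : Measurable (A.indicator (fun q : V d × V d => (dist q.1 q.2 ^ (n - 1))⁻¹)) :=
    hmeas.indicator hAc.measurableSet
  have h0 : ∀ q, 0 ≤ A.indicator (fun q : V d × V d => (dist q.1 q.2 ^ (n - 1))⁻¹) q := by
    intro q
    apply indicator_nonneg
    intro q _
    positivity
  apply integrable_and_integral_le_of_lintegral hmeasA.aestronglyMeasurable h0 (by positivity)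
  rw [lintegral_prod _ (hmeasA.ennreal_ofReal.aemeasurable)]
  have key : ∀ x, ∫⁻ y, ENNReal.ofReal
      (A.indicator (fun q : V d × V d => (dist q.1 q.2 ^ (n - 1))⁻¹) (x, y)) ∂μ
      ≤ (closedBall p R).indicator (fun _ => ENNReal.ofReal (C * 4 ^ n * S)) x := by
    intro x
    by_cases hx : x ∈ closedBall p R
    · rw [indicator_of_mem hx]
      have e1 : ∀ y, ENNReal.ofReal
          (A.indicator (fun q : V d × V d => (dist q.1 q.2 ^ (n - 1))⁻¹) (x, y))
          = (closedBall x S).indicator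
            (fun y => ENNReal.ofReal (((dist x y) ^ (n - 1))⁻¹)) y := by
        intro y
        by_cases hy : y ∈ closedBall x S
        · rw [indicator_of_mem hy, indicator_of_mem (show (x, y) ∈ A from ⟨hx, hy⟩)]
        · rw [indicator_of_notMem hy, indicator_of_notMem (fun h : (x, y) ∈ A => hy h.2)]
          simp
      simp_rw [e1]
      rw [lintegral_indicator measurableSet_closedBall]
      have h2 := lintegral_near hμ hC (k := n - 1) (by omega) x hS
      have e2 : n - (n - 1) = 1 := by omega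
      rw [e2, pow_one] at h2
      exact h2
    · rw [indicator_of_notMem hx]
      have e1 : ∀ y, ENNReal.ofReal
          (A.indicator (fun q : V d × V d => (dist q.1 q.2 ^ (n - 1))⁻¹) (x, y)) = 0 := by
        intro y
        rw [indicator_of_notMem (fun h : (x, y) ∈ A => hx h.1)]
        simp
      simp_rw [e1]
      simp
  calc ∫⁻ x, ∫⁻ y, ENNReal.ofReal
        (A.indicator (fun q : V d × V d => (dist q.1 q.2 ^ (n - 1))⁻¹) (x, y)) ∂μ ∂μ
      ≤ ∫⁻ x, (closedBall p R).indicator (fun _ => ENNReal.ofReal (C * 4 ^ n * S)) x ∂μ :=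
        lintegral_mono key
    _ = ENNReal.ofReal (C * 4 ^ n * S) * μ (closedBall p R) := by
        rw [lintegral_indicator measurableSet_closedBall, lintegral_const,
          Measure.restrict_apply_univ]
    _ = ENNReal.ofReal (C * 4 ^ n * S * μ.real (closedBall p R)) := by
        rw [ENNReal.ofReal_mul (by positivity : 0 ≤ C * 4 ^ n * S),
          ofReal_measureReal (closedBall_lt_top hμ p R).ne]

/-- the integrand of `Bf` -/
noncomputable def bfI (n : ℕ) (N : ℝ) (u ψ : V d → ℝ) (p : V d × V d) : ℝ :=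
  (u p.1 - u p.2) * (ψ p.1 - ψ p.2) * kN n N (p.1 - p.2)

theorem Bf_eq (μ : Measure (V d)) (N : ℝ) (u ψ : V d → ℝ) :
    Bf n μ N u ψ = (1 / 2 : ℝ) * ∫ p, bfI n N u ψ p ∂(μ.prod μ) := rfl

theorem bfI_swap (N : ℝ) (u ψ : V d → ℝ) (p : V d × V d) :
    bfI n N u ψ p.swap = bfI n N u ψ p := by
  unfold bfI
  rw [Prod.fst_swap, Prod.snd_swap, kN_sub_comm]
  ring

theorem measurable_bfI (N : ℝ) {u ψ : V d → ℝ} (hu : Measurable u) (hψ : Measurable ψ) :
    Measurable (bfI n N u ψ) := by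
  unfold bfI
  exact (((hu.comp measurable_fst).sub (hu.comp measurable_snd)).mul
    ((hψ.comp measurable_fst).sub (hψ.comp measurable_snd))).mul
    ((measurable_kN n N).comp (measurable_fst.sub measurable_snd))

theorem abs_bfI_le (hn : 1 ≤ n) {N : ℝ} {u ψ : V d → ℝ} {L K : ℝ} (hL : 0 ≤ L) (hK : 0 ≤ K)
    (hu : ∀ x y, |u x - u y| ≤ L * dist x y) (hψ : ∀ x y, |ψ x - ψ y| ≤ K * dist x y)
    (p : V d × V d) :
    |bfI n N u ψ p| ≤ L * K * (dist p.1 p.2 ^ (n - 1))⁻¹ := by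
  obtain ⟨x, y⟩ := p
  unfold bfI
  rw [abs_mul, abs_mul, abs_of_nonneg (kN_nonneg _ _ _)]
  have hnn : n + 1 = 2 + (n - 1) := by omega
  have h1 : kN n N (x - y) ≤ (dist x y ^ (n + 1))⁻¹ := by
    rw [dist_eq_norm]; exact kN_le _ _ _
  calc |u x - u y| * |ψ x - ψ y| * kN n N (x - y)
      ≤ (L * dist x y) * (K * dist x y) * (dist x y ^ (n + 1))⁻¹ := by
        gcongr
        · exact kN_nonneg _ _ _
        · exact hu x y
        · exact hψ x y
    _ ≤ L * K * (dist x y ^ (n - 1))⁻¹ := by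
        rcases eq_or_lt_of_le (dist_nonneg : 0 ≤ dist x y) with h | h
        · rw [← h]; simp; positivity
        · rw [hnn, pow_add]
          field_simp
          exact le_refl _

theorem bfI_eq_zero_of_far {N : ℝ} (hN : 0 < N) {u ψ : V d → ℝ} {p : V d × V d}
    (h : 2 * N ≤ dist p.1 p.2) : bfI n N u ψ p = 0 := by
  unfold bfI
  rw [kN_eq_zero hN (by rwa [← dist_eq_norm]), mul_zero]

/-- `Bf` integrand is integrable. -/
theorem integrable_bfI (hn : 1 ≤ n) {C : ℝ} (hC : 0 ≤ C) {μ : Measure (V d)}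
    (hμ : UpperReg n C μ) {N : ℝ} (hN : 0 < N) {u ψ : V d → ℝ} {L K : ℝ}
    (hL : 0 ≤ L) (hK : 0 ≤ K)
    (hu : ∀ x y, |u x - u y| ≤ L * dist x y) (hψ : ∀ x y, |ψ x - ψ y| ≤ K * dist x y)
    (hum : Measurable u) (hψm : Measurable ψ)
    {c : V d} {R : ℝ} (hsupp : ∀ y, y ∉ closedBall c R → ψ y = 0) :
    Integrable (bfI n N u ψ) (μ.prod μ) := by
  have h1 := (integrable_near_prod hC hμ hn c (R + 2 * N) (S := 2 * N) (by linarith)).1
  refine (h1.const_mul (L * K)).mono' (measurable_bfI N hum hψm).aestronglyMeasurable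
    (Filter.Eventually.of_forall fun q => ?_)
  rw [Real.norm_eq_abs]
  by_cases hq : q.1 ∈ closedBall c (R + 2 * N) ∧ q.2 ∈ closedBall q.1 (2 * N)
  · rw [indicator_of_mem (show q ∈ {q : V d × V d | q.1 ∈ closedBall c (R + 2 * N) ∧
      q.2 ∈ closedBall q.1 (2 * N)} from hq)]
    exact abs_bfI_le hn hL hK hu hψ q
  · rw [indicator_of_notMem (show q ∉ {q : V d × V d | q.1 ∈ closedBall c (R + 2 * N) ∧
      q.2 ∈ closedBall q.1 (2 * N)} from hq), mul_zero]
    have : bfI n N u ψ q = 0 := by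
      by_cases hfar : 2 * N ≤ dist q.1 q.2
      · exact bfI_eq_zero_of_far hN hfar
      · push Not at hfar
        have hq2 : q.2 ∈ closedBall q.1 (2 * N) := by
          rw [mem_closedBall, dist_comm]; exact hfar.le
        have hq1 : q.1 ∉ closedBall c (R + 2 * N) := fun h => hq ⟨h, hq2⟩
        have hq1' : R + 2 * N < dist q.1 c := by
          simpa [mem_closedBall] using hq1
        have z1 : ψ q.1 = 0 := hsupp _ (by
          rw [mem_closedBall, not_le]; linarith)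
        have z2 : ψ q.2 = 0 := hsupp _ (by
          rw [mem_closedBall, not_le]
          have := dist_triangle q.1 q.2 c
          linarith)
        unfold bfI
        rw [z1, z2]; ring
    rw [this, abs_zero]

end Crest.Agent.R085.Touch
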