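import Crest.Agent.R085.Lim2
import Crest.Agent.R085.LimBf
import Crest.Agent.R085.TouchK
import Crest.Agent.R085.Tail

/-!
# R085, module M3, part L4: reflectionless limits
-/

set_option autoImplicit false
set_option linter.unusedSectionVars false

open MeasureTheory Filter Topology Metric Set
open scoped ENNReal NNReal

namespace Crest.Agent.R085

namespace LR

variable {ι : Type*} {d n : ℕ} {C : ℝ} {D : ℝ≥0∞} {μ : Measure (V d)}

section Lin

lemma lin_apply (e y : V d) : lin e y = inner ℝ y e := rfl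

lemma lin_sub_lin (e y z : V d) : lin e y - lin e z = inner ℝ (y - z) e := by
  simp [lin, inner_sub_left]

lemma abs_lin_sub_le (e y z : V d) : |lin e y - lin e z| ≤ ‖e‖ * dist y z := by
  rw [lin_sub_lin, dist_eq_norm, mul_comm]
  exact abs_real_inner_le_norm _ _

lemma lipschitzWith_lin (e : V d) : LipschitzWith ‖e‖₊ (lin e) := by
  apply LipschitzWith.of_dist_le_mul
  intro y z
  rw [Real.dist_eq]
  exact abs_lin_sub_le e y z

lemma locLip_of_lipschitz {u : V d → ℝ} {K : ℝ≥0} (h : LipschitzWith K u) : LocLip u :=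
  fun _ => ⟨K, h.lipschitzOnWith⟩

lemma locLip_lin (e : V d) : LocLip (lin e) := locLip_of_lipschitz (lipschitzWith_lin e)

end Lin

section Bilin

variable (n) (μ)

lemma bf_smul_left (N c : ℝ) (u ψ : V d → ℝ) :
    Bf n μ N (fun y => c * u y) ψ = c * Bf n μ N u ψ := by
  unfold Bf
  rw [mul_left_comm c, ← integral_const_mul c]
  congr 1
  refine integral_congr_ae (Eventually.of_forall fun p => ?_)
  simp only
  ring

lemma bf_smul_right (N c : ℝ) (u ψ : V d → ℝ) :
    Bf n μ N u (fun y => c * ψ y) = c * Bf n μ N u ψ := by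
  unfold Bf
  rw [mul_left_comm c, ← integral_const_mul c]
  congr 1
  refine integral_congr_ae (Eventually.of_forall fun p => ?_)
  simp only
  ring

lemma lin_smul (c : ℝ) (e : V d) : lin (c • e) = fun y => c * lin e y := by
  ext y
  simp [lin, inner_smul_right]

end Bilin

theorem bf_integrable (hn : 1 ≤ n) (hC : 0 ≤ C) (hμ : UpperReg n C μ) {u : V d → ℝ} {K : ℝ≥0}
    (hu : LipschitzWith K u) {ψ : V d → ℝ} (hψ : IsTest ψ) {N : ℝ} (hN : 0 < N) :
    Integrable (fun p : V d × V d => (u p.1 - u p.2) * (ψ p.1 - ψ p.2) * kN n N (p.1 - p.2))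
      (μ.prod μ) := by
  obtain ⟨L, hL⟩ := hψ.lip
  obtain ⟨R, hR⟩ := hψ.cpt.isCompact.isBounded.subset_closedBall 0
  exact Touch.integrable_bfI hn hC hμ hN K.2 L.2
    (fun x y => by rw [← Real.dist_eq]; exact hu.dist_le_mul x y)
    (fun x y => by rw [← Real.dist_eq]; exact hL.dist_le_mul x y)
    hu.continuous.measurable hL.continuous.measurable
    (c := 0) (R := R) (fun y hy => image_eq_zero_of_notMem_tsupport fun h => hy (hR h))

lemma bf_sub_smul_right (hn : 1 ≤ n) (hC : 0 ≤ C) (hμ : UpperReg n C μ) {u : V d → ℝ} {K : ℝ≥0}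
    (hu : LipschitzWith K u) {ψ ψ0 : V d → ℝ} (hψ : IsTest ψ) (hψ0 : IsTest ψ0) {N : ℝ}
    (hN : 0 < N) (c : ℝ) :
    Bf n μ N u (fun y => ψ y - c * ψ0 y) = Bf n μ N u ψ - c * Bf n μ N u ψ0 := by
  unfold Bf
  rw [mul_left_comm c, ← integral_const_mul c, ← mul_sub, ← integral_sub
    (bf_integrable hn hC hμ hu hψ hN) ((bf_integrable hn hC hμ hu hψ0 hN).const_mul c)]
  congr 1
  refine integral_congr_ae (Eventually.of_forall fun p => ?_)
  simp only
  ring

section IsTest

variable {ψ : V d → ℝ}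

lemma it_continuous (h : IsTest ψ) : Continuous ψ := by
  obtain ⟨K, hK⟩ := h.lip
  exact hK.continuous

lemma it_ball (h : IsTest ψ) : ∃ R : ℝ, 0 < R ∧ ∀ y, y ∉ ball (0 : V d) R → ψ y = 0 := by
  obtain ⟨R, hR0, hR⟩ := h.cpt.isCompact.isBounded.subset_ball_lt 0 0
  exact ⟨R, hR0, fun y hy => image_eq_zero_of_notMem_tsupport fun hy' => hy (hR hy')⟩

lemma it_bound (h : IsTest ψ) : ∃ B : ℝ, 0 < B ∧ ∀ y, |ψ y| ≤ B := by
  obtain ⟨B, hB⟩ := h.cpt.exists_bound_of_continuous (it_continuous h)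
  exact ⟨max B 1, lt_max_of_lt_right one_pos, fun y => (hB y).trans (le_max_left _ _)⟩

lemma it_integrable (h : IsTest ψ) (μ : Measure (V d)) [IsLocallyFiniteMeasure μ] :
    Integrable ψ μ := (it_continuous h).integrable_of_hasCompactSupport h.cpt

lemma it_const_mul (h : IsTest ψ) (c : ℝ) : IsTest (fun y => c * ψ y) := by
  obtain ⟨K, hK⟩ := h.lip
  refine ⟨⟨‖c‖₊ * K, ?_⟩, h.cpt.mul_left⟩
  apply LipschitzWith.of_dist_le_mul
  intro y z
  rw [Real.dist_eq, ← mul_sub, abs_mul]
  have := hK.dist_le_mul y z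
  rw [Real.dist_eq] at this
  calc |c| * |ψ y - ψ z| ≤ |c| * (K * dist y z) := by gcongr
    _ = _ := by simp [mul_assoc]

lemma it_sub (h : IsTest ψ) {ψ' : V d → ℝ} (h' : IsTest ψ') : IsTest (fun y => ψ y - ψ' y) := by
  obtain ⟨K, hK⟩ := h.lip
  obtain ⟨K', hK'⟩ := h'.lip
  exact ⟨⟨K + K', hK.sub hK'⟩, h.cpt.sub h'.cpt⟩

/-- the tent function around `x` -/
lemma it_tent (x : V d) (r : ℝ) : IsTest (fun y => max 0 (r - dist y x)) := by
  refine ⟨⟨1, ?_⟩, ?_⟩
  · apply LipschitzWith.of_dist_le_mul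
    intro y z
    rw [Real.dist_eq, NNReal.coe_one, one_mul]
    have h1 : |max 0 (r - dist y x) - max 0 (r - dist z x)|
        ≤ |(r - dist y x) - (r - dist z x)| := by
      have := abs_max_sub_max_le_abs (r - dist y x) (r - dist z x) 0
      rwa [max_comm, max_comm (r - dist z x)] at this
    refine h1.trans ?_
    rw [abs_le]
    constructor
    · have := dist_triangle y z x; linarith [dist_comm y z]
    · have := dist_triangle z y x; linarith [dist_comm y z]
  · apply HasCompactSupport.intro (isCompact_closedBall x r)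
    intro y hy
    rw [mem_closedBall, not_le] at hy
    exact max_eq_left (by linarith)

end IsTest

end LR

open LR

variable {ι : Type*} {d n : ℕ} {C : ℝ} {D : ℝ≥0∞} {μ : Measure (V d)}

/-- uniform tail estimate for the coordinate functions -/
theorem lin_tail (n d : ℕ) (C : ℝ) (hC : 0 ≤ C) (hn : 1 ≤ n) :
    ∃ K : ℝ, 0 < K ∧ ∀ (μ : Measure (V d)), UpperReg n C μ → ∀ e : V d,
      ∀ ψ : V d → ℝ, IsTest ψ → ∫ y, ψ y ∂μ = 0 →
      ∀ (x : V d) (R N N' : ℝ), 0 < R → (∀ y, y ∉ ball x R → ψ y = 0) → 8 * R ≤ N → N ≤ N' →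
      |Bf n μ N' (lin e) ψ - Bf n μ N (lin e) ψ| ≤ K * ‖e‖ * (R / N) * ∫ y, |ψ y| ∂μ := by
  obtain ⟨K, hK0, hK⟩ := tail n d C hC hn
  refine ⟨K * (1 + C * 2 ^ (n + 2)), by positivity, ?_⟩
  intro μ hμ e ψ hψ hint x R N N' hR hsupp hRN hNN'
  have hN : 0 < N := by linarith
  have h1 := hK μ hμ (lin e) (locLip_lin e) ψ hψ hint x R N N' (lin e x) hR hsupp hRN hNN'
  have hlf : IsLocallyFiniteMeasure μ :=
    ⟨fun x => ⟨ball x 1, ball_mem_nhds x one_pos, (hμ x 1 one_pos).trans_lt ENNReal.ofReal_lt_top⟩⟩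
  set I := ∫ y, |ψ y| ∂μ with hI
  have hI0 : 0 ≤ I := integral_nonneg fun y => abs_nonneg _
  have hint1 : Integrable (fun y => |ψ y|) μ := (it_integrable hψ μ).abs
  have h2 : ∫ y, |ψ y| * |lin e y - lin e x| ∂μ ≤ ‖e‖ * R * I := by
    rw [hI, ← integral_const_mul]
    apply integral_mono_of_nonneg (Eventually.of_forall fun y => by positivity)
      (hint1.const_mul _)
    refine Eventually.of_forall fun y => ?_
    by_cases hy : y ∈ ball x R
    · have := abs_lin_sub_le e y x
      have h3 : dist y x ≤ R := (mem_ball.1 hy).le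
      calc |ψ y| * |lin e y - lin e x| ≤ |ψ y| * (‖e‖ * R) := by
            gcongr
            exact this.trans (by gcongr)
        _ = _ := by ring
    · simp [hsupp y hy]
  have h3 : farI n μ (fun y => lin e y - lin e x) x (N / 2) (4 * N')
      ≤ ‖e‖ * (C * 2 ^ (n + 2) / N) := by
    unfold farI
    obtain ⟨ht1, ht2⟩ := integrableOn_tail hμ hC le_rfl x (half_pos hN) (m := 1)
    have hsub : ball x (4 * N') \ ball x (N / 2) ⊆ {y | N / 2 ≤ dist x y} := by
      intro y hy
      have := hy.2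
      rw [mem_ball, not_lt, dist_comm] at this
      exact this
    have hmeas : MeasurableSet (ball x (4 * N') \ ball x (N / 2)) :=
      measurableSet_ball.diff measurableSet_ball
    calc ∫ y in ball x (4 * N') \ ball x (N / 2),
          |lin e y - lin e x| * (dist y x ^ (n + 2))⁻¹ ∂μ
        ≤ ∫ y in ball x (4 * N') \ ball x (N / 2), ‖e‖ * ((dist x y) ^ (n + 1))⁻¹ ∂μ := by
          apply integral_mono_of_nonneg (Eventually.of_forall fun y => by positivity)
            ((ht1.mono_set hsub).const_mul _)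
          rw [EventuallyLE, ae_restrict_iff' hmeas]
          refine Eventually.of_forall fun y hy => ?_
          have hy1 : N / 2 ≤ dist x y := hsub hy
          have hy2 : 0 < dist y x := by rw [dist_comm]; linarith
          rw [dist_comm x y]
          calc |lin e y - lin e x| * (dist y x ^ (n + 2))⁻¹
              ≤ (‖e‖ * dist y x) * (dist y x ^ (n + 2))⁻¹ := by
                gcongr
                exact abs_lin_sub_le e y x
            _ = ‖e‖ * (dist y x ^ (n + 1))⁻¹ := by
                rw [pow_succ _ (n + 1)]; field_simp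
      _ = ‖e‖ * ∫ y in ball x (4 * N') \ ball x (N / 2), ((dist x y) ^ (n + 1))⁻¹ ∂μ :=
          integral_const_mul _ _
      _ ≤ ‖e‖ * ∫ y in {y | N / 2 ≤ dist x y}, ((dist x y) ^ (n + 1))⁻¹ ∂μ := by
          refine mul_le_mul_of_nonneg_left (setIntegral_mono_set ht1 ?_ ?_) (norm_nonneg _)
          · exact Eventually.of_forall fun y => by positivity
          · exact hsub.eventuallyLE
      _ ≤ ‖e‖ * (C * 2 ^ (n + 1) / (N / 2) ^ 1) := by gcongr
      _ = ‖e‖ * (C * 2 ^ (n + 2) / N) := by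
          rw [pow_one, pow_succ _ (n + 1)]; field_simp
  calc |Bf n μ N' (lin e) ψ - Bf n μ N (lin e) ψ| ≤ _ := h1
    _ ≤ K * (N⁻¹ * (‖e‖ * R * I) + R * I * (‖e‖ * (C * 2 ^ (n + 2) / N))) := by
        gcongr
    _ = K * (1 + C * 2 ^ (n + 2)) * ‖e‖ * (R / N) * I := by
        field_simp

/-- **Reflectionless limits.** If the oscillations of `m k` in larger and larger windows around `0`
at scale `1` tend to `0`, then the weak limit is reflectionless. -/
theorem refl_of_wLim (hn : 1 ≤ n) {U : Ultrafilter ι} {m : ι → Measure (V d)} {ν : Measure (V d)}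
    (h : WLim U m ν) (hA : ∀ᶠ k in (U : Filter ι), UpperReg n C (m k))
    (hE : ∀ M δ : ℝ, 0 < M → 0 < δ → ∀ᶠ k in (U : Filter ι), EtaS n (m k) 0 1 M δ) :
    Refl n ν := by
  intro e ψ hψ hint
  have hlfν := h.lf
  -- we may enlarge `C`
  wlog hC : 0 ≤ C generalizing C
  · refine this (C := max C 0) ?_ (le_max_right _ _)
    filter_upwards [hA] with k hk x r hr
    exact (hk x r hr).trans (ENNReal.ofReal_le_ofReal (by gcongr; exact le_max_left _ _))
  -- the trivial case
  rcases eq_or_ne ν 0 with hν | hν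
  · simp [hν, Bf]
  obtain ⟨x0, hx0⟩ := Measure.nonempty_support hν
  -- the correcting function
  set ψ0 : V d → ℝ := fun y => max 0 (1 - dist y x0) with hψ0def
  have hψ0 : IsTest ψ0 := it_tent x0 1
  have hψ0nn : ∀ y, 0 ≤ ψ0 y := fun y => le_max_left _ _
  have hI0 : 0 < ∫ y, ψ0 y ∂ν := by
    rw [integral_pos_iff_support_of_nonneg hψ0nn (it_integrable hψ0 ν)]
    refine lt_of_lt_of_le ((Measure.mem_support_iff_forall x0).1 hx0 _ (ball_mem_nhds x0 one_pos))
      (measure_mono fun y hy => ?_)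
    rw [Function.mem_support]
    have : 0 < 1 - dist y x0 := by linarith [mem_ball.1 hy]
    exact (lt_max_of_lt_right this).ne'
  have hlim := h.tendsto ψ (it_continuous hψ) hψ.cpt
  rw [hint] at hlim
  have hlim0 := h.tendsto ψ0 (it_continuous hψ0) hψ0.cpt
  set c : ι → ℝ := fun k => (∫ y, ψ y ∂(m k)) / ∫ y, ψ0 y ∂(m k) with hc
  have hclim : Tendsto c (U : Filter ι) (𝓝 0) := by
    have := hlim.div hlim0 hI0.ne'
    rwa [zero_div] at this
  set φ : ι → V d → ℝ := fun k y => ψ y - c k * ψ0 y with hφ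
  have hφt : ∀ k, IsTest (φ k) := fun k => it_sub hψ (it_const_mul hψ0 (c k))
  have hφint : ∀ᶠ k in (U : Filter ι), ∫ y, φ k y ∂(m k) = 0 := by
    filter_upwards [hlim0.eventually_const_lt hI0] with k hk
    have := h.lfk k
    simp only [hφ]
    rw [integral_sub (it_integrable hψ _) ((it_integrable hψ0 _).const_mul _), integral_const_mul, hc]
    simp only
    rw [div_mul_cancel₀ _ hk.ne', sub_self]
  -- common bounds
  obtain ⟨R1, hR1, hsupp1⟩ := it_ball hψ
  obtain ⟨R2, hR2, hsupp2⟩ := it_ball hψ0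
  obtain ⟨B, hB, hBψ⟩ := it_bound hψ
  obtain ⟨B0, hB0, hBψ0⟩ := it_bound hψ0
  obtain ⟨L, hL⟩ := hψ.lip
  obtain ⟨L0, hL0⟩ := hψ0.lip
  set R := max R1 R2 with hR
  have hRpos : 0 < R := lt_max_of_lt_left hR1
  have hφsupp : ∀ k y, y ∉ ball (0 : V d) R → φ k y = 0 := by
    intro k y hy
    have h1 : y ∉ ball (0 : V d) R1 := fun h' => hy (ball_subset_ball (le_max_left _ _) h')
    have h2 : y ∉ ball (0 : V d) R2 := fun h' => hy (ball_subset_ball (le_max_right _ _) h')
    simp [hφ, hsupp1 y h1, hsupp2 y h2]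
  have hcle : ∀ᶠ k in (U : Filter ι), |c k| ≤ 1 := by
    have h1 : Tendsto (fun k => |c k|) (U : Filter ι) (𝓝 |(0 : ℝ)|) := hclim.abs
    rw [abs_zero] at h1
    filter_upwards [h1.eventually_lt_const one_pos] with k hk using hk.le
  set A : ℝ := B + B0 + L + L0 with hAdef
  have hApos : 0 < A := by positivity
  have hφbd : ∀ᶠ k in (U : Filter ι), ∀ y, |φ k y| ≤ B + B0 := by
    filter_upwards [hcle] with k hk y
    calc |φ k y| ≤ |ψ y| + |c k * ψ0 y| := abs_sub _ _
      _ ≤ B + 1 * B0 := by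
          rw [abs_mul]
          gcongr
          · exact hBψ y
          · exact hBψ0 y
      _ = B + B0 := by ring
  have hφlip : ∀ᶠ k in (U : Filter ι), ∀ y z, |φ k y - φ k z| ≤ A * dist y z := by
    filter_upwards [hcle] with k hk y z
    have e1 : |ψ y - ψ z| ≤ L * dist y z := by
      rw [← Real.dist_eq]; exact hL.dist_le_mul y z
    have e2 : |ψ0 y - ψ0 z| ≤ L0 * dist y z := by
      rw [← Real.dist_eq]; exact hL0.dist_le_mul y z
    calc |φ k y - φ k z| = |(ψ y - ψ z) - c k * (ψ0 y - ψ0 z)| := by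
          simp only [hφ]; congr 1; ring
      _ ≤ |ψ y - ψ z| + |c k * (ψ0 y - ψ0 z)| := abs_sub _ _
      _ ≤ L * dist y z + 1 * (L0 * dist y z) := by
          rw [abs_mul]; gcongr
      _ = (L + L0) * dist y z := by ring
      _ ≤ A * dist y z := by
          gcongr
          rw [hAdef]; linarith
  -- the tail estimate
  obtain ⟨K, hK0, hK⟩ := lin_tail n d C hC hn
  set T : ℝ := K * ‖e‖ * R * ((B + B0) * (C * R ^ n)) with hT
  have hTnn : 0 ≤ T := by positivity
  have htail : ∀ᶠ k in (U : Filter ι), ∀ N N' : ℝ, 8 * R ≤ N → N ≤ N' →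
      |Bf n (m k) N' (lin e) (φ k) - Bf n (m k) N (lin e) (φ k)| ≤ T / N := by
    filter_upwards [hA, hφint, hφbd] with k hk1 hk2 hk3 N N' hN hNN'
    have hlfk := h.lfk k
    have hN0 : 0 < N := by linarith
    refine (hK (m k) hk1 e (φ k) (hφt k) hk2 0 R N N' hRpos (hφsupp k) hN hNN').trans ?_
    have h1 : ∫ y, |φ k y| ∂(m k) ≤ (B + B0) * (C * R ^ n) := by
      have hz : ∀ y, y ∉ ball (0 : V d) R → |φ k y| = 0 := fun y hy => by
        rw [hφsupp k y hy, abs_zero]
      rw [← setIntegral_eq_integral_of_forall_compl_eq_zero hz]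
      have hfin : (m k) (ball (0 : V d) R) < ∞ := (hk1 0 R hRpos).trans_lt ENNReal.ofReal_lt_top
      have h2 := norm_setIntegral_le_of_norm_le_const (μ := m k) (s := ball (0 : V d) R)
        (f := fun y => |φ k y|) (C := B + B0) hfin (fun y _ => by simpa using hk3 y)
      rw [Real.norm_eq_abs, abs_of_nonneg (integral_nonneg fun y => abs_nonneg _)] at h2
      refine h2.trans ?_
      gcongr
      rw [measureReal_def]
      exact ENNReal.toReal_le_of_le_ofReal (by positivity) (hk1 0 R hRpos)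
    calc K * ‖e‖ * (R / N) * ∫ y, |φ k y| ∂(m k)
        ≤ K * ‖e‖ * (R / N) * ((B + B0) * (C * R ^ n)) := by gcongr
      _ = T / N := by rw [hT]; ring
  -- the small oscillation
  have hosc : ∀ δ : ℝ, 0 < δ → ∀ᶠ k in (U : Filter ι), ∀ᶠ N' : ℝ in atTop,
      |Bf n (m k) N' (lin e) (φ k)| ≤ (‖e‖ + 1) * A * δ := by
    intro δ hδ
    filter_upwards [hE R δ hRpos hδ, hφint, hφbd, hφlip] with k hk1 hk2 hk3 hk4
    have hlfk := h.lfk k
    have he1 : ‖(‖e‖ + 1)⁻¹ • e‖ ≤ 1 := by
      rw [norm_smul, norm_inv, Real.norm_of_nonneg (by positivity)]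
      rw [inv_mul_le_iff₀ (by positivity)]
      linarith
    have := hk1 ((‖e‖ + 1)⁻¹ • e) he1 (fun y => A⁻¹ * φ k y) ?_ ?_ ?_ ?_
    · filter_upwards [this] with N' hN'
      rw [lin_smul, bf_smul_left, bf_smul_right, one_pow, mul_one, abs_mul, abs_mul,
        abs_of_pos (by positivity), abs_of_pos (by positivity), inv_mul_le_iff₀ (by positivity),
        inv_mul_le_iff₀ (by positivity)] at hN'
      linarith
    · intro y z
      rw [← mul_sub, abs_mul, abs_of_pos (by positivity), inv_mul_le_iff₀ (by positivity), div_one]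
      exact hk4 y z
    · intro y
      rw [abs_mul, abs_of_pos (by positivity), inv_mul_le_iff₀ (by positivity), mul_one]
      refine (hk3 y).trans ?_
      rw [hAdef]
      linarith [L.2, L0.2]
    · intro y hy
      rw [mul_one] at hy
      rw [hφsupp k y hy, mul_zero]
    · rw [integral_const_mul, hk2, mul_zero]
  -- conclusion at fixed truncation
  have hmain : ∀ N : ℝ, 8 * R ≤ N → |Bf n ν N (lin e) ψ| ≤ T / N := by
    intro N hN
    have hN0 : 0 < N := by linarith
    have hlimB : Tendsto (fun k => Bf n (m k) N (lin e) (φ k)) (U : Filter ι)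
        (𝓝 (Bf n ν N (lin e) ψ)) := by
      have h1 := h.Bf_lin_tendsto hn hC hA hN0 e hψ
      have h2 := h.Bf_lin_tendsto hn hC hA hN0 e hψ0
      have h3 := h1.sub (hclim.mul h2)
      rw [zero_mul, sub_zero] at h3
      refine h3.congr' ?_
      filter_upwards [hA] with k hk
      exact (bf_sub_smul_right hn hC hk (lipschitzWith_lin e) hψ hψ0 hN0 (c k)).symm
    refine le_of_forall_pos_le_add fun δ hδ => ?_
    have hδ' : 0 < δ / ((‖e‖ + 1) * A) := by positivity
    refine le_of_tendsto hlimB.abs ?_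
    filter_upwards [htail, hosc _ hδ'] with k hk1 hk2
    obtain ⟨N', hN', hNN'⟩ := (hk2.and (eventually_ge_atTop N)).exists
    have e1 := hk1 N N' hN hNN'
    have e2 : (‖e‖ + 1) * A * (δ / ((‖e‖ + 1) * A)) = δ := by field_simp
    rw [e2] at hN'
    have e3 := abs_sub_abs_le_abs_sub (Bf n (m k) N (lin e) (φ k)) (Bf n (m k) N' (lin e) (φ k))
    rw [abs_sub_comm] at e3
    linarith
  -- limit
  have hT0 : Tendsto (fun N : ℝ => T / N) atTop (𝓝 0) := tendsto_const_nhds.div_atTop tendsto_id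
  refine squeeze_zero_norm' ?_ hT0
  filter_upwards [eventually_ge_atTop (8 * R)] with N hN
  exact hmain N hN

/-- reflectionless measures have zero oscillation everywhere -/
theorem Refl.etaS (h : Refl n μ) (x : V d) {r : ℝ} (hr : 0 < r) (M : ℝ) {δ : ℝ} (hδ : 0 < δ) :
    EtaS n μ x r M δ := by
  intro e _ ψ hlip _ hsupp hint
  have hψ : IsTest ψ := by
    refine ⟨⟨Real.toNNReal r⁻¹, ?_⟩, ?_⟩
    · apply LipschitzWith.of_dist_le_mul
      intro y z
      rw [Real.dist_eq, Real.coe_toNNReal _ (by positivity), mul_comm, ← div_eq_mul_inv]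
      exact hlip y z
    · apply HasCompactSupport.intro (isCompact_closedBall x (M * r))
      intro y hy
      exact hsupp y fun h' => hy (ball_subset_closedBall h')
  have h1 := (h e ψ hψ hint).abs
  rw [abs_zero] at h1
  filter_upwards [h1.eventually_lt_const (show 0 < δ * r ^ n by positivity)] with N hN
  exact hN.le

/-- weak limits of reflectionless measures are reflectionless -/
theorem refl_of_wLim_refl (hn : 1 ≤ n) {U : Ultrafilter ι} {m : ι → Measure (V d)}
    {ν : Measure (V d)} (h : WLim U m ν) (hA : ∀ᶠ k in (U : Filter ι), UpperReg n C (m k))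
    (hR : ∀ᶠ k in (U : Filter ι), Refl n (m k)) : Refl n ν := by
  refine refl_of_wLim hn h hA fun M δ _ hδ => ?_
  filter_upwards [hR] with k hk using hk.etaS 0 one_pos M hδ

end Crest.Agent.R085
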