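import Crest.Agent.R085.Defs

/-!
R085: exact statements (as `Prop`s) of the interfaces between the modules of PART I.
Owners may prove variants; the final assembly uses these forms.
-/

set_option autoImplicit false

namespace Crest.Agent.R085

open MeasureTheory Metric Set Filter
open scoped ENNReal NNReal Topology

/-- M8 (propagation of flatness), ratio `ϱ` (= `1/b`). -/
def TPropagation (n d : ℕ) (C ϱ : ℝ) : Prop :=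
  ∃ ε1 : ℝ, 0 < ε1 ∧ ∀ ε : ℝ, 0 < ε → ε ≤ ε1 →
    ∀ (μ : Measure (V d)) (D : ℝ≥0∞) (x : V d) (ρ : ℝ), ADR n C D μ → 0 < ρ →
    ENNReal.ofReal ((ε ^ 3)⁻¹ * ρ) ≤ D → x ∈ μ.support →
    FlatW n μ x ρ ε (ε ^ 3)⁻¹ → EtaS n μ x ρ (ε ^ 3)⁻¹ (ε ^ 3) →
    ∀ x' ∈ μ.support, dist x x' ≤ 4 * ρ → FlatW n μ x' (ϱ * ρ) ε (ε ^ 3)⁻¹

/-- M8b (bilateral flatness). -/
def TBiFlat (n d : ℕ) (C A ε' : ℝ) : Prop :=
  ∃ ε1 : ℝ, 0 < ε1 ∧ ∀ (μ : Measure (V d)) (D : ℝ≥0∞) (x : V d) (ρ ε M δ : ℝ), ADR n C D μ →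
    x ∈ μ.support → 0 < ρ → 0 ≤ ε → ε ≤ ε1 → ε1⁻¹ ≤ M → δ ≤ ε1 → ENNReal.ofReal (M * ρ) ≤ D →
    FlatW n μ x ρ ε M → EtaS n μ x ρ M δ → BiFlat n μ x ρ ε' A

/-- M5 (abundance): small oscillation at ONE place `(x,ρ)` gives a flat window of comparable size. -/
def TAbundance (n d : ℕ) (C ε : ℝ) : Prop :=
  ∃ δ : ℝ, 0 < δ ∧ δ < 1 ∧ ∀ (μ : Measure (V d)) (D : ℝ≥0∞) (x : V d) (ρ : ℝ), ADR n C D μ →
    0 < ρ → ENNReal.ofReal (ρ / δ) ≤ D → x ∈ μ.support → EtaS n μ x ρ δ⁻¹ δ →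
    ∃ y ∈ μ.support, dist x y ≤ ρ / 64 ∧ ∃ s : ℝ, δ * ρ ≤ s ∧ s ≤ ρ / 64 ∧
      FlatW n μ y s ε (ε ^ 3)⁻¹

/-- M7: reflectionless regular measures on the standard `n`-plane have constant density. -/
def TConst (n d : ℕ) (C : ℝ) : Prop :=
  ∀ μ : Measure (V d), ADR n C ⊤ μ → Refl n μ → μ.support.Nonempty →
    (∀ y ∈ μ.support, nsq n y = 0) →
    ∃ c : ℝ, 0 < c ∧ ∀ f : V d → ℝ, Continuous f → HasCompactSupport f →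
      ∫ y, f y ∂μ = c * ∫ z : V n, f (inc n d z)

/-- M4: reflectionless regular measures are arbitrarily flat somewhere inside every ball. -/
def TFlatSomewhere (n d : ℕ) (C : ℝ) : Prop :=
  ∀ μ : Measure (V d), ADR n C ⊤ μ → Refl n μ → ∀ x ∈ μ.support, ∀ r : ℝ, 0 < r →
    ∀ ε : ℝ, 0 < ε → ∃ y ∈ μ.support, y ∈ ball x r ∧ ∃ s : ℝ, 0 < s ∧ s < r ∧
      ∃ (g : V d ≃ₗᵢ[ℝ] V d) (b : V d),
        ∫ z in ball y s, nsq n (g z - b) ∂μ ≤ ε ^ 2 * s ^ (n + 2)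

end Crest.Agent.R085
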