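import Crest.Agent.R085.Lim3
import Crest.Agent.R085.LimRefl
import Crest.Agent.R085.Resc
import Crest.Agent.R085.Targets

/-!
# R085, module M5 (abundance of flatness): `TFlatSomewhere → TAbundance`
-/

set_option autoImplicit false
set_option linter.unusedSectionVars false

open MeasureTheory Filter Topology Metric Set
open scoped ENNReal NNReal

namespace Crest.Agent.R085

/-- **M5**: small oscillation in a large window gives a flat window of comparable size. -/
theorem abundance {n d : ℕ} (hn : 1 ≤ n) {C ε : ℝ} (hε : 0 < ε) (hFS : TFlatSomewhere n d C) :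
    TAbundance n d C ε := by
  classical
  unfold TAbundance
  by_contra hcon
  push Not at hcon
  -- the contradiction sequence
  have hδ : ∀ k : ℕ, 0 < ((k : ℝ) + 2)⁻¹ ∧ ((k : ℝ) + 2)⁻¹ < 1 := by
    intro k
    have : (0 : ℝ) ≤ k := Nat.cast_nonneg k
    exact ⟨by positivity, inv_lt_one_of_one_lt₀ (by linarith)⟩
  have hcon' := fun k : ℕ => hcon _ (hδ k).1 (hδ k).2
  choose μ D x ρ hA hρ hD hx hE hno using hcon'
  -- rescaling
  set m : ℕ → Measure (V d) := fun k => resc n (x k) (ρ k) (μ k) with hm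
  set D' : ℕ → ℝ≥0∞ := fun k => ENNReal.ofReal ((k : ℝ) + 2) with hD'
  have hAm : ∀ k, ADR n C (D' k) (m k) := by
    intro k
    apply (hA k).resc (x k) (hρ k)
    rw [hD', ← ENNReal.ofReal_mul (hρ k).le]
    have := hD k
    rwa [div_inv_eq_mul] at this
  have hsf : ∀ k, SFinite (μ k) := by
    intro k
    have := (hA k).isLocallyFiniteMeasure
    infer_instance
  have hEm : ∀ k : ℕ, EtaS n (m k) 0 1 ((k : ℝ) + 2) ((k : ℝ) + 2)⁻¹ := by
    intro k
    have := hsf k
    rw [hm, EtaS_resc (x k) (hρ k) 0 one_pos, smul_zero, add_zero, mul_one]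
    have := hE k
    rwa [inv_inv] at this
  -- the limit
  set U : Ultrafilter ℕ := hyperfilter ℕ with hU
  have hUtop : (U : Filter ℕ) ≤ atTop := Nat.hyperfilter_le_atTop
  have hDlim : ∀ s : ℝ, ENNReal.ofReal s < ⊤ → ∀ᶠ k in (U : Filter ℕ),
      ENNReal.ofReal s ≤ D' k := by
    intro s _
    apply hUtop
    filter_upwards [eventually_ge_atTop ⌈s⌉₊] with k hk
    apply ENNReal.ofReal_le_ofReal
    have h1 : s ≤ (k : ℝ) := (Nat.le_ceil s).trans (by exact_mod_cast hk)
    linarith
  obtain ⟨ν, hν, hνA⟩ := exists_wLim_adr U m hAm hDlim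
  have hνR : Refl n ν := by
    refine refl_of_wLim hn hν (C := C) (Eventually.of_forall fun k => (hAm k).upperReg) ?_
    intro M δ hM hδ
    apply hUtop
    filter_upwards [eventually_ge_atTop ⌈M⌉₊, eventually_ge_atTop ⌈δ⁻¹⌉₊] with k hk1 hk2
    have h1 : M ≤ (k : ℝ) := (Nat.le_ceil M).trans (by exact_mod_cast hk1)
    have h2 : δ⁻¹ ≤ (k : ℝ) := (Nat.le_ceil δ⁻¹).trans (by exact_mod_cast hk2)
    refine (hEm k).mono zero_le_one (by linarith) ?_
    rw [inv_le_comm₀ (by positivity) hδ]
    linarith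
  have h0 : (0 : V d) ∈ ν.support := by
    refine hν.mem_support_adr (C := C) (D := D') (Eventually.of_forall hAm) one_pos
      (hDlim 1 ENNReal.ofReal_lt_top) (x := fun _ => 0) tendsto_const_nhds
      (Eventually.of_forall fun k => ?_)
    rw [hm, mem_support_resc n (x k) (hρ k), smul_zero, add_zero]
    exact hx k
  -- a flat place of the limit
  set M : ℝ := max ((ε ^ 3)⁻¹) 1 with hM
  have hM1 : 1 ≤ M := le_max_right _ _
  set ε' : ℝ := ε / (2 * (2 * M) ^ (n + 2)) with hε'
  have hε'0 : 0 < ε' := by positivity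
  obtain ⟨y, hy, hyr, s', hs', hs'r, g, b, hgb⟩ := hFS ν hνA hνR 0 h0 (1 / 64) (by norm_num) ε' hε'0
  obtain ⟨yk, hyk1, hyk2⟩ := hν.exists_tendsto_support hy
  set s : ℝ := s' / (2 * M) with hs
  have hs0 : 0 < s := by positivity
  have hMs : M * s = s' / 2 := by rw [hs]; field_simp
  have hcont : Continuous fun z : V d => nsq n (g z - b) :=
    (continuous_nsq n).comp (g.continuous.sub continuous_const)
  have hint : ∫ z in ball y s', nsq n (g z - b) ∂ν < ε ^ 2 * s ^ (n + 2) := by
    refine hgb.trans_lt ?_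
    have e1 : s' = 2 * M * s := by rw [hs]; field_simp
    have hp : 1 ≤ (2 * M) ^ (n + 2) := one_le_pow₀ (by linarith)
    have e2 : ε' ^ 2 * s' ^ (n + 2) = ε ^ 2 * s ^ (n + 2) / (4 * (2 * M) ^ (n + 2)) := by
      rw [hε', e1, mul_pow]
      field_simp
      ring_nf
    rw [e2]
    apply div_lt_self (by positivity)
    linarith
  have hev := hν.eventually_setIntegral_lt hcont (fun z => nsq_nonneg n _) hyk2
    (s := s') (s' := M * s) (by rw [hMs]; linarith) hint
  have hball : ∀ᶠ k in (U : Filter ℕ), yk k ∈ ball (0 : V d) (1 / 64) :=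
    hyk2 (isOpen_ball.mem_nhds hyr)
  have hsk : ∀ᶠ k : ℕ in (U : Filter ℕ), ((k : ℝ) + 2)⁻¹ ≤ s := by
    apply hUtop
    filter_upwards [eventually_ge_atTop ⌈s⁻¹⌉₊] with k hk
    have h1 : s⁻¹ ≤ (k : ℝ) := (Nat.le_ceil s⁻¹).trans (by exact_mod_cast hk)
    rw [inv_le_comm₀ (by positivity) hs0]
    linarith
  obtain ⟨k, hk1, hk2, hk3, hk4⟩ := (hev.and (hball.and (hsk.and hyk1))).exists
  have hflat : FlatW n (m k) (yk k) s ε (ε ^ 3)⁻¹ := by
    refine ⟨g, b, fun R hR1 hR2 => ?_⟩
    have hRM : R ≤ M * s := hR2.trans (by gcongr; exact le_max_left _ _)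
    have hR0 : 0 < R := hs0.trans_le hR1
    have hlfk := (hAm k).isLocallyFiniteMeasure
    calc ∫ z in ball (yk k) R, nsq n (g z - b) ∂(m k)
        ≤ ∫ z in ball (yk k) (M * s), nsq n (g z - b) ∂(m k) := by
          apply setIntegral_mono_set
          · exact WLim.aux_integrableOn hlfk hcont _ _
          · exact Eventually.of_forall fun z => nsq_nonneg n _
          · exact (ball_subset_ball hRM).eventuallyLE
      _ ≤ ε ^ 2 * s ^ (n + 2) := hk1.le
      _ = ε ^ 2 * 1 * s ^ (n + 2) := by ring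
      _ ≤ ε ^ 2 * (R / s) * R ^ (n + 2) := by
          have : 1 ≤ R / s := by rwa [one_le_div hs0]
          gcongr
  rw [hm, FlatW_resc (x k) (hρ k)] at hflat
  rw [hm, mem_support_resc n (x k) (hρ k)] at hk4
  refine hno k _ hk4 ?_ (ρ k * s) ?_ ?_ hflat
  · rw [dist_self_add_right, norm_smul, Real.norm_of_nonneg (hρ k).le]
    rw [mem_ball_zero_iff] at hk2
    have := (mul_lt_mul_of_pos_left hk2 (hρ k)).le
    linarith
  · rw [mul_comm]
    exact mul_le_mul_of_nonneg_left hk3 (hρ k).le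
  · have h1 : s ≤ 1 / 64 := by
      have : s ≤ s' := by
        rw [hs]
        apply div_le_self hs'.le
        linarith
      linarith
    have := mul_le_mul_of_nonneg_left h1 (hρ k).le
    linarith

end Crest.Agent.R085
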