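import Crest.Agent.R085.Defs
import Crest.Agent.R085.AdrInt2

/-!
R085: elementary facts on `cut`, `kN`; sigma-finiteness of upper regular measures; integrability on the
product space of functions `O(|x-y|^{1-n})` living on a bounded set.
-/

set_option autoImplicit false

namespace Crest.Agent.R085

open MeasureTheory Metric Set Filter
open scoped ENNReal NNReal Topology

theorem cut_nonneg (t : ℝ) : 0 ≤ cut t := le_max_left _ _

theorem cut_le_one (t : ℝ) : cut t ≤ 1 := by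
  unfold cut
  exact max_le zero_le_one (min_le_left _ _)

theorem cut_of_le {t : ℝ} (h : t ≤ 1) : cut t = 1 := by
  unfold cut
  rw [min_eq_left (by linarith), max_eq_right zero_le_one]

theorem cut_of_ge {t : ℝ} (h : 2 ≤ t) : cut t = 0 := by
  unfold cut
  rw [max_eq_left]
  exact (min_le_right _ _).trans (by linarith)

theorem cut_lip (s t : ℝ) : |cut s - cut t| ≤ |s - t| := by
  unfold cut
  calc |max 0 (min 1 (2 - s)) - max 0 (min 1 (2 - t))|
      ≤ |min 1 (2 - s) - min 1 (2 - t)| := by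
        have := abs_max_sub_max_le_abs (min 1 (2 - s)) (min 1 (2 - t)) (0 : ℝ)
        rwa [max_comm (min 1 (2 - s)), max_comm (min 1 (2 - t))] at this
    _ ≤ max |(1 : ℝ) - 1| |(2 - s) - (2 - t)| := abs_min_sub_min_le_max _ _ _ _
    _ = |s - t| := by
        rw [sub_self, abs_zero, max_eq_right (abs_nonneg _)]
        rw [show (2 - s) - (2 - t) = -(s - t) by ring, abs_neg]

theorem lipschitzWith_cut : LipschitzWith 1 cut :=
  LipschitzWith.of_dist_le_mul fun s t => by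
    simpa [Real.dist_eq] using cut_lip s t

theorem continuous_cut : Continuous cut := lipschitzWith_cut.continuous

theorem measurable_cut : Measurable cut := continuous_cut.measurable

variable {d : ℕ}

theorem kN_nonneg (n : ℕ) (N : ℝ) (z : V d) : 0 ≤ kN n N z :=
  mul_nonneg (cut_nonneg _) (by positivity)

theorem kN_le (n : ℕ) (N : ℝ) (z : V d) : kN n N z ≤ (‖z‖ ^ (n + 1))⁻¹ := by
  unfold kN
  calc cut (‖z‖ / N) * (‖z‖ ^ (n + 1))⁻¹ ≤ 1 * (‖z‖ ^ (n + 1))⁻¹ :=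
        mul_le_mul_of_nonneg_right (cut_le_one _) (by positivity)
    _ = _ := one_mul _

theorem kN_eq {n : ℕ} {N : ℝ} (hN : 0 < N) {z : V d} (h : ‖z‖ ≤ N) :
    kN n N z = (‖z‖ ^ (n + 1))⁻¹ := by
  unfold kN
  rw [cut_of_le ((div_le_one hN).2 h), one_mul]

theorem kN_eq_zero {n : ℕ} {N : ℝ} (hN : 0 < N) {z : V d} (h : 2 * N ≤ ‖z‖) : kN n N z = 0 := by
  unfold kN
  rw [cut_of_ge ((le_div_iff₀ hN).2 h), zero_mul]

theorem kN_neg (n : ℕ) (N : ℝ) (z : V d) : kN n N (-z) = kN n N z := by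
  unfold kN
  rw [norm_neg]

theorem kN_sub_comm (n : ℕ) (N : ℝ) (x y : V d) : kN n N (x - y) = kN n N (y - x) := by
  rw [← kN_neg, neg_sub]

theorem measurable_kN (n : ℕ) (N : ℝ) : Measurable (kN n N : V d → ℝ) := by
  unfold kN
  exact (measurable_cut.comp (measurable_norm.div_const N)).mul ((measurable_norm.pow_const _).inv)

/-- comparison of `kN` at two points of comparable size. -/
theorem kN_diff {n : ℕ} {N m : ℝ} (hN : 0 < N) (hm : 0 < m) {z w : V d} (hz : m ≤ ‖z‖)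
    (hw : m ≤ ‖w‖) : |kN n N z - kN n N w| ≤ (n + 3) * ‖z - w‖ * (m ^ (n + 2))⁻¹ := by
  set s := ‖z‖ with hs
  set t := ‖w‖ with ht
  have hs0 : 0 < s := hm.trans_le hz
  have ht0 : 0 < t := hm.trans_le hw
  have hst : |s - t| ≤ ‖z - w‖ := abs_norm_sub_norm_le _ _
  -- power part
  have hinv : |s⁻¹ - t⁻¹| ≤ |s - t| * (m ^ 2)⁻¹ := by
    have : s⁻¹ - t⁻¹ = (t - s) * (s * t)⁻¹ := by field_simp
    rw [this, abs_mul, abs_sub_comm t s, abs_of_pos (by positivity : (0:ℝ) < (s * t)⁻¹)]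
    gcongr
    calc m ^ 2 = m * m := by ring
      _ ≤ s * t := by gcongr
  have hpow : |s⁻¹ ^ (n + 1) - t⁻¹ ^ (n + 1)| ≤ (n + 1) * |s - t| * (m ^ (n + 2))⁻¹ := by
    have h1 := abs_pow_sub_pow_le s⁻¹ t⁻¹ (n + 1)
    have h2 : max |s⁻¹| |t⁻¹| ≤ m⁻¹ := by
      rw [abs_of_pos (inv_pos.2 hs0), abs_of_pos (inv_pos.2 ht0)]
      exact max_le (inv_anti₀ hm hz) (inv_anti₀ hm hw)
    refine h1.trans ?_
    have h3 : max |s⁻¹| |t⁻¹| ^ (n + 1 - 1) ≤ (m⁻¹) ^ n := by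
      simp only [Nat.add_sub_cancel]
      exact pow_le_pow_left₀ (le_max_of_le_left (abs_nonneg _)) h2 n
    calc |s⁻¹ - t⁻¹| * ((n + 1 : ℕ) : ℝ) * max |s⁻¹| |t⁻¹| ^ (n + 1 - 1)
        ≤ (|s - t| * (m ^ 2)⁻¹) * ((n + 1 : ℕ) : ℝ) * (m⁻¹) ^ n := by
          gcongr
      _ = (n + 1) * |s - t| * (m ^ (n + 2))⁻¹ := by
          rw [pow_add m n 2, mul_inv, inv_pow]
          push_cast
          ring
  rcases le_or_gt (2 * N) s with h2s | h2s <;> rcases le_or_gt (2 * N) t with h2t | h2t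
  · rw [kN_eq_zero hN h2s, kN_eq_zero hN h2t, sub_zero, abs_zero]
    positivity
  all_goals
    have hcut : |cut (s / N) - cut (t / N)| ≤ 2 * |s - t| * m⁻¹ := by
      have h1 := cut_lip (s / N) (t / N)
      rw [← sub_div, abs_div, abs_of_pos hN] at h1
      refine h1.trans ?_
      have : N⁻¹ ≤ 2 * m⁻¹ := by
        have h4 : m ≤ 2 * N := by linarith
        rw [← div_eq_mul_inv, inv_eq_one_div, div_le_div_iff₀ hN hm]
        linarith
      calc |s - t| / N = |s - t| * N⁻¹ := div_eq_mul_inv _ _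
        _ ≤ |s - t| * (2 * m⁻¹) := by gcongr
        _ = 2 * |s - t| * m⁻¹ := by ring
    have key : kN n N z - kN n N w = (cut (s / N) - cut (t / N)) * s⁻¹ ^ (n + 1)
        + cut (t / N) * (s⁻¹ ^ (n + 1) - t⁻¹ ^ (n + 1)) := by
      unfold kN
      rw [← hs, ← ht, inv_pow, inv_pow]
      ring
    rw [key]
    have hs1 : s⁻¹ ^ (n + 1) ≤ m⁻¹ ^ (n + 1) :=
      pow_le_pow_left₀ (by positivity) (inv_anti₀ hm hz) _
    calc |(cut (s / N) - cut (t / N)) * s⁻¹ ^ (n + 1)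
          + cut (t / N) * (s⁻¹ ^ (n + 1) - t⁻¹ ^ (n + 1))|
        ≤ |(cut (s / N) - cut (t / N)) * s⁻¹ ^ (n + 1)|
          + |cut (t / N) * (s⁻¹ ^ (n + 1) - t⁻¹ ^ (n + 1))| := abs_add_le _ _
      _ = |cut (s / N) - cut (t / N)| * s⁻¹ ^ (n + 1)
          + cut (t / N) * |s⁻¹ ^ (n + 1) - t⁻¹ ^ (n + 1)| := by
          rw [abs_mul, abs_mul, abs_of_pos (by positivity : (0:ℝ) < s⁻¹ ^ (n + 1)),
            abs_of_nonneg (cut_nonneg _)]
      _ ≤ (2 * |s - t| * m⁻¹) * m⁻¹ ^ (n + 1)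
          + 1 * ((n + 1) * |s - t| * (m ^ (n + 2))⁻¹) := by
          gcongr
          exact cut_le_one _
      _ = (n + 3) * |s - t| * (m ^ (n + 2))⁻¹ := by
          rw [inv_pow]
          have : m⁻¹ * (m ^ (n + 1))⁻¹ = (m ^ (n + 2))⁻¹ := by
            rw [← mul_inv]; congr 1; ring
          calc 2 * |s - t| * m⁻¹ * (m ^ (n + 1))⁻¹ + 1 * ((n + 1) * |s - t| * (m ^ (n + 2))⁻¹)
              = 2 * |s - t| * (m⁻¹ * (m ^ (n + 1))⁻¹)
                + (n + 1) * |s - t| * (m ^ (n + 2))⁻¹ := by ring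
            _ = _ := by rw [this]; ring
      _ ≤ (n + 3) * ‖z - w‖ * (m ^ (n + 2))⁻¹ := by gcongr

/-! ### upper regular measures -/

theorem UpperReg.ball_lt_top {X : Type*} [PseudoMetricSpace X] [MeasurableSpace X]
    {n : ℕ} {C : ℝ} {μ : Measure X} (h : UpperReg n C μ) (x : X) (r : ℝ) : μ (ball x r) < ∞ := by
  rcases le_or_gt r 0 with hr | hr
  · rw [ball_eq_empty.2 hr]; simp
  · exact (h x r hr).trans_lt ENNReal.ofReal_lt_top

theorem UpperReg.sigmaFinite {X : Type*} [PseudoMetricSpace X] [Nonempty X] [MeasurableSpace X]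
    {n : ℕ} {C : ℝ} {μ : Measure X} (h : UpperReg n C μ) : SigmaFinite μ := by
  obtain ⟨x⟩ := ‹Nonempty X›
  refine ⟨⟨⟨fun k : ℕ => ball x k, fun _ => trivial, fun k => h.ball_lt_top x k, ?_⟩⟩⟩
  exact iUnion_ball_nat x

/-! ### integrability on the product -/

theorem norm_sq_mul_inv_le (n : ℕ) (hn : 1 ≤ n) (z : V d) :
    ‖z‖ ^ 2 * (‖z‖ ^ (n + 1))⁻¹ ≤ (‖z‖ ^ (n - 1))⁻¹ := by
  rcases eq_or_ne z 0 with rfl | hz
  · simp only [norm_zero]
    rw [zero_pow (by norm_num), zero_mul]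
    positivity
  · have hz' : 0 < ‖z‖ := norm_pos_iff.2 hz
    have : ‖z‖ ^ (n + 1) = ‖z‖ ^ 2 * ‖z‖ ^ (n - 1) := by
      rw [← pow_add]; congr 1; omega
    rw [this, mul_inv, ← mul_assoc, mul_inv_cancel₀ (by positivity), one_mul]

/-- inner integral of the weakly singular kernel over a ball. -/
theorem lintegral_near_ball {n : ℕ} {C : ℝ} {μ : Measure (V d)} (hμ : UpperReg n C μ) (hC : 0 ≤ C)
    (hn : 1 ≤ n) (c : V d) {ρ : ℝ} (hρ : 0 < ρ) {x : V d} (hx : x ∈ ball c ρ) :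
    ∫⁻ y in ball c ρ, ENNReal.ofReal ((‖x - y‖ ^ (n - 1))⁻¹) ∂μ
      ≤ ENNReal.ofReal (C * 4 ^ n * (2 * ρ)) := by
  have h1 := lintegral_near hμ hC (k := n - 1) (by omega) x (r := 2 * ρ) (by positivity)
  have h2 : n - (n - 1) = 1 := by omega
  rw [h2, pow_one] at h1
  refine le_trans ?_ h1
  simp only [← dist_eq_norm]
  refine lintegral_mono_set ?_
  intro y hy
  rw [mem_closedBall]
  rw [mem_ball] at hx hy
  have := dist_triangle_right y x c
  linarith

/-- weighted double integral of the weakly singular kernel. -/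
theorem lintegral_near_prod {n : ℕ} {C : ℝ} {μ : Measure (V d)} (hμ : UpperReg n C μ) (hC : 0 ≤ C)
    (hn : 1 ≤ n) (c : V d) {ρ : ℝ} (hρ : 0 < ρ) {w : V d → ℝ≥0∞} (hw : Measurable w) :
    ∫⁻ p in ball c ρ ×ˢ ball c ρ, w p.1 * ENNReal.ofReal ((‖p.1 - p.2‖ ^ (n - 1))⁻¹) ∂(μ.prod μ)
      ≤ (∫⁻ x in ball c ρ, w x ∂μ) * ENNReal.ofReal (C * 4 ^ n * (2 * ρ)) := by
  have : SigmaFinite μ := hμ.sigmaFinite
  rw [← Measure.prod_restrict]
  have hmeas : Measurable fun p : V d × V d => w p.1 * ENNReal.ofReal ((‖p.1 - p.2‖ ^ (n - 1))⁻¹) := by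
    refine (hw.comp measurable_fst).mul ?_
    exact (((measurable_fst.sub measurable_snd).norm.pow_const _).inv).ennreal_ofReal
  rw [lintegral_prod _ hmeas.aemeasurable]
  calc ∫⁻ x in ball c ρ, ∫⁻ y in ball c ρ, w x * ENNReal.ofReal ((‖x - y‖ ^ (n - 1))⁻¹) ∂μ ∂μ
      ≤ ∫⁻ x in ball c ρ, w x * ENNReal.ofReal (C * 4 ^ n * (2 * ρ)) ∂μ := by
        refine lintegral_mono_ae ?_
        filter_upwards [ae_restrict_mem measurableSet_ball] with x hx
        rw [lintegral_const_mul]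
        · gcongr
          exact lintegral_near_ball hμ hC hn c hρ hx
        · exact (((measurable_const.sub measurable_id).norm.pow_const _).inv).ennreal_ofReal
    _ = _ := by rw [lintegral_mul_const _ hw]

theorem integrable_of_near {n : ℕ} {C : ℝ} {μ : Measure (V d)} (hμ : UpperReg n C μ) (hC : 0 ≤ C)
    (hn : 1 ≤ n) (c : V d) {ρ : ℝ} (hρ : 0 < ρ) {F : V d × V d → ℝ} (hF : Measurable F) {M : ℝ}
    (hM : 0 ≤ M)
    (hb : ∀ p, p.1 ∈ ball c ρ → p.2 ∈ ball c ρ → |F p| ≤ M * (‖p.1 - p.2‖ ^ (n - 1))⁻¹)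
    (h0 : ∀ p, ¬ (p.1 ∈ ball c ρ ∧ p.2 ∈ ball c ρ) → F p = 0) : Integrable F (μ.prod μ) := by
  have hS : MeasurableSet (ball c ρ ×ˢ ball c ρ : Set (V d × V d)) :=
    measurableSet_ball.prod measurableSet_ball
  have hF' : F = (ball c ρ ×ˢ ball c ρ : Set (V d × V d)).indicator F := by
    ext p
    by_cases hp : p ∈ (ball c ρ ×ˢ ball c ρ : Set (V d × V d))
    · rw [indicator_of_mem hp]
    · rw [indicator_of_notMem hp]
      exact h0 p (by simpa [mem_prod] using hp)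
  rw [hF', integrable_indicator_iff hS]
  refine ⟨hF.aestronglyMeasurable, ?_⟩
  have h1 := lintegral_near_prod hμ hC hn c hρ (w := fun _ => ENNReal.ofReal M) measurable_const
  have h2 : (∫⁻ _x in ball c ρ, ENNReal.ofReal M ∂μ) * ENNReal.ofReal (C * 4 ^ n * (2 * ρ)) < ∞ := by
    rw [lintegral_const, Measure.restrict_apply_univ]
    exact ENNReal.mul_lt_top (ENNReal.mul_lt_top ENNReal.ofReal_lt_top (hμ.ball_lt_top _ _))
      ENNReal.ofReal_lt_top
  refine lt_of_le_of_lt ?_ (lt_of_le_of_lt h1 h2)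
  refine lintegral_mono_ae ?_
  filter_upwards [ae_restrict_mem hS] with p hp
  rw [← ofReal_norm, ← ENNReal.ofReal_mul hM]
  exact ENNReal.ofReal_le_ofReal (hb p hp.1 hp.2)


end Crest.Agent.R085
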