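import Crest.Agent.R085.Defs
import Crest.Agent.R085.AdrInt2
import Crest.Agent.R085.CutBasic

/-!
R085: Caccioppoli inequality and tail estimate for the form `Bf`, for an upper `n`-regular measure.

-/

set_option autoImplicit false

namespace Crest.Agent.R085

open MeasureTheory Metric Set Filter
open scoped ENNReal NNReal Topology

/-- Lipschitz on bounded sets. -/
def LocLip {d : ℕ} (u : V d → ℝ) : Prop := ∀ R : ℝ, ∃ K : ℝ≥0, LipschitzOnWith K u (ball 0 R)

/-- local `H^{1/2}` energy of `u` on `ball x R`. -/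
noncomputable def En {d : ℕ} (n : ℕ) (μ : Measure (V d)) (u : V d → ℝ) (x : V d) (R : ℝ) : ℝ :=
  ∫ p in ball x R ×ˢ ball x R, (u p.1 - u p.2) ^ 2 * (‖p.1 - p.2‖ ^ (n + 1))⁻¹ ∂(μ.prod μ)

/-- weighted integral over the shell `r ≤ |y - x| < R`. -/
noncomputable def farI {d : ℕ} (n : ℕ) (μ : Measure (V d)) (w : V d → ℝ) (x : V d) (r R : ℝ) : ℝ :=
  ∫ y in ball x R \ ball x r, |w y| * (dist y x ^ (n + 2))⁻¹ ∂μ


variable {d : ℕ}

theorem LocLip.ball {u : V d → ℝ} (hu : LocLip u) (x : V d) (R : ℝ) :
    ∃ L : ℝ, 0 ≤ L ∧ ∀ y ∈ ball x R, ∀ z ∈ ball x R, |u y - u z| ≤ L * dist y z := by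
  obtain ⟨K, hK⟩ := hu (R + dist x 0)
  refine ⟨K, K.2, fun y hy z hz => ?_⟩
  have h : ∀ w ∈ Metric.ball x R, w ∈ Metric.ball (0 : V d) (R + dist x 0) := by
    intro w hw
    rw [mem_ball] at hw ⊢
    have := dist_triangle w x 0
    linarith
  have := hK.dist_le_mul y (h y hy) z (h z hz)
  rwa [Real.dist_eq] at this

theorem LocLip.continuous {u : V d → ℝ} (hu : LocLip u) : Continuous u := by
  rw [continuous_iff_continuousAt]
  intro x
  obtain ⟨K, hK⟩ := hu (dist x 0 + 1)
  have hmem : Metric.ball (0 : V d) (dist x 0 + 1) ∈ 𝓝 x := by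
    refine isOpen_ball.mem_nhds ?_
    rw [mem_ball]
    linarith
  exact (hK.continuousOn.continuousAt hmem)

theorem LocLip.measurable {u : V d → ℝ} (hu : LocLip u) : Measurable u := hu.continuous.measurable

/-- the standard cutoff at scale `R` around `x`. -/
theorem phi_lip (x : V d) {R : ℝ} (hR : 0 < R) (y z : V d) :
    |cut (dist y x / R) - cut (dist z x / R)| ≤ dist y z / R := by
  refine (cut_lip _ _).trans ?_
  rw [← sub_div, abs_div, abs_of_pos hR]
  gcongr
  exact abs_dist_sub_le _ _ _

theorem measurable_phi (x : V d) (R : ℝ) : Measurable fun y : V d => cut (dist y x / R) :=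
  measurable_cut.comp ((continuous_id.dist continuous_const).measurable.div_const R)

theorem cacc_aux {n : ℕ} {C : ℝ} (hC : 0 ≤ C) (hn : 1 ≤ n) {μ : Measure (V d)}
    (hμ : UpperReg n C μ) {u : V d → ℝ} (hu : LocLip u) (x : V d) {R N a : ℝ} (hR : 0 < R)
    (hN : 8 * R ≤ N) (hz : ∫ y, (u y - a) * cut (dist y x / R) ^ 2 ∂μ = 0) :
    En n μ u x R ≤ 2 * |Bf n μ N u (fun y => (u y - a) * cut (dist y x / R) ^ 2)|
        + ((C * 4 ^ n * 8) * (R⁻¹ * ∫ y in ball x (4 * R), (u y - a) ^ 2 ∂μ)
          + 2 * (n + 3) * 2 ^ (n + 3) * (R * (∫ y in ball x (2 * R), |u y - a| ∂μ)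
            * farI n μ (fun y => u y - a) x (4 * R) (4 * N))) := by
  have hσ : SigmaFinite μ := hμ.sigmaFinite
  have hN0 : 0 < N := by linarith
  set φ : V d → ℝ := fun y => cut (dist y x / R) with hφdef
  set w : V d → ℝ := fun y => u y - a with hwdef
  have hφ0 : ∀ y, 0 ≤ φ y := fun y => cut_nonneg _
  have hφ1 : ∀ y, φ y ≤ 1 := fun y => cut_le_one _
  have hφL : ∀ y z, |φ y - φ z| ≤ dist y z / R := fun y z => phi_lip x hR y z
  have hφone : ∀ y, dist y x ≤ R → φ y = 1 := fun y hy => cut_of_le ((div_le_one hR).2 hy)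
  have hφzero : ∀ y, 2 * R ≤ dist y x → φ y = 0 := fun y hy => cut_of_ge ((le_div_iff₀ hR).2 hy)
  have hφm : Measurable φ := measurable_phi x R
  have hum : Measurable u := hu.measurable
  have hwm : Measurable w := hum.sub_const a
  obtain ⟨L, hL0, hL⟩ := hu.ball x (4 * N)
  -- bound of `w` on the big ball
  obtain ⟨M, hM0, hM⟩ : ∃ M : ℝ, 0 ≤ M ∧ ∀ y ∈ ball x (4 * N), |w y| ≤ M := by
    refine ⟨|w x| + L * (4 * N), by positivity, fun y hy => ?_⟩
    have h1 := hL y hy x (mem_ball_self (by positivity))
    have h2 : |w y| ≤ |w x| + |u y - u x| := by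
      have : w y = w x + (u y - u x) := by simp only [hwdef]; ring
      rw [this]; exact abs_add_le _ _
    have h3 : L * dist y x ≤ L * (4 * N) := by
      gcongr
      exact (mem_ball.1 hy).le
    linarith
  have hkm : Measurable fun p : V d × V d => kN n N (p.1 - p.2) :=
    (measurable_kN n N).comp (measurable_fst.sub measurable_snd)
  -- the three integrands
  set F1 : V d × V d → ℝ := fun p => (u p.1 - u p.2) * (w p.1 * φ p.1 ^ 2 - w p.2 * φ p.2 ^ 2)
    * kN n N (p.1 - p.2) with hF1
  set F2 : V d × V d → ℝ := fun p => (φ p.1 * w p.1 - φ p.2 * w p.2) ^ 2 * kN n N (p.1 - p.2) with hF2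
  set F3 : V d × V d → ℝ := fun p => w p.1 * w p.2 * (φ p.1 - φ p.2) ^ 2 * kN n N (p.1 - p.2) with hF3
  have hF12 : ∀ p, F1 p = F2 p - F3 p := by
    intro p
    simp only [hF1, hF2, hF3, hwdef]
    ring
  have hφ1m : Measurable fun p : V d × V d => φ p.1 := hφm.comp measurable_fst
  have hφ2m : Measurable fun p : V d × V d => φ p.2 := hφm.comp measurable_snd
  have hw1m : Measurable fun p : V d × V d => w p.1 := hwm.comp measurable_fst
  have hw2m : Measurable fun p : V d × V d => w p.2 := hwm.comp measurable_snd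
  have hF2m : Measurable F2 := (((hφ1m.mul hw1m).sub (hφ2m.mul hw2m)).pow_const 2).mul hkm
  have hF3m : Measurable F3 := ((hw1m.mul hw2m).mul ((hφ1m.sub hφ2m).pow_const 2)).mul hkm
  -- vanishing off the big square
  have hoff : ∀ p : V d × V d, ¬ (p.1 ∈ ball x (4 * N) ∧ p.2 ∈ ball x (4 * N)) →
      (φ p.1 = 0 ∧ φ p.2 = 0) ∨ kN n N (p.1 - p.2) = 0 := by
    intro p hp
    by_cases h1 : dist p.1 x < 2 * R
    · right
      have h2 : ¬ (p.2 ∈ ball x (4 * N)) := fun h => hp ⟨by rw [mem_ball]; linarith, h⟩
      rw [mem_ball, not_lt] at h2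
      refine kN_eq_zero hN0 ?_
      rw [← dist_eq_norm]
      have := dist_triangle p.2 p.1 x
      rw [dist_comm p.2 p.1] at this
      linarith
    · by_cases h3 : dist p.2 x < 2 * R
      · right
        have h2 : ¬ (p.1 ∈ ball x (4 * N)) := fun h => hp ⟨h, by rw [mem_ball]; linarith⟩
        rw [mem_ball, not_lt] at h2
        refine kN_eq_zero hN0 ?_
        rw [← dist_eq_norm]
        have := dist_triangle p.1 p.2 x
        linarith
      · left
        exact ⟨hφzero _ (not_lt.1 h1), hφzero _ (not_lt.1 h3)⟩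
  have hkb : ∀ z : V d, ‖z‖ ^ 2 * kN n N z ≤ (‖z‖ ^ (n - 1))⁻¹ := fun z =>
    (mul_le_mul_of_nonneg_left (kN_le n N z) (by positivity)).trans (norm_sq_mul_inv_le n hn z)
  have hF2i : Integrable F2 (μ.prod μ) := by
    refine integrable_of_near hμ hC hn x (by positivity : 0 < 4 * N) hF2m
      (M := (L + M / R) ^ 2) (by positivity) ?_ ?_
    · intro p h1 h2
      simp only [hF2]
      rw [abs_mul, abs_of_nonneg (kN_nonneg _ _ _), abs_of_nonneg (sq_nonneg _)]
      have hb : |φ p.1 * w p.1 - φ p.2 * w p.2| ≤ (L + M / R) * ‖p.1 - p.2‖ := by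
        have e : φ p.1 * w p.1 - φ p.2 * w p.2
            = φ p.1 * (u p.1 - u p.2) + w p.2 * (φ p.1 - φ p.2) := by
          simp only [hwdef]; ring
        rw [e]
        calc |φ p.1 * (u p.1 - u p.2) + w p.2 * (φ p.1 - φ p.2)|
            ≤ |φ p.1 * (u p.1 - u p.2)| + |w p.2 * (φ p.1 - φ p.2)| := abs_add_le _ _
          _ = φ p.1 * |u p.1 - u p.2| + |w p.2| * |φ p.1 - φ p.2| := by
              rw [abs_mul, abs_mul, abs_of_nonneg (hφ0 _)]
          _ ≤ 1 * (L * dist p.1 p.2) + M * (dist p.1 p.2 / R) := by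
              gcongr
              · exact hφ1 _
              · exact hL _ h1 _ h2
              · exact hM _ h2
              · exact hφL _ _
          _ = (L + M / R) * ‖p.1 - p.2‖ := by rw [dist_eq_norm]; ring
      calc (φ p.1 * w p.1 - φ p.2 * w p.2) ^ 2 * kN n N (p.1 - p.2)
          = |φ p.1 * w p.1 - φ p.2 * w p.2| ^ 2 * kN n N (p.1 - p.2) := by rw [sq_abs]
        _ ≤ ((L + M / R) * ‖p.1 - p.2‖) ^ 2 * kN n N (p.1 - p.2) := by
            gcongr
            exact kN_nonneg _ _ _
        _ = (L + M / R) ^ 2 * (‖p.1 - p.2‖ ^ 2 * kN n N (p.1 - p.2)) := by ring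
        _ ≤ _ := by
            gcongr
            exact hkb _
    · intro p hp
      simp only [hF2]
      rcases hoff p hp with ⟨h1, h2⟩ | h
      · rw [h1, h2]; ring
      · rw [h, mul_zero]
  have hF3i : Integrable F3 (μ.prod μ) := by
    refine integrable_of_near hμ hC hn x (by positivity : 0 < 4 * N) hF3m
      (M := M * M * (R⁻¹) ^ 2) (by positivity) ?_ ?_
    · intro p h1 h2
      simp only [hF3]
      rw [abs_mul, abs_of_nonneg (kN_nonneg _ _ _), abs_mul, abs_of_nonneg (sq_nonneg (φ p.1 - φ p.2)),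
        abs_mul]
      have hb : (φ p.1 - φ p.2) ^ 2 ≤ (R⁻¹) ^ 2 * ‖p.1 - p.2‖ ^ 2 := by
        rw [← sq_abs, ← mul_pow]
        gcongr
        have := hφL p.1 p.2
        rwa [dist_eq_norm, div_eq_inv_mul] at this
      calc |w p.1| * |w p.2| * (φ p.1 - φ p.2) ^ 2 * kN n N (p.1 - p.2)
          ≤ M * M * ((R⁻¹) ^ 2 * ‖p.1 - p.2‖ ^ 2) * kN n N (p.1 - p.2) := by
            gcongr
            · exact kN_nonneg _ _ _
            · exact hM _ h1
            · exact hM _ h2
        _ = M * M * (R⁻¹) ^ 2 * (‖p.1 - p.2‖ ^ 2 * kN n N (p.1 - p.2)) := by ring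
        _ ≤ _ := by
            gcongr
            exact hkb _
    · intro p hp
      simp only [hF3]
      rcases hoff p hp with ⟨h1, h2⟩ | h
      · rw [h1, h2]; ring
      · rw [h, mul_zero]
  have hBf : 2 * Bf n μ N u (fun y => (u y - a) * cut (dist y x / R) ^ 2)
      = (∫ p, F2 p ∂(μ.prod μ)) - ∫ p, F3 p ∂(μ.prod μ) := by
    rw [← integral_sub hF2i hF3i]
    unfold Bf
    rw [← mul_assoc, show (2 : ℝ) * (1 / 2) = 1 by norm_num, one_mul]
    refine integral_congr_ae (Eventually.of_forall fun p => ?_)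
    exact hF12 p
  -- near part
  have hEn : En n μ u x R ≤ ∫ p, F2 p ∂(μ.prod μ) := by
    have hS : MeasurableSet (ball x R ×ˢ ball x R : Set (V d × V d)) :=
      measurableSet_ball.prod measurableSet_ball
    have h1 : En n μ u x R = ∫ p in ball x R ×ˢ ball x R, F2 p ∂(μ.prod μ) := by
      unfold En
      refine setIntegral_congr_fun hS ?_
      intro p hp
      have hp1 := mem_ball.1 hp.1
      have hp2 := mem_ball.1 hp.2
      simp only [hF2, hwdef]
      rw [hφone _ hp1.le, hφone _ hp2.le, kN_eq hN0]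
      · ring
      · rw [← dist_eq_norm]
        have := dist_triangle_right p.1 p.2 x
        linarith
    rw [h1]
    exact setIntegral_le_integral hF2i (Eventually.of_forall fun p =>
      mul_nonneg (sq_nonneg _) (kN_nonneg _ _ _))
  -- splitting of F3
  set B4 : Set (V d) := ball x (4 * R) with hB4
  have hB4m : MeasurableSet B4 := measurableSet_ball
  set S4 : Set (V d × V d) := B4 ×ˢ B4 with hS4
  have hS4m : MeasurableSet S4 := hB4m.prod hB4m
  set T4 : Set (V d × V d) := {p | p.2 ∉ B4} with hT4
  have hT4m : MeasurableSet T4 := measurable_snd hB4m.compl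
  have hsplit : ∀ p, F3 p = S4.indicator F3 p + (T4.indicator F3 p + T4.indicator F3 p.swap) := by
    intro p
    have hsw : F3 p.swap = F3 p := by
      simp only [hF3, Prod.fst_swap, Prod.snd_swap]
      rw [kN_sub_comm]
      ring
    by_cases h1 : p.1 ∈ B4 <;> by_cases h2 : p.2 ∈ B4
    · have e1 : p ∈ S4 := ⟨h1, h2⟩
      have e2 : p ∉ T4 := fun h => h h2
      have e3 : p.swap ∉ T4 := fun h => h h1
      rw [indicator_of_mem e1, indicator_of_notMem e2, indicator_of_notMem e3]; ring
    · have e1 : p ∉ S4 := fun h => h2 h.2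
      have e2 : p ∈ T4 := h2
      have e3 : p.swap ∉ T4 := fun h => h h1
      rw [indicator_of_notMem e1, indicator_of_mem e2, indicator_of_notMem e3]; ring
    · have e1 : p ∉ S4 := fun h => h1 h.1
      have e2 : p ∉ T4 := fun h => h h2
      have e3 : p.swap ∈ T4 := h1
      rw [indicator_of_notMem e1, indicator_of_notMem e2, indicator_of_mem e3, hsw]; ring
    · have hz : F3 p = 0 := by
        simp only [hF3]
        have a1 : φ p.1 = 0 := hφzero _ (by
          have := not_lt.1 (fun h => h1 (mem_ball.2 h)); linarith)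
        have a2 : φ p.2 = 0 := hφzero _ (by
          have := not_lt.1 (fun h => h2 (mem_ball.2 h)); linarith)
        rw [a1, a2]; ring
      have e1 : p ∉ S4 := fun h => h1 h.1
      have e2 : p ∈ T4 := h2
      have e3 : p.swap ∈ T4 := h1
      rw [indicator_of_notMem e1, indicator_of_mem e2, indicator_of_mem e3, hsw, hz]; ring
  have hTi : Integrable (T4.indicator F3) (μ.prod μ) := hF3i.indicator hT4m
  have hF3eq : ∫ p, F3 p ∂(μ.prod μ) = (∫ p in S4, F3 p ∂(μ.prod μ))
      + 2 * ∫ p, T4.indicator F3 p ∂(μ.prod μ) := by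
    have h1 : ∫ p, F3 p ∂(μ.prod μ) = ∫ p, (S4.indicator F3 p
        + (T4.indicator F3 p + T4.indicator F3 p.swap)) ∂(μ.prod μ) :=
      integral_congr_ae (Eventually.of_forall hsplit)
    have hTs : Integrable (fun p : V d × V d => T4.indicator F3 p.swap) (μ.prod μ) := hTi.swap
    have hTT : Integrable (fun p : V d × V d => T4.indicator F3 p + T4.indicator F3 p.swap)
        (μ.prod μ) := hTi.add hTs
    rw [h1, integral_add (hF3i.indicator hS4m) hTT, integral_add hTi hTs,
      integral_indicator hS4m, integral_prod_swap (f := T4.indicator F3)]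
    ring
  -- square part
  have hsq : ∫ p in S4, F3 p ∂(μ.prod μ)
      ≤ (C * 4 ^ n * 8) * (R⁻¹ * ∫ y in ball x (4 * R), (u y - a) ^ 2 ∂μ) := by
    set H : V d × V d → ℝ := fun p => w p.1 ^ 2 * (R⁻¹) ^ 2 * (‖p.1 - p.2‖ ^ (n - 1))⁻¹ with hH
    have hHm : Measurable H := ((hw1m.pow_const 2).mul_const _).mul
      (((measurable_fst.sub measurable_snd).norm.pow_const _).inv)
    have hB4N : B4 ⊆ ball x (4 * N) := ball_subset_ball (by linarith)
    have hHi : Integrable (S4.indicator H) (μ.prod μ) := by
      refine integrable_of_near hμ hC hn x (by positivity : 0 < 4 * N) (hHm.indicator hS4m)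
        (M := M ^ 2 * (R⁻¹) ^ 2) (by positivity) ?_ ?_
      · intro p h1 h2
        by_cases hp : p ∈ S4
        · rw [indicator_of_mem hp]
          simp only [hH]
          rw [abs_of_nonneg (by positivity)]
          have hw2 : w p.1 ^ 2 ≤ M ^ 2 := by
            rw [← sq_abs]
            gcongr
            exact hM _ h1
          exact mul_le_mul_of_nonneg_right (mul_le_mul_of_nonneg_right hw2 (by positivity))
            (by positivity)
        · rw [indicator_of_notMem hp, abs_zero]
          positivity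
      · intro p hp
        refine indicator_of_notMem (fun h => hp ⟨hB4N h.1, hB4N h.2⟩) _
    have hHs : Integrable (fun p : V d × V d => S4.indicator H p.swap) (μ.prod μ) := hHi.swap
    have h1 : ∫ p in S4, F3 p ∂(μ.prod μ)
        ≤ ∫ p, (1 / 2 : ℝ) * (S4.indicator H p + S4.indicator H p.swap) ∂(μ.prod μ) := by
      rw [← integral_indicator hS4m]
      refine integral_mono (hF3i.indicator hS4m) ((hHi.add hHs).const_mul _) ?_
      intro p
      by_cases hp : p ∈ S4
      · have hp' : p.swap ∈ S4 := ⟨hp.2, hp.1⟩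
        simp only [indicator_of_mem hp, indicator_of_mem hp']
        simp only [hF3, hH, Prod.fst_swap, Prod.snd_swap]
        rw [norm_sub_rev p.2 p.1]
        have hb : (φ p.1 - φ p.2) ^ 2 ≤ (R⁻¹) ^ 2 * ‖p.1 - p.2‖ ^ 2 := by
          rw [← sq_abs, ← mul_pow]
          gcongr
          have := hφL p.1 p.2
          rwa [dist_eq_norm, div_eq_inv_mul] at this
        have hb2 : (φ p.1 - φ p.2) ^ 2 * kN n N (p.1 - p.2)
            ≤ (R⁻¹) ^ 2 * (‖p.1 - p.2‖ ^ (n - 1))⁻¹ := by
          calc (φ p.1 - φ p.2) ^ 2 * kN n N (p.1 - p.2)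
              ≤ ((R⁻¹) ^ 2 * ‖p.1 - p.2‖ ^ 2) * kN n N (p.1 - p.2) := by
                gcongr
                exact kN_nonneg _ _ _
            _ = (R⁻¹) ^ 2 * (‖p.1 - p.2‖ ^ 2 * kN n N (p.1 - p.2)) := by ring
            _ ≤ _ := by
                gcongr
                exact hkb _
        have hb3 : w p.1 * w p.2 ≤ 1 / 2 * (w p.1 ^ 2 + w p.2 ^ 2) := by
          nlinarith [sq_nonneg (w p.1 - w p.2)]
        calc w p.1 * w p.2 * (φ p.1 - φ p.2) ^ 2 * kN n N (p.1 - p.2)
            = (w p.1 * w p.2) * ((φ p.1 - φ p.2) ^ 2 * kN n N (p.1 - p.2)) := by ring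
          _ ≤ (1 / 2 * (w p.1 ^ 2 + w p.2 ^ 2)) * ((φ p.1 - φ p.2) ^ 2 * kN n N (p.1 - p.2)) := by
              gcongr
              exact mul_nonneg (sq_nonneg _) (kN_nonneg _ _ _)
          _ ≤ (1 / 2 * (w p.1 ^ 2 + w p.2 ^ 2)) * ((R⁻¹) ^ 2 * (‖p.1 - p.2‖ ^ (n - 1))⁻¹) := by
              gcongr
          _ = _ := by ring
      · have hp' : p.swap ∉ S4 := fun h => hp ⟨h.2, h.1⟩
        simp only [indicator_of_notMem hp, indicator_of_notMem hp']
        norm_num
    have h2 : ∫ p, (1 / 2 : ℝ) * (S4.indicator H p + S4.indicator H p.swap) ∂(μ.prod μ)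
        = ∫ p in S4, H p ∂(μ.prod μ) := by
      rw [integral_const_mul, integral_add hHi hHs, integral_prod_swap (f := S4.indicator H),
        integral_indicator hS4m]
      ring
    rw [h2] at h1
    refine h1.trans ?_
    have hw2i : IntegrableOn (fun y => (R⁻¹) ^ 2 * w y ^ 2) B4 μ := by
      refine Measure.integrableOn_of_bounded (M := (R⁻¹) ^ 2 * M ^ 2) (hμ.ball_lt_top _ _).ne
        ((hwm.pow_const 2).const_mul _).aestronglyMeasurable ?_
      filter_upwards [ae_restrict_mem hB4m] with y hy
      rw [Real.norm_eq_abs, abs_of_nonneg (by positivity), ← sq_abs (w y)]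
      gcongr
      exact hM _ (hB4N hy)
    have h3 := lintegral_near_prod hμ hC hn x (by positivity : 0 < 4 * R)
      (w := fun y => ENNReal.ofReal ((R⁻¹) ^ 2 * w y ^ 2)) ((hwm.pow_const 2).const_mul _).ennreal_ofReal
    have h4 : ∫⁻ y in B4, ENNReal.ofReal ((R⁻¹) ^ 2 * w y ^ 2) ∂μ
        = ENNReal.ofReal (∫ y in B4, (R⁻¹) ^ 2 * w y ^ 2 ∂μ) := by
      rw [ofReal_integral_eq_lintegral_ofReal hw2i (Eventually.of_forall fun y => by positivity)]
    rw [h4, ← ENNReal.ofReal_mul (integral_nonneg fun y => by positivity)] at h3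
    have h5 : ∫⁻ p in S4, ENNReal.ofReal (H p) ∂(μ.prod μ)
        ≤ ENNReal.ofReal ((∫ y in B4, (R⁻¹) ^ 2 * w y ^ 2 ∂μ) * (C * 4 ^ n * (2 * (4 * R)))) := by
      refine le_trans (le_of_eq ?_) h3
      refine lintegral_congr fun p => ?_
      rw [← ENNReal.ofReal_mul (by positivity)]
      congr 1
      simp only [hH]
      ring
    have h6 := (integrable_and_integral_le_of_lintegral (ν := (μ.prod μ).restrict S4) (f := H)
      hHm.aestronglyMeasurable (fun p => by simp only [hH]; positivity)
      (mul_nonneg (integral_nonneg fun y => by positivity) (by positivity)) h5).2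
    refine h6.trans (le_of_eq ?_)
    rw [integral_const_mul]
    simp only [hwdef, hB4]
    field_simp
    ring
  -- far part
  have hfar : |∫ p, T4.indicator F3 p ∂(μ.prod μ)| ≤ (n + 3) * 2 ^ (n + 3)
      * (R * (∫ y in ball x (2 * R), |u y - a| ∂μ)
            * farI n μ (fun y => u y - a) x (4 * R) (4 * N)) := by
    rw [integral_prod_symm _ hTi]
    set W : ℝ := ∫ y in ball x (2 * R), |u y - a| ∂μ with hW
    set D : ℝ := (n + 3) * 2 ^ (n + 3) * (R * W) with hD
    have hW0 : 0 ≤ W := integral_nonneg fun y => abs_nonneg _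
    have hD0 : 0 ≤ D := by positivity
    set P : Set (V d) := ball x (4 * N) \ ball x (4 * R) with hP
    have hPm : MeasurableSet P := measurableSet_ball.diff measurableSet_ball
    have hwφi : Integrable (fun y => w y * φ y ^ 2) μ := by
      have e : (fun y => w y * φ y ^ 2) = (ball x (2 * R)).indicator (fun y => w y * φ y ^ 2) := by
        ext y
        by_cases hy : y ∈ ball x (2 * R)
        · rw [indicator_of_mem hy]
        · rw [indicator_of_notMem hy, hφzero y (not_lt.1 (fun h => hy (mem_ball.2 h)))]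
          ring
      rw [e, integrable_indicator_iff measurableSet_ball]
      refine Measure.integrableOn_of_bounded (M := M) (hμ.ball_lt_top _ _).ne
        (hwm.mul (hφm.pow_const 2)).aestronglyMeasurable ?_
      filter_upwards [ae_restrict_mem measurableSet_ball] with y hy
      rw [Real.norm_eq_abs, abs_mul, abs_of_nonneg (sq_nonneg (φ y))]
      calc |w y| * φ y ^ 2 ≤ M * 1 ^ 2 := by
            gcongr
            · exact hM _ (ball_subset_ball (by linarith) hy)
            · exact hφ0 y
            · exact hφ1 y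
        _ = M := by ring
    have hwabs : IntegrableOn (fun y => |w y|) (ball x (2 * R)) μ := by
      refine Measure.integrableOn_of_bounded (M := M) (hμ.ball_lt_top _ _).ne
        hwm.abs.aestronglyMeasurable ?_
      filter_upwards [ae_restrict_mem measurableSet_ball] with y hy
      rw [Real.norm_eq_abs, abs_abs]
      exact hM _ (ball_subset_ball (by linarith) hy)
    have hinner : ∀ y, |∫ z, T4.indicator F3 (z, y) ∂μ|
        ≤ P.indicator (fun y => D * (|w y| * (dist y x ^ (n + 2))⁻¹)) y := by
      intro y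
      by_cases hyP : y ∈ P
      · rw [indicator_of_mem hyP]
        have hy4 : y ∉ B4 := hyP.2
        have hdy : 4 * R ≤ dist y x := not_lt.1 (fun h => hy4 (mem_ball.2 h))
        have hφy : φ y = 0 := hφzero y (by linarith)
        have e1 : ∀ z, T4.indicator F3 (z, y)
            = w y * ((w z * φ z ^ 2) * (kN n N (z - y) - kN n N (x - y))
              + (w z * φ z ^ 2) * kN n N (x - y)) := by
          intro z
          have hzT : ((z, y) : V d × V d) ∈ T4 := hy4
          rw [indicator_of_mem hzT]
          simp only [hF3]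
          rw [hφy]
          ring
        have hker : ∀ z ∈ ball x (2 * R), |kN n N (z - y) - kN n N (x - y)|
            ≤ (n + 3) * 2 ^ (n + 3) * R * (dist y x ^ (n + 2))⁻¹ := by
          intro z hz2
          have hz3 := mem_ball.1 hz2
          have hm : 0 < dist y x / 2 := by linarith
          have h1 : dist y x / 2 ≤ ‖z - y‖ := by
            rw [← dist_eq_norm]
            have := dist_triangle y z x
            rw [dist_comm y z] at this
            linarith
          have h2 : dist y x / 2 ≤ ‖x - y‖ := by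
            rw [← dist_eq_norm, dist_comm x y]; linarith
          refine (kN_diff hN0 hm h1 h2).trans ?_
          have h3 : ‖(z - y) - (x - y)‖ ≤ 2 * R := by
            rw [sub_sub_sub_cancel_right, ← dist_eq_norm]; exact hz3.le
          calc ((n : ℝ) + 3) * ‖(z - y) - (x - y)‖ * ((dist y x / 2) ^ (n + 2))⁻¹
              ≤ ((n : ℝ) + 3) * (2 * R) * ((dist y x / 2) ^ (n + 2))⁻¹ := by gcongr
            _ = (n + 3) * 2 ^ (n + 3) * R * (dist y x ^ (n + 2))⁻¹ := by
                rw [div_pow, inv_div]
                ring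
        have hI1 : Integrable (fun z => (w z * φ z ^ 2) * (kN n N (z - y) - kN n N (x - y))) μ := by
          have e : (fun z => (w z * φ z ^ 2) * (kN n N (z - y) - kN n N (x - y)))
              = (ball x (2 * R)).indicator
                (fun z => (w z * φ z ^ 2) * (kN n N (z - y) - kN n N (x - y))) := by
            ext z
            by_cases hz2 : z ∈ ball x (2 * R)
            · rw [indicator_of_mem hz2]
            · rw [indicator_of_notMem hz2, hφzero z (not_lt.1 (fun h => hz2 (mem_ball.2 h)))]
              ring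
          rw [e, integrable_indicator_iff measurableSet_ball]
          refine Measure.integrableOn_of_bounded
            (M := M * ((n + 3) * 2 ^ (n + 3) * R * (dist y x ^ (n + 2))⁻¹))
            (hμ.ball_lt_top _ _).ne
            ((hwm.mul (hφm.pow_const 2)).mul (((measurable_kN n N).comp
              (measurable_id.sub_const y)).sub_const _)).aestronglyMeasurable ?_
          filter_upwards [ae_restrict_mem measurableSet_ball] with z hz2
          rw [Real.norm_eq_abs, abs_mul, abs_mul, abs_of_nonneg (sq_nonneg (φ z))]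
          calc |w z| * φ z ^ 2 * |kN n N (z - y) - kN n N (x - y)|
              ≤ (M * 1 ^ 2) * ((n + 3) * 2 ^ (n + 3) * R * (dist y x ^ (n + 2))⁻¹) := by
                gcongr
                · exact hM _ (ball_subset_ball (by linarith) hz2)
                · exact hφ0 z
                · exact hφ1 z
                · exact hker z hz2
            _ = _ := by ring
        have hI2 : Integrable (fun z => (w z * φ z ^ 2) * kN n N (x - y)) μ := hwφi.mul_const _
        have e2 : ∫ z, T4.indicator F3 (z, y) ∂μ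
            = w y * ∫ z, (w z * φ z ^ 2) * (kN n N (z - y) - kN n N (x - y)) ∂μ := by
          simp only [e1]
          rw [integral_const_mul, integral_add hI1 hI2, integral_mul_const]
          have : ∫ z, w z * φ z ^ 2 ∂μ = 0 := hz
          rw [this]
          ring
        rw [e2, abs_mul]
        have h3 : |∫ z, (w z * φ z ^ 2) * (kN n N (z - y) - kN n N (x - y)) ∂μ|
            ≤ D * (dist y x ^ (n + 2))⁻¹ := by
          have e : (fun z => (w z * φ z ^ 2) * (kN n N (z - y) - kN n N (x - y)))
              = (ball x (2 * R)).indicator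
                (fun z => (w z * φ z ^ 2) * (kN n N (z - y) - kN n N (x - y))) := by
            ext z
            by_cases hz2 : z ∈ ball x (2 * R)
            · rw [indicator_of_mem hz2]
            · rw [indicator_of_notMem hz2, hφzero z (not_lt.1 (fun h => hz2 (mem_ball.2 h)))]
              ring
          rw [e, integral_indicator measurableSet_ball, ← Real.norm_eq_abs]
          refine (norm_integral_le_of_norm_le (g := fun z => |w z| *
            ((n + 3) * 2 ^ (n + 3) * R * (dist y x ^ (n + 2))⁻¹)) (hwabs.mul_const _) ?_).trans ?_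
          · filter_upwards [ae_restrict_mem measurableSet_ball] with z hz2
            rw [Real.norm_eq_abs, abs_mul, abs_mul, abs_of_nonneg (sq_nonneg (φ z))]
            calc |w z| * φ z ^ 2 * |kN n N (z - y) - kN n N (x - y)|
                ≤ (|w z| * 1 ^ 2) * ((n + 3) * 2 ^ (n + 3) * R * (dist y x ^ (n + 2))⁻¹) := by
                  gcongr
                  · exact hφ0 z
                  · exact hφ1 z
                  · exact hker z hz2
              _ = _ := by ring
          · rw [integral_mul_const]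
            refine le_of_eq ?_
            simp only [hD, hW, hwdef]
            ring
        calc |w y| * |∫ z, (w z * φ z ^ 2) * (kN n N (z - y) - kN n N (x - y)) ∂μ|
            ≤ |w y| * (D * (dist y x ^ (n + 2))⁻¹) := by gcongr
          _ = _ := by ring
      · rw [indicator_of_notMem hyP]
        refine le_of_eq ?_
        rw [abs_eq_zero]
        have : ∀ z, T4.indicator F3 (z, y) = 0 := by
          intro z
          by_cases hyB : y ∈ B4
          · have hzT : ((z, y) : V d × V d) ∉ T4 := fun h => h hyB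
            exact indicator_of_notMem hzT _
          · have hyN : y ∉ ball x (4 * N) := fun h => hyP ⟨h, hyB⟩
            have hzT : ((z, y) : V d × V d) ∈ T4 := hyB
            rw [indicator_of_mem hzT]
            simp only [hF3]
            rcases hoff (z, y) (fun h => hyN h.2) with ⟨h1, h2⟩ | h
            · simp only at h1 h2
              rw [h1, h2]; ring
            · simp only at h
              rw [h, mul_zero]
        simp only [this, integral_zero]
    have hPi : IntegrableOn (fun y => |w y| * (dist y x ^ (n + 2))⁻¹) P μ := by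
      refine Measure.integrableOn_of_bounded (M := M * ((4 * R) ^ (n + 2))⁻¹)
        ((measure_mono sdiff_subset).trans_lt (hμ.ball_lt_top x (4 * N))).ne ?_ ?_
      · exact (hwm.abs.mul (((continuous_id.dist continuous_const).measurable.pow_const _).inv)).aestronglyMeasurable
      · filter_upwards [ae_restrict_mem hPm] with y hy
        rw [Real.norm_eq_abs, abs_of_nonneg (by positivity)]
        have h1 : 4 * R ≤ dist y x := not_lt.1 (fun h => hy.2 (mem_ball.2 h))
        gcongr
        exact hM _ hy.1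
    rw [← Real.norm_eq_abs]
    refine (norm_integral_le_of_norm_le (g := P.indicator (fun y => D * (|w y| * (dist y x ^ (n + 2))⁻¹)))
      ?_ (Eventually.of_forall fun y => by rw [Real.norm_eq_abs]; exact hinner y)).trans ?_
    · rw [integrable_indicator_iff hPm]
      exact hPi.const_mul _
    · rw [integral_indicator hPm, integral_const_mul]
      refine le_of_eq ?_
      simp only [hD, farI, hwdef, hP]
      ring
  have hfin : ∫ p, F2 p ∂(μ.prod μ)
      = 2 * Bf n μ N u (fun y => (u y - a) * cut (dist y x / R) ^ 2) + ∫ p, F3 p ∂(μ.prod μ) := by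
    rw [hBf]; ring
  have h2 := le_abs_self (Bf n μ N u (fun y => (u y - a) * cut (dist y x / R) ^ 2))
  have h3 := le_abs_self (∫ p, T4.indicator F3 p ∂(μ.prod μ))
  rw [hfin, hF3eq] at hEn
  linarith


theorem cacc (n d : ℕ) (C : ℝ) (hC : 0 ≤ C) (hn : 1 ≤ n) :
    ∃ K : ℝ, 0 < K ∧ ∀ (μ : Measure (V d)), UpperReg n C μ → ∀ u : V d → ℝ, LocLip u →
      ∀ (x : V d) (R N a : ℝ), 0 < R → 8 * R ≤ N →
      ∫ y, (u y - a) * cut (dist y x / R) ^ 2 ∂μ = 0 →
      En n μ u x R ≤ 2 * |Bf n μ N u (fun y => (u y - a) * cut (dist y x / R) ^ 2)|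
        + K * (R⁻¹ * ∫ y in ball x (4 * R), (u y - a) ^ 2 ∂μ
          + R * (∫ y in ball x (2 * R), |u y - a| ∂μ)
            * farI n μ (fun y => u y - a) x (4 * R) (4 * N)) := by
  refine ⟨C * 4 ^ n * 8 + 2 * (n + 3) * 2 ^ (n + 3), by positivity, ?_⟩
  intro μ hμ u hu x R N a hR hN hz
  refine (cacc_aux hC hn hμ hu x hR hN hz).trans ?_
  have h1 : 0 ≤ R⁻¹ * ∫ y in ball x (4 * R), (u y - a) ^ 2 ∂μ :=
    mul_nonneg (by positivity) (integral_nonneg fun y => sq_nonneg _)
  have h2 : 0 ≤ R * (∫ y in ball x (2 * R), |u y - a| ∂μ)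
      * farI n μ (fun y => u y - a) x (4 * R) (4 * N) :=
    mul_nonneg (mul_nonneg hR.le (integral_nonneg fun y => abs_nonneg _))
      (integral_nonneg fun y => by positivity)
  have h3 : 0 ≤ C * 4 ^ n * 8 := by positivity
  have h4 : (0 : ℝ) ≤ 2 * (n + 3) * 2 ^ (n + 3) := by positivity
  nlinarith [mul_nonneg h3 h2, mul_nonneg h4 h1]

end Crest.Agent.R085
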