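import Crest.Agent.R085.Targets
import Crest.Agent.R085.Lim2
import Crest.Agent.R085.Resc
import Crest.Agent.R085.Incl

/-!
# R085, module M8b: flat windows with small oscillation are bilaterally flat

`tBiFlat_of` : `TBiFlat n d C A ε'` from
* `TReflLim` (M3): limits of measures with vanishing oscillation are reflectionless,
* `TFull` (M4): a reflectionless regular measure with support in an `n`-plane has full support.
-/

set_option autoImplicit false

namespace Crest.Agent.R085

open MeasureTheory Metric Set Filter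
open scoped ENNReal NNReal Topology

/-- M3: vanishing oscillation gives reflectionless limits. -/
def TReflLim (n d : ℕ) (C : ℝ) : Prop :=
  ∀ (U : Ultrafilter ℕ) (m : ℕ → Measure (V d)) (ν : Measure (V d)) (D : ℕ → ℝ≥0∞),
    WLim U m ν → (∀ k, ADR n C (D k) (m k)) →
    (∀ M δ : ℝ, 0 < M → 0 < δ → ∀ᶠ k in (U : Filter ℕ), EtaS n (m k) 0 1 M δ) → Refl n ν

/-- M4: full support. -/
def TFull (n d : ℕ) (C : ℝ) : Prop :=
  ∀ ν : Measure (V d), ADR n C ⊤ ν → Refl n ν → (0 : V d) ∈ ν.support →
    ∀ ι : V n →ₗᵢ[ℝ] V d, ν.support ⊆ range ι → range ι ⊆ ν.support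

/-- A point of the support at distance `≥ 2 s` from the plane gives a lower bound for the
flatness integral. -/
theorem le_integral_nsq {n d : ℕ} {C : ℝ} {D : ℝ≥0∞} {μ : Measure (V d)} (hμ : ADR n C D μ)
    (g : V d ≃ₗᵢ[ℝ] V d) (b : V d) {x y : V d} {R s : ℝ} (hs : 0 < s) (hsD : ENNReal.ofReal s ≤ D)
    (hy : y ∈ μ.support) (hyR : dist y x + s ≤ R) (h2 : 2 * s ≤ Real.sqrt (nsq n (g y - b))) :
    s ^ 2 * (C⁻¹ * s ^ n) ≤ ∫ z in ball x R, nsq n (g z - b) ∂μ := by
  have hlf := hμ.isLocallyFiniteMeasure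
  have hsub : ball y s ⊆ ball x R := ball_subset_ball' (by linarith)
  have hcont : Continuous fun z : V d => nsq n (g z - b) := by
    have := continuous_nsq (d := d) n
    fun_prop
  have hint : IntegrableOn (fun z : V d => nsq n (g z - b)) (ball x R) μ :=
    (hcont.locallyIntegrable.integrableOn_isCompact (isCompact_closedBall x R)).mono_set
      ball_subset_closedBall
  have h1 : ∫ z in ball y s, s ^ 2 ∂μ ≤ ∫ z in ball x R, nsq n (g z - b) ∂μ := by
    refine le_trans ?_ (setIntegral_mono_set hint (ae_of_all _ fun z => nsq_nonneg n _)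
      (Eventually.of_forall hsub))
    refine setIntegral_mono_on ?_ (hint.mono_set hsub) measurableSet_ball fun z hz => ?_
    · exact integrableOn_const (hμ.ball_lt_top y s).ne
    · have h3 := sqrt_nsq_triangle n g b y z
      rw [mem_ball, dist_comm] at hz
      have h4 : s ≤ Real.sqrt (nsq n (g z - b)) := by linarith
      calc s ^ 2 ≤ Real.sqrt (nsq n (g z - b)) ^ 2 := by gcongr
        _ = nsq n (g z - b) := Real.sq_sqrt (nsq_nonneg n _)
  have h5 : ∫ z in ball y s, s ^ 2 ∂μ = μ.real (ball y s) * s ^ 2 := by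
    rw [setIntegral_const, smul_eq_mul]
  rw [h5] at h1
  have h6 := hμ.le_real_ball hy hs hsD
  calc s ^ 2 * (C⁻¹ * s ^ n) ≤ s ^ 2 * μ.real (ball y s) := by gcongr
    _ = μ.real (ball y s) * s ^ 2 := mul_comm _ _
    _ ≤ _ := h1

/-- In dimension `d < n` there is no nonzero `n`-upper-regular measure. -/
theorem measure_ball_eq_zero_of_lt {n d : ℕ} {C : ℝ} (hC : 0 ≤ C) {μ : Measure (V d)} [SFinite μ]
    (hμ : ∀ (x : V d) (r : ℝ), 0 < r → μ (ball x r) ≤ ENNReal.ofReal (C * r ^ n)) (hdn : d < n)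
    (x0 : V d) : μ (ball x0 1) = 0 := by
  have key : ∀ r : ℝ, 0 < r → r ≤ 1 → μ (ball x0 1) * volume (ball (0 : V d) 1) ≤
      ENNReal.ofReal (C * r) * volume (ball x0 2) := by
    intro r hr hr1
    set S : Set (V d × V d) := {p | p.1 ∈ ball x0 1 ∧ dist p.1 p.2 < r} with hS
    have hSm : MeasurableSet S := by
      refine IsOpen.measurableSet ?_
      refine (isOpen_ball.preimage continuous_fst).inter ?_
      exact isOpen_lt (continuous_fst.dist continuous_snd) continuous_const
    have h1 : ENNReal.ofReal (r ^ d) * (μ (ball x0 1) * volume (ball (0 : V d) 1)) ≤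
        (μ.prod volume) S := by
      rw [Measure.prod_apply hSm]
      calc ENNReal.ofReal (r ^ d) * (μ (ball x0 1) * volume (ball (0 : V d) 1))
          = ∫⁻ x in ball x0 1, volume (ball x r) ∂μ := by
            have : ∀ x : V d, volume (ball x r) =
                ENNReal.ofReal (r ^ d) * volume (ball (0 : V d) 1) := by
              intro x
              rw [Measure.addHaar_ball_of_pos _ _ hr, finrank_euclideanSpace_fin]
            simp_rw [this]
            rw [setLIntegral_const]
            ring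
        _ = ∫⁻ x, (ball x0 1).indicator (fun x => volume (ball x r)) x ∂μ :=
            (lintegral_indicator measurableSet_ball _).symm
        _ ≤ ∫⁻ x, volume (Prod.mk x ⁻¹' S) ∂μ := by
            refine lintegral_mono fun x => ?_
            by_cases hx : x ∈ ball x0 1
            · rw [indicator_of_mem hx]
              refine measure_mono fun y hy => ?_
              rw [mem_ball, dist_comm] at hy
              exact ⟨hx, hy⟩
            · rw [indicator_of_notMem hx]
              exact bot_le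
    have h2 : (μ.prod volume) S ≤ ENNReal.ofReal (C * r ^ n) * volume (ball x0 2) := by
      rw [Measure.prod_apply_symm hSm]
      calc ∫⁻ y, μ ((fun x => (x, y)) ⁻¹' S) ∂volume
          ≤ ∫⁻ y, (ball x0 2).indicator (fun _ => ENNReal.ofReal (C * r ^ n)) y ∂volume := by
            refine lintegral_mono fun y => ?_
            by_cases hy : y ∈ ball x0 2
            · rw [indicator_of_mem hy]
              refine le_trans (measure_mono fun x hx => ?_) (hμ y r hr)
              exact hx.2
            · rw [indicator_of_notMem hy]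
              refine le_of_eq (measure_mono_null ?_ measure_empty)
              intro x hx
              have h3 : dist x x0 < 1 := hx.1
              have h4 : dist x y < r := hx.2
              apply hy
              rw [mem_ball]
              calc dist y x0 ≤ dist y x + dist x x0 := dist_triangle _ _ _
                _ < 2 := by rw [dist_comm y x]; linarith
        _ = _ := by rw [lintegral_indicator measurableSet_ball, setLIntegral_const]
    have h3 := h1.trans h2
    have hrd : ENNReal.ofReal (r ^ d) ≠ 0 := by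
      rw [Ne, ENNReal.ofReal_eq_zero, not_le]; positivity
    have h4 : ENNReal.ofReal (C * r ^ n) ≤ ENNReal.ofReal (r ^ d) * ENNReal.ofReal (C * r) := by
      rw [← ENNReal.ofReal_mul (by positivity)]
      refine ENNReal.ofReal_le_ofReal ?_
      have h5 : r ^ n ≤ r ^ (d + 1) := pow_le_pow_of_le_one hr.le hr1 hdn
      calc C * r ^ n ≤ C * r ^ (d + 1) := by gcongr
        _ = r ^ d * (C * r) := by ring
    have h6 : ENNReal.ofReal (r ^ d) * (μ (ball x0 1) * volume (ball (0 : V d) 1)) ≤
        ENNReal.ofReal (r ^ d) * (ENNReal.ofReal (C * r) * volume (ball x0 2)) := by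
      rw [← mul_assoc (ENNReal.ofReal (r ^ d)) (ENNReal.ofReal (C * r))]
      exact h3.trans (mul_le_mul_left h4 _)
    exact (ENNReal.mul_le_mul_iff_right hrd ENNReal.ofReal_ne_top).mp h6
  have hlim : Tendsto (fun r : ℝ => ENNReal.ofReal (C * r) * volume (ball x0 2)) (𝓝[>] 0)
      (𝓝 0) := by
    have h1 : Tendsto (fun r : ℝ => ENNReal.ofReal (C * r)) (𝓝[>] 0) (𝓝 0) := by
      have : Tendsto (fun r : ℝ => C * r) (𝓝[>] 0) (𝓝 0) := by
        have h2 : Tendsto (fun r : ℝ => C * r) (𝓝 0) (𝓝 (C * 0)) :=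
          (continuous_const.mul continuous_id).tendsto 0
        rw [mul_zero] at h2
        exact h2.mono_left nhdsWithin_le_nhds
      have h3 := (ENNReal.continuous_ofReal.tendsto 0).comp this
      simpa [Function.comp_def] using h3
    have h4 := ENNReal.Tendsto.mul_const h1
      (Or.inr (measure_ball_lt_top (μ := volume) (x := x0) (r := 2)).ne)
    rwa [zero_mul] at h4
  have h0 : μ (ball x0 1) * volume (ball (0 : V d) 1) ≤ 0 := by
    refine ge_of_tendsto hlim ?_
    filter_upwards [Ioc_mem_nhdsGT (zero_lt_one' ℝ)] with r hr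
    exact key r hr.1 hr.2
  rcases mul_eq_zero.mp (le_antisymm h0 bot_le) with h | h
  · exact h
  · exact absurd h (measure_ball_pos _ _ one_pos).ne'

theorem ADR.le_dim {n d : ℕ} {C : ℝ} {D : ℝ≥0∞} {μ : Measure (V d)} (hμ : ADR n C D μ)
    (hne : μ.support.Nonempty) : n ≤ d := by
  by_contra hlt
  push Not at hlt
  obtain ⟨x, hx⟩ := hne
  have := hμ.isLocallyFinite
  have h1 := measure_ball_eq_zero_of_lt hμ.nonneg hμ.upper hlt x
  have h2 := mem_support_iff_forall_ball.mp hx 1 one_pos
  exact h2.ne' h1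

/-- compactness of the set of linear isometries, ultrafilter form -/
theorem exists_tendsto_isometry {n d : ℕ} (U : Ultrafilter ℕ) (ι : ℕ → (V n →ₗᵢ[ℝ] V d)) :
    ∃ T : V n →ₗᵢ[ℝ] V d, ∀ (v : ℕ → V n) (v0 : V n), Tendsto v (U : Filter ℕ) (𝓝 v0) →
      Tendsto (fun k => ι k (v k)) (U : Filter ℕ) (𝓝 (T v0)) := by
  have hc : IsCompact (closedBall (0 : V n →L[ℝ] V d) 1) := by
    have : ProperSpace (V n →L[ℝ] V d) := FiniteDimensional.proper_real _
    exact isCompact_closedBall _ _
  obtain ⟨S, -, hS⟩ := hc.ultrafilter_le_nhds' (U.map fun k => (ι k).toContinuousLinearMap) (by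
    change ∀ᶠ k in (U : Filter ℕ), _ ∈ _
    refine Eventually.of_forall fun k => ?_
    rw [mem_closedBall, dist_zero_right]
    exact (ι k).norm_toContinuousLinearMap_le)
  have hS' : Tendsto (fun k => (ι k).toContinuousLinearMap) (U : Filter ℕ) (𝓝 S) := hS
  have happ : ∀ (v : ℕ → V n) (v0 : V n), Tendsto v (U : Filter ℕ) (𝓝 v0) →
      Tendsto (fun k => ι k (v k)) (U : Filter ℕ) (𝓝 (S v0)) := fun v v0 hv =>
    ((isBoundedBilinearMap_apply (𝕜 := ℝ) (E := V n) (F := V d)).continuous.tendsto
      (S, v0)).comp (hS'.prodMk_nhds hv)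
  have hnorm : ∀ v, ‖S v‖ = ‖v‖ := by
    intro v
    have h1 := (happ (fun _ => v) v tendsto_const_nhds).norm
    refine tendsto_nhds_unique h1 ?_
    simp
  exact ⟨⟨S.toLinearMap, hnorm⟩, happ⟩

/-- bounded sequences in `V n` converge along ultrafilters -/
theorem exists_tendsto_of_norm_le {n : ℕ} (U : Ultrafilter ℕ) (v : ℕ → V n) (B : ℝ)
    (h : ∀ᶠ k in (U : Filter ℕ), ‖v k‖ ≤ B) : ∃ v0, Tendsto v (U : Filter ℕ) (𝓝 v0) := by
  obtain ⟨v0, -, hv0⟩ := (isCompact_closedBall (0 : V n) B).ultrafilter_le_nhds' (U.map v) (by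
    change ∀ᶠ k in (U : Filter ℕ), _ ∈ _
    filter_upwards [h] with k hk
    rwa [mem_closedBall, dist_zero_right])
  exact ⟨v0, hv0⟩

theorem tBiFlat_of {n d : ℕ} {C : ℝ} (hR : TReflLim n d C) (hF : TFull n d C)
    (A ε' : ℝ) (hε' : 0 < ε') : TBiFlat n d C A ε' := by
  by_contra hcon
  unfold TBiFlat at hcon
  push Not at hcon
  have hpos : ∀ k : ℕ, (0 : ℝ) < 1 / ((k : ℝ) + 1) := fun k => by positivity
  choose μ D x ρ ε M δ hA hx hρ hε0 hε1 hM hδ hD hFl hEta hBi using fun k : ℕ => hcon _ (hpos k)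
  set m : ℕ → Measure (V d) := fun k => resc n (x k) (ρ k) (μ k) with hm
  have hlf : ∀ k, IsLocallyFiniteMeasure (μ k) := fun k => (hA k).isLocallyFiniteMeasure
  have hMk : ∀ k : ℕ, (k : ℝ) + 1 ≤ M k := fun k => by
    have := hM k
    rwa [one_div, inv_inv] at this
  have hM0 : ∀ k, 0 < M k := fun k => lt_of_lt_of_le (by positivity) (hMk k)
  have hmA : ∀ k, ADR n C (ENNReal.ofReal (M k)) (m k) := fun k => by
    refine (hA k).resc (x k) (hρ k) ?_
    rw [← ENNReal.ofReal_mul (hρ k).le, mul_comm]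
    exact hD k
  have hm0 : ∀ k, (0 : V d) ∈ (m k).support := fun k => by
    rw [hm, mem_support_resc n (x k) (hρ k), smul_zero, add_zero]
    exact hx k
  have hmF : ∀ k, FlatW n (m k) 0 1 (ε k) (M k) := fun k => by
    rw [hm, FlatW_resc (x k) (hρ k), smul_zero, add_zero, mul_one]
    exact hFl k
  have hmE : ∀ k, EtaS n (m k) 0 1 (M k) (δ k) := fun k => by
    have := hlf k
    rw [hm, EtaS_resc (x k) (hρ k) 0 one_pos, smul_zero, add_zero, mul_one]
    exact hEta k
  have hmB : ∀ k, ¬ BiFlat n (m k) 0 1 ε' A := fun k => by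
    rw [hm, BiFlat_resc (x k) (hρ k), smul_zero, add_zero, mul_one]
    exact hBi k
  clear_value m
  clear hBi hEta hFl hD hlf hx hA hcon
  have hnd : n ≤ d := (hmA 0).le_dim ⟨0, hm0 0⟩
  -- the ultrafilter
  set U : Ultrafilter ℕ := hyperfilter ℕ with hU
  have hUle : (U : Filter ℕ) ≤ atTop := by
    rw [← Nat.cofinite_eq_atTop]
    exact hyperfilter_le_cofinite
  have hev : ∀ t : ℝ, ∀ᶠ k : ℕ in (U : Filter ℕ), t ≤ M k := fun t => by
    refine hUle ?_
    filter_upwards [eventually_ge_atTop ⌈t⌉₊] with k hk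
    have h1 : t ≤ (k : ℝ) := (Nat.le_ceil t).trans (by exact_mod_cast hk)
    linarith [hMk k]
  have hevD : ∀ t : ℝ, ∀ᶠ k : ℕ in (U : Filter ℕ), ENNReal.ofReal t ≤ ENNReal.ofReal (M k) :=
    fun t => (hev t).mono fun k hk => ENNReal.ofReal_le_ofReal hk
  have hsmall : Tendsto (fun k : ℕ => 1 / ((k : ℝ) + 1)) (U : Filter ℕ) (𝓝 0) :=
    tendsto_one_div_add_atTop_nhds_zero_nat.mono_left hUle
  have hεt : Tendsto ε (U : Filter ℕ) (𝓝 0) :=
    squeeze_zero hε0 hε1 hsmall
  obtain ⟨ν, hν, hνA⟩ := exists_wLim_adr U m (D0 := ⊤) hmA (fun s _ => hevD s)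
  have hνR : Refl n ν := by
    refine hR U m ν (fun k => ENNReal.ofReal (M k)) hν hmA fun M' δ' hM' hδ' => ?_
    filter_upwards [hev M', hsmall.eventually_lt_const hδ'] with k hk1 hk2
    exact (hmE k).mono zero_le_one hk1 ((hδ k).trans hk2.le)
  have hν0 : (0 : V d) ∈ ν.support :=
    hν.mem_support_adr (Eventually.of_forall hmA) one_pos (hevD 1)
      (tendsto_const_nhds (x := (0 : V d))) (Eventually.of_forall hm0)
  -- the planes
  choose g b hgb using hmF
  -- closeness to the planes
  have hclose : ∀ A' s : ℝ, 0 < s → ∀ᶠ k in (U : Filter ℕ), ∀ y ∈ (m k).support, ‖y‖ ≤ A' →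
      Real.sqrt (nsq n (g k y - b k)) < 2 * s := by
    intro A' s hs
    set R : ℝ := max (A' + s) 1 with hRdef
    have hR1 : 1 ≤ R := le_max_right _ _
    have hC0 : 0 < C := (hmA 0).pos
    have hlim : Tendsto (fun k => (ε k) ^ 2 * (R / 1) * R ^ (n + 2)) (U : Filter ℕ) (𝓝 0) := by
      have := ((hεt.pow 2).mul_const (R / 1)).mul_const (R ^ (n + 2))
      simpa using this
    have hlt : 0 < s ^ 2 * (C⁻¹ * s ^ n) := by positivity
    filter_upwards [hlim.eventually_lt_const hlt, hev R, hevD s] with k hk1 hk2 hk3 y hy hyA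
    by_contra hge
    push Not at hge
    have h1 := le_integral_nsq (hmA k) (g k) (b k) (x := 0) (R := R) hs hk3 hy
      (by rw [dist_zero_right]; exact (by linarith : ‖y‖ + s ≤ A' + s).trans (le_max_left _ _)) hge
    have h2 := hgb k R hR1 (by linarith)
    linarith
  -- base point and isometry of the planes
  set ι : ℕ → (V n →ₗᵢ[ℝ] V d) := fun k => (g k).symm.toLinearIsometry.comp (incL hnd) with hι
  set p : ℕ → V d := fun k => (g k).symm (b k) + ι k (prj n (g k 0 - b k)) with hp
  have hdist : ∀ k y, dist y (p k + ι k (prj n (g k y - b k) - prj n (g k 0 - b k))) =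
      Real.sqrt (nsq n (g k y - b k)) := by
    intro k y
    rw [← dist_ref_plane hnd]
    congr 1
    rw [hp, map_sub]
    simp only [hι]
    abel
  have hpd : ∀ k, ‖p k‖ = Real.sqrt (nsq n (g k 0 - b k)) := by
    intro k
    rw [← hdist k 0, sub_self, map_zero, add_zero, dist_comm, dist_zero_right]
  have hp0 : Tendsto p (U : Filter ℕ) (𝓝 0) := by
    rw [tendsto_zero_iff_norm_tendsto_zero, Metric.tendsto_nhds]
    intro s hs
    filter_upwards [hclose 0 (s / 2) (by positivity)] with k hk
    rw [Real.dist_0_eq_abs, abs_norm, hpd]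
    have := hk 0 (hm0 k) (by simp)
    linarith
  clear_value ι p
  -- the limit isometry
  obtain ⟨T, hT⟩ := exists_tendsto_isometry U ι
  -- the support of the limit is in the range
  have hsub : ν.support ⊆ range T := by
    intro y hy
    obtain ⟨yk, hyk, hykt⟩ := hν.exists_tendsto_support hy
    set v : ℕ → V n := fun k => prj n (g k (yk k) - b k) - prj n (g k 0 - b k) with hv
    have hd : Tendsto (fun k => dist (yk k) (p k + ι k (v k))) (U : Filter ℕ) (𝓝 0) := by
      rw [Metric.tendsto_nhds]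
      intro s hs
      have hb : ∀ᶠ k in (U : Filter ℕ), ‖yk k‖ < ‖y‖ + 1 :=
        hykt.norm.eventually_lt_const (by linarith)
      filter_upwards [hclose (‖y‖ + 1) (s / 2) (by positivity), hyk, hb] with k hk1 hk2 hk3
      rw [Real.dist_0_eq_abs, abs_of_nonneg dist_nonneg, hdist]
      have := hk1 _ hk2 hk3.le
      linarith
    have hvb : ∀ᶠ k in (U : Filter ℕ), ‖v k‖ ≤ ‖y‖ + 3 := by
      have hb : ∀ᶠ k in (U : Filter ℕ), ‖yk k‖ < ‖y‖ + 1 :=
        hykt.norm.eventually_lt_const (by linarith)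
      have hpb : ∀ᶠ k in (U : Filter ℕ), ‖p k‖ < 1 :=
        (hp0.norm).eventually_lt_const (by simp)
      filter_upwards [hb, hpb, hd.eventually_lt_const one_pos] with k h1 h2 h3
      have h4 : ‖v k‖ = ‖ι k (v k)‖ := ((ι k).norm_map _).symm
      rw [h4]
      have h5 : ι k (v k) = yk k - p k - (yk k - (p k + ι k (v k))) := by abel
      rw [h5]
      refine (norm_sub_le _ _).trans ?_
      have h6 := norm_sub_le (yk k) (p k)
      rw [dist_eq_norm] at h3
      linarith
    obtain ⟨v0, hv0⟩ := exists_tendsto_of_norm_le U v _ hvb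
    refine ⟨v0, ?_⟩
    have h1 : Tendsto (fun k => p k + ι k (v k)) (U : Filter ℕ) (𝓝 (0 + T v0)) :=
      hp0.add (hT v v0 hv0)
    rw [zero_add] at h1
    have h2 : Tendsto (fun k => dist (yk k) (p k + ι k (v k))) (U : Filter ℕ)
        (𝓝 (dist y (T v0))) := hykt.dist h1
    have h3 := tendsto_nhds_unique h2 hd
    exact (dist_eq_zero.mp h3).symm
  have hfull := hF ν hνA hνR hν0 T hsub
  -- bad points
  have hbad : ∀ᶠ k in (U : Filter ℕ), ∃ v : V n, p k + ι k v ∈ ball (0 : V d) A ∧
      ∀ y ∈ (m k).support, ε' < dist y (p k + ι k v) := by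
    filter_upwards [hclose A (ε' / 2) (by positivity)] with k hk
    by_contra hno
    push Not at hno
    apply hmB k
    refine ⟨ι k, p k, fun y hy hyA => ?_, fun v hv => ?_⟩
    · refine ⟨_, le_of_eq_of_le (hdist k y) ?_⟩
      rw [mul_one, mem_ball, dist_zero_right] at hyA
      have := hk y hy hyA.le
      linarith
    · rw [mul_one] at hv
      obtain ⟨y, hy, hyd⟩ := hno v hv
      exact ⟨y, hy, by rwa [mul_one]⟩
  choose! v hvA hvd using fun k (h : ∃ v : V n, p k + ι k v ∈ ball (0 : V d) A ∧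
      ∀ y ∈ (m k).support, ε' < dist y (p k + ι k v)) => h
  have hvb : ∀ᶠ k in (U : Filter ℕ), ‖v k‖ ≤ A + 1 := by
    have hpb : ∀ᶠ k in (U : Filter ℕ), ‖p k‖ < 1 :=
      (hp0.norm).eventually_lt_const (by simp)
    filter_upwards [hbad, hpb] with k h1 h2
    have h3 := hvA k h1
    rw [mem_ball, dist_zero_right] at h3
    rw [← (ι k).norm_map]
    have h5 : ι k (v k) = (p k + ι k (v k)) - p k := by abel
    rw [h5]
    refine (norm_sub_le _ _).trans ?_
    linarith
  obtain ⟨v0, hv0⟩ := exists_tendsto_of_norm_le U v _ hvb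
  have hq : Tendsto (fun k => p k + ι k (v k)) (U : Filter ℕ) (𝓝 (T v0)) := by
    have := hp0.add (hT v v0 hv0)
    rwa [zero_add] at this
  have hq0 : ν (ball (T v0) ε') ≤ 0 := by
    refine hν.ball_le hq (tendsto_const_nhds (x := ε')) ?_
    filter_upwards [hbad] with k hk
    have h1 := hvd k hk
    refine le_of_eq (measure_mono_null ?_ (Measure.measure_compl_support (μ := m k)))
    intro y hy hys
    have h2 := h1 y hys
    rw [mem_ball] at hy
    exact absurd hy (not_lt.mpr h2.le)
  have hTm : T v0 ∈ ν.support := hfull ⟨v0, rfl⟩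
  have := mem_support_iff_forall_ball.mp hTm ε' hε'
  exact absurd hq0 (not_le.mpr this)

end Crest.Agent.R085
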