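/-
R085 (S0113), PART II: shared definitions (finite-depth lattices, bilateral flatness, trees).
Owner: helper427.
-/
import Mathlib
import Crest.Prelude.Def_RieszRectifiability

set_option autoImplicit false

namespace Crest.Agent.R085

open MeasureTheory Set

/-- Scale of generation `k`. -/
noncomputable def sc (ℓ b : ℝ) (k : ℕ) : ℝ := ℓ / b ^ k

lemma sc_pos {ℓ b : ℝ} (hℓ : 0 < ℓ) (hb : 0 < b) (k : ℕ) : 0 < sc ℓ b k := by
  unfold sc; positivity

lemma sc_zero (ℓ b : ℝ) : sc ℓ b 0 = ℓ := by simp [sc]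

lemma sc_succ {ℓ b : ℝ} (hb : 0 < b) (k : ℕ) : sc ℓ b k = b * sc ℓ b (k + 1) := by
  unfold sc
  have : b ≠ 0 := hb.ne'
  rw [pow_succ]
  field_simp

lemma sc_succ' {ℓ b : ℝ} (k : ℕ) : sc ℓ b (k + 1) = sc ℓ b k / b := by
  unfold sc
  rw [pow_succ, div_div]

/-- A finite-depth lattice of cells for a set `S` near the point `x₀ ∈ S`.
`W` is the finite set of leaves (generation `K`), and `c k w` is the centre of the cell of
generation `k` containing the leaf `w`. The cell of generation `k` with centre `x` is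
`{w ∈ W | c k w = x}`; the top cell is `{w ∈ W | c 0 w = x₀}`. -/
structure Lat {d : ℕ} (S : Set (EuclideanSpace ℝ (Fin d))) (x₀ : EuclideanSpace ℝ (Fin d))
    (ℓ b : ℝ) (K : ℕ) where
  W : Finset (EuclideanSpace ℝ (Fin d))
  c : ℕ → EuclideanSpace ℝ (Fin d) → EuclideanSpace ℝ (Fin d)
  W_sub : ∀ w ∈ W, w ∈ S
  c_mem : ∀ k ≤ K, ∀ w ∈ W, c k w ∈ W
  c_last : ∀ w ∈ W, c K w = w
  c_comp : ∀ j k, j ≤ k → k ≤ K → ∀ w ∈ W, c j (c k w) = c j w
  c_dist : ∀ k ≤ K, ∀ w ∈ W, dist w (c k w) ≤ 2 * sc ℓ b k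
  c_inner : ∀ k ≤ K, ∀ x ∈ W, c k x = x → ∀ w ∈ W, dist w x < sc ℓ b k / 4 → c k w = x
  dense : ∀ y ∈ S, dist y x₀ ≤ 10 * ℓ → ∃ w ∈ W, dist y w ≤ sc ℓ b K
  root_mem : x₀ ∈ W
  c_root : c 0 x₀ = x₀

namespace Lat

variable {d : ℕ} {S : Set (EuclideanSpace ℝ (Fin d))} {x₀ : EuclideanSpace ℝ (Fin d)}
  {ℓ b : ℝ} {K : ℕ} (L : Lat S x₀ ℓ b K)

open Classical in
/-- The leaves of the cell `(k, x)`. -/
noncomputable def cell (k : ℕ) (x : EuclideanSpace ℝ (Fin d)) :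
    Finset (EuclideanSpace ℝ (Fin d)) := L.W.filter (fun w => L.c k w = x)

/-- The leaves of the top cell. -/
noncomputable def top : Finset (EuclideanSpace ℝ (Fin d)) := L.cell 0 x₀

@[simp] lemma mem_cell {k : ℕ} {x w : EuclideanSpace ℝ (Fin d)} :
    w ∈ L.cell k x ↔ w ∈ L.W ∧ L.c k w = x := by
  classical
  simp [cell]

lemma mem_top {w : EuclideanSpace ℝ (Fin d)} :
    w ∈ L.top ↔ w ∈ L.W ∧ L.c 0 w = x₀ := by
  simp [top]

end Lat

/-- Bilateral flatness of `S` at `(x, r)` in the window `ball x (A r)` with precision `ε r`,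
witnessed by the affine `n`-plane `p + range ι`. -/
def BF {d : ℕ} (S : Set (EuclideanSpace ℝ (Fin d))) (n : ℕ) (x : EuclideanSpace ℝ (Fin d))
    (r A ε : ℝ) (p : EuclideanSpace ℝ (Fin d))
    (ι : EuclideanSpace ℝ (Fin n) →ₗᵢ[ℝ] EuclideanSpace ℝ (Fin d)) : Prop :=
  (∀ z ∈ S, dist z x < A * r → ∃ v, dist z (p + ι v) ≤ ε * r) ∧
    (∀ v, dist (p + ι v) x < A * r → ∃ z ∈ S, dist z (p + ι v) ≤ ε * r)

/-- `S` is bilaterally `ε`-flat at `(x, r)` with window `A`. -/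
def IsBF {d : ℕ} (S : Set (EuclideanSpace ℝ (Fin d))) (n : ℕ) (x : EuclideanSpace ℝ (Fin d))
    (r A ε : ℝ) : Prop :=
  ∃ (p : EuclideanSpace ℝ (Fin d))
    (ι : EuclideanSpace ℝ (Fin n) →ₗᵢ[ℝ] EuclideanSpace ℝ (Fin d)), BF S n x r A ε p ι

open Classical in
/-- Number of generations `k ≤ K` at which the cell containing the leaf `w` is not
bilaterally flat. -/
noncomputable def nbad {d : ℕ} {S : Set (EuclideanSpace ℝ (Fin d))}
    {x₀ : EuclideanSpace ℝ (Fin d)} {ℓ b : ℝ} {K : ℕ} (L : Lat S x₀ ℓ b K)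
    (n : ℕ) (A ε : ℝ) (w : EuclideanSpace ℝ (Fin d)) : ℕ :=
  ((Finset.range (K + 1)).filter (fun k => ¬ IsBF S n (L.c k w) (sc ℓ b k) A ε)).card

/-- AD regularity of `μ` at the points of `S` for all radii `≤ R`. -/
def ADat {d : ℕ} (n : ℕ) (C R : ℝ) (μ : Measure (EuclideanSpace ℝ (Fin d)))
    (S : Set (EuclideanSpace ℝ (Fin d))) : Prop :=
  ∀ x ∈ S, ∀ r : ℝ, 0 < r → r ≤ R →
    ENNReal.ofReal (C⁻¹ * r ^ n) ≤ μ (Metric.ball x r) ∧
      μ (Metric.ball x r) ≤ ENNReal.ofReal (C * r ^ n)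

/-- INTERFACE between PART I and PART II: the non-flat cells satisfy a packing condition
(bilateral weak geometric lemma), in lattice form, with constants independent of the measure,
of the position, of the scale and of the depth. -/
def BWGL (d n : ℕ) (C_AD C_R : ℝ) : Prop :=
  ∀ b A ε : ℝ, 16 ≤ b → 1 ≤ A → 0 < ε → ∃ C_B : ℝ, 0 ≤ C_B ∧
    ∀ μ : Measure (EuclideanSpace ℝ (Fin d)),
      Crest.AnalysisR.IsADRegular n C_AD μ → Crest.AnalysisR.HasRieszBound n C_R μ →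
      ∀ x₀ ∈ μ.support, ∀ ℓ : ℝ, Crest.AnalysisR.IsAdmissibleRadius μ (100 * ℓ) →
        ∀ (K : ℕ) (L : Lat μ.support x₀ ℓ b K),
          (∑ w ∈ L.top, (nbad L n A ε w : ℝ)) ≤ C_B * (L.top.card : ℝ)

/-! ### Projections and steepness -/

/-- The coordinate projection on the direction of an `n`-plane (adjoint of the isometry). -/
noncomputable def pr {d n : ℕ}
    (ι : EuclideanSpace ℝ (Fin n) →ₗᵢ[ℝ] EuclideanSpace ℝ (Fin d)) :
    EuclideanSpace ℝ (Fin d) →L[ℝ] EuclideanSpace ℝ (Fin n) :=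
  ContinuousLinearMap.adjoint ι.toContinuousLinearMap

lemma pr_apply_iso {d n : ℕ}
    (ι : EuclideanSpace ℝ (Fin n) →ₗᵢ[ℝ] EuclideanSpace ℝ (Fin d))
    (v : EuclideanSpace ℝ (Fin n)) : pr ι (ι v) = v := by
  refine ext_inner_right ℝ fun w => ?_
  unfold pr
  rw [ContinuousLinearMap.adjoint_inner_left]
  exact ι.inner_map_map v w

lemma norm_pr_le {d n : ℕ}
    (ι : EuclideanSpace ℝ (Fin n) →ₗᵢ[ℝ] EuclideanSpace ℝ (Fin d))
    (y : EuclideanSpace ℝ (Fin d)) : ‖pr ι y‖ ≤ ‖y‖ := by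
  have h1 : ‖pr ι‖ ≤ 1 := by
    unfold pr
    rw [LinearIsometryEquiv.norm_map]
    exact ι.norm_toContinuousLinearMap_le
  calc ‖pr ι y‖ ≤ ‖pr ι‖ * ‖y‖ := (pr ι).le_opNorm y
    _ ≤ 1 * ‖y‖ := by gcongr
    _ = ‖y‖ := one_mul _

lemma dist_pr_le {d n : ℕ}
    (ι : EuclideanSpace ℝ (Fin n) →ₗᵢ[ℝ] EuclideanSpace ℝ (Fin d))
    (y y' : EuclideanSpace ℝ (Fin d)) : dist (pr ι y) (pr ι y') ≤ dist y y' := by
  rw [dist_eq_norm, dist_eq_norm, ← map_sub]
  exact norm_pr_le ι _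

/-- The plane directed by `ι'` is not steep over the one directed by `ι`. -/
def NonSteep {d n : ℕ} (c₁ : ℝ)
    (ι ι' : EuclideanSpace ℝ (Fin n) →ₗᵢ[ℝ] EuclideanSpace ℝ (Fin d)) : Prop :=
  ∀ v, c₁ * ‖v‖ ≤ ‖pr ι (ι' v)‖

/-! ### Roots -/

open Classical in
/-- The current root of the cell `(k, x)`: `none` if the cell is bad, otherwise `some j` where
`j ≤ k` is the generation of the root of the tree containing the cell. -/
noncomputable def root {d n : ℕ} (c : ℕ → EuclideanSpace ℝ (Fin d) → EuclideanSpace ℝ (Fin d))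
    (good : ℕ → EuclideanSpace ℝ (Fin d) → Prop)
    (I : ℕ → EuclideanSpace ℝ (Fin d) →
      (EuclideanSpace ℝ (Fin n) →ₗᵢ[ℝ] EuclideanSpace ℝ (Fin d)))
    (c₁ : ℝ) : ℕ → EuclideanSpace ℝ (Fin d) → Option ℕ
  | 0, x => if good 0 x then some 0 else none
  | (k + 1), x =>
      if good (k + 1) x then
        match root c good I c₁ k (c k x) with
        | none => some (k + 1)
        | some j => if NonSteep c₁ (I j (c j x)) (I (k + 1) x) then some j else some (k + 1)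
      else none

/-- forces the generation of the equation lemmas of `root` in this file -/
lemma root_eq_aux_zero {d n : ℕ} (c : ℕ → EuclideanSpace ℝ (Fin d) → EuclideanSpace ℝ (Fin d))
    (good : ℕ → EuclideanSpace ℝ (Fin d) → Prop)
    (I : ℕ → EuclideanSpace ℝ (Fin d) →
      (EuclideanSpace ℝ (Fin n) →ₗᵢ[ℝ] EuclideanSpace ℝ (Fin d)))
    (c₁ : ℝ) (x : EuclideanSpace ℝ (Fin d)) (h : ¬ good 0 x) : root c good I c₁ 0 x = none := by
  rw [root, if_neg h]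

/-- forces the generation of the equation lemmas of `root` in this file -/
lemma root_eq_aux_succ {d n : ℕ} (c : ℕ → EuclideanSpace ℝ (Fin d) → EuclideanSpace ℝ (Fin d))
    (good : ℕ → EuclideanSpace ℝ (Fin d) → Prop)
    (I : ℕ → EuclideanSpace ℝ (Fin d) →
      (EuclideanSpace ℝ (Fin n) →ₗᵢ[ℝ] EuclideanSpace ℝ (Fin d)))
    (c₁ : ℝ) (k : ℕ) (x : EuclideanSpace ℝ (Fin d)) (h : ¬ good (k + 1) x) :
    root c good I c₁ (k + 1) x = none := by
  rw [root, if_neg h]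

open Classical in
/-- Number of roots `(j, c j w)`, `j ≤ K`, above the leaf `w`. -/
noncomputable def nroot {d n : ℕ} {S : Set (EuclideanSpace ℝ (Fin d))}
    {x₀ : EuclideanSpace ℝ (Fin d)} {ℓ b : ℝ} {K : ℕ} (L : Lat S x₀ ℓ b K)
    (good : ℕ → EuclideanSpace ℝ (Fin d) → Prop)
    (I : ℕ → EuclideanSpace ℝ (Fin d) →
      (EuclideanSpace ℝ (Fin n) →ₗᵢ[ℝ] EuclideanSpace ℝ (Fin d)))
    (c₁ : ℝ) (w : EuclideanSpace ℝ (Fin d)) : ℕ :=
  ((Finset.range (K + 1)).filter (fun j => root L.c good I c₁ j (L.c j w) = some j)).card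

/-- The leftover of the root `(j, x)`: the leaves `w` of its cell whose branch leaves the tree
through a bad cell of generation `k < K`, or stays in the tree up to generation `K - 1`. -/
def Leftover {d n : ℕ} {S : Set (EuclideanSpace ℝ (Fin d))}
    {x₀ : EuclideanSpace ℝ (Fin d)} {ℓ b : ℝ} {K : ℕ} (L : Lat S x₀ ℓ b K)
    (good : ℕ → EuclideanSpace ℝ (Fin d) → Prop)
    (I : ℕ → EuclideanSpace ℝ (Fin d) →
      (EuclideanSpace ℝ (Fin n) →ₗᵢ[ℝ] EuclideanSpace ℝ (Fin d)))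
    (c₁ : ℝ) (j : ℕ) (w : EuclideanSpace ℝ (Fin d)) : Prop :=
  (∃ k, j < k ∧ k < K ∧ (∀ i, j ≤ i → i < k → root L.c good I c₁ i (L.c i w) = some j) ∧
      ¬ good k (L.c k w)) ∨
    (∀ i, j ≤ i → i < K → root L.c good I c₁ i (L.c i w) = some j)

end Crest.Agent.R085
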