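/-
R085 (S0113), PART II: cardinality of the cells of a lattice (P2Card).
-/
import Crest.Agent.R085.P2Defs

set_option autoImplicit false

namespace Crest.Agent.R085

open MeasureTheory Set

lemma P2Card.sc_eq_mul_pow {ℓ b : ℝ} (hb : 0 < b) {k K : ℕ} (hk : k ≤ K) :
    sc ℓ b k = sc ℓ b K * b ^ (K - k) := by
  unfold sc
  have h1 : b ^ K = b ^ k * b ^ (K - k) := by
    rw [← pow_add, Nat.add_sub_cancel' hk]
  have h2 : b ^ k ≠ 0 := (pow_pos hb k).ne'
  have h3 : b ^ (K - k) ≠ 0 := (pow_pos hb _).ne'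
  rw [h1]
  field_simp

lemma P2Card.sc_le_self {ℓ b : ℝ} (hℓ : 0 < ℓ) (hb : 1 ≤ b) (k : ℕ) : sc ℓ b k ≤ ℓ := by
  unfold sc
  exact div_le_self hℓ.le (one_le_pow₀ hb)

lemma P2Card.sc_anti {ℓ b : ℝ} (hℓ : 0 < ℓ) (hb : 1 ≤ b) {k K : ℕ} (hk : k ≤ K) :
    sc ℓ b K ≤ sc ℓ b k := by
  rw [P2Card.sc_eq_mul_pow (lt_of_lt_of_le one_pos hb) hk]
  exact le_mul_of_one_le_right (sc_pos hℓ (lt_of_lt_of_le one_pos hb) K).le (one_le_pow₀ hb)

/-- Volume count: `ball x (sc k/8) ∩ S ⊆ ⋃_{w ∈ cell k x} ball w (2 sc K)`. -/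
theorem card_cell_lower {d n : ℕ} {C : ℝ} (hC : 1 ≤ C)
    (μ : Measure (EuclideanSpace ℝ (Fin d))) (S : Set (EuclideanSpace ℝ (Fin d)))
    (hμS : μ Sᶜ = 0) {x₀ : EuclideanSpace ℝ (Fin d)} {ℓ b : ℝ} (hℓ : 0 < ℓ) (hb : 16 ≤ b)
    (hAD : ADat n C (100 * ℓ) μ S) {K : ℕ} (L : Lat S x₀ ℓ b K)
    (k : ℕ) (hk : k ≤ K) (x : EuclideanSpace ℝ (Fin d)) (hx : x ∈ L.W) (hkx : L.c k x = x)
    (h0x : L.c 0 x = x₀) :
    (C ^ 2 * 16 ^ n)⁻¹ * (b ^ (K - k)) ^ n ≤ ((L.cell k x).card : ℝ) := by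
  have hb1 : (1 : ℝ) ≤ b := by linarith
  have hb0 : (0 : ℝ) < b := by linarith
  have hC0 : 0 < C := by linarith
  have hxcell : x ∈ L.cell k x := L.mem_cell.2 ⟨hx, hkx⟩
  have hcard1 : (1 : ℝ) ≤ ((L.cell k x).card : ℝ) := by
    exact_mod_cast Finset.card_pos.2 ⟨x, hxcell⟩
  rcases hk.eq_or_lt with hkK | hkK
  · subst hkK
    have h1 : (1 : ℝ) ≤ C ^ 2 * 16 ^ n := by
      have : (1 : ℝ) ≤ C ^ 2 := one_le_pow₀ hC
      have h2 : (1 : ℝ) ≤ 16 ^ n := one_le_pow₀ (by norm_num)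
      nlinarith
    simp only [Nat.sub_self, pow_zero, one_pow, mul_one]
    exact (inv_le_one_of_one_le₀ h1).trans hcard1
  -- the main case
  set s := sc ℓ b k with hs
  set t := sc ℓ b K with ht
  have hs0 : 0 < s := sc_pos hℓ hb0 k
  have ht0 : 0 < t := sc_pos hℓ hb0 K
  have hst : s = t * b ^ (K - k) := P2Card.sc_eq_mul_pow hb0 hk
  have hst16 : t ≤ s / 16 := by
    have h1 : (16 : ℝ) ≤ b ^ (K - k) := by
      calc (16 : ℝ) ≤ b := hb
        _ = b ^ 1 := (pow_one b).symm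
        _ ≤ b ^ (K - k) := pow_le_pow_right₀ hb1 (by omega)
    rw [hst]
    nlinarith
  have hsl : s ≤ ℓ := P2Card.sc_le_self hℓ hb1 k
  have htl : t ≤ ℓ := P2Card.sc_le_self hℓ hb1 K
  have hxS : x ∈ S := L.W_sub x hx
  have hx0 : dist x x₀ ≤ 2 * ℓ := by
    have := L.c_dist 0 (Nat.zero_le _) x hx
    rwa [h0x, sc_zero] at this
  have hcover : Metric.ball x (s / 8) ⊆ Sᶜ ∪ ⋃ w ∈ L.cell k x, Metric.ball w (2 * t) := by
    intro y hy
    by_cases hyS : y ∈ S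
    · right
      rw [Metric.mem_ball] at hy
      have h10 : dist y x₀ ≤ 10 * ℓ := by
        have := dist_triangle y x x₀
        linarith
      obtain ⟨w, hw, hyw⟩ := L.dense y hyS h10
      have hwx : dist w x < sc ℓ b k / 4 := by
        have := dist_triangle_left w x y
        rw [← hs]
        linarith
      have hwc : L.c k w = x := L.c_inner k hk x hx hkx w hw hwx
      simp only [mem_iUnion, Metric.mem_ball]
      refine ⟨w, L.mem_cell.2 ⟨hw, hwc⟩, ?_⟩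
      linarith
    · left; exact hyS
  have hmeas : μ (Metric.ball x (s / 8)) ≤
      ((L.cell k x).card : ENNReal) * ENNReal.ofReal (C * (2 * t) ^ n) := by
    calc μ (Metric.ball x (s / 8))
        ≤ μ (Sᶜ ∪ ⋃ w ∈ L.cell k x, Metric.ball w (2 * t)) := measure_mono hcover
      _ ≤ μ Sᶜ + μ (⋃ w ∈ L.cell k x, Metric.ball w (2 * t)) := measure_union_le _ _
      _ = μ (⋃ w ∈ L.cell k x, Metric.ball w (2 * t)) := by rw [hμS, zero_add]
      _ ≤ ∑ w ∈ L.cell k x, μ (Metric.ball w (2 * t)) := measure_biUnion_finset_le _ _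
      _ ≤ ∑ w ∈ L.cell k x, ENNReal.ofReal (C * (2 * t) ^ n) := by
          refine Finset.sum_le_sum fun w hw => ?_
          have hwW := (L.mem_cell.1 hw).1
          exact (hAD w (L.W_sub w hwW) (2 * t) (by positivity) (by linarith)).2
      _ = ((L.cell k x).card : ENNReal) * ENNReal.ofReal (C * (2 * t) ^ n) := by
          rw [Finset.sum_const, nsmul_eq_mul]
  have hlow := (hAD x hxS (s / 8) (by positivity) (by linarith)).1
  have hfin : ENNReal.ofReal (C⁻¹ * (s / 8) ^ n) ≤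
      ENNReal.ofReal (((L.cell k x).card : ℝ) * (C * (2 * t) ^ n)) := by
    refine (hlow.trans hmeas).trans (le_of_eq ?_)
    rw [ENNReal.ofReal_mul (p := ((L.cell k x).card : ℝ)) (Nat.cast_nonneg _),
      ENNReal.ofReal_natCast]
  have hreal : C⁻¹ * (s / 8) ^ n ≤ ((L.cell k x).card : ℝ) * (C * (2 * t) ^ n) :=
    (ENNReal.ofReal_le_ofReal_iff (by positivity)).1 hfin
  -- algebra
  have h8 : (s / 8) ^ n = (2 * t) ^ n * ((b ^ (K - k)) ^ n / 16 ^ n) := by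
    rw [← div_pow, ← mul_pow, hst]
    congr 1
    ring
  have h2t : 0 < (2 * t) ^ n := by positivity
  rw [h8] at hreal
  have key : C⁻¹ * ((b ^ (K - k)) ^ n / 16 ^ n) ≤ ((L.cell k x).card : ℝ) * C := by
    have : (C⁻¹ * ((b ^ (K - k)) ^ n / 16 ^ n)) * (2 * t) ^ n ≤
        (((L.cell k x).card : ℝ) * C) * (2 * t) ^ n := by
      calc (C⁻¹ * ((b ^ (K - k)) ^ n / 16 ^ n)) * (2 * t) ^ n
          = C⁻¹ * ((2 * t) ^ n * ((b ^ (K - k)) ^ n / 16 ^ n)) := by ring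
        _ ≤ ((L.cell k x).card : ℝ) * (C * (2 * t) ^ n) := hreal
        _ = (((L.cell k x).card : ℝ) * C) * (2 * t) ^ n := by ring
    exact le_of_mul_le_mul_right this h2t
  have h16 : (0 : ℝ) < 16 ^ n := by positivity
  calc (C ^ 2 * 16 ^ n)⁻¹ * (b ^ (K - k)) ^ n
      = C⁻¹ * (C⁻¹ * ((b ^ (K - k)) ^ n / 16 ^ n)) := by
        field_simp
    _ ≤ C⁻¹ * (((L.cell k x).card : ℝ) * C) := by gcongr
    _ = ((L.cell k x).card : ℝ) := by field_simp

/-- Disjoint balls `ball w (sc K/8)`, `w ∈ cell k x`, in `ball x (3 sc k)`. -/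
theorem card_cell_upper {d n : ℕ} {C : ℝ} (hC : 1 ≤ C)
    (μ : Measure (EuclideanSpace ℝ (Fin d))) (S : Set (EuclideanSpace ℝ (Fin d)))
    {x₀ : EuclideanSpace ℝ (Fin d)} {ℓ b : ℝ} (hℓ : 0 < ℓ) (hb : 16 ≤ b)
    (hAD : ADat n C (100 * ℓ) μ S) {K : ℕ} (L : Lat S x₀ ℓ b K)
    (k : ℕ) (hk : k ≤ K) (x : EuclideanSpace ℝ (Fin d)) (hx : x ∈ L.W) (_hkx : L.c k x = x) :
    ((L.cell k x).card : ℝ) ≤ C ^ 2 * 24 ^ n * (b ^ (K - k)) ^ n := by
  have hb1 : (1 : ℝ) ≤ b := by linarith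
  have hb0 : (0 : ℝ) < b := by linarith
  have hC0 : 0 < C := by linarith
  set s := sc ℓ b k with hs
  set t := sc ℓ b K with ht
  have hs0 : 0 < s := sc_pos hℓ hb0 k
  have ht0 : 0 < t := sc_pos hℓ hb0 K
  have hst : s = t * b ^ (K - k) := P2Card.sc_eq_mul_pow hb0 hk
  have hts : t ≤ s := P2Card.sc_anti hℓ hb1 hk
  have hsl : s ≤ ℓ := P2Card.sc_le_self hℓ hb1 k
  have hsub : (⋃ w ∈ L.cell k x, Metric.ball w (t / 8)) ⊆ Metric.ball x (3 * s) := by
    intro y hy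
    simp only [mem_iUnion, Metric.mem_ball, exists_prop] at hy
    obtain ⟨w, hw, hyw⟩ := hy
    obtain ⟨hwW, hwx⟩ := L.mem_cell.1 hw
    have h1 : dist w x ≤ 2 * s := by
      have := L.c_dist k hk w hwW
      rwa [hwx] at this
    rw [Metric.mem_ball]
    have := dist_triangle y w x
    linarith
  have hdisj : (L.cell k x : Set (EuclideanSpace ℝ (Fin d))).PairwiseDisjoint
      (fun w => Metric.ball w (t / 8)) := by
    intro w hw w' hw' hne
    have hwW := (L.mem_cell.1 (Finset.mem_coe.1 hw)).1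
    have hwW' := (L.mem_cell.1 (Finset.mem_coe.1 hw')).1
    apply Metric.ball_disjoint_ball
    by_contra hlt
    push Not at hlt
    apply hne
    have h1 : dist w' w < sc ℓ b K / 4 := by
      rw [dist_comm, ← ht]; linarith
    have h2 := L.c_inner K le_rfl w hwW (L.c_last w hwW) w' hwW' h1
    rw [L.c_last w' hwW'] at h2
    exact h2.symm
  have hmeas : ((L.cell k x).card : ENNReal) * ENNReal.ofReal (C⁻¹ * (t / 8) ^ n) ≤
      μ (Metric.ball x (3 * s)) := by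
    calc ((L.cell k x).card : ENNReal) * ENNReal.ofReal (C⁻¹ * (t / 8) ^ n)
        = ∑ w ∈ L.cell k x, ENNReal.ofReal (C⁻¹ * (t / 8) ^ n) := by
          rw [Finset.sum_const, nsmul_eq_mul]
      _ ≤ ∑ w ∈ L.cell k x, μ (Metric.ball w (t / 8)) := by
          refine Finset.sum_le_sum fun w hw => ?_
          have hwW := (L.mem_cell.1 hw).1
          exact (hAD w (L.W_sub w hwW) (t / 8) (by positivity) (by linarith)).1
      _ = μ (⋃ w ∈ L.cell k x, Metric.ball w (t / 8)) :=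
          (measure_biUnion_finset hdisj (fun w _ => measurableSet_ball)).symm
      _ ≤ μ (Metric.ball x (3 * s)) := measure_mono hsub
  have hup := (hAD x (L.W_sub x hx) (3 * s) (by positivity) (by linarith)).2
  have hfin : ENNReal.ofReal (((L.cell k x).card : ℝ) * (C⁻¹ * (t / 8) ^ n)) ≤
      ENNReal.ofReal (C * (3 * s) ^ n) := by
    refine le_trans (le_of_eq ?_) (hmeas.trans hup)
    rw [ENNReal.ofReal_mul (p := ((L.cell k x).card : ℝ)) (Nat.cast_nonneg _),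
      ENNReal.ofReal_natCast]
  have hreal : ((L.cell k x).card : ℝ) * (C⁻¹ * (t / 8) ^ n) ≤ C * (3 * s) ^ n :=
    (ENNReal.ofReal_le_ofReal_iff (by positivity)).1 hfin
  have h3 : (3 * s) ^ n = (t / 8) ^ n * (24 ^ n * (b ^ (K - k)) ^ n) := by
    rw [← mul_pow, ← mul_pow, hst]
    congr 1
    ring
  have ht8 : 0 < (t / 8) ^ n := by positivity
  rw [h3] at hreal
  have key : ((L.cell k x).card : ℝ) * C⁻¹ ≤ C * (24 ^ n * (b ^ (K - k)) ^ n) := by
    refine le_of_mul_le_mul_right ?_ ht8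
    calc ((L.cell k x).card : ℝ) * C⁻¹ * (t / 8) ^ n
        = ((L.cell k x).card : ℝ) * (C⁻¹ * (t / 8) ^ n) := by ring
      _ ≤ C * ((t / 8) ^ n * (24 ^ n * (b ^ (K - k)) ^ n)) := hreal
      _ = C * (24 ^ n * (b ^ (K - k)) ^ n) * (t / 8) ^ n := by ring
  calc ((L.cell k x).card : ℝ) = C * (((L.cell k x).card : ℝ) * C⁻¹) := by field_simp
    _ ≤ C * (C * (24 ^ n * (b ^ (K - k)) ^ n)) := by gcongr
    _ = C ^ 2 * 24 ^ n * (b ^ (K - k)) ^ n := by ring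

end Crest.Agent.R085
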