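/-
R085 (S0113), PART II: packing of roots (pure combinatorics).  helper907.
-/
import Crest.Agent.R085.P2Defs

set_option autoImplicit false

namespace Crest.Agent.R085

open MeasureTheory Set

section Count

variable {d n : ℕ} {S : Set (EuclideanSpace ℝ (Fin d))}
    {x₀ : EuclideanSpace ℝ (Fin d)} {ℓ b : ℝ} {K : ℕ}

open Classical in
/-- Pointwise bound: over a leaf `w`, the roots whose leftover contains `w` are few. -/
lemma card_leftover_roots_le (L : Lat S x₀ ℓ b K)
    (good : ℕ → EuclideanSpace ℝ (Fin d) → Prop)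
    (I : ℕ → EuclideanSpace ℝ (Fin d) →
      (EuclideanSpace ℝ (Fin n) →ₗᵢ[ℝ] EuclideanSpace ℝ (Fin d)))
    (c₁ : ℝ) (w : EuclideanSpace ℝ (Fin d)) :
    ((Finset.range (K + 1)).filter
        (fun j => root L.c good I c₁ j (L.c j w) = some j ∧ Leftover L good I c₁ j w)).card ≤
      ((Finset.range (K + 1)).filter (fun k => ¬ good k (L.c k w))).card + 2 := by
  classical
  set R : ℕ → Option ℕ := fun i => root L.c good I c₁ i (L.c i w) with hR
  -- the three classes
  let A : Finset ℕ := (Finset.range (K + 1)).filter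
    (fun j => R j = some j ∧ ∃ k, j < k ∧ k < K ∧ (∀ i, j ≤ i → i < k → R i = some j) ∧
      ¬ good k (L.c k w))
  let B : Finset ℕ := (Finset.range K).filter
    (fun j => R j = some j ∧ ∀ i, j ≤ i → i < K → R i = some j)
  have hsub : (Finset.range (K + 1)).filter
        (fun j => root L.c good I c₁ j (L.c j w) = some j ∧ Leftover L good I c₁ j w) ⊆
      A ∪ (B ∪ {K}) := by
    intro j hj
    rw [Finset.mem_filter, Finset.mem_range] at hj
    obtain ⟨hjK, hjr, hl⟩ := hj
    rw [Finset.mem_union, Finset.mem_union]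
    rcases hl with ⟨k, hjk, hkK, hall, hbad⟩ | hall
    · left
      simp only [A, Finset.mem_filter, Finset.mem_range]
      exact ⟨hjK, hjr, k, hjk, hkK, hall, hbad⟩
    · right
      by_cases hj' : j = K
      · right; simp [hj']
      · left
        simp only [B, Finset.mem_filter, Finset.mem_range]
        exact ⟨by omega, hjr, hall⟩
  have hA : A.card ≤ ((Finset.range (K + 1)).filter (fun k => ¬ good k (L.c k w))).card := by
    -- choose the exit generation
    have hch : ∀ j ∈ A, ∃ k, j < k ∧ k < K ∧ (∀ i, j ≤ i → i < k → R i = some j) ∧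
        ¬ good k (L.c k w) := by
      intro j hj
      simp only [A, Finset.mem_filter] at hj
      exact hj.2.2
    have hAr : ∀ j ∈ A, R j = some j := by
      intro j hj
      simp only [A, Finset.mem_filter] at hj
      exact hj.2.1
    choose! e he using hch
    refine Finset.card_le_card_of_injOn e ?_ ?_
    · intro j hj
      have hj' : j ∈ A := hj
      have := he j hj'
      simp only [Finset.coe_filter, Finset.mem_range, Set.mem_ofPred_eq]
      exact ⟨by omega, this.2.2.2⟩
    · intro j hj j' hj' hee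
      have hj1 : j ∈ A := hj
      have hj2 : j' ∈ A := hj'
      obtain ⟨h1, h2, h3, h4⟩ := he j hj1
      obtain ⟨h1', h2', h3', h4'⟩ := he j' hj2
      by_contra hne
      rcases lt_or_gt_of_ne hne with hlt | hlt
      · have := h3 j' hlt.le (by omega)
        rw [hAr j' hj2] at this
        simp at this
        omega
      · have := h3' j hlt.le (by omega)
        rw [hAr j hj1] at this
        simp at this
        omega
  have hB : B.card ≤ 1 := by
    rw [Finset.card_le_one]
    intro j hj j' hj'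
    simp only [B, Finset.mem_filter, Finset.mem_range] at hj hj'
    obtain ⟨hjK, hr, hall⟩ := hj
    obtain ⟨hjK', hr', hall'⟩ := hj'
    by_contra hne
    rcases lt_or_gt_of_ne hne with hlt | hlt
    · have := hall j' hlt.le hjK'
      rw [hr'] at this
      simp at this
      omega
    · have := hall' j hlt.le hjK
      rw [hr] at this
      simp at this
      omega
  calc _ ≤ (A ∪ (B ∪ {K})).card := Finset.card_le_card hsub
    _ ≤ A.card + (B ∪ {K}).card := Finset.card_union_le _ _
    _ ≤ A.card + (B.card + ({K} : Finset ℕ).card) := by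
        gcongr
        exact Finset.card_union_le _ _
    _ ≤ _ := by
        rw [Finset.card_singleton]
        omega

open Classical in
/-- Each generation: the roots of generation `j` have large leftovers. -/
lemma card_roots_gen_le (L : Lat S x₀ ℓ b K)
    (good : ℕ → EuclideanSpace ℝ (Fin d) → Prop)
    (I : ℕ → EuclideanSpace ℝ (Fin d) →
      (EuclideanSpace ℝ (Fin n) →ₗᵢ[ℝ] EuclideanSpace ℝ (Fin d)))
    (c₁ c₆ : ℝ)
    (hleft : ∀ j ≤ K, ∀ x ∈ L.W, L.c j x = x → L.c 0 x = x₀ →
      root L.c good I c₁ j x = some j →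
      c₆ * ((L.cell j x).card : ℝ) ≤
        (((L.cell j x).filter (fun w => Leftover L good I c₁ j w)).card : ℝ))
    (j : ℕ) (hj : j ≤ K) :
    c₆ * ((L.top.filter (fun w => root L.c good I c₁ j (L.c j w) = some j)).card : ℝ) ≤
      ((L.top.filter (fun w => root L.c good I c₁ j (L.c j w) = some j ∧
        Leftover L good I c₁ j w)).card : ℝ) := by
  classical
  set s := L.top.filter (fun w => root L.c good I c₁ j (L.c j w) = some j) with hs
  set s' := L.top.filter (fun w => root L.c good I c₁ j (L.c j w) = some j ∧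
        Leftover L good I c₁ j w) with hs'
  set t := s.image (L.c j) with ht
  have hmem : ∀ w, w ∈ s ↔ (w ∈ L.W ∧ L.c 0 w = x₀) ∧
      root L.c good I c₁ j (L.c j w) = some j := by
    intro w; rw [hs, Finset.mem_filter, Lat.mem_top]
  have hmem' : ∀ w, w ∈ s' ↔ (w ∈ L.W ∧ L.c 0 w = x₀) ∧
      root L.c good I c₁ j (L.c j w) = some j ∧ Leftover L good I c₁ j w := by
    intro w; rw [hs', Finset.mem_filter, Lat.mem_top]
  have hss : s' ⊆ s := by
    intro w hw
    rw [hmem'] at hw
    rw [hmem]
    exact ⟨hw.1, hw.2.1⟩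
  have h1 : s.card = ∑ x ∈ t, (s.filter (fun w => L.c j w = x)).card :=
    Finset.card_eq_sum_card_fiberwise (fun w hw => Finset.mem_coe.2
      (Finset.mem_image_of_mem _ (Finset.mem_coe.1 hw)))
  have h2 : s'.card = ∑ x ∈ t, (s'.filter (fun w => L.c j w = x)).card :=
    Finset.card_eq_sum_card_fiberwise (fun w hw => Finset.mem_coe.2
      (Finset.mem_image_of_mem _ (hss (Finset.mem_coe.1 hw))))
  rw [h1, h2]
  push_cast
  rw [Finset.mul_sum]
  refine Finset.sum_le_sum ?_
  intro x hx
  rw [ht, Finset.mem_image] at hx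
  obtain ⟨w₀, hw₀, rfl⟩ := hx
  rw [hmem] at hw₀
  obtain ⟨⟨hw₀W, hw₀0⟩, hw₀r⟩ := hw₀
  have hc0 : ∀ w ∈ L.W, L.c 0 (L.c j w) = L.c 0 w := fun w hw =>
    L.c_comp 0 j (Nat.zero_le _) hj w hw
  have hx0 : L.c 0 (L.c j w₀) = x₀ := by rw [hc0 w₀ hw₀W, hw₀0]
  have key : ∀ w ∈ L.W, L.c j w = L.c j w₀ → L.c 0 w = x₀ := by
    intro w hw h
    rw [← hc0 w hw, h, hx0]
  have e1 : s.filter (fun w => L.c j w = L.c j w₀) = L.cell j (L.c j w₀) := by
    ext w
    rw [Finset.mem_filter, hmem, Lat.mem_cell]
    constructor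
    · rintro ⟨⟨⟨h1, _⟩, _⟩, h2⟩
      exact ⟨h1, h2⟩
    · rintro ⟨h1, h2⟩
      exact ⟨⟨⟨h1, key w h1 h2⟩, by rw [h2]; exact hw₀r⟩, h2⟩
  have e2 : s'.filter (fun w => L.c j w = L.c j w₀) =
      (L.cell j (L.c j w₀)).filter (fun w => Leftover L good I c₁ j w) := by
    ext w
    rw [Finset.mem_filter, hmem', Finset.mem_filter, Lat.mem_cell]
    constructor
    · rintro ⟨⟨⟨h1, _⟩, _, h3⟩, h2⟩
      exact ⟨⟨h1, h2⟩, h3⟩
    · rintro ⟨⟨h1, h2⟩, h3⟩
      exact ⟨⟨⟨h1, key w h1 h2⟩, by rw [h2]; exact hw₀r, h3⟩, h2⟩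
  rw [e1, e2]
  exact hleft j hj _ (L.c_mem j hj w₀ hw₀W) (L.c_comp j j le_rfl hj w₀ hw₀W) hx0 hw₀r

open Classical in
/-- FILE P2Count.lean. (Pure combinatorics: leftovers of different roots over a leaf end at
different bad generations.) -/
theorem sum_nroot_le {d n : ℕ} {S : Set (EuclideanSpace ℝ (Fin d))}
    {x₀ : EuclideanSpace ℝ (Fin d)} {ℓ b : ℝ} {K : ℕ} (L : Lat S x₀ ℓ b K)
    (good : ℕ → EuclideanSpace ℝ (Fin d) → Prop)
    (I : ℕ → EuclideanSpace ℝ (Fin d) →
      (EuclideanSpace ℝ (Fin n) →ₗᵢ[ℝ] EuclideanSpace ℝ (Fin d)))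
    (c₁ c₆ : ℝ) (hc₆ : 0 < c₆)
    (hleft : ∀ j ≤ K, ∀ x ∈ L.W, L.c j x = x → L.c 0 x = x₀ →
      root L.c good I c₁ j x = some j →
      c₆ * ((L.cell j x).card : ℝ) ≤
        (((L.cell j x).filter (fun w => Leftover L good I c₁ j w)).card : ℝ)) :
    c₆ * (∑ w ∈ L.top, (nroot L good I c₁ w : ℝ)) ≤
      ∑ w ∈ L.top, ((((Finset.range (K + 1)).filter
        (fun k => ¬ good k (L.c k w))).card : ℝ) + 2) := by
  classical
  -- exchange the sums
  have hL : (∑ w ∈ L.top, (nroot L good I c₁ w : ℝ)) =
      ∑ j ∈ Finset.range (K + 1),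
        ((L.top.filter (fun w => root L.c good I c₁ j (L.c j w) = some j)).card : ℝ) := by
    unfold nroot
    simp only [Finset.card_filter]
    push_cast
    rw [Finset.sum_comm]
  have hR : (∑ w ∈ L.top, (((Finset.range (K + 1)).filter
        (fun j => root L.c good I c₁ j (L.c j w) = some j ∧
          Leftover L good I c₁ j w)).card : ℝ)) =
      ∑ j ∈ Finset.range (K + 1),
        ((L.top.filter (fun w => root L.c good I c₁ j (L.c j w) = some j ∧
          Leftover L good I c₁ j w)).card : ℝ) := by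
    simp only [Finset.card_filter]
    push_cast
    rw [Finset.sum_comm]
  calc c₆ * (∑ w ∈ L.top, (nroot L good I c₁ w : ℝ))
      = ∑ j ∈ Finset.range (K + 1), c₆ *
        ((L.top.filter (fun w => root L.c good I c₁ j (L.c j w) = some j)).card : ℝ) := by
          rw [hL, Finset.mul_sum]
    _ ≤ ∑ j ∈ Finset.range (K + 1),
        ((L.top.filter (fun w => root L.c good I c₁ j (L.c j w) = some j ∧
          Leftover L good I c₁ j w)).card : ℝ) := by
          refine Finset.sum_le_sum ?_
          intro j hj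
          rw [Finset.mem_range] at hj
          exact card_roots_gen_le L good I c₁ c₆ hleft j (by omega)
    _ = ∑ w ∈ L.top, (((Finset.range (K + 1)).filter
        (fun j => root L.c good I c₁ j (L.c j w) = some j ∧
          Leftover L good I c₁ j w)).card : ℝ) := hR.symm
    _ ≤ _ := by
          refine Finset.sum_le_sum ?_
          intro w _
          have := card_leftover_roots_le L good I c₁ w
          exact_mod_cast this

end Count

end Crest.Agent.R085
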