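/-
R085 (S0113), PART II: the chain covering (file P2Chain).
Owner: helper518.
-/
import Crest.Agent.R085.P2Defs

set_option autoImplicit false

namespace Crest.Agent.R085

open MeasureTheory Set

section RootLemmas

variable {d n : ℕ} {c : ℕ → EuclideanSpace ℝ (Fin d) → EuclideanSpace ℝ (Fin d)}
    {good : ℕ → EuclideanSpace ℝ (Fin d) → Prop}
    {I : ℕ → EuclideanSpace ℝ (Fin d) →
      (EuclideanSpace ℝ (Fin n) →ₗᵢ[ℝ] EuclideanSpace ℝ (Fin d))}
    {c₁ : ℝ}

lemma root_eq_some_good {k j : ℕ} {x : EuclideanSpace ℝ (Fin d)}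
    (h : root c good I c₁ k x = some j) : good k x := by
  classical
  cases k with
  | zero =>
    rw [root] at h
    by_contra hg
    simp [hg] at h
  | succ k =>
    rw [root] at h
    by_contra hg
    simp [hg] at h

lemma root_eq_some_nonSteep {k j : ℕ} {x : EuclideanSpace ℝ (Fin d)} (hjk : j < k)
    (h : root c good I c₁ k x = some j) : NonSteep c₁ (I j (c j x)) (I k x) := by
  classical
  cases k with
  | zero => omega
  | succ k =>
    have hg : good (k + 1) x := root_eq_some_good h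
    rw [root, if_pos hg] at h
    cases hr : root c good I c₁ k (c k x) with
    | none =>
      rw [hr] at h
      simp only [Option.some.injEq] at h
      omega
    | some i =>
      rw [hr] at h
      simp only at h
      by_cases hns : NonSteep c₁ (I i (c i x)) (I (k + 1) x)
      · rw [if_pos hns] at h
        simp only [Option.some.injEq] at h
        subst h
        exact hns
      · rw [if_neg hns] at h
        simp only [Option.some.injEq] at h
        omega

end RootLemmas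

/-- Solving `pr ι (p + ι' v) = z` near a point `w` close to the plane `p + range ι'`. -/
lemma plane_solve {d n : ℕ} {κ : ℝ} (hκ : 0 < κ)
    (ι ι' : EuclideanSpace ℝ (Fin n) →ₗᵢ[ℝ] EuclideanSpace ℝ (Fin d))
    (h : NonSteep κ ι ι') (p w : EuclideanSpace ℝ (Fin d)) (z : EuclideanSpace ℝ (Fin n))
    {D δ : ℝ} (hz : dist z (pr ι w) ≤ D) (v₀ : EuclideanSpace ℝ (Fin n))
    (hv₀ : dist w (p + ι' v₀) ≤ δ) :
    ∃ v, pr ι (p + ι' v) = z ∧ dist (p + ι' v) w ≤ (D + δ) / κ + δ := by
  set T : EuclideanSpace ℝ (Fin n) →ₗ[ℝ] EuclideanSpace ℝ (Fin n) :=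
    (pr ι).toLinearMap.comp ι'.toLinearMap with hT
  have hTv : ∀ v, T v = pr ι (ι' v) := fun v => rfl
  have hinj : Function.Injective T := by
    rw [injective_iff_map_eq_zero]
    intro v hv
    have h1 := h v
    rw [← hTv, hv, norm_zero] at h1
    have h2 : ‖v‖ ≤ 0 := by
      by_contra hcon
      push Not at hcon
      have := mul_pos hκ hcon
      linarith
    exact norm_le_zero_iff.mp h2
  have hsurj : Function.Surjective T := LinearMap.injective_iff_surjective.mp hinj
  obtain ⟨v, hv⟩ := hsurj (z - pr ι p)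
  have hv1 : pr ι (p + ι' v) = z := by
    rw [map_add, ← hTv, hv]
    abel
  refine ⟨v, hv1, ?_⟩
  have h1 : dist z (pr ι (p + ι' v₀)) ≤ D + δ :=
    (dist_triangle _ (pr ι w) _).trans (add_le_add hz ((dist_pr_le ι _ _).trans hv₀))
  have h2 : κ * ‖v - v₀‖ ≤ D + δ := by
    refine (h (v - v₀)).trans ?_
    rw [← hv1, dist_eq_norm, ← map_sub] at h1
    have h3 : p + ι' v - (p + ι' v₀) = ι' (v - v₀) := by
      rw [map_sub]; abel
    rwa [h3] at h1
  have h3 : ‖v - v₀‖ ≤ (D + δ) / κ := by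
    rw [le_div_iff₀ hκ, mul_comm]
    exact h2
  have h4 : dist (p + ι' v) (p + ι' v₀) = ‖v - v₀‖ := by
    rw [dist_add_left, ι'.dist_map, dist_eq_norm]
  calc dist (p + ι' v) w ≤ dist (p + ι' v) (p + ι' v₀) + dist (p + ι' v₀) w :=
        dist_triangle _ _ _
    _ ≤ (D + δ) / κ + δ := by
        rw [h4, dist_comm _ w]
        exact add_le_add h3 hv₀

lemma sc_antitone {ℓ b : ℝ} (hℓ : 0 < ℓ) (hb : 1 ≤ b) {i k : ℕ} (hik : i ≤ k) :
    sc ℓ b k ≤ sc ℓ b i := by
  unfold sc
  exact div_le_div_of_nonneg_left hℓ.le (by positivity) (pow_le_pow_right₀ hb hik)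

/-- One step of the chain. -/
lemma chain_step {d n : ℕ} {S : Set (EuclideanSpace ℝ (Fin d))}
    {x₀ : EuclideanSpace ℝ (Fin d)} {ℓ b : ℝ} {K : ℕ} (L : Lat S x₀ ℓ b K) (hℓ : 0 < ℓ)
    {κ ε : ℝ} (hκ : 0 < κ) (hκ1 : κ ≤ 1) (hb : 1000 ≤ b * κ) (hε : 0 < ε)
    (hεb : ε ≤ 1 / b ^ 2)
    (m : ℕ) (hm : m < K) (p : EuclideanSpace ℝ (Fin d))
    (ι ι' : EuclideanSpace ℝ (Fin n) →ₗᵢ[ℝ] EuclideanSpace ℝ (Fin d))
    (h : NonSteep κ ι ι')
    (w : EuclideanSpace ℝ (Fin d)) (hw : w ∈ L.W) (h0w : L.c 0 w = x₀)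
    (hBF : BF S n (L.c m w) (sc ℓ b m) 100 ε p ι')
    (z : EuclideanSpace ℝ (Fin n)) (hz : dist z (pr ι w) ≤ κ * sc ℓ b m / 100) :
    ∃ w' ∈ L.W, dist z (pr ι w') ≤ sc ℓ b (m + 2) + sc ℓ b K ∧ dist w' w ≤ sc ℓ b m / 50 := by
  have hb1000 : 1000 ≤ b := by
    have hbpos : 0 < b := by
      by_contra hcon
      push Not at hcon
      nlinarith
    nlinarith
  have hbpos : 0 < b := by linarith
  have hs : 0 < sc ℓ b m := sc_pos hℓ hbpos m
  have hsK : sc ℓ b K ≤ sc ℓ b m / 1000 := by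
    have h1 : sc ℓ b K ≤ sc ℓ b (m + 1) := sc_antitone hℓ (by linarith) (by omega)
    rw [sc_succ'] at h1
    refine h1.trans ?_
    exact div_le_div_of_nonneg_left hs.le (by norm_num) hb1000
  have hεs : ε * sc ℓ b m ≤ sc ℓ b (m + 2) := by
    rw [sc_succ', sc_succ', div_div, ← sq]
    calc ε * sc ℓ b m ≤ 1 / b ^ 2 * sc ℓ b m := by gcongr
      _ = sc ℓ b m / b ^ 2 := by ring
  have hεκ : ε / κ ≤ 1 / 1000000 := by
    rw [div_le_iff₀ hκ]
    refine hεb.trans ?_
    rw [div_le_iff₀ (by positivity)]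
    nlinarith
  have hε1 : ε ≤ 1 / 1000000 := by
    have : ε ≤ ε / κ := by
      rw [le_div_iff₀ hκ]
      nlinarith
    linarith
  have hdw : dist w (L.c m w) ≤ 2 * sc ℓ b m := L.c_dist m hm.le w hw
  obtain ⟨v₀, hv₀⟩ := hBF.1 w (L.W_sub w hw) (by linarith)
  obtain ⟨v, hv1, hv2⟩ := plane_solve hκ ι ι' h p w z hz v₀ hv₀
  have hv3 : dist (p + ι' v) w ≤ sc ℓ b m * (101 / 10000) := by
    refine hv2.trans ?_
    have h1 : (κ * sc ℓ b m / 100 + ε * sc ℓ b m) / κ = sc ℓ b m / 100 + ε / κ * sc ℓ b m := by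
      field_simp
    rw [h1]
    nlinarith
  have hv4 : dist (p + ι' v) (L.c m w) < 100 * sc ℓ b m := by
    have := dist_triangle (p + ι' v) w (L.c m w)
    nlinarith
  obtain ⟨e, heS, he⟩ := hBF.2 v hv4
  have hsm : sc ℓ b m ≤ ℓ := by
    have := sc_antitone hℓ (b := b) (by linarith) (Nat.zero_le m)
    rwa [sc_zero] at this
  have hεsm : ε * sc ℓ b m ≤ sc ℓ b m / 1000000 := by nlinarith
  have hex₀ : dist e x₀ ≤ 10 * ℓ := by
    have h1 : dist w x₀ ≤ 2 * ℓ := by
      have := L.c_dist 0 (Nat.zero_le _) w hw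
      rwa [h0w, sc_zero] at this
    have h2 := dist_triangle e (p + ι' v) x₀
    have h3 := dist_triangle (p + ι' v) w x₀
    nlinarith
  obtain ⟨w', hw'W, hw'⟩ := L.dense e heS hex₀
  have hpw' : dist (p + ι' v) w' ≤ ε * sc ℓ b m + sc ℓ b K := by
    have h2 := dist_triangle (p + ι' v) e w'
    rw [dist_comm (p + ι' v) e] at h2
    linarith
  refine ⟨w', hw'W, ?_, ?_⟩
  · rw [← hv1]
    refine (dist_pr_le ι _ _).trans (hpw'.trans ?_)
    linarith
  · have h2 := dist_triangle w' (p + ι' v) w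
    rw [dist_comm w' (p + ι' v)] at h2
    nlinarith

/-- FILE P2Chain.lean. Every point `z` of a disc of the plane of a root `(j, x)` is reached (up to a
small error) by a leaf `w` of the cell `(j, x)` whose branch either stays in the tree up to
generation `K - 1`, or leaves the tree at some generation `k < K`. -/
theorem chain_cover {d n : ℕ} {S : Set (EuclideanSpace ℝ (Fin d))}
    {x₀ : EuclideanSpace ℝ (Fin d)} {ℓ b : ℝ} {K : ℕ} (L : Lat S x₀ ℓ b K) (hℓ : 0 < ℓ)
    {c₁ ε : ℝ} (hc₁ : 0 < c₁) (hc₁' : c₁ ≤ 1) (hb : 1000 ≤ b * c₁) (hε : 0 < ε)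
    (hεb : ε ≤ 1 / b ^ 2)
    (good : ℕ → EuclideanSpace ℝ (Fin d) → Prop)
    (P : ℕ → EuclideanSpace ℝ (Fin d) → EuclideanSpace ℝ (Fin d))
    (I : ℕ → EuclideanSpace ℝ (Fin d) →
      (EuclideanSpace ℝ (Fin n) →ₗᵢ[ℝ] EuclideanSpace ℝ (Fin d)))
    (hgood : ∀ k x, good k x → BF S n x (sc ℓ b k) 100 ε (P k x) (I k x))
    (j : ℕ) (hj : j ≤ K) (x : EuclideanSpace ℝ (Fin d)) (hx : x ∈ L.W) (hjx : L.c j x = x)
    (h0x : L.c 0 x = x₀) (hroot : root L.c good I c₁ j x = some j)
    (z : EuclideanSpace ℝ (Fin n)) (hz : dist z (pr (I j x) x) ≤ sc ℓ b j / 100) :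
    ∃ w ∈ L.cell j x,
      ((∀ i, j ≤ i → i < K → root L.c good I c₁ i (L.c i w) = some j) ∧
        dist z (pr (I j x) w) ≤ 2 * sc ℓ b K) ∨
      ∃ k, j < k ∧ k < K ∧
        (∀ i, j ≤ i → i < k → root L.c good I c₁ i (L.c i w) = some j) ∧
        root L.c good I c₁ k (L.c k w) ≠ some j ∧
        dist z (pr (I j x) w) ≤ 2 / b * sc ℓ b k := by
  classical
  have hb1000 : 1000 ≤ b := by
    have hbpos : 0 < b := by
      by_contra hcon
      push Not at hcon
      nlinarith
    nlinarith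
  have hbpos : 0 < b := by linarith
  have hb1 : 1 ≤ b := by linarith
  -- the stopping alternative
  by_contra hcon
  push Not at hcon
  have hstop : ∀ w ∈ L.cell j x, ∀ k, j < k → k < K →
      (∀ i, j ≤ i → i < k → root L.c good I c₁ i (L.c i w) = some j) →
      dist z (pr (I j x) w) ≤ 2 / b * sc ℓ b k → root L.c good I c₁ k (L.c k w) = some j := by
    intro w hw k hjk hkK h1 h2
    by_contra h3
    exact absurd h2 (not_le.mpr ((hcon w hw).2 k hjk hkK h1 h3))
  -- a leaf close to `z` has a good branch up to generation `m`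
  have hbranch : ∀ w ∈ L.cell j x, ∀ m, j ≤ m → m ≤ K →
      (∀ i, i < m → j < i → dist z (pr (I j x) w) ≤ 2 / b * sc ℓ b i) →
      ∀ i, j ≤ i → i < m → root L.c good I c₁ i (L.c i w) = some j := by
    intro w hw m hjm hmK hd i
    induction i using Nat.strong_induction_on with
    | _ i ih =>
      intro hji him
      rcases hji.eq_or_lt with heq | hlt
      · subst heq
        rw [(L.mem_cell.mp hw).2]
        exact hroot
      · exact hstop w hw i hlt (by omega) (fun i' h1 h2 => ih i' h2 h1 (by omega)) (hd i him hlt)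
  -- the induction
  have key : ∀ m, j ≤ m → m ≤ K → ∃ w ∈ L.cell j x,
      (∀ i, j ≤ i → i < m → root L.c good I c₁ i (L.c i w) = some j) ∧
      (j < m → dist z (pr (I j x) w) ≤ sc ℓ b (m + 1) + sc ℓ b K) ∧
      (j = m → w = x) ∧
      dist w x ≤ (sc ℓ b j - sc ℓ b m) / 10 := by
    intro m hjm
    induction m, hjm using Nat.le_induction with
    | base =>
      intro _
      refine ⟨x, L.mem_cell.mpr ⟨hx, hjx⟩, fun i h1 h2 => by omega, fun h => by omega,
        fun _ => rfl, by simp⟩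
    | succ m hjm ih =>
      intro hmK
      obtain ⟨w, hw, hw1, hw2, hw3, hw4⟩ := ih (by omega)
      have hwW := (L.mem_cell.mp hw).1
      have hwj := (L.mem_cell.mp hw).2
      have h0w : L.c 0 w = x₀ := by
        rw [← L.c_comp 0 j (Nat.zero_le _) hj w hwW, hwj, h0x]
      have hsm : 0 < sc ℓ b m := sc_pos hℓ hbpos m
      -- the next leaf
      have hnext : ∃ w' ∈ L.W, dist z (pr (I j x) w') ≤ sc ℓ b (m + 2) + sc ℓ b K ∧
          dist w' w ≤ sc ℓ b m / 50 := by
        rcases hjm.eq_or_lt with heq | hlt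
        · subst heq
          have hwx : w = x := hw3 rfl
          subst hwx
          refine chain_step L hℓ (κ := 1) one_pos le_rfl (by linarith) hε hεb j (by omega)
            (P j w) (I j w) (I j w) ?_ w hx h0x ?_ z (by simpa using hz)
          · intro v
            rw [pr_apply_iso, one_mul]
          · rw [hjx]
            exact hgood j w (root_eq_some_good hroot)
        · -- `m > j`
          have hd : dist z (pr (I j x) w) ≤ 2 / b * sc ℓ b m := by
            have h1 := hw2 hlt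
            have h2 : sc ℓ b K ≤ sc ℓ b (m + 1) := sc_antitone hℓ hb1 (by omega)
            have h3 : sc ℓ b (m + 1) = sc ℓ b m / b := sc_succ' m
            have h4 : 2 / b * sc ℓ b m = 2 * (sc ℓ b m / b) := by ring
            rw [h4, ← h3]
            linarith
          have hrt : root L.c good I c₁ m (L.c m w) = some j :=
            hstop w hw m hlt (by omega) hw1 hd
          have hns := root_eq_some_nonSteep hlt hrt
          rw [L.c_comp j m hjm (by omega) w hwW, hwj] at hns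
          refine chain_step L hℓ hc₁ hc₁' hb hε hεb m (by omega) (P m (L.c m w)) (I j x)
            (I m (L.c m w)) hns w hwW h0w (hgood m _ (root_eq_some_good hrt)) z (hd.trans ?_)
          have h5 : 2 / b ≤ c₁ / 100 := by
            rw [div_le_div_iff₀ hbpos (by norm_num)]
            nlinarith
          calc 2 / b * sc ℓ b m ≤ c₁ / 100 * sc ℓ b m := by gcongr
            _ = c₁ * sc ℓ b m / 100 := by ring
      obtain ⟨w', hw'W, hw'1, hw'2⟩ := hnext
      have hsm1 : sc ℓ b (m + 1) ≤ sc ℓ b m / 1000 := by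
        rw [sc_succ']
        exact div_le_div_of_nonneg_left hsm.le (by norm_num) hb1000
      have hw'x : dist w' x ≤ (sc ℓ b j - sc ℓ b (m + 1)) / 10 := by
        have := dist_triangle w' w x
        linarith
      have hsj : 0 < sc ℓ b j := sc_pos hℓ hbpos j
      have hsm1' : 0 < sc ℓ b (m + 1) := sc_pos hℓ hbpos (m + 1)
      have hw'cell : w' ∈ L.cell j x := by
        refine L.mem_cell.mpr ⟨hw'W, L.c_inner j hj x hx hjx w' hw'W ?_⟩
        linarith
      refine ⟨w', hw'cell, hbranch w' hw'cell (m + 1) (by omega) hmK ?_, fun _ => hw'1,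
        fun h => by omega, hw'x⟩
      intro i him hji
      have h1 : sc ℓ b (m + 2) ≤ sc ℓ b (m + 1) := sc_antitone hℓ hb1 (by omega)
      have h2 : sc ℓ b K ≤ sc ℓ b (m + 1) := sc_antitone hℓ hb1 hmK
      have h3 : sc ℓ b (m + 1) ≤ sc ℓ b (i + 1) := sc_antitone hℓ hb1 (by omega)
      have h4 : 2 / b * sc ℓ b i = 2 * (sc ℓ b i / b) := by ring
      rw [h4, ← sc_succ']
      linarith
  obtain ⟨w, hw, hw1, hw2, hw3, hw4⟩ := key K hj le_rfl
  have hfin : dist z (pr (I j x) w) ≤ 2 * sc ℓ b K := by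
    rcases hj.eq_or_lt with heq | hlt
    · have hwx := hw3 heq
      rw [hwx, ← heq]
      have hsj : 0 < sc ℓ b j := sc_pos hℓ hbpos j
      linarith
    · have h1 := hw2 hlt
      have h2 : sc ℓ b (K + 1) ≤ sc ℓ b K := sc_antitone hℓ hb1 (by omega)
      linarith
  exact absurd hfin (not_le.mpr ((hcon w hw).1 hw1))

end Crest.Agent.R085
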