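import Mathlib
import Crest.Agent.R085.Defs
import Crest.Agent.R085.P2Defs

/-!
R085 PART II: area estimates in `V n` (Lebesgue measure).

* `om n` = volume of the unit ball, `volume_ball_om`, `volume_closedBall_om`.
* `volume_slab_le` : volume of a slab inside a ball.
* `exists_small_adjoint` : a linear map of `V n` which is not `c`-co-Lipschitz maps every ball into a
  thin slab.
* `disc_cover_area` : a disc covered by finitely many sets of small area.
* `image_nhd_area`, `steep_area` : area of the neighbourhood of the projection of a set close to a steep plane.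
-/

set_option autoImplicit false

namespace Crest.Agent.R085

open MeasureTheory Metric Set Filter
open scoped ENNReal NNReal Topology

/-- volume of the unit ball of `V n`. -/
noncomputable def om (n : ℕ) : ℝ := (volume (ball (0 : V n) 1)).toReal

theorem om_pos (n : ℕ) : 0 < om n := by
  unfold om
  exact ENNReal.toReal_pos (measure_ball_pos volume _ one_pos).ne' measure_ball_lt_top.ne

theorem ofReal_om (n : ℕ) : ENNReal.ofReal (om n) = volume (ball (0 : V n) 1) :=
  ENNReal.ofReal_toReal measure_ball_lt_top.ne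

theorem volume_closedBall_om {n : ℕ} (x : V n) {r : ℝ} (hr : 0 ≤ r) :
    volume (closedBall x r) = ENNReal.ofReal (r ^ n * om n) := by
  rw [Measure.addHaar_closedBall volume x hr, ← ofReal_om, finrank_euclideanSpace_fin,
    ← ENNReal.ofReal_mul (by positivity)]

theorem volume_ball_om {n : ℕ} (x : V n) {r : ℝ} (hr : 0 < r) :
    volume (ball x r) = ENNReal.ofReal (r ^ n * om n) := by
  rw [Measure.addHaar_ball_of_pos volume x hr, ← ofReal_om, finrank_euclideanSpace_fin,
    ← ENNReal.ofReal_mul (by positivity)]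

/-- volume of a slab inside a ball. -/
theorem volume_slab_le {n : ℕ} (hn : 1 ≤ n) (v : V n) (hv : ‖v‖ = 1) (q : V n) {R h : ℝ}
    (hR : 0 ≤ R) (hh : 0 ≤ h) :
    volume {y : V n | dist y q ≤ R ∧ |inner ℝ (y - q) v| ≤ h} ≤
      ENNReal.ofReal (2 * h * (2 * R) ^ (n - 1)) := by
  classical
  let i0 : Fin n := ⟨0, by omega⟩
  obtain ⟨b, hb⟩ : ∃ b : OrthonormalBasis (Fin n) ℝ (V n), b i0 = v := by
    have hs : Orthonormal ℝ (({i0} : Set (Fin n)).domRestrict (fun _ : Fin n => v)) := by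
      refine ⟨fun i => by simpa using hv, ?_⟩
      intro i j hij
      exact absurd (Subsingleton.elim i j) hij
    obtain ⟨b, hb⟩ := hs.exists_orthonormalBasis_extension_of_card_eq (by simp)
    exact ⟨b, hb i0 rfl⟩
  let φ : V n → (Fin n → ℝ) := fun y => WithLp.ofLp (b.repr (y - q))
  have hφ : MeasurePreserving φ volume volume :=
    (PiLp.volume_preserving_ofLp (Fin n)).comp
      (b.measurePreserving_repr.comp (measurePreserving_sub_right volume q))
  let w : Fin n → ℝ := fun i => if i = i0 then h else R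
  have hsub : {y : V n | dist y q ≤ R ∧ |inner ℝ (y - q) v| ≤ h} ⊆ φ ⁻¹' (Icc (-w) w) := by
    rintro y ⟨hy1, hy2⟩
    have hcoord : ∀ i, φ y i = inner ℝ (b i) (y - q) := fun i => b.repr_apply_apply (y - q) i
    have habs : ∀ i, |φ y i| ≤ w i := by
      intro i
      rw [hcoord]
      by_cases hi : i = i0
      · subst hi
        simp only [w, if_true]
        rw [hb, real_inner_comm]
        exact hy2
      · simp only [w, if_neg hi]
        refine (abs_real_inner_le_norm _ _).trans ?_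
        rw [b.orthonormal.1 i, one_mul, ← dist_eq_norm]
        exact hy1
    refine ⟨fun i => ?_, fun i => ?_⟩
    · exact (abs_le.mp (habs i)).1
    · exact (abs_le.mp (habs i)).2
  refine (measure_mono hsub).trans ?_
  rw [hφ.measure_preimage measurableSet_Icc.nullMeasurableSet, Real.volume_Icc_pi]
  have h1 : ∀ i, ENNReal.ofReal (w i - (-w) i) = ENNReal.ofReal (if i = i0 then 2 * h else 2 * R) := by
    intro i
    congr 1
    simp only [w, Pi.neg_apply]
    split_ifs <;> ring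
  simp_rw [h1]
  rw [← Finset.mul_prod_erase Finset.univ _ (Finset.mem_univ i0), if_pos rfl]
  have h2 : ∀ i ∈ Finset.univ.erase i0,
      ENNReal.ofReal (if i = i0 then 2 * h else 2 * R) = ENNReal.ofReal (2 * R) := by
    intro i hi
    rw [if_neg (Finset.ne_of_mem_erase hi)]
  rw [Finset.prod_congr rfl h2, Finset.prod_const, Finset.card_erase_of_mem (Finset.mem_univ _),
    Finset.card_univ, Fintype.card_fin, ← ENNReal.ofReal_pow (by positivity),
    ← ENNReal.ofReal_mul (by positivity)]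

/-- If a square linear map is not `c`-co-Lipschitz, its image of every ball lies in a thin slab. -/
theorem exists_small_adjoint {n : ℕ} (A : V n →L[ℝ] V n) {c : ℝ} (hc : 0 < c)
    (hA : ¬ ∀ v, c * ‖v‖ ≤ ‖A v‖) :
    ∃ e : V n, ‖e‖ = 1 ∧ ∀ w, |inner ℝ (A w) e| ≤ c * ‖w‖ := by
  classical
  -- it is enough to find a nonzero vector on which the adjoint is small
  suffices h : ∃ e : V n, e ≠ 0 ∧ ‖ContinuousLinearMap.adjoint A e‖ ≤ c * ‖e‖ by
    obtain ⟨e, he, hAe⟩ := h
    have hne : 0 < ‖e‖ := norm_pos_iff.mpr he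
    refine ⟨(‖e‖⁻¹ : ℝ) • e, norm_smul_inv_norm he, fun w => ?_⟩
    rw [← ContinuousLinearMap.adjoint_inner_right, map_smul]
    refine (abs_real_inner_le_norm _ _).trans ?_
    rw [norm_smul, norm_inv, norm_norm, mul_comm]
    refine mul_le_mul_of_nonneg_right ?_ (norm_nonneg w)
    rw [inv_mul_eq_div, div_le_iff₀ hne]
    exact hAe
  by_contra hcon
  push Not at hcon
  apply hA
  have hB : ∀ e : V n, c * ‖e‖ ≤ ‖ContinuousLinearMap.adjoint A e‖ := by
    intro e
    by_cases he : e = 0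
    · simp [he]
    · exact (hcon e he).le
  have hinj : Function.Injective (ContinuousLinearMap.adjoint A : V n →ₗ[ℝ] V n) := by
    rw [← LinearMap.ker_eq_bot, LinearMap.ker_eq_bot']
    intro e he
    have h1 := hB e
    have h2 : ContinuousLinearMap.adjoint A e = 0 := he
    rw [h2, norm_zero] at h1
    have h3 : ‖e‖ ≤ 0 := by
      by_contra h4
      push Not at h4
      exact absurd h1 (not_le.mpr (mul_pos hc h4))
    exact norm_le_zero_iff.mp h3
  have hsurj : Function.Surjective (ContinuousLinearMap.adjoint A : V n →ₗ[ℝ] V n) :=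
    LinearMap.surjective_of_injective hinj
  intro v
  obtain ⟨e, he⟩ := hsurj v
  have he' : ContinuousLinearMap.adjoint A e = v := he
  have h1 : ‖v‖ * ‖v‖ ≤ ‖e‖ * ‖A v‖ := by
    have h2 : inner ℝ v v = inner ℝ (A v) e := by
      calc inner ℝ v v = inner ℝ (ContinuousLinearMap.adjoint A e) v := by rw [he']
        _ = inner ℝ e (A v) := ContinuousLinearMap.adjoint_inner_left A v e
        _ = inner ℝ (A v) e := real_inner_comm _ _
    rw [← real_inner_self_eq_norm_mul_norm, h2]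
    refine (le_abs_self _).trans ((abs_real_inner_le_norm _ _).trans ?_)
    rw [mul_comm]
  have h3 : c * ‖e‖ ≤ ‖v‖ := by rw [← he']; exact hB e
  by_cases hv : ‖v‖ = 0
  · rw [hv, mul_zero]; exact norm_nonneg _
  · have hvp : 0 < ‖v‖ := lt_of_le_of_ne (norm_nonneg _) (Ne.symm hv)
    have h4 : c * (‖v‖ * ‖v‖) ≤ ‖v‖ * ‖A v‖ := by
      calc c * (‖v‖ * ‖v‖) ≤ c * (‖e‖ * ‖A v‖) := mul_le_mul_of_nonneg_left h1 hc.le
        _ = (c * ‖e‖) * ‖A v‖ := by ring
        _ ≤ ‖v‖ * ‖A v‖ := mul_le_mul_of_nonneg_right h3 (norm_nonneg _)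
    have h5 : ‖v‖ * (c * ‖v‖) ≤ ‖v‖ * ‖A v‖ := by linarith
    exact le_of_mul_le_mul_left h5 hvp

/-- A disc covered by finitely many sets of area at most `a i`. -/
theorem disc_cover_area {n : ℕ} {ι : Type*} (s : Finset ι) (U : ι → Set (V n)) (a : ι → ℝ)
    (ha : ∀ i ∈ s, 0 ≤ a i) (hU : ∀ i ∈ s, volume (U i) ≤ ENNReal.ofReal (a i))
    (q : V n) {ρ : ℝ} (hρ : 0 ≤ ρ) (hcov : closedBall q ρ ⊆ ⋃ i ∈ s, U i) :
    ρ ^ n * om n ≤ ∑ i ∈ s, a i := by
  have h1 : ENNReal.ofReal (ρ ^ n * om n) ≤ ENNReal.ofReal (∑ i ∈ s, a i) := by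
    rw [← volume_closedBall_om q hρ, ENNReal.ofReal_sum_of_nonneg ha]
    refine (measure_mono hcov).trans ((measure_biUnion_finset_le s U).trans ?_)
    exact Finset.sum_le_sum hU
  exact (ENNReal.ofReal_le_ofReal_iff (Finset.sum_nonneg ha)).mp h1

/-- Area of the `τ`-neighbourhood of a `1`-Lipschitz image of a set of radius `r`. -/
theorem image_nhd_area {n d : ℕ} (p : V d → V n) (hp : ∀ x y, dist (p x) (p y) ≤ dist x y)
    (x : V d) {r τ : ℝ} (hr : 0 ≤ r) (hτ : 0 ≤ τ) (T : Set (V d)) (hT : ∀ y ∈ T, dist y x ≤ r) :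
    volume {z : V n | ∃ y ∈ T, dist z (p y) ≤ τ} ≤ ENNReal.ofReal ((r + τ) ^ n * om n) := by
  rw [← volume_closedBall_om (p x) (add_nonneg hr hτ)]
  refine measure_mono ?_
  rintro z ⟨y, hy, hz⟩
  rw [mem_closedBall]
  have h1 := dist_triangle z (p y) (p x)
  have h2 := hp y x
  have h3 := hT y hy
  linarith

/-- Area of the `τ`-neighbourhood of the projection of a set which is `η`-close to a plane that is
steep for the projection. -/
theorem steep_area {n d : ℕ} (hn : 1 ≤ n) (p : V d →L[ℝ] V n) (hp : ∀ x, ‖p x‖ ≤ ‖x‖)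
    (ι : V n →ₗᵢ[ℝ] V d) {c : ℝ} (hc : 0 < c) (hst : ¬ ∀ v, c * ‖v‖ ≤ ‖p (ι v)‖)
    (b x : V d) {r η τ : ℝ} (hr : 0 ≤ r) (hη : 0 ≤ η) (hτ : 0 ≤ τ) (T : Set (V d))
    (hT : ∀ y ∈ T, dist y x ≤ r) (hTP : ∀ y ∈ T, ∃ w : V n, dist y (b + ι w) ≤ η) :
    volume {z : V n | ∃ y ∈ T, dist z (p y) ≤ τ} ≤
      ENNReal.ofReal (2 * (c * (2 * r + 2 * η) + 2 * η + τ) * (2 * (2 * r + τ)) ^ (n - 1)) := by
  classical
  by_cases hTe : T.Nonempty
  swap
  · rw [not_nonempty_iff_eq_empty] at hTe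
    have : {z : V n | ∃ y ∈ T, dist z (p y) ≤ τ} = ∅ := by
      ext z; simp [hTe]
    rw [this, measure_empty]; exact bot_le
  obtain ⟨y0, hy0⟩ := hTe
  obtain ⟨w0, hw0⟩ := hTP y0 hy0
  obtain ⟨e, he, hAe⟩ := exists_small_adjoint (p.comp ι.toContinuousLinearMap) hc hst
  refine (measure_mono ?_).trans
    (volume_slab_le hn e he (p y0) (R := 2 * r + τ) (h := c * (2 * r + 2 * η) + 2 * η + τ)
      (by positivity) (by positivity))
  rintro z ⟨y, hy, hz⟩
  obtain ⟨w, hw⟩ := hTP y hy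
  have hyy : dist y y0 ≤ 2 * r := by
    have h1 := dist_triangle_right y y0 x
    have h2 := hT y hy
    have h3 := hT y0 hy0
    linarith
  have hpp : ‖p y - p y0‖ ≤ 2 * r := by
    rw [← map_sub]
    refine (hp _).trans ?_
    rwa [← dist_eq_norm]
  rw [dist_eq_norm] at hz
  refine ⟨?_, ?_⟩
  · rw [dist_eq_norm]
    have h1 : z - p y0 = (z - p y) + (p y - p y0) := by abel
    rw [h1]
    have h2 := norm_add_le (z - p y) (p y - p y0)
    linarith
  · have hww : ‖w - w0‖ ≤ 2 * r + 2 * η := by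
      have h1 : ‖w - w0‖ = ‖ι w - ι w0‖ := by rw [← map_sub, ι.norm_map]
      have h2 : ι w - ι w0 = ((b + ι w) - y) + (y - y0) + (y0 - (b + ι w0)) := by abel
      rw [h1, h2]
      have h3 := norm_add₃_le (a := (b + ι w) - y) (b := y - y0) (c := y0 - (b + ι w0))
      rw [dist_comm, dist_eq_norm] at hw
      rw [dist_eq_norm] at hw0 hyy
      linarith
    have h1 : z - p y0 = (z - p y) + p (y - (b + ι w)) + p (ι (w - w0)) + p ((b + ι w0) - y0) := by
      have h2 : ι (w - w0) = ι w - ι w0 := map_sub ι w w0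
      rw [h2]
      simp only [map_sub, map_add]
      abel
    rw [h1, inner_add_left, inner_add_left, inner_add_left]
    have h3 : |inner ℝ (z - p y) e| ≤ τ := by
      refine (abs_real_inner_le_norm _ _).trans ?_
      rw [he, mul_one]; exact hz
    have h4 : |inner ℝ (p (y - (b + ι w))) e| ≤ η := by
      refine (abs_real_inner_le_norm _ _).trans ?_
      rw [he, mul_one]
      refine (hp _).trans ?_
      rw [← dist_eq_norm]; exact hw
    have h5 : |inner ℝ (p (ι (w - w0))) e| ≤ c * (2 * r + 2 * η) :=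
      (hAe (w - w0)).trans (mul_le_mul_of_nonneg_left hww hc.le)
    have h6 : |inner ℝ (p ((b + ι w0) - y0)) e| ≤ η := by
      refine (abs_real_inner_le_norm _ _).trans ?_
      rw [he, mul_one]
      refine (hp _).trans ?_
      rw [← dist_eq_norm, dist_comm]; exact hw0
    have h7 := abs_add_le (inner ℝ (z - p y) e + inner ℝ (p (y - (b + ι w))) e +
      inner ℝ (p (ι (w - w0))) e) (inner ℝ (p ((b + ι w0) - y0)) e)
    have h8 := abs_add_le (inner ℝ (z - p y) e + inner ℝ (p (y - (b + ι w))) e)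
      (inner ℝ (p (ι (w - w0))) e)
    have h9 := abs_add_le (inner ℝ (z - p y) e) (inner ℝ (p (y - (b + ι w))) e)
    linarith

/-- Lebesgue measure of a slab in a ball. -/
theorem slab_volume (n : ℕ) (hn : 1 ≤ n) : ∃ C : ℝ, 0 < C ∧
    ∀ (q e : EuclideanSpace ℝ (Fin n)), ‖e‖ = 1 → ∀ ρ t : ℝ, 0 < ρ → 0 ≤ t →
      volume {z : EuclideanSpace ℝ (Fin n) | dist z q ≤ ρ ∧ |inner ℝ e (z - q)| ≤ t * ρ} ≤
        ENNReal.ofReal (C * t * ρ ^ n) := by
  refine ⟨2 ^ n, by positivity, fun q e he ρ t hρ ht => ?_⟩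
  have h1 := volume_slab_le hn e he q (R := ρ) (h := t * ρ) hρ.le (by positivity)
  have h2 : (2 : ℝ) * (t * ρ) * (2 * ρ) ^ (n - 1) = 2 ^ n * t * ρ ^ n := by
    obtain ⟨k, rfl⟩ : ∃ k, n = k + 1 := ⟨n - 1, by omega⟩
    rw [Nat.add_sub_cancel, mul_pow, pow_succ, pow_succ]
    ring
  rw [h2] at h1
  refine le_trans (measure_mono ?_) h1
  rintro z ⟨hz1, hz2⟩
  exact ⟨hz1, by rwa [real_inner_comm]⟩

/-- A steep plane projects in a thin slab. -/
theorem steep_slab {d n : ℕ} {c₁ : ℝ} (hc₁ : 0 < c₁)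
    (ι ι' : EuclideanSpace ℝ (Fin n) →ₗᵢ[ℝ] EuclideanSpace ℝ (Fin d))
    (h : ¬ NonSteep c₁ ι ι') :
    ∃ e : EuclideanSpace ℝ (Fin n), ‖e‖ = 1 ∧ ∀ v, |inner ℝ e (pr ι (ι' v))| ≤ c₁ * ‖v‖ := by
  obtain ⟨e, he, hAe⟩ := exists_small_adjoint ((pr ι).comp ι'.toContinuousLinearMap) hc₁ h
  refine ⟨e, he, fun v => ?_⟩
  rw [real_inner_comm]
  exact hAe v

end Crest.Agent.R085
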