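/-
R085 (S0113), PART II: the leftover of a root is large (area argument).
Owner: helper555.
-/
import Crest.Agent.R085.P2Defs
import Crest.Agent.R085.P2Chain
import Crest.Agent.R085.P2Slab

set_option autoImplicit false

namespace Crest.Agent.R085

open MeasureTheory Set

section Stop

variable {d n : ℕ} {S : Set (EuclideanSpace ℝ (Fin d))}
  {x₀ : EuclideanSpace ℝ (Fin d)} {ℓ b : ℝ} {K : ℕ} (L : Lat S x₀ ℓ b K)
  (good : ℕ → EuclideanSpace ℝ (Fin d) → Prop)
  (I : ℕ → EuclideanSpace ℝ (Fin d) →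
    (EuclideanSpace ℝ (Fin n) →ₗᵢ[ℝ] EuclideanSpace ℝ (Fin d)))
  (c₁ : ℝ)

open Classical in
/-- The stopping generation of a leaf `w` for the root of generation `j`: the first generation
`k`, `j < k < K`, at which the branch of `w` has left the tree, or `K`. -/
noncomputable def stopGen (j : ℕ) (w : EuclideanSpace ℝ (Fin d)) : ℕ :=
  if h : ∃ k, j < k ∧ k < K ∧ root L.c good I c₁ k (L.c k w) ≠ some j then Nat.find h else K

lemma stopGen_le (j : ℕ) (w : EuclideanSpace ℝ (Fin d)) : stopGen L good I c₁ j w ≤ K := by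
  classical
  unfold stopGen
  split_ifs with h
  · exact (Nat.find_spec h).2.1.le
  · exact le_rfl

lemma le_stopGen {j : ℕ} (hj : j ≤ K) (w : EuclideanSpace ℝ (Fin d)) :
    j ≤ stopGen L good I c₁ j w := by
  classical
  unfold stopGen
  split_ifs with h
  · exact (Nat.find_spec h).1.le
  · exact hj

lemma stopGen_eq_of_stop {j k : ℕ} {w : EuclideanSpace ℝ (Fin d)} (h1 : j < k) (h2 : k < K)
    (h3 : ∀ i, j ≤ i → i < k → root L.c good I c₁ i (L.c i w) = some j)
    (h4 : root L.c good I c₁ k (L.c k w) ≠ some j) : stopGen L good I c₁ j w = k := by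
  classical
  have h : ∃ k, j < k ∧ k < K ∧ root L.c good I c₁ k (L.c k w) ≠ some j := ⟨k, h1, h2, h4⟩
  unfold stopGen
  rw [dif_pos h]
  rw [Nat.find_eq_iff]
  refine ⟨⟨h1, h2, h4⟩, fun i hi hcon => ?_⟩
  exact hcon.2.2 (h3 i hcon.1.le hi)

lemma stopGen_eq_K {j : ℕ} {w : EuclideanSpace ℝ (Fin d)}
    (h3 : ∀ i, j ≤ i → i < K → root L.c good I c₁ i (L.c i w) = some j) :
    stopGen L good I c₁ j w = K := by
  classical
  unfold stopGen
  rw [dif_neg]
  rintro ⟨k, hk1, hk2, hk3⟩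
  exact hk3 (h3 k hk1.le hk2)

lemma root_of_lt_stopGen {j : ℕ} {w : EuclideanSpace ℝ (Fin d)}
    (hj : root L.c good I c₁ j (L.c j w) = some j) {i : ℕ} (hi : j ≤ i)
    (hi' : i < stopGen L good I c₁ j w) : root L.c good I c₁ i (L.c i w) = some j := by
  classical
  rcases hi.eq_or_lt with rfl | hlt
  · exact hj
  · by_contra hcon
    have hiK : i < K := lt_of_lt_of_le hi' (stopGen_le L good I c₁ j w)
    have h : ∃ k, j < k ∧ k < K ∧ root L.c good I c₁ k (L.c k w) ≠ some j :=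
      ⟨i, hlt, hiK, hcon⟩
    unfold stopGen at hi'
    rw [dif_pos h] at hi'
    exact Nat.find_min h hi' ⟨hlt, hiK, hcon⟩

lemma root_stopGen_ne {j : ℕ} {w : EuclideanSpace ℝ (Fin d)}
    (h : stopGen L good I c₁ j w < K) :
    j < stopGen L good I c₁ j w ∧
    root L.c good I c₁ (stopGen L good I c₁ j w) (L.c (stopGen L good I c₁ j w) w) ≠ some j := by
  classical
  by_cases hex : ∃ k, j < k ∧ k < K ∧ root L.c good I c₁ k (L.c k w) ≠ some j
  · have h1 : stopGen L good I c₁ j w = Nat.find hex := by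
      unfold stopGen
      rw [dif_pos hex]
    rw [h1]
    exact ⟨(Nat.find_spec hex).1, (Nat.find_spec hex).2.2⟩
  · exfalso
    unfold stopGen at h
    rw [dif_neg hex] at h
    exact lt_irrefl _ h

lemma stopGen_congr {j : ℕ} {w w' : EuclideanSpace ℝ (Fin d)} (hw : w ∈ L.W)
    (hw' : w' ∈ L.W) (hroot : root L.c good I c₁ j (L.c j w) = some j)
    (h : L.c (stopGen L good I c₁ j w) w' = L.c (stopGen L good I c₁ j w) w) :
    stopGen L good I c₁ j w' = stopGen L good I c₁ j w := by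
  classical
  set k := stopGen L good I c₁ j w with hk
  have hkK : k ≤ K := stopGen_le L good I c₁ j w
  have hc : ∀ i, i ≤ k → L.c i w' = L.c i w := by
    intro i hi
    rw [← L.c_comp i k hi hkK w' hw', h, L.c_comp i k hi hkK w hw]
  rcases hkK.eq_or_lt with hKe | hlt
  · have : w' = w := by
      have h1 := L.c_last w hw
      have h2 := L.c_last w' hw'
      rw [hKe] at h
      rw [← h2, h, h1]
    rw [this]
  · have h1 := root_stopGen_ne L good I c₁ (j := j) (w := w) (by rw [← hk]; exact hlt)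
    rw [← hk] at h1
    refine stopGen_eq_of_stop L good I c₁ h1.1 hlt ?_ ?_
    · intro i hi1 hi2
      rw [hc i hi2.le]
      exact root_of_lt_stopGen L good I c₁ hroot hi1 (by rw [← hk]; exact hi2)
    · rw [hc k le_rfl]
      exact h1.2

/-- A leaf which stops at a bad cell, or at generation `K`, is a leftover. -/
lemma leftover_of_stopGen {j : ℕ} {w : EuclideanSpace ℝ (Fin d)}
    (hroot : root L.c good I c₁ j (L.c j w) = some j)
    (h : stopGen L good I c₁ j w = K ∨
      ¬ good (stopGen L good I c₁ j w) (L.c (stopGen L good I c₁ j w) w)) :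
    Leftover L good I c₁ j w := by
  classical
  by_cases hK : stopGen L good I c₁ j w = K
  · right
    intro i hi1 hi2
    exact root_of_lt_stopGen L good I c₁ hroot hi1 (by rw [hK]; exact hi2)
  · left
    have h2 := h.resolve_left hK
    have hlt : stopGen L good I c₁ j w < K := lt_of_le_of_ne (stopGen_le L good I c₁ j w) hK
    exact ⟨stopGen L good I c₁ j w, (root_stopGen_ne L good I c₁ hlt).1, hlt,
      fun i hi1 hi2 => root_of_lt_stopGen L good I c₁ hroot hi1 hi2, h2⟩

/-- A good cell at which the branch leaves the tree is steep. -/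
lemma not_nonSteep_of_stop {j k : ℕ} {w : EuclideanSpace ℝ (Fin d)} (hw : w ∈ L.W) (h1 : j < k)
    (h2 : k ≤ K)
    (h3 : ∀ i, j ≤ i → i < k → root L.c good I c₁ i (L.c i w) = some j)
    (h4 : root L.c good I c₁ k (L.c k w) ≠ some j) (hg : good k (L.c k w)) :
    ¬ NonSteep c₁ (I j (L.c j w)) (I k (L.c k w)) := by
  classical
  intro hns
  apply h4
  obtain ⟨m, rfl⟩ : ∃ m, k = m + 1 := ⟨k - 1, by omega⟩
  have hm := h3 m (by omega) (by omega)
  rw [root, if_pos hg]
  rw [L.c_comp m (m + 1) (by omega) h2 w hw, hm]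
  simp only
  rw [L.c_comp j (m + 1) (by omega) h2 w hw, if_pos hns]

end Stop

/-- Geometry at a steep flat cell: a point close to the projection of a leaf lies in a thin
slab around the projection of the centre. -/
lemma slab_of_steep {d n : ℕ} {S : Set (EuclideanSpace ℝ (Fin d))} {b ε c₁ r : ℝ}
    (hc₁ : 0 < c₁) (hc₁' : c₁ ≤ 1) (hb : 1000 ≤ b * c₁) (hεb : ε ≤ 1 / b ^ 2)
    (hr : 0 < r) {x' p' w : EuclideanSpace ℝ (Fin d)}
    {ι ι' : EuclideanSpace ℝ (Fin n) →ₗᵢ[ℝ] EuclideanSpace ℝ (Fin d)}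
    (hBF : BF S n x' r 100 ε p' ι') (hx' : x' ∈ S) (hw : w ∈ S) (hwx : dist w x' ≤ 2 * r)
    {e : EuclideanSpace ℝ (Fin n)} (he : ‖e‖ = 1)
    (hslab : ∀ v, |inner ℝ e (pr ι (ι' v))| ≤ c₁ * ‖v‖)
    {z : EuclideanSpace ℝ (Fin n)} (hz : dist z (pr ι w) ≤ 2 / b * r) :
    dist z (pr ι x') ≤ 3 * r ∧ |inner ℝ e (z - pr ι x')| ≤ 2 * c₁ * (3 * r) := by
  have hb0 : 0 < b := by
    by_contra hcon
    push Not at hcon
    have : b * c₁ ≤ 0 := mul_nonpos_of_nonpos_of_nonneg hcon hc₁.le
    linarith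
  have hb1 : 1000 ≤ b := by
    have : b * c₁ ≤ b * 1 := by gcongr
    linarith
  have hbinv : 1 / b ≤ c₁ / 1000 := by
    rw [div_le_div_iff₀ hb0 (by norm_num)]
    linarith
  have hbinv' : 2 / b ≤ c₁ / 500 := by
    have : 2 / b = 2 * (1 / b) := by ring
    rw [this]; linarith
  have hbinv'' : 1 / b ≤ 1 / 1000 := by
    apply one_div_le_one_div_of_le (by norm_num) hb1
  have hε1 : ε ≤ c₁ / 1000 := by
    have h1 : 1 / b ^ 2 = 1 / b * (1 / b) := by ring
    have h2 : 1 / b * (1 / b) ≤ c₁ / 1000 * 1 := by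
      apply mul_le_mul hbinv _ (by positivity) (by positivity)
      linarith
    calc ε ≤ 1 / b ^ 2 := hεb
      _ ≤ c₁ / 1000 := by rw [h1]; linarith
  obtain ⟨v, hv⟩ := hBF.1 w hw (by nlinarith)
  obtain ⟨v', hv'⟩ := hBF.1 x' hx' (by rw [dist_self]; positivity)
  have hzr : dist z (pr ι w) ≤ c₁ / 500 * r := hz.trans (by gcongr)
  have hprw : dist (pr ι w) (pr ι x') ≤ 2 * r := (dist_pr_le ι w x').trans hwx
  constructor
  · calc dist z (pr ι x') ≤ dist z (pr ι w) + dist (pr ι w) (pr ι x') := dist_triangle _ _ _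
      _ ≤ c₁ / 500 * r + 2 * r := by linarith
      _ ≤ 3 * r := by nlinarith
  · -- the points `w`, `x'` are near the plane
    have hvv : ‖v - v'‖ ≤ 3 * r := by
      have h1 : ‖v - v'‖ = dist (p' + ι' v) (p' + ι' v') := by
        rw [dist_add_left, ι'.dist_map, dist_eq_norm]
      rw [h1]
      calc dist (p' + ι' v) (p' + ι' v')
          ≤ dist (p' + ι' v) w + dist w x' + dist x' (p' + ι' v') := dist_triangle4 _ _ _ _
        _ ≤ ε * r + 2 * r + ε * r := by
            rw [dist_comm (p' + ι' v) w]; linarith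
        _ ≤ 3 * r := by nlinarith
    have hdecomp : z - pr ι x' = (z - pr ι w) + pr ι (w - (p' + ι' v)) + pr ι (ι' (v - v')) +
        pr ι ((p' + ι' v') - x') := by
      simp only [map_sub, map_add]
      abel
    have hin : ∀ u : EuclideanSpace ℝ (Fin n), |inner ℝ e u| ≤ ‖u‖ := by
      intro u
      calc |inner ℝ e u| ≤ ‖e‖ * ‖u‖ := abs_real_inner_le_norm e u
        _ = ‖u‖ := by rw [he, one_mul]
    have e1 : |inner ℝ e (z - pr ι w)| ≤ c₁ / 500 * r :=
      (hin _).trans (by rw [← dist_eq_norm]; exact hzr)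
    have e2 : |inner ℝ e (pr ι (w - (p' + ι' v)))| ≤ ε * r :=
      (hin _).trans ((norm_pr_le ι _).trans (by rw [← dist_eq_norm]; exact hv))
    have e3 : |inner ℝ e (pr ι (ι' (v - v')))| ≤ c₁ * (3 * r) :=
      (hslab _).trans (by gcongr)
    have e4 : |inner ℝ e (pr ι ((p' + ι' v') - x'))| ≤ ε * r :=
      (hin _).trans ((norm_pr_le ι _).trans (by
        rw [← dist_eq_norm, dist_comm]; exact hv'))
    rw [hdecomp, inner_add_right, inner_add_right, inner_add_right]
    calc |inner ℝ e (z - pr ι w) + inner ℝ e (pr ι (w - (p' + ι' v))) +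
          inner ℝ e (pr ι (ι' (v - v'))) + inner ℝ e (pr ι ((p' + ι' v') - x'))|
        ≤ |inner ℝ e (z - pr ι w) + inner ℝ e (pr ι (w - (p' + ι' v))) +
          inner ℝ e (pr ι (ι' (v - v')))| + |inner ℝ e (pr ι ((p' + ι' v') - x'))| :=
            abs_add_le _ _
      _ ≤ |inner ℝ e (z - pr ι w) + inner ℝ e (pr ι (w - (p' + ι' v)))| +
          |inner ℝ e (pr ι (ι' (v - v')))| + |inner ℝ e (pr ι ((p' + ι' v') - x'))| := by
            gcongr; exact abs_add_le _ _
      _ ≤ |inner ℝ e (z - pr ι w)| + |inner ℝ e (pr ι (w - (p' + ι' v)))| +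
          |inner ℝ e (pr ι (ι' (v - v')))| + |inner ℝ e (pr ι ((p' + ι' v') - x'))| := by
            gcongr; exact abs_add_le _ _
      _ ≤ c₁ / 500 * r + ε * r + c₁ * (3 * r) + ε * r := by linarith
      _ ≤ c₁ / 500 * r + c₁ / 1000 * r + c₁ * (3 * r) + c₁ / 1000 * r := by gcongr
      _ ≤ 2 * c₁ * (3 * r) := by nlinarith [mul_pos hc₁ hr]

open Classical in
/-- FILE P2Left.lean. (Area argument: chain_cover + slab_volume + steep_slab + cardinalities.) -/
theorem leftover_large (n : ℕ) (hn : 1 ≤ n) (cL CL : ℝ) (hcL : 0 < cL) (hCL : 0 < CL) :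
    ∃ c₁ : ℝ, 0 < c₁ ∧ c₁ ≤ 1 ∧ ∃ c₆ : ℝ, 0 < c₆ ∧
    ∀ {d : ℕ} {S : Set (EuclideanSpace ℝ (Fin d))} {x₀ : EuclideanSpace ℝ (Fin d)}
      {ℓ b : ℝ} {K : ℕ} (L : Lat S x₀ ℓ b K), 0 < ℓ → ∀ {ε : ℝ}, 1000 ≤ b * c₁ → 0 < ε →
      ε ≤ 1 / b ^ 2 →
      (∀ k ≤ K, ∀ x ∈ L.W, L.c k x = x → L.c 0 x = x₀ →
        cL * (b ^ (K - k)) ^ n ≤ ((L.cell k x).card : ℝ)) →
      (∀ k ≤ K, ∀ x ∈ L.W, L.c k x = x → L.c 0 x = x₀ →
        ((L.cell k x).card : ℝ) ≤ CL * (b ^ (K - k)) ^ n) →
      ∀ (good : ℕ → EuclideanSpace ℝ (Fin d) → Prop)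
        (P : ℕ → EuclideanSpace ℝ (Fin d) → EuclideanSpace ℝ (Fin d))
        (I : ℕ → EuclideanSpace ℝ (Fin d) →
          (EuclideanSpace ℝ (Fin n) →ₗᵢ[ℝ] EuclideanSpace ℝ (Fin d))),
        (∀ k x, good k x → BF S n x (sc ℓ b k) 100 ε (P k x) (I k x)) →
        ∀ j ≤ K, ∀ x ∈ L.W, L.c j x = x → L.c 0 x = x₀ → root L.c good I c₁ j x = some j →
          c₆ * ((L.cell j x).card : ℝ) ≤
            (((L.cell j x).filter (fun w => Leftover L good I c₁ j w)).card : ℝ) := by
  obtain ⟨Cs, hCs, hslabvol⟩ := slab_volume n hn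
  set ω : ℝ := (volume (Metric.ball (0 : EuclideanSpace ℝ (Fin n)) 1)).toReal with hω
  have hωpos : 0 < ω := by
    rw [hω]
    exact ENNReal.toReal_pos (Metric.measure_ball_pos volume _ one_pos).ne'
      measure_ball_lt_top.ne
  have h300 : (0 : ℝ) < 300 ^ n := by positivity
  refine ⟨min 1 (ω * cL / (4 * Cs * CL * 300 ^ n)), lt_min one_pos (by positivity),
    min_le_left _ _, cL / (2 * 300 ^ n * CL), by positivity, ?_⟩
  set c₁ : ℝ := min 1 (ω * cL / (4 * Cs * CL * 300 ^ n)) with hc₁def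
  have hc₁ : 0 < c₁ := lt_min one_pos (by positivity)
  have hc₁' : c₁ ≤ 1 := min_le_left _ _
  have hc₁'' : c₁ ≤ ω * cL / (4 * Cs * CL * 300 ^ n) := min_le_right _ _
  intro d S x₀ ℓ b K L hℓ ε hb hε hεb hlow hup good P I hgood j hj x hx hjx h0x hroot
  have hb0 : 0 < b := by
    by_contra hcon
    push Not at hcon
    have : b * c₁ ≤ 0 := mul_nonpos_of_nonpos_of_nonneg hcon hc₁.le
    linarith
  have hscpos : ∀ k, 0 < sc ℓ b k := fun k => sc_pos hℓ hb0 k
  set ι := I j x with hι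
  set Q := L.cell j x with hQ
  have hQmem : ∀ w ∈ Q, w ∈ L.W ∧ L.c j w = x := fun w hw => L.mem_cell.mp hw
  have hrootw : ∀ w ∈ Q, root L.c good I c₁ j (L.c j w) = some j := by
    intro w hw
    rw [(hQmem w hw).2]
    exact hroot
  let st : EuclideanSpace ℝ (Fin d) → ℕ := fun w => stopGen L good I c₁ j w
  let τ : EuclideanSpace ℝ (Fin d) → ℕ × EuclideanSpace ℝ (Fin d) :=
    fun w => (st w, L.c (st w) w)
  have hex : ∀ t : ℕ × EuclideanSpace ℝ (Fin d), ∃ e : EuclideanSpace ℝ (Fin n),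
      ¬ NonSteep c₁ ι (I t.1 t.2) →
        ‖e‖ = 1 ∧ ∀ v, |inner ℝ e (pr ι (I t.1 t.2 v))| ≤ c₁ * ‖v‖ := by
    intro t
    by_cases h : NonSteep c₁ ι (I t.1 t.2)
    · exact ⟨0, fun h' => absurd h h'⟩
    · obtain ⟨e, he⟩ := steep_slab hc₁ ι _ h
      exact ⟨e, fun _ => he⟩
  choose e he using hex
  let isB : ℕ × EuclideanSpace ℝ (Fin d) → Prop := fun t => t.1 = K ∨ ¬ good t.1 t.2
  let region : ℕ × EuclideanSpace ℝ (Fin d) → Set (EuclideanSpace ℝ (Fin n)) := fun t =>
    if isB t then Metric.closedBall (pr ι t.2) (3 * sc ℓ b t.1)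
    else {z | dist z (pr ι t.2) ≤ 3 * sc ℓ b t.1 ∧
      |inner ℝ (e t) (z - pr ι t.2)| ≤ 2 * c₁ * (3 * sc ℓ b t.1)}
  let v : ℕ × EuclideanSpace ℝ (Fin d) → ℝ := fun t =>
    if isB t then ω * (3 * sc ℓ b t.1) ^ n else Cs * (2 * c₁) * (3 * sc ℓ b t.1) ^ n
  have hvnn : ∀ t, 0 ≤ v t := by
    intro t
    have := hscpos t.1
    simp only [v]
    split_ifs <;> positivity
  have hstK : ∀ w, st w ≤ K := fun w => stopGen_le L good I c₁ j w
  have hjst : ∀ w, j ≤ st w := fun w => le_stopGen L good I c₁ hj w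
  -- a steep good stop
  have hsteep : ∀ w ∈ Q, ¬ isB (τ w) → ¬ NonSteep c₁ ι (I (τ w).1 (τ w).2) := by
    intro w hw hB
    simp only [isB, τ, not_or, not_not] at hB
    obtain ⟨hB1, hB2⟩ := hB
    have hlt : st w < K := lt_of_le_of_ne (hstK w) hB1
    have h1 := root_stopGen_ne L good I c₁ hlt
    have h2 := not_nonSteep_of_stop L good I c₁ (hQmem w hw).1 h1.1 (hstK w)
      (fun i hi1 hi2 => root_of_lt_stopGen L good I c₁ (hrootw w hw) hi1 hi2) h1.2 hB2
    rw [(hQmem w hw).2] at h2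
    exact h2
  have hcover : Metric.closedBall (pr ι x) (sc ℓ b j / 100) ⊆ ⋃ t ∈ Q.image τ, region t := by
    intro z hz
    rw [Metric.mem_closedBall] at hz
    obtain ⟨w, hwQ, hcase⟩ := chain_cover L hℓ hc₁ hc₁' hb hε hεb good P I hgood j hj x hx hjx
      h0x hroot z hz
    rw [mem_iUnion₂]
    refine ⟨τ w, Finset.mem_image_of_mem τ hwQ, ?_⟩
    rcases hcase with ⟨h1, h2⟩ | ⟨k, h1, h2, h3, h4, h5⟩
    · have hst : st w = K := stopGen_eq_K L good I c₁ h1
      have hτ : τ w = (K, w) := by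
        simp only [τ, hst, L.c_last w (hQmem w hwQ).1]
      simp only [region, isB, hτ, true_or, if_true]
      rw [Metric.mem_closedBall]
      have := hscpos K
      exact h2.trans (by linarith)
    · have hst : st w = k := stopGen_eq_of_stop L good I c₁ h1 h2 h3 h4
      have hτ : τ w = (k, L.c k w) := by
        simp only [τ, hst]
      have hdw : dist w (L.c k w) ≤ 2 * sc ℓ b k := L.c_dist k h2.le w (hQmem w hwQ).1
      have hb1 : 1000 ≤ b := by
        have : b * c₁ ≤ b * 1 := by gcongr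
        linarith
      have h2b : 2 / b ≤ 1 := by
        rw [div_le_one hb0]; linarith
      by_cases hB : isB (τ w)
      · have hreg : region (τ w) = Metric.closedBall (pr ι (L.c k w)) (3 * sc ℓ b k) := by
          simp only [region]
          rw [if_pos hB, hτ]
        rw [hreg, Metric.mem_closedBall]
        have h6 : dist (pr ι w) (pr ι (L.c k w)) ≤ 2 * sc ℓ b k := (dist_pr_le ι _ _).trans hdw
        have h7 : 2 / b * sc ℓ b k ≤ 1 * sc ℓ b k :=
          mul_le_mul_of_nonneg_right h2b (hscpos k).le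
        calc dist z (pr ι (L.c k w)) ≤ dist z (pr ι w) + dist (pr ι w) (pr ι (L.c k w)) :=
              dist_triangle _ _ _
          _ ≤ 3 * sc ℓ b k := by linarith
      · have hreg : region (τ w) = {z | dist z (pr ι (L.c k w)) ≤ 3 * sc ℓ b k ∧
            |inner ℝ (e (k, L.c k w)) (z - pr ι (L.c k w))| ≤ 2 * c₁ * (3 * sc ℓ b k)} := by
          simp only [region]
          rw [if_neg hB, hτ]
        have hst2 := hsteep w hwQ hB
        rw [hreg, Set.mem_ofPred_eq]
        rw [hτ] at hst2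
        obtain ⟨he1, he2⟩ := he (k, L.c k w) hst2
        have hgk : good k (L.c k w) := by
          have : ¬ isB (k, L.c k w) := by rw [← hτ]; exact hB
          simp only [isB, not_or, not_not] at this
          exact this.2
        exact slab_of_steep hc₁ hc₁' hb hεb (hscpos k) (hgood k _ hgk)
          (L.W_sub _ (L.c_mem k h2.le w (hQmem w hwQ).1)) (L.W_sub _ (hQmem w hwQ).1) hdw
          he1 he2 h5
  have hvol : ∀ t ∈ Q.image τ, volume (region t) ≤ ENNReal.ofReal (v t) := by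
    intro t ht
    obtain ⟨w, hw, rfl⟩ := Finset.mem_image.mp ht
    by_cases hB : isB (τ w)
    · simp only [region, v]
      rw [if_pos hB, if_pos hB]
      rw [Measure.addHaar_closedBall _ _ (by have := hscpos (τ w).1; positivity)]
      rw [finrank_euclideanSpace_fin]
      rw [← ENNReal.ofReal_toReal (measure_ball_lt_top (μ := volume)
        (x := (0 : EuclideanSpace ℝ (Fin n))) (r := 1)).ne]
      rw [← ENNReal.ofReal_mul (by have := hscpos (τ w).1; positivity)]
      rw [mul_comm]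
    · simp only [region, v]
      rw [if_neg hB, if_neg hB]
      obtain ⟨he1, -⟩ := he (τ w) (hsteep w hw hB)
      exact hslabvol (pr ι (τ w).2) (e (τ w)) he1 (3 * sc ℓ b (τ w).1) (2 * c₁)
        (by have := hscpos (τ w).1; positivity) (by positivity)
  have hmain : ω * (sc ℓ b j / 100) ^ n ≤ ∑ t ∈ Q.image τ, v t := by
    have h1 : ENNReal.ofReal (ω * (sc ℓ b j / 100) ^ n) ≤
        ENNReal.ofReal (∑ t ∈ Q.image τ, v t) := by
      calc ENNReal.ofReal (ω * (sc ℓ b j / 100) ^ n)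
          = volume (Metric.closedBall (pr ι x) (sc ℓ b j / 100)) := by
            rw [Measure.addHaar_closedBall _ _ (by have := hscpos j; positivity)]
            rw [finrank_euclideanSpace_fin]
            rw [← ENNReal.ofReal_toReal (measure_ball_lt_top (μ := volume)
              (x := (0 : EuclideanSpace ℝ (Fin n))) (r := 1)).ne]
            rw [← ENNReal.ofReal_mul (by have := hscpos j; positivity)]
            rw [mul_comm]
        _ ≤ volume (⋃ t ∈ Q.image τ, region t) := measure_mono hcover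
        _ ≤ ∑ t ∈ Q.image τ, volume (region t) := measure_biUnion_finset_le _ _
        _ ≤ ∑ t ∈ Q.image τ, ENNReal.ofReal (v t) := Finset.sum_le_sum hvol
        _ = ENNReal.ofReal (∑ t ∈ Q.image τ, v t) :=
            (ENNReal.ofReal_sum_of_nonneg fun t _ => hvnn t).symm
    exact (ENNReal.ofReal_le_ofReal_iff (Finset.sum_nonneg fun t _ => hvnn t)).mp h1
  -- scales
  have hscK : ∀ k ≤ K, sc ℓ b k = b ^ (K - k) * sc ℓ b K := by
    intro k hk
    unfold sc
    have h1 : b ^ K = b ^ (K - k) * b ^ k := by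
      rw [← pow_add]; congr 1; omega
    rw [h1]
    have : b ≠ 0 := hb0.ne'
    field_simp
  set X : ℝ := (b ^ (K - j)) ^ n with hX
  set Y : ℝ := (sc ℓ b K) ^ n with hY
  have hXpos : 0 < X := by positivity
  have hYpos : 0 < Y := by have := hscpos K; positivity
  have hXY : (sc ℓ b j) ^ n = X * Y := by
    rw [hscK j hj, mul_pow]
  -- fibres
  let v' : ℕ × EuclideanSpace ℝ (Fin d) → ℝ := fun t =>
    (if isB t then ω else Cs * (2 * c₁)) * (3 ^ n * Y / cL)
  have hfib : ∀ t ∈ Q.image τ, v t ≤ ((Q.filter (fun w' => τ w' = t)).card : ℝ) * v' t := by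
    intro t ht
    obtain ⟨w, hw, rfl⟩ := Finset.mem_image.mp ht
    have hwW := (hQmem w hw).1
    have hyW : L.c (st w) w ∈ L.W := L.c_mem _ (hstK w) w hwW
    have hsub : L.cell (st w) (L.c (st w) w) ⊆ Q.filter (fun w' => τ w' = τ w) := by
      intro w' hw'
      rw [L.mem_cell] at hw'
      obtain ⟨hw'W, hw'c⟩ := hw'
      have hcj : L.c j w' = x := by
        rw [← L.c_comp j (st w) (hjst w) (hstK w) w' hw'W, hw'c,
          L.c_comp j (st w) (hjst w) (hstK w) w hwW]
        exact (hQmem w hw).2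
      have hst' : st w' = st w :=
        stopGen_congr L good I c₁ hwW hw'W (hrootw w hw) hw'c
      rw [Finset.mem_filter]
      refine ⟨L.mem_cell.mpr ⟨hw'W, hcj⟩, ?_⟩
      simp only [τ, hst', hw'c]
    have hcard : cL * (b ^ (K - st w)) ^ n ≤
        ((Q.filter (fun w' => τ w' = τ w)).card : ℝ) := by
      refine (hlow (st w) (hstK w) (L.c (st w) w) hyW (L.c_comp _ _ le_rfl (hstK w) w hwW)
        ?_).trans (by exact_mod_cast Finset.card_le_card hsub)
      rw [L.c_comp 0 (st w) (Nat.zero_le _) (hstK w) w hwW]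
      rw [← L.c_comp 0 j (Nat.zero_le _) hj w hwW, (hQmem w hw).2]
      exact h0x
    have hscw : (3 * sc ℓ b (st w)) ^ n = 3 ^ n * ((b ^ (K - st w)) ^ n * Y) := by
      rw [hscK _ (hstK w), mul_pow, mul_pow]
    have hscw' : (3 * sc ℓ b (st w)) ^ n ≤
        ((Q.filter (fun w' => τ w' = τ w)).card : ℝ) * (3 ^ n * Y / cL) := by
      rw [hscw]
      have h3 : (0 : ℝ) < 3 ^ n * Y / cL := by positivity
      calc (3 : ℝ) ^ n * ((b ^ (K - st w)) ^ n * Y)
          = (cL * (b ^ (K - st w)) ^ n) * (3 ^ n * Y / cL) := by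
            field_simp
        _ ≤ _ := mul_le_mul_of_nonneg_right hcard h3.le
    show (if isB (τ w) then ω * (3 * sc ℓ b (st w)) ^ n
      else Cs * (2 * c₁) * (3 * sc ℓ b (st w)) ^ n) ≤ _ * ((if isB (τ w) then ω
        else Cs * (2 * c₁)) * (3 ^ n * Y / cL))
    split_ifs
    · calc ω * (3 * sc ℓ b (st w)) ^ n ≤ ω * (_ * (3 ^ n * Y / cL)) :=
            mul_le_mul_of_nonneg_left hscw' hωpos.le
        _ = _ := by ring
    · calc Cs * (2 * c₁) * (3 * sc ℓ b (st w)) ^ n ≤ Cs * (2 * c₁) * (_ * (3 ^ n * Y / cL)) :=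
            mul_le_mul_of_nonneg_left hscw' (by positivity)
        _ = _ := by ring
  set Lf : ℝ := ((Q.filter (fun w => Leftover L good I c₁ j w)).card : ℝ) with hLf
  have hsum : ∑ t ∈ Q.image τ, v t ≤
      Lf * (ω * (3 ^ n * Y / cL)) + (Q.card : ℝ) * (Cs * (2 * c₁) * (3 ^ n * Y / cL)) := by
    have hBpos : 0 < 3 ^ n * Y / cL := by positivity
    calc ∑ t ∈ Q.image τ, v t
        ≤ ∑ t ∈ Q.image τ, ((Q.filter (fun w' => τ w' = t)).card : ℝ) * v' t :=
          Finset.sum_le_sum hfib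
      _ = ∑ w ∈ Q, v' (τ w) := by
          rw [Finset.sum_comp v' τ]
          refine Finset.sum_congr rfl fun t _ => ?_
          rw [nsmul_eq_mul]
      _ ≤ ∑ w ∈ Q, ((if Leftover L good I c₁ j w then ω * (3 ^ n * Y / cL) else 0) +
            Cs * (2 * c₁) * (3 ^ n * Y / cL)) := by
          refine Finset.sum_le_sum fun w hw => ?_
          show (if isB (τ w) then ω else Cs * (2 * c₁)) * (3 ^ n * Y / cL) ≤ _
          by_cases hB : isB (τ w)
          · have hl : Leftover L good I c₁ j w :=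
              leftover_of_stopGen L good I c₁ (hrootw w hw) hB
            rw [if_pos hB, if_pos hl]
            have : 0 ≤ Cs * (2 * c₁) * (3 ^ n * Y / cL) := by positivity
            linarith
          · rw [if_neg hB]
            have : (0 : ℝ) ≤ (if Leftover L good I c₁ j w then ω * (3 ^ n * Y / cL) else 0) := by
              split_ifs <;> positivity
            linarith
      _ = _ := by
          rw [Finset.sum_add_distrib, Finset.sum_const, nsmul_eq_mul, ← Finset.sum_filter,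
            Finset.sum_const, nsmul_eq_mul]
  have hQcard : (Q.card : ℝ) ≤ CL * X := hup j hj x hx hjx h0x
  -- the slabs take at most half of the area
  have hhalf : (Q.card : ℝ) * (Cs * (2 * c₁) * (3 ^ n * Y / cL)) ≤
      ω * (X * Y) / (2 * 100 ^ n) := by
    have h1 : c₁ * (4 * Cs * CL * 300 ^ n) ≤ ω * cL := by
      rwa [le_div_iff₀ (by positivity)] at hc₁''
    have h300' : (300 : ℝ) ^ n = 3 ^ n * 100 ^ n := by
      rw [← mul_pow]; norm_num
    rw [h300'] at h1
    calc (Q.card : ℝ) * (Cs * (2 * c₁) * (3 ^ n * Y / cL))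
        ≤ (CL * X) * (Cs * (2 * c₁) * (3 ^ n * Y / cL)) :=
          mul_le_mul_of_nonneg_right hQcard (by positivity)
      _ = (c₁ * (4 * Cs * CL * (3 ^ n * 100 ^ n))) * (X * Y / (2 * 100 ^ n * cL)) := by
          field_simp
          ring
      _ ≤ (ω * cL) * (X * Y / (2 * 100 ^ n * cL)) :=
          mul_le_mul_of_nonneg_right h1 (by positivity)
      _ = ω * (X * Y) / (2 * 100 ^ n) := by
          field_simp
  have hfin : ω * (X * Y) / (2 * 100 ^ n) ≤ Lf * (ω * (3 ^ n * Y / cL)) := by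
    have h1 : ω * (sc ℓ b j / 100) ^ n = ω * (X * Y) / 100 ^ n := by
      rw [div_pow, hXY]; ring
    have h2 : ω * (X * Y) / 100 ^ n = ω * (X * Y) / (2 * 100 ^ n) + ω * (X * Y) / (2 * 100 ^ n) := by
      field_simp; ring
    rw [h1, h2] at hmain
    linarith
  have hfin' : cL / (2 * 300 ^ n) * X ≤ Lf := by
    have h300' : (300 : ℝ) ^ n = 3 ^ n * 100 ^ n := by
      rw [← mul_pow]; norm_num
    have h1 : (cL / (2 * 300 ^ n) * X) * (ω * (3 ^ n * Y / cL)) ≤ Lf * (ω * (3 ^ n * Y / cL)) := by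
      calc (cL / (2 * 300 ^ n) * X) * (ω * (3 ^ n * Y / cL))
          = ω * (X * Y) / (2 * 100 ^ n) := by
            rw [h300']; field_simp
        _ ≤ _ := hfin
    exact le_of_mul_le_mul_right h1 (by positivity)
  calc cL / (2 * 300 ^ n * CL) * (Q.card : ℝ) ≤ cL / (2 * 300 ^ n * CL) * (CL * X) :=
        mul_le_mul_of_nonneg_left hQcard (by positivity)
    _ = cL / (2 * 300 ^ n) * X := by field_simp
    _ ≤ Lf := hfin'

end Crest.Agent.R085
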