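/-
R085 (S0113), PART II: the expanding map. Owner: helper427.
-/
import Crest.Agent.R085.P2Defs

set_option autoImplicit false

namespace Crest.Agent.R085

open MeasureTheory Set

section RootLemmas

variable {d n : ℕ} {c : ℕ → EuclideanSpace ℝ (Fin d) → EuclideanSpace ℝ (Fin d)}
    {good : ℕ → EuclideanSpace ℝ (Fin d) → Prop}
    {I : ℕ → EuclideanSpace ℝ (Fin d) →
      (EuclideanSpace ℝ (Fin n) →ₗᵢ[ℝ] EuclideanSpace ℝ (Fin d))}
    {c₁ : ℝ}

lemma root_eq_none_iff (k : ℕ) (x : EuclideanSpace ℝ (Fin d)) :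
    root c good I c₁ k x = none ↔ ¬ good k x := by
  classical
  cases k with
  | zero => simp [root]
  | succ k =>
    rw [root]
    by_cases h : good (k + 1) x
    · simp only [h, if_true, not_true_eq_false, iff_false]
      cases hr : root c good I c₁ k (c k x) with
      | none => simp
      | some j =>
        simp only
        split_ifs <;> simp
    · simp [h]

lemma root_le (k : ℕ) (x : EuclideanSpace ℝ (Fin d)) (j : ℕ)
    (h : root c good I c₁ k x = some j) : j ≤ k := by
  classical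
  induction k generalizing x j with
  | zero =>
    rw [root] at h
    split_ifs at h
    simp at h
    omega
  | succ k ih =>
    rw [root] at h
    split_ifs at h with hg
    cases hr : root c good I c₁ k (c k x) with
    | none =>
      rw [hr] at h
      simp at h
      omega
    | some i =>
      rw [hr] at h
      simp only at h
      split_ifs at h with h2
      · have := ih _ _ hr
        simp at h
        omega
      · simp at h
        omega

lemma root_good {k : ℕ} {x : EuclideanSpace ℝ (Fin d)} {j : ℕ}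
    (h : root c good I c₁ k x = some j) : good k x := by
  by_contra hg
  rw [(root_eq_none_iff (c := c) (I := I) (c₁ := c₁) k x).2 hg] at h
  exact absurd h (by simp)

lemma root_succ_some {k : ℕ} {x : EuclideanSpace ℝ (Fin d)} {j : ℕ}
    (h : root c good I c₁ (k + 1) x = some j) (hj : j ≤ k) :
    root c good I c₁ k (c k x) = some j ∧ NonSteep c₁ (I j (c j x)) (I (k + 1) x) := by
  classical
  rw [root] at h
  split_ifs at h with hg
  cases hr : root c good I c₁ k (c k x) with
  | none =>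
    rw [hr] at h
    simp at h
    omega
  | some i =>
    rw [hr] at h
    simp only at h
    split_ifs at h with h2
    · simp at h
      subst h
      exact ⟨rfl, h2⟩
    · simp at h
      omega

/-- After a cell in the tree of `j`, the next one is bad, in the same tree, or a new root. -/
lemma root_succ_cases {k : ℕ} {x : EuclideanSpace ℝ (Fin d)} {j : ℕ}
    (h : root c good I c₁ k (c k x) = some j) :
    root c good I c₁ (k + 1) x = some j ∨ ¬ good (k + 1) x ∨
      root c good I c₁ (k + 1) x = some (k + 1) := by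
  classical
  by_cases hg : good (k + 1) x
  · rw [root, if_pos hg, h]
    simp only
    split_ifs <;> simp
  · exact Or.inr (Or.inl hg)

lemma root_succ_of_bad {k : ℕ} {x : EuclideanSpace ℝ (Fin d)}
    (h : ¬ good k (c k x)) :
    ¬ good (k + 1) x ∨ root c good I c₁ (k + 1) x = some (k + 1) := by
  classical
  by_cases hg : good (k + 1) x
  · right
    rw [root, if_pos hg, (root_eq_none_iff (c := c) (I := I) (c₁ := c₁) k (c k x)).2 h]
  · exact Or.inl hg

end RootLemmas

section LatLemmas

variable {d n : ℕ} {S : Set (EuclideanSpace ℝ (Fin d))} {x₀ : EuclideanSpace ℝ (Fin d)}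
  {ℓ b : ℝ} {K : ℕ} (L : Lat S x₀ ℓ b K)

lemma Lat.eq_of_eq {i k : ℕ} (hik : i ≤ k) (hk : k ≤ K) {w w' : EuclideanSpace ℝ (Fin d)}
    (hw : w ∈ L.W) (hw' : w' ∈ L.W) (h : L.c k w = L.c k w') : L.c i w = L.c i w' := by
  rw [← L.c_comp i k hik hk w hw, ← L.c_comp i k hik hk w' hw', h]

lemma Lat.c_idem {k : ℕ} (hk : k ≤ K) {w : EuclideanSpace ℝ (Fin d)} (hw : w ∈ L.W) :
    L.c k (L.c k w) = L.c k w := L.c_comp k k le_rfl hk w hw

lemma Lat.dist_c_c {i k : ℕ} (hik : i ≤ k) (hk : k ≤ K) {w : EuclideanSpace ℝ (Fin d)}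
    (hw : w ∈ L.W) : dist (L.c k w) (L.c i w) ≤ 2 * sc ℓ b i := by
  have h := L.c_dist i (hik.trans hk) (L.c k w) (L.c_mem k hk w hw)
  rwa [L.c_comp i k hik hk w hw] at h

/-- The root of a cell of the tree: all intermediate ancestors are in the same tree. -/
lemma Lat.root_chain {good : ℕ → EuclideanSpace ℝ (Fin d) → Prop}
    {I : ℕ → EuclideanSpace ℝ (Fin d) →
      (EuclideanSpace ℝ (Fin n) →ₗᵢ[ℝ] EuclideanSpace ℝ (Fin d))} {c₁ : ℝ}
    {k j : ℕ} (hk : k ≤ K) {w : EuclideanSpace ℝ (Fin d)} (hw : w ∈ L.W)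
    (h : root L.c good I c₁ k (L.c k w) = some j) :
    ∀ i, j ≤ i → i ≤ k → root L.c good I c₁ i (L.c i w) = some j := by
  induction k with
  | zero =>
    intro i hji hi0
    have : i = 0 := by omega
    subst this
    exact h
  | succ k ih =>
    intro i hji hik
    rcases Nat.lt_or_ge k i with hki | hki
    · have : i = k + 1 := by omega
      subst this
      exact h
    · have hjk : j ≤ k := hji.trans hki
      have h' := (root_succ_some h hjk).1
      rw [L.c_comp k (k + 1) (Nat.le_succ k) hk w hw] at h'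
      exact ih (Nat.le_of_succ_le hk) h' i hji hki

/-- Nonsteepness of a cell of the tree over its root. -/
lemma Lat.root_nonSteep {good : ℕ → EuclideanSpace ℝ (Fin d) → Prop}
    {I : ℕ → EuclideanSpace ℝ (Fin d) →
      (EuclideanSpace ℝ (Fin n) →ₗᵢ[ℝ] EuclideanSpace ℝ (Fin d))} {c₁ : ℝ} (hc₁ : c₁ ≤ 1)
    {k j : ℕ} (hk : k ≤ K) {w : EuclideanSpace ℝ (Fin d)} (hw : w ∈ L.W)
    (h : root L.c good I c₁ k (L.c k w) = some j) :
    NonSteep c₁ (I j (L.c j w)) (I k (L.c k w)) := by
  have hjk := root_le _ _ _ h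
  rcases Nat.eq_or_lt_of_le hjk with hjk | hjk
  · subst hjk
    intro v
    rw [pr_apply_iso]
    nlinarith [norm_nonneg v]
  · obtain ⟨k, rfl⟩ : ∃ k', k = k' + 1 := ⟨k - 1, by omega⟩
    have h2 := (root_succ_some h (by omega)).2
    rwa [L.c_comp j (k + 1) (by omega) hk w hw] at h2

end LatLemmas

lemma sc_le_of_le {ℓ b : ℝ} (hℓ : 0 < ℓ) (hb : 1 ≤ b) {i k : ℕ} (h : i ≤ k) :
    sc ℓ b k ≤ sc ℓ b i := by
  unfold sc
  have hb0 : 0 < b := lt_of_lt_of_le one_pos hb
  exact div_le_div_of_nonneg_left hℓ.le (pow_pos hb0 _) (pow_le_pow_right₀ hb h)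

/-- Geometric tail of the scales. -/
lemma sum_sc_le {ℓ b : ℝ} (hℓ : 0 < ℓ) (hb : 16 ≤ b) (m N : ℕ) :
    ∑ k ∈ Finset.range N, sc ℓ b (m + k) ≤ 2 * sc ℓ b m - 2 * sc ℓ b (m + N) := by
  have hb0 : 0 < b := by linarith
  induction N with
  | zero =>
    simp only [Finset.range_zero, Finset.sum_empty, add_zero]
    have := sc_pos hℓ hb0 m
    linarith
  | succ N ih =>
    rw [Finset.sum_range_succ]
    have h1 : sc ℓ b (m + N) = b * sc ℓ b (m + N + 1) := sc_succ hb0 _
    have h2 := sc_pos hℓ hb0 (m + N + 1)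
    have h3 : sc ℓ b (m + (N + 1)) = sc ℓ b (m + N + 1) := rfl
    rw [h3]
    nlinarith

section Map

open Classical in
/-- Index of an element in a finset (0 if not in it). -/
noncomputable def idxIn {α : Type*} (s : Finset α) (y : α) : ℕ :=
  if h : y ∈ s then (s.equivFin ⟨y, h⟩ : ℕ) else 0

lemma idxIn_lt {α : Type*} (s : Finset α) {y : α} (h : y ∈ s) : idxIn s y < s.card := by
  unfold idxIn
  rw [dif_pos h]
  exact (s.equivFin ⟨y, h⟩).2

lemma idxIn_inj {α : Type*} (s : Finset α) {y y' : α} (h : y ∈ s) (h' : y' ∈ s)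
    (e : idxIn s y = idxIn s y') : y = y' := by
  unfold idxIn at e
  rw [dif_pos h, dif_pos h'] at e
  have := s.equivFin.injective (Fin.ext e)
  simpa using this

variable {d n : ℕ} {S : Set (EuclideanSpace ℝ (Fin d))} {x₀ : EuclideanSpace ℝ (Fin d)}
  {ℓ b : ℝ} {K : ℕ} (L : Lat S x₀ ℓ b K)
  (good : ℕ → EuclideanSpace ℝ (Fin d) → Prop)
  (I : ℕ → EuclideanSpace ℝ (Fin d) →
    (EuclideanSpace ℝ (Fin n) →ₗᵢ[ℝ] EuclideanSpace ℝ (Fin d)))
  (c₁ κ : ℝ) (M : ℕ) (e₀ : EuclideanSpace ℝ (Fin n))

/-- Transition: the cell is bad or is a root. -/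
def Tran (k : ℕ) (x : EuclideanSpace ℝ (Fin d)) : Prop :=
  ¬ good k x ∨ root L.c good I c₁ k x = some k

open Classical in
/-- Increment of the map from generation `k` to `k + 1`. -/
noncomputable def mvec (k : ℕ) (w : EuclideanSpace ℝ (Fin d)) : EuclideanSpace ℝ (Fin n) :=
  match root L.c good I c₁ k (L.c k w) with
  | some j => pr (I j (L.c j w)) (L.c (k + 1) w - L.c k w)
  | none => (sc ℓ b k * ((idxIn ((L.cell k (L.c k w)).image (L.c (k + 1)))
      (L.c (k + 1) w) : ℝ) / M)) • e₀

open Classical in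
/-- Number of transitions at generations `1, …, k`. -/
noncomputable def mcnt : ℕ → EuclideanSpace ℝ (Fin d) → ℕ
  | 0, _ => 0
  | (k + 1), w => mcnt k w + if Tran L good I c₁ (k + 1) (L.c (k + 1) w) then 1 else 0

/-- Position of the image of `w` seen at generation `k`. -/
noncomputable def mpos : ℕ → EuclideanSpace ℝ (Fin d) → EuclideanSpace ℝ (Fin n)
  | 0, _ => 0
  | (k + 1), w => mpos k w +
      (κ ^ (mcnt L good I c₁ k w)) • mvec L good I c₁ M e₀ k w

lemma mcnt_mono {i k : ℕ} (h : i ≤ k) (w : EuclideanSpace ℝ (Fin d)) :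
    mcnt L good I c₁ i w ≤ mcnt L good I c₁ k w := by
  induction k with
  | zero =>
    have : i = 0 := by omega
    subst this; exact le_rfl
  | succ k ih =>
    rcases Nat.lt_or_ge k i with hki | hki
    · have : i = k + 1 := by omega
      subst this; exact le_rfl
    · refine (ih hki).trans ?_
      rw [mcnt]; omega

lemma mcnt_congr {k : ℕ} {w w' : EuclideanSpace ℝ (Fin d)}
    (h : ∀ i ≤ k, L.c i w = L.c i w') :
    mcnt L good I c₁ k w = mcnt L good I c₁ k w' := by
  induction k with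
  | zero => rfl
  | succ k ih =>
    rw [mcnt, mcnt, ih (fun i hi => h i (by omega)), h (k + 1) le_rfl]

lemma mvec_congr {k : ℕ} {w w' : EuclideanSpace ℝ (Fin d)}
    (h : ∀ i ≤ k + 1, L.c i w = L.c i w') :
    mvec L good I c₁ M e₀ k w = mvec L good I c₁ M e₀ k w' := by
  classical
  unfold mvec
  rw [h k (by omega), h (k + 1) le_rfl]
  cases hr : root L.c good I c₁ k (L.c k w') with
  | none => rfl
  | some j =>
    have hj : j ≤ k := root_le _ _ _ hr
    simp only
    rw [h j (by omega)]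

lemma mpos_congr {k : ℕ} {w w' : EuclideanSpace ℝ (Fin d)}
    (h : ∀ i ≤ k, L.c i w = L.c i w') :
    mpos L good I c₁ κ M e₀ k w = mpos L good I c₁ κ M e₀ k w' := by
  induction k with
  | zero => rfl
  | succ k ih =>
    rw [mpos, mpos, ih (fun i hi => h i (by omega)), mvec_congr L good I c₁ M e₀ h,
      mcnt_congr L good I c₁ (fun i hi => h i (by omega))]

/-- Bound on increments. -/
lemma norm_mvec_le (hℓ : 0 < ℓ) (hb : 16 ≤ b) (he : ‖e₀‖ = 1)
    (hM : ∀ k < K, ∀ x ∈ L.W, L.c k x = x → L.c 0 x = x₀ →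
        (by classical exact ((L.cell k x).image (L.c (k + 1))).card) ≤ M)
    {k : ℕ} (hk : k < K) {w : EuclideanSpace ℝ (Fin d)} (hw : w ∈ L.top) :
    ‖mvec L good I c₁ M e₀ k w‖ ≤ 2 * sc ℓ b k := by
  classical
  rw [Lat.mem_top] at hw
  obtain ⟨hwW, hw0⟩ := hw
  have hsc := sc_pos hℓ (by linarith : (0:ℝ) < b) k
  unfold mvec
  cases hr : root L.c good I c₁ k (L.c k w) with
  | some j =>
    simp only
    refine (norm_pr_le _ _).trans ?_
    rw [← dist_eq_norm]
    exact L.dist_c_c (Nat.le_succ k) hk hwW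
  | none =>
    simp only
    rw [norm_smul, he, mul_one, Real.norm_eq_abs, abs_mul, abs_of_pos hsc, abs_div,
      Nat.abs_cast, Nat.abs_cast]
    have hmem : L.c (k + 1) w ∈ (L.cell k (L.c k w)).image (L.c (k + 1)) := by
      refine Finset.mem_image.2 ⟨w, ?_, rfl⟩
      rw [Lat.mem_cell]; exact ⟨hwW, rfl⟩
    have h1 := idxIn_lt _ hmem
    have h2 := hM k hk (L.c k w) (L.c_mem k hk.le w hwW) (L.c_idem hk.le hwW)
      (by rw [L.c_comp 0 k (Nat.zero_le _) hk.le w hwW, hw0])
    have h3 : (idxIn ((L.cell k (L.c k w)).image (L.c (k + 1))) (L.c (k + 1) w) : ℝ) ≤ M := by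
      have : idxIn ((L.cell k (L.c k w)).image (L.c (k + 1))) (L.c (k + 1) w) ≤ M := by
        refine h1.le.trans ?_
        exact h2
      exact_mod_cast this
    have h4 : (idxIn ((L.cell k (L.c k w)).image (L.c (k + 1))) (L.c (k + 1) w) : ℝ) / M ≤ 1 :=
      div_le_one_of_le₀ h3 (Nat.cast_nonneg _)
    have h5 : 0 ≤ (idxIn ((L.cell k (L.c k w)).image (L.c (k + 1))) (L.c (k + 1) w) : ℝ) / M := by
      positivity
    nlinarith

/-- Tail bound. -/
lemma dist_mpos_le (hℓ : 0 < ℓ) (hb : 16 ≤ b) (he : ‖e₀‖ = 1) (hκ : 0 < κ) (hκ1 : κ ≤ 1)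
    (hM : ∀ k < K, ∀ x ∈ L.W, L.c k x = x → L.c 0 x = x₀ →
        (by classical exact ((L.cell k x).image (L.c (k + 1))).card) ≤ M)
    {m : ℕ} {w : EuclideanSpace ℝ (Fin d)} (hw : w ∈ L.top) (N : ℕ) (hN : m + N ≤ K) :
    dist (mpos L good I c₁ κ M e₀ (m + N) w) (mpos L good I c₁ κ M e₀ m w) ≤
      κ ^ (mcnt L good I c₁ m w) * (2 * ∑ k ∈ Finset.range N, sc ℓ b (m + k)) := by
  induction N with
  | zero => simp
  | succ N ih =>
    have ih' := ih (by omega)
    have hstep : dist (mpos L good I c₁ κ M e₀ (m + (N + 1)) w)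
        (mpos L good I c₁ κ M e₀ (m + N) w) ≤
        κ ^ (mcnt L good I c₁ m w) * (2 * sc ℓ b (m + N)) := by
      have e1 : mpos L good I c₁ κ M e₀ (m + (N + 1)) w = mpos L good I c₁ κ M e₀ (m + N) w +
          (κ ^ (mcnt L good I c₁ (m + N) w)) • mvec L good I c₁ M e₀ (m + N) w := rfl
      rw [e1, dist_eq_norm, add_sub_cancel_left, norm_smul, Real.norm_eq_abs,
        abs_of_pos (pow_pos hκ _)]
      refine mul_le_mul (pow_le_pow_of_le_one hκ.le hκ1
        (mcnt_mono L good I c₁ (Nat.le_add_right m N) w)) ?_ (norm_nonneg _)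
        (pow_nonneg hκ.le _)
      exact norm_mvec_le L good I c₁ M e₀ hℓ hb he hM (by omega) hw
    rw [Finset.sum_range_succ]
    calc dist (mpos L good I c₁ κ M e₀ (m + (N + 1)) w) (mpos L good I c₁ κ M e₀ m w)
        ≤ dist (mpos L good I c₁ κ M e₀ (m + (N + 1)) w)
            (mpos L good I c₁ κ M e₀ (m + N) w) +
          dist (mpos L good I c₁ κ M e₀ (m + N) w) (mpos L good I c₁ κ M e₀ m w) :=
            dist_triangle _ _ _
      _ ≤ _ := by nlinarith

lemma dist_mpos_le' (hℓ : 0 < ℓ) (hb : 16 ≤ b) (he : ‖e₀‖ = 1) (hκ : 0 < κ) (hκ1 : κ ≤ 1)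
    (hM : ∀ k < K, ∀ x ∈ L.W, L.c k x = x → L.c 0 x = x₀ →
        (by classical exact ((L.cell k x).image (L.c (k + 1))).card) ≤ M)
    {m : ℕ} {w : EuclideanSpace ℝ (Fin d)} (hw : w ∈ L.top) (hm : m ≤ K) :
    dist (mpos L good I c₁ κ M e₀ K w) (mpos L good I c₁ κ M e₀ m w) ≤
      κ ^ (mcnt L good I c₁ m w) * (4 * sc ℓ b m) := by
  obtain ⟨N, rfl⟩ := Nat.exists_eq_add_of_le hm
  refine (dist_mpos_le L good I c₁ κ M e₀ hℓ hb he hκ hκ1 hM hw N le_rfl).trans ?_
  have h1 := sum_sc_le hℓ hb m N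
  have h2 := sc_pos hℓ (by linarith : (0:ℝ) < b) (m + N)
  refine mul_le_mul_of_nonneg_left ?_ (pow_nonneg hκ.le _)
  linarith

/-- In the tree of a root `j`, positions are given by the projection on the plane of the root. -/
lemma mpos_tree {j m : ℕ} (hjm : j ≤ m) {w : EuclideanSpace ℝ (Fin d)}
    (h : ∀ i, j ≤ i → i < m → root L.c good I c₁ i (L.c i w) = some j) :
    mpos L good I c₁ κ M e₀ m w = mpos L good I c₁ κ M e₀ j w +
      (κ ^ (mcnt L good I c₁ j w)) • pr (I j (L.c j w)) (L.c m w - L.c j w) ∧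
    (∀ i, j ≤ i → i < m → mcnt L good I c₁ i w = mcnt L good I c₁ j w) := by
  classical
  induction m with
  | zero =>
    have : j = 0 := by omega
    subst this
    constructor
    · simp
    · intro i _ hi; omega
  | succ m ih =>
    rcases Nat.lt_or_ge m j with hmj | hmj
    · have : j = m + 1 := by omega
      subst this
      constructor
      · simp
      · intro i h1 h2; omega
    · obtain ⟨ih1, ih2⟩ := ih hmj (fun i h1 h2 => h i h1 (by omega))
      have hcm : mcnt L good I c₁ m w = mcnt L good I c₁ j w := by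
        rcases Nat.eq_or_lt_of_le hmj with hmj' | hmj'
        · rw [hmj']
        · obtain ⟨m', rfl⟩ : ∃ m', m = m' + 1 := ⟨m - 1, by omega⟩
          rw [mcnt]
          have hr := h (m' + 1) (by omega) (by omega)
          have hnt : ¬ Tran L good I c₁ (m' + 1) (L.c (m' + 1) w) := by
            rintro (h1 | h1)
            · exact h1 (root_good hr)
            · rw [hr] at h1
              simp at h1
              omega
          rw [if_neg hnt, add_zero]
          exact ih2 m' (by omega) (by omega)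
      have hr := h m hmj (by omega)
      refine ⟨?_, ?_⟩
      · rw [mpos, ih1, hcm]
        have hv : mvec L good I c₁ M e₀ m w =
            pr (I j (L.c j w)) (L.c (m + 1) w - L.c m w) := by
          unfold mvec
          rw [hr]
        rw [hv, add_assoc, ← smul_add, ← map_add]
        congr 3
        abel
      · intro i h1 h2
        rcases Nat.lt_or_ge i m with h3 | h3
        · exact ih2 i h1 h3
        · have : i = m := by omega
          subst this
          exact hcm

/-- Exit from the tree of a root: data attached to a leaf `w` whose ancestor of generation `k`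
is in the tree of `j`. -/
lemma exists_exit (hℓ : 0 < ℓ) (hb : 16 ≤ b) (he : ‖e₀‖ = 1) (hκ : 0 < κ) (hκ1 : κ ≤ 1)
    (hM : ∀ k < K, ∀ x ∈ L.W, L.c k x = x → L.c 0 x = x₀ →
        (by classical exact ((L.cell k x).image (L.c (k + 1))).card) ≤ M)
    {j k : ℕ} (hjk : j ≤ k) (hkK : k < K) {w : EuclideanSpace ℝ (Fin d)} (hw : w ∈ L.top)
    (hr : root L.c good I c₁ k (L.c k w) = some j) :
    ∃ e, k < e ∧ e ≤ K ∧ (∀ i, j ≤ i → i < e → root L.c good I c₁ i (L.c i w) = some j) ∧
      dist (mpos L good I c₁ κ M e₀ K w) (mpos L good I c₁ κ M e₀ j w +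
        (κ ^ (mcnt L good I c₁ j w)) • pr (I j (L.c j w)) (L.c e w - L.c j w)) ≤
      κ ^ (mcnt L good I c₁ j w) * (4 * κ * sc ℓ b e) := by
  classical
  have hw' := hw
  rw [Lat.mem_top] at hw'
  obtain ⟨hwW, hw0⟩ := hw'
  have hchain := L.root_chain (good := good) (I := I) (c₁ := c₁) hkK.le hwW hr
  by_cases hex : ∃ m, k < m ∧ m < K ∧ root L.c good I c₁ m (L.c m w) ≠ some j
  · -- first exit
    let e := Nat.find hex
    have he1 : k < e ∧ e < K ∧ root L.c good I c₁ e (L.c e w) ≠ some j := Nat.find_spec hex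
    have hmin : ∀ i, k < i → i < e → root L.c good I c₁ i (L.c i w) = some j := by
      intro i h1 h2
      by_contra hne
      exact Nat.find_min hex h2 ⟨h1, h2.trans he1.2.1, hne⟩
    have hall : ∀ i, j ≤ i → i < e → root L.c good I c₁ i (L.c i w) = some j := by
      intro i h1 h2
      rcases Nat.lt_or_ge k i with h3 | h3
      · exact hmin i h3 h2
      · exact hchain i h1 h3
    refine ⟨e, he1.1, he1.2.1.le, hall, ?_⟩
    have hje : j ≤ e := hjk.trans he1.1.le
    obtain ⟨hp, hc⟩ := mpos_tree L good I c₁ κ M e₀ hje hall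
    rw [← hp]
    have htail := dist_mpos_le' L good I c₁ κ M e₀ hℓ hb he hκ hκ1 hM hw he1.2.1.le
    refine htail.trans ?_
    -- the transition at `e`
    obtain ⟨m, hm⟩ : ∃ m, e = m + 1 := ⟨e - 1, by omega⟩
    have hmroot : root L.c good I c₁ m (L.c m w) = some j := hall m (by omega) (by omega)
    have hmroot' : root L.c good I c₁ m (L.c m (L.c (m + 1) w)) = some j := by
      rw [L.c_comp m (m + 1) (Nat.le_succ m) (by omega) w hwW]; exact hmroot
    have htr : Tran L good I c₁ (m + 1) (L.c (m + 1) w) := by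
      rcases root_succ_cases (c := L.c) (good := good) (I := I) (c₁ := c₁)
        (x := L.c (m + 1) w) hmroot' with h1 | h1 | h1
      · exact absurd (by rw [hm]; exact h1) he1.2.2
      · exact Or.inl h1
      · exact Or.inr h1
    have hcnt : mcnt L good I c₁ e w = mcnt L good I c₁ j w + 1 := by
      rw [hm, mcnt, if_pos htr, hc m (by omega) (by omega)]
    rw [hcnt, pow_succ]
    apply le_of_eq
    ring
  · push Not at hex
    have hall : ∀ i, j ≤ i → i < K → root L.c good I c₁ i (L.c i w) = some j := by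
      intro i h1 h2
      rcases Nat.lt_or_ge k i with h3 | h3
      · exact hex i h3 h2
      · exact hchain i h1 h3
    refine ⟨K, hkK, le_rfl, hall, ?_⟩
    obtain ⟨hp, -⟩ := mpos_tree L good I c₁ κ M e₀ (hjk.trans hkK.le) hall
    rw [← hp, dist_self]
    have := sc_pos hℓ (by linarith : (0:ℝ) < b) K
    positivity

/-- The projection on the plane of a root is expanding along the tree. -/
lemma pr_expand (hℓ : 0 < ℓ) (hb16 : 16 ≤ b) (hc₁ : 0 < c₁) (hc₁' : c₁ ≤ 1)
    (hb : 1000 ≤ b * c₁) {ε : ℝ} (hε : 0 < ε) (hεb : ε ≤ 1 / b ^ 2)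
    {P : ℕ → EuclideanSpace ℝ (Fin d) → EuclideanSpace ℝ (Fin d)}
    (hgood : ∀ k x, good k x → BF S n x (sc ℓ b k) 100 ε (P k x) (I k x))
    {j k e : ℕ} (hke : k < e) (heK : e ≤ K)
    {w : EuclideanSpace ℝ (Fin d)} (hw : w ∈ L.W) (hjk : j ≤ k)
    (hall : ∀ i, j ≤ i → i < e → root L.c good I c₁ i (L.c i w) = some j)
    {a a' : EuclideanSpace ℝ (Fin d)} (ha : a ∈ L.W) (ha' : a' ∈ L.W)
    (haw : ∀ i ≤ e, L.c i a = L.c i w)
    (hD : dist a a' ≤ 8 * sc ℓ b k) (hD' : sc ℓ b e / 4 ≤ dist a a') :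
    c₁ / 2 * dist a a' ≤ ‖pr (I j (L.c j w)) (a - a')‖ := by
  classical
  have hb0 : 0 < b := by linarith
  -- choice of the generation
  obtain ⟨m, hkm, hme, hm1, hm2⟩ : ∃ m, k ≤ m ∧ m < e ∧ dist a a' ≤ 8 * sc ℓ b m ∧
      sc ℓ b m / (4 * b) ≤ dist a a' := by
    let m := Nat.findGreatest (fun m => k ≤ m ∧ dist a a' ≤ 8 * sc ℓ b m) (e - 1)
    have hP : (fun m => k ≤ m ∧ dist a a' ≤ 8 * sc ℓ b m) m :=
      Nat.findGreatest_spec (P := fun m => k ≤ m ∧ dist a a' ≤ 8 * sc ℓ b m)
        (show k ≤ e - 1 by omega) ⟨le_rfl, hD⟩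
    have hle : m ≤ e - 1 := Nat.findGreatest_le _
    refine ⟨m, hP.1, by omega, hP.2, ?_⟩
    rcases Nat.eq_or_lt_of_le hle with h1 | h1
    · have h2 : m + 1 = e := by omega
      have h3 := sc_succ (ℓ := ℓ) hb0 m
      rw [h2] at h3
      rw [h3]
      have : b * sc ℓ b e / (4 * b) = sc ℓ b e / 4 := by field_simp
      rw [this]
      exact hD'
    · have h2 := Nat.findGreatest_is_greatest (P := fun m => k ≤ m ∧ dist a a' ≤ 8 * sc ℓ b m)
        (show m < m + 1 by omega) (by omega)
      have h3 : ¬ (dist a a' ≤ 8 * sc ℓ b (m + 1)) := fun h4 => h2 ⟨by omega, h4⟩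
      push Not at h3
      have h4 := sc_succ (ℓ := ℓ) hb0 m
      rw [h4]
      have : b * sc ℓ b (m + 1) / (4 * b) = sc ℓ b (m + 1) / 4 := by field_simp
      rw [this]
      have := sc_pos hℓ hb0 (m + 1)
      linarith
  have hscm := sc_pos hℓ hb0 m
  have hrm := hall m (hjk.trans hkm) hme
  have hns := L.root_nonSteep hc₁' (by omega : m ≤ K) hw hrm
  obtain ⟨hBF1, hBF2⟩ := hgood m _ (root_good hrm)
  have ham : L.c m a = L.c m w := haw m hme.le
  have had : dist a (L.c m w) ≤ 2 * sc ℓ b m := by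
    rw [← ham]; exact L.c_dist m (by omega) a ha
  have had' : dist a' (L.c m w) ≤ 10 * sc ℓ b m := by
    calc dist a' (L.c m w) ≤ dist a' a + dist a (L.c m w) := dist_triangle _ _ _
      _ ≤ 8 * sc ℓ b m + 2 * sc ℓ b m := by
          rw [dist_comm a' a]; linarith
      _ = _ := by ring
  obtain ⟨v, hv⟩ := hBF1 a (L.W_sub a ha) (by linarith)
  obtain ⟨v', hv'⟩ := hBF1 a' (L.W_sub a' ha') (by linarith)
  set p := P m (L.c m w)
  set ι := I m (L.c m w)
  set π := pr (I j (L.c j w))
  have hεm : 0 ≤ ε * sc ℓ b m := by positivity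
  -- distances
  have h1 : dist a a' ≤ ‖v - v'‖ + 2 * (ε * sc ℓ b m) := by
    have : dist (p + ι v) (p + ι v') = ‖v - v'‖ := by
      rw [dist_add_left, dist_eq_norm, ← map_sub, LinearIsometry.norm_map]
    calc dist a a' ≤ dist a (p + ι v) + dist (p + ι v) (p + ι v') + dist (p + ι v') a' :=
          dist_triangle4 _ _ _ _
      _ ≤ ε * sc ℓ b m + ‖v - v'‖ + ε * sc ℓ b m := by
          rw [this, dist_comm (p + ι v') a']; linarith
      _ = _ := by ring
  have h2 : ‖π (ι (v - v'))‖ ≤ ‖π (a - a')‖ + 2 * (ε * sc ℓ b m) := by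
    have e1 : π (ι (v - v')) = π (a - a') - π (a - (p + ι v)) + π (a' - (p + ι v')) := by
      rw [← map_sub, ← map_add]
      congr 1
      rw [map_sub]
      abel
    rw [e1]
    calc ‖π (a - a') - π (a - (p + ι v)) + π (a' - (p + ι v'))‖
        ≤ ‖π (a - a') - π (a - (p + ι v))‖ + ‖π (a' - (p + ι v'))‖ := norm_add_le _ _
      _ ≤ ‖π (a - a')‖ + ‖π (a - (p + ι v))‖ + ‖π (a' - (p + ι v'))‖ := by
          gcongr; exact norm_sub_le _ _
      _ ≤ ‖π (a - a')‖ + ε * sc ℓ b m + ε * sc ℓ b m := by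
          gcongr
          · exact (norm_pr_le _ _).trans (by rw [← dist_eq_norm]; exact hv)
          · exact (norm_pr_le _ _).trans (by rw [← dist_eq_norm]; exact hv')
      _ = _ := by ring
  have h3 : c₁ * ‖v - v'‖ ≤ ‖π (ι (v - v'))‖ := hns (v - v')
  -- smallness of the error
  have h4 : ε * sc ℓ b m ≤ 4 * c₁ / 1000 * dist a a' := by
    have h5 : sc ℓ b m ≤ 4 * b * dist a a' := by
      rw [div_le_iff₀ (by positivity)] at hm2
      linarith
    have h6 : ε * b ≤ c₁ / 1000 := by
      have h7 : ε * b ≤ 1 / b := by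
        calc ε * b ≤ 1 / b ^ 2 * b := by gcongr
          _ = 1 / b := by field_simp
      have h8 : 1 / b ≤ c₁ / 1000 := by
        rw [div_le_div_iff₀ hb0 (by norm_num)]
        linarith
      linarith
    calc ε * sc ℓ b m ≤ ε * (4 * b * dist a a') := by gcongr
      _ = 4 * (ε * b) * dist a a' := by ring
      _ ≤ 4 * (c₁ / 1000) * dist a a' := by gcongr
      _ = _ := by ring
  have hDn : 0 ≤ dist a a' := dist_nonneg
  have h9 : c₁ * dist a a' ≤ c₁ * ‖v - v'‖ + 2 * (ε * sc ℓ b m) := by
    calc c₁ * dist a a' ≤ c₁ * (‖v - v'‖ + 2 * (ε * sc ℓ b m)) := by gcongr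
      _ = c₁ * ‖v - v'‖ + c₁ * (2 * (ε * sc ℓ b m)) := by ring
      _ ≤ c₁ * ‖v - v'‖ + 1 * (2 * (ε * sc ℓ b m)) := by gcongr
      _ = _ := by ring
  nlinarith

end Map

open Classical in
theorem expanding_map (n : ℕ) (hn : 1 ≤ n) (c₁ b : ℝ) (hc₁ : 0 < c₁) (hc₁' : c₁ ≤ 1)
    (hb : 1000 ≤ b * c₁) (M : ℕ) :
    ∃ κ : ℝ, 0 < κ ∧ κ ≤ 1 ∧ ∃ η₀ : ℝ, 0 < η₀ ∧
    ∀ {d : ℕ} {S : Set (EuclideanSpace ℝ (Fin d))} {x₀ : EuclideanSpace ℝ (Fin d)}
      {ℓ : ℝ} {K : ℕ} (L : Lat S x₀ ℓ b K), 0 < ℓ → ∀ {ε : ℝ}, 0 < ε →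
      ε ≤ 1 / b ^ 2 →
      (∀ k < K, ∀ x ∈ L.W, L.c k x = x → L.c 0 x = x₀ →
        ((L.cell k x).image (L.c (k + 1))).card ≤ M) →
      ∀ (good : ℕ → EuclideanSpace ℝ (Fin d) → Prop)
        (P : ℕ → EuclideanSpace ℝ (Fin d) → EuclideanSpace ℝ (Fin d))
        (I : ℕ → EuclideanSpace ℝ (Fin d) →
          (EuclideanSpace ℝ (Fin n) →ₗᵢ[ℝ] EuclideanSpace ℝ (Fin d))),
        (∀ k x, good k x → BF S n x (sc ℓ b k) 100 ε (P k x) (I k x)) →
        ∃ f : EuclideanSpace ℝ (Fin d) → EuclideanSpace ℝ (Fin n),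
          (∀ w ∈ L.top, ‖f w‖ ≤ 10 * ℓ) ∧
          ∀ w ∈ L.top, ∀ w' ∈ L.top, ∀ N : ℕ,
            ((Finset.range (K + 1)).filter (fun k => ¬ good k (L.c k w))).card +
              nroot L good I c₁ w ≤ N →
            η₀ * κ ^ N * dist w w' ≤ dist (f w) (f w') := by
  have hb16 : 16 ≤ b := by nlinarith
  have hb0 : 0 < b := by linarith
  set M' : ℝ := (M : ℝ) + 1 with hM'
  have hM'0 : 0 < M' := by positivity
  refine ⟨min (1 / (16 * M')) (c₁ / 200), by positivity, ?_, min (1 / (8 * M')) (c₁ / 200),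
    by positivity, ?_⟩
  · refine (min_le_right _ _).trans ?_
    linarith
  intro d S x₀ ℓ K L hℓ ε hε hεb hM good P I hgood
  set κ : ℝ := min (1 / (16 * M')) (c₁ / 200) with hκdef
  have hκ : 0 < κ := by positivity
  have hκa : κ ≤ 1 / (16 * M') := min_le_left _ _
  have hκb : κ ≤ c₁ / 200 := min_le_right _ _
  have hκ1 : κ ≤ 1 := hκb.trans (by linarith)
  set η₀ : ℝ := min (1 / (8 * M')) (c₁ / 200) with hη₀
  have hη : 0 < η₀ := by positivity
  have hηa : η₀ ≤ 1 / (8 * M') := min_le_left _ _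
  have hηb : η₀ ≤ c₁ / 200 := min_le_right _ _
  let e₀ : EuclideanSpace ℝ (Fin n) := EuclideanSpace.single ⟨0, hn⟩ 1
  have he : ‖e₀‖ = 1 := by simp [e₀]
  have hM1 : ∀ k < K, ∀ x ∈ L.W, L.c k x = x → L.c 0 x = x₀ →
        ((L.cell k x).image (L.c (k + 1))).card ≤ M + 1 :=
    fun k hk x hx h1 h2 => (hM k hk x hx h1 h2).trans (Nat.le_succ M)
  have hMc : ((M + 1 : ℕ) : ℝ) = M' := by push_cast; rfl
  refine ⟨fun w => mpos L good I c₁ κ (M + 1) e₀ K w, ?_, ?_⟩
  · intro w hw
    have h := dist_mpos_le' L good I c₁ κ (M + 1) e₀ hℓ hb16 he hκ hκ1 hM1 hw (Nat.zero_le K)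
    have h0 : mpos L good I c₁ κ (M + 1) e₀ 0 w = 0 := rfl
    have h0' : mcnt L good I c₁ 0 w = 0 := rfl
    rw [h0, h0', dist_zero_right, pow_zero, one_mul, sc_zero] at h
    show ‖mpos L good I c₁ κ (M + 1) e₀ K w‖ ≤ 10 * ℓ
    linarith
  · intro w hw w' hw' N hN
    show η₀ * κ ^ N * dist w w' ≤
      dist (mpos L good I c₁ κ (M + 1) e₀ K w) (mpos L good I c₁ κ (M + 1) e₀ K w')
    have hwt := hw
    have hwt' := hw'
    rw [Lat.mem_top] at hwt hwt'
    obtain ⟨hwW, hw0⟩ := hwt
    obtain ⟨hwW', hw0'⟩ := hwt'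
    by_cases hww : w = w'
    · subst hww; simp
    -- number of transitions
    have hcntN : ∀ k ≤ K, mcnt L good I c₁ k w ≤ N := by
      intro k hk
      refine le_trans ?_ hN
      have h1 : ∀ k ≤ K, mcnt L good I c₁ k w ≤
          ((Finset.range (k + 1)).filter (fun i => Tran L good I c₁ i (L.c i w))).card := by
        intro k
        induction k with
        | zero => intro _; simp [mcnt]
        | succ k ih =>
          intro hk'
          have ih' := ih (by omega)
          rw [mcnt, Finset.range_add_one, Finset.filter_insert]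
          split_ifs with htr
          · rw [Finset.card_insert_of_notMem (by simp)]
            omega
          · omega
      refine (h1 k hk).trans ?_
      have h2 : (Finset.range (k + 1)).filter (fun i => Tran L good I c₁ i (L.c i w)) ⊆
          ((Finset.range (K + 1)).filter (fun k => ¬ good k (L.c k w))) ∪
          ((Finset.range (K + 1)).filter
            (fun j => root L.c good I c₁ j (L.c j w) = some j)) := by
        intro i hi
        rw [Finset.mem_filter, Finset.mem_range] at hi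
        rw [Finset.mem_union, Finset.mem_filter, Finset.mem_filter, Finset.mem_range]
        rcases hi.2 with h3 | h3
        · left; exact ⟨by omega, h3⟩
        · right; exact ⟨by omega, h3⟩
      refine (Finset.card_le_card h2).trans ((Finset.card_union_le _ _).trans ?_)
      unfold nroot
      exact le_rfl
    -- last common generation
    have hex : ∃ m, m ≤ K ∧ L.c m w ≠ L.c m w' := by
      refine ⟨K, le_rfl, ?_⟩
      rw [L.c_last w hwW, L.c_last w' hwW']
      exact hww
    let m₁ := Nat.find hex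
    have hm₁ : m₁ ≤ K ∧ L.c m₁ w ≠ L.c m₁ w' := Nat.find_spec hex
    have hm₁0 : m₁ ≠ 0 := by
      intro h0
      apply hm₁.2
      rw [h0, hw0, hw0']
    obtain ⟨k, hk⟩ : ∃ k, m₁ = k + 1 := ⟨m₁ - 1, by omega⟩
    have hkK : k < K := by omega
    have hcom : ∀ i ≤ k, L.c i w = L.c i w' := by
      intro i hi
      by_contra hne
      exact Nat.find_min hex (show i < Nat.find hex by
        show i < m₁; omega) ⟨by omega, hne⟩
    have hdiff : ∀ i, k < i → i ≤ K → L.c i w ≠ L.c i w' := by
      intro i h1 h2 heq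
      exact hm₁.2 (L.eq_of_eq (by omega) h2 hwW hwW' heq)
    have hpk := mpos_congr L good I c₁ κ (M + 1) e₀ hcom
    have hck := mcnt_congr L good I c₁ hcom
    have hsck := sc_pos hℓ hb0 k
    have hdww : dist w w' ≤ 4 * sc ℓ b k := by
      calc dist w w' ≤ dist w (L.c k w) + dist (L.c k w) w' := dist_triangle _ _ _
        _ ≤ 2 * sc ℓ b k + 2 * sc ℓ b k := by
            rw [hcom k le_rfl]
            gcongr
            · rw [← hcom k le_rfl]; exact L.c_dist k hkK.le w hwW
            · rw [dist_comm]; exact L.c_dist k hkK.le w' hwW'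
        _ = _ := by ring
    by_cases hg : good k (L.c k w)
    · -- Case B: good cell
      obtain ⟨j, hj⟩ : ∃ j, root L.c good I c₁ k (L.c k w) = some j := by
        cases hr : root L.c good I c₁ k (L.c k w) with
        | none => exact absurd hg ((root_eq_none_iff k _).1 hr)
        | some j => exact ⟨j, rfl⟩
      have hjk : j ≤ k := root_le _ _ _ hj
      have hj' : root L.c good I c₁ k (L.c k w') = some j := by
        rw [← hcom k le_rfl]; exact hj
      obtain ⟨e, hke, heK, hall, hd⟩ := exists_exit L good I c₁ κ (M + 1) e₀ hℓ hb16 he hκ hκ1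
        hM1 hjk hkK hw hj
      obtain ⟨e', hke', heK', hall', hd'⟩ := exists_exit L good I c₁ κ (M + 1) e₀ hℓ hb16 he hκ
        hκ1 hM1 hjk hkK hw' hj'
      have hcj : L.c j w = L.c j w' := hcom j hjk
      have hpj : mpos L good I c₁ κ (M + 1) e₀ j w = mpos L good I c₁ κ (M + 1) e₀ j w' :=
        mpos_congr L good I c₁ κ (M + 1) e₀ (fun i hi => hcom i (hi.trans hjk))
      have hcntj : mcnt L good I c₁ j w = mcnt L good I c₁ j w' :=
        mcnt_congr L good I c₁ (fun i hi => hcom i (hi.trans hjk))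
      rw [← hcj, ← hpj, ← hcntj] at hd'
      set s := κ ^ (mcnt L good I c₁ j w) with hs
      have hs0 : 0 < s := pow_pos hκ _
      have hsN : κ ^ N ≤ s := pow_le_pow_of_le_one hκ.le hκ1 (hcntN j (by omega))
      set a := L.c e w with ha
      set a' := L.c e' w' with ha'
      have haW : a ∈ L.W := L.c_mem e heK w hwW
      have haW' : a' ∈ L.W := L.c_mem e' heK' w' hwW'
      have hsce := sc_pos hℓ hb0 e
      have hsce' := sc_pos hℓ hb0 e'
      have hcka : L.c k a = L.c k w := L.c_comp k e hke.le heK w hwW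
      have hcka' : L.c k a' = L.c k w := by
        rw [hcom k le_rfl]; exact L.c_comp k e' hke'.le heK' w' hwW'
      have hD8 : dist a a' ≤ 8 * sc ℓ b k := by
        have h1 := L.c_dist k hkK.le a haW
        have h2 := L.c_dist k hkK.le a' haW'
        rw [hcka] at h1
        rw [hcka'] at h2
        calc dist a a' ≤ dist a (L.c k w) + dist (L.c k w) a' := dist_triangle _ _ _
          _ ≤ 2 * sc ℓ b k + 2 * sc ℓ b k := by rw [dist_comm (L.c k w) a']; linarith
          _ ≤ _ := by linarith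
      -- key lower bound for the projection, and separation
      have hkey : c₁ / 2 * dist a a' ≤ ‖pr (I j (L.c j w)) (a - a')‖ ∧
          max (sc ℓ b e) (sc ℓ b e') / 4 ≤ dist a a' := by
        rcases le_total e e' with hee | hee
        · have hmax : max (sc ℓ b e) (sc ℓ b e') = sc ℓ b e :=
            max_eq_left (sc_le_of_le hℓ (by linarith) hee)
          have hsep : sc ℓ b e / 4 ≤ dist a a' := by
            by_contra hlt
            push Not at hlt
            have h1 := L.c_inner e heK a haW (L.c_idem heK hwW) a' haW'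
              (by rw [dist_comm]; exact hlt)
            rw [ha', L.c_comp e e' hee heK' w' hwW'] at h1
            exact hdiff e hke heK h1.symm
          refine ⟨?_, by rw [hmax]; exact hsep⟩
          exact pr_expand L good I c₁ hℓ hb16 hc₁ hc₁' hb hε hεb hgood hke heK hwW hjk hall haW haW'
            (fun i hi => L.c_comp i e hi heK w hwW) hD8 hsep
        · have hmax : max (sc ℓ b e) (sc ℓ b e') = sc ℓ b e' :=
            max_eq_right (sc_le_of_le hℓ (by linarith) hee)
          have hsep : sc ℓ b e' / 4 ≤ dist a' a := by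
            by_contra hlt
            push Not at hlt
            have h1 := L.c_inner e' heK' a' haW' (L.c_idem heK' hwW') a haW
              (by rw [dist_comm]; exact hlt)
            rw [ha, L.c_comp e' e hee heK w hwW] at h1
            exact hdiff e' hke' heK' h1
          refine ⟨?_, by rw [hmax, dist_comm]; exact hsep⟩
          have h2 := pr_expand L good I c₁ hℓ hb16 hc₁ hc₁' hb hε hεb hgood hke' heK' hwW' hjk hall'
            haW' haW (fun i hi => L.c_comp i e' hi heK' w' hwW') (by rw [dist_comm]; exact hD8)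
            hsep
          rw [← hcj] at h2
          rw [dist_comm a a', ← neg_sub a' a, map_neg, norm_neg]
          exact h2
      obtain ⟨hkey1, hkey2⟩ := hkey
      have hm1 : sc ℓ b e ≤ 4 * dist a a' := by
        have := le_max_left (sc ℓ b e) (sc ℓ b e'); linarith
      have hm2 : sc ℓ b e' ≤ 4 * dist a a' := by
        have := le_max_right (sc ℓ b e) (sc ℓ b e'); linarith
      have hDn : 0 ≤ dist a a' := dist_nonneg
      -- distance between the two model positions
      have hmodel : s * ‖pr (I j (L.c j w)) (a - a')‖ =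
          dist (mpos L good I c₁ κ (M + 1) e₀ j w + s • pr (I j (L.c j w)) (a - L.c j w))
            (mpos L good I c₁ κ (M + 1) e₀ j w + s • pr (I j (L.c j w)) (a' - L.c j w)) := by
        rw [dist_add_left, dist_eq_norm, ← smul_sub, ← map_sub, norm_smul, Real.norm_eq_abs,
          abs_of_pos hs0]
        congr 3
        abel
      have htri : s * ‖pr (I j (L.c j w)) (a - a')‖ ≤
          s * (4 * κ * sc ℓ b e) + dist (mpos L good I c₁ κ (M + 1) e₀ K w)
            (mpos L good I c₁ κ (M + 1) e₀ K w') + s * (4 * κ * sc ℓ b e') := by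
        rw [hmodel]
        refine (dist_triangle4 _ (mpos L good I c₁ κ (M + 1) e₀ K w)
          (mpos L good I c₁ κ (M + 1) e₀ K w') _).trans ?_
        gcongr
        rw [dist_comm]
        exact hd
      have hdw : dist w w' ≤ 17 * dist a a' := by
        have h1 := L.c_dist e heK w hwW
        have h2 := L.c_dist e' heK' w' hwW'
        calc dist w w' ≤ dist w a + dist a a' + dist a' w' := dist_triangle4 _ _ _ _
          _ ≤ 2 * sc ℓ b e + dist a a' + 2 * sc ℓ b e' := by
              rw [dist_comm a' w']; gcongr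
          _ ≤ _ := by linarith
      have h1 : κ * sc ℓ b e ≤ c₁ / 200 * (4 * dist a a') := by gcongr
      have h2 : κ * sc ℓ b e' ≤ c₁ / 200 * (4 * dist a a') := by gcongr
      have h3 : s * (c₁ / 2 * dist a a') ≤ s * ‖pr (I j (L.c j w)) (a - a')‖ := by gcongr
      have h4 : s * (4 * κ * sc ℓ b e) ≤ s * (c₁ / 200 * (16 * dist a a')) := by
        have : 4 * κ * sc ℓ b e ≤ c₁ / 200 * (16 * dist a a') := by linarith
        gcongr
      have h5 : s * (4 * κ * sc ℓ b e') ≤ s * (c₁ / 200 * (16 * dist a a')) := by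
        have : 4 * κ * sc ℓ b e' ≤ c₁ / 200 * (16 * dist a a') := by linarith
        gcongr
      have h6 : s * (c₁ / 4 * dist a a') ≤ dist (mpos L good I c₁ κ (M + 1) e₀ K w)
            (mpos L good I c₁ κ (M + 1) e₀ K w') := by
        have h7 : 0 ≤ s * (c₁ * dist a a') := by positivity
        nlinarith
      calc η₀ * κ ^ N * dist w w' ≤ (c₁ / 200) * s * (17 * dist a a') := by gcongr
        _ ≤ s * (c₁ / 4 * dist a a') := by
            have h7 : 0 ≤ s * (c₁ * dist a a') := by positivity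
            nlinarith
        _ ≤ _ := h6
    · -- Case A: bad cell
      have hg' : ¬ good k (L.c k w') := by rw [← hcom k le_rfl]; exact hg
      set s := κ ^ (mcnt L good I c₁ k w) with hs
      have hs0 : 0 < s := pow_pos hκ _
      have hsN : κ ^ N ≤ s := pow_le_pow_of_le_one hκ.le hκ1 (hcntN k (by omega))
      -- transitions at `k + 1`
      have htr : ∀ u ∈ L.W, ¬ good k (L.c k u) → Tran L good I c₁ (k + 1) (L.c (k + 1) u) := by
        intro u hu hgu
        have : ¬ good k (L.c k (L.c (k + 1) u)) := by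
          rw [L.c_comp k (k + 1) (Nat.le_succ k) (by omega) u hu]; exact hgu
        exact root_succ_of_bad this
      have hcnt1 : mcnt L good I c₁ (k + 1) w = mcnt L good I c₁ k w + 1 := by
        rw [mcnt, if_pos (htr w hwW hg)]
      have hcnt1' : mcnt L good I c₁ (k + 1) w' = mcnt L good I c₁ k w + 1 := by
        rw [mcnt, if_pos (htr w' hwW' hg'), hck]
      have ht := dist_mpos_le' L good I c₁ κ (M + 1) e₀ hℓ hb16 he hκ hκ1 hM1 hw
        (show k + 1 ≤ K by omega)
      have ht' := dist_mpos_le' L good I c₁ κ (M + 1) e₀ hℓ hb16 he hκ hκ1 hM1 hw'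
        (show k + 1 ≤ K by omega)
      rw [hcnt1, pow_succ, ← hs] at ht
      rw [hcnt1', pow_succ, ← hs] at ht'
      -- distance between positions at `k + 1`
      have hmem : ∀ u ∈ L.W, L.c k u = L.c k w →
          L.c (k + 1) u ∈ (L.cell k (L.c k w)).image (L.c (k + 1)) := by
        intro u hu huk
        refine Finset.mem_image.2 ⟨u, ?_, rfl⟩
        rw [Lat.mem_cell]; exact ⟨hu, huk⟩
      have hi := hmem w hwW rfl
      have hi' := hmem w' hwW' (hcom k le_rfl).symm
      have hidx : idxIn ((L.cell k (L.c k w)).image (L.c (k + 1))) (L.c (k + 1) w) ≠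
          idxIn ((L.cell k (L.c k w)).image (L.c (k + 1))) (L.c (k + 1) w') := by
        intro heq
        exact hdiff (k + 1) (by omega) (by omega) (idxIn_inj _ hi hi' heq)
      have hv : mvec L good I c₁ (M + 1) e₀ k w =
          (sc ℓ b k * ((idxIn ((L.cell k (L.c k w)).image (L.c (k + 1)))
            (L.c (k + 1) w) : ℝ) / (M + 1 : ℕ))) • e₀ := by
        unfold mvec
        rw [(root_eq_none_iff k _).2 hg]
      have hv' : mvec L good I c₁ (M + 1) e₀ k w' =
          (sc ℓ b k * ((idxIn ((L.cell k (L.c k w)).image (L.c (k + 1)))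
            (L.c (k + 1) w') : ℝ) / (M + 1 : ℕ))) • e₀ := by
        unfold mvec
        rw [(root_eq_none_iff k _).2 hg', ← hcom k le_rfl]
      have hsep : s * (sc ℓ b k / M') ≤ dist (mpos L good I c₁ κ (M + 1) e₀ (k + 1) w)
          (mpos L good I c₁ κ (M + 1) e₀ (k + 1) w') := by
        rw [mpos, mpos, ← hpk, ← hck, dist_add_left, dist_eq_norm, ← smul_sub, hv, hv',
          ← sub_smul, norm_smul, norm_smul, he, mul_one, ← hs, Real.norm_eq_abs,
          Real.norm_eq_abs, abs_of_pos hs0, ← mul_sub, ← sub_div, abs_mul, abs_of_pos hsck,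
          abs_div, hMc, abs_of_pos hM'0]
        have h1 : (1 : ℝ) ≤ |(idxIn ((L.cell k (L.c k w)).image (L.c (k + 1)))
            (L.c (k + 1) w) : ℝ) - (idxIn ((L.cell k (L.c k w)).image (L.c (k + 1)))
            (L.c (k + 1) w') : ℝ)| := by
          have h2 : ((idxIn ((L.cell k (L.c k w)).image (L.c (k + 1)))
            (L.c (k + 1) w) : ℤ) - (idxIn ((L.cell k (L.c k w)).image (L.c (k + 1)))
            (L.c (k + 1) w') : ℤ)) ≠ 0 := by
            intro h3
            apply hidx
            omega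
          have h4 := Int.one_le_abs h2
          exact_mod_cast h4
        have : sc ℓ b k / M' = sc ℓ b k * (1 / M') := by ring
        rw [this]
        gcongr
      have hscs : sc ℓ b (k + 1) ≤ sc ℓ b k := sc_le_of_le hℓ (by linarith) (Nat.le_succ k)
      have hscs0 := sc_pos hℓ hb0 (k + 1)
      have htri : s * (sc ℓ b k / M') ≤ s * κ * (4 * sc ℓ b k) +
          dist (mpos L good I c₁ κ (M + 1) e₀ K w) (mpos L good I c₁ κ (M + 1) e₀ K w') +
          s * κ * (4 * sc ℓ b k) := by
        refine hsep.trans ((dist_triangle4 _ (mpos L good I c₁ κ (M + 1) e₀ K w)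
          (mpos L good I c₁ κ (M + 1) e₀ K w') _).trans ?_)
        gcongr
        · rw [dist_comm]
          exact ht.trans (by gcongr)
        · exact ht'.trans (by gcongr)
      have hκs : κ * (4 * sc ℓ b k) ≤ 1 / (16 * M') * (4 * sc ℓ b k) := by gcongr
      have hκs' : 1 / (16 * M') * (4 * sc ℓ b k) = sc ℓ b k / M' / 4 := by
        field_simp; norm_num
      rw [hκs'] at hκs
      have h1 : s * κ * (4 * sc ℓ b k) ≤ s * (sc ℓ b k / M' / 4) := by
        rw [mul_assoc]; gcongr
      have h2 : s * (sc ℓ b k / M') / 2 ≤ dist (mpos L good I c₁ κ (M + 1) e₀ K w)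
          (mpos L good I c₁ κ (M + 1) e₀ K w') := by
        have : s * (sc ℓ b k / M' / 4) = s * (sc ℓ b k / M') / 4 := by ring
        rw [this] at h1
        linarith
      calc η₀ * κ ^ N * dist w w' ≤ (1 / (8 * M')) * s * (4 * sc ℓ b k) := by gcongr
        _ = s * (sc ℓ b k / M') / 2 := by field_simp; norm_num
        _ ≤ _ := h2

end Crest.Agent.R085
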