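/-
R085 (S0113), PART II: discrete core (assembly).  Owner: helper887 (subtask 189).
-/
import Crest.Agent.R085.P2Defs
import Crest.Agent.R085.P2Left
import Crest.Agent.R085.P2Count
import Crest.Agent.R085.P2Map

set_option autoImplicit false

namespace Crest.Agent.R085

open MeasureTheory Set

/-- A linear isometry between Euclidean spaces. -/
theorem exists_iso_of_le {n d : ℕ} (hnd : n ≤ d) :
    Nonempty (EuclideanSpace ℝ (Fin n) →ₗᵢ[ℝ] EuclideanSpace ℝ (Fin d)) := by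
  classical
  let v := (EuclideanSpace.basisFun (Fin n) ℝ).toBasis
  let u : Fin n → EuclideanSpace ℝ (Fin d) := fun i =>
    EuclideanSpace.basisFun (Fin d) ℝ (Fin.castLE hnd i)
  let f : EuclideanSpace ℝ (Fin n) →ₗ[ℝ] EuclideanSpace ℝ (Fin d) := v.constr ℝ u
  have hv : Orthonormal ℝ v := by
    simp [v]
  have hf : Orthonormal ℝ (f ∘ v) := by
    have h1 : f ∘ v = u := by
      funext i
      simp [f]
    rw [h1]
    exact (EuclideanSpace.basisFun (Fin d) ℝ).orthonormal.comp _ (Fin.castLE_injective hnd)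
  exact ⟨f.isometryOfOrthonormal hv hf⟩

open Classical in
/-- Number of children of a cell. -/
theorem card_children_le {d n : ℕ} {cL CL b : ℝ} (hcL : 0 < cL) (hb : 0 < b)
    {S : Set (EuclideanSpace ℝ (Fin d))} {x₀ : EuclideanSpace ℝ (Fin d)}
    {ℓ : ℝ} {K : ℕ} (L : Lat S x₀ ℓ b K)
    (h1 : ∀ k ≤ K, ∀ x ∈ L.W, L.c k x = x → L.c 0 x = x₀ →
      cL * (b ^ (K - k)) ^ n ≤ ((L.cell k x).card : ℝ))
    (h2 : ∀ k ≤ K, ∀ x ∈ L.W, L.c k x = x → L.c 0 x = x₀ →
      ((L.cell k x).card : ℝ) ≤ CL * (b ^ (K - k)) ^ n)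
    (k : ℕ) (hk : k < K) (x : EuclideanSpace ℝ (Fin d)) (hx : x ∈ L.W) (hkx : L.c k x = x)
    (h0x : L.c 0 x = x₀) :
    ((L.cell k x).image (L.c (k + 1))).card ≤ ⌈CL / cL * b ^ n⌉₊ := by
  set Y := (L.cell k x).image (L.c (k + 1)) with hY
  have hYprop : ∀ y ∈ Y, y ∈ L.W ∧ L.c (k + 1) y = y ∧ L.c k y = x := by
    intro y hy
    rw [hY, Finset.mem_image] at hy
    obtain ⟨w, hw, rfl⟩ := hy
    rw [Lat.mem_cell] at hw
    refine ⟨L.c_mem _ hk w hw.1, L.c_comp _ _ le_rfl hk w hw.1, ?_⟩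
    rw [L.c_comp _ _ (Nat.le_succ k) hk w hw.1, hw.2]
  have h0 : ∀ y ∈ Y, L.c 0 y = x₀ := by
    intro y hy
    obtain ⟨hyW, -, hyx⟩ := hYprop y hy
    rw [← L.c_comp 0 k (Nat.zero_le _) hk.le y hyW, hyx, h0x]
  have hdisj : (L.cell k x).card = ∑ y ∈ Y, (L.cell (k + 1) y).card := by
    have hmaps : ((L.cell k x : Set (EuclideanSpace ℝ (Fin d)))).MapsTo (L.c (k + 1)) Y := by
      intro w hw
      exact Finset.mem_image_of_mem _ hw
    rw [Finset.card_eq_sum_card_fiberwise hmaps]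
    refine Finset.sum_congr rfl fun y hy => ?_
    congr 1
    ext w
    simp only [Finset.mem_filter, Lat.mem_cell]
    constructor
    · rintro ⟨⟨hw, -⟩, hwy⟩
      exact ⟨hw, hwy⟩
    · rintro ⟨hw, hwy⟩
      refine ⟨⟨hw, ?_⟩, hwy⟩
      rw [← L.c_comp k (k + 1) (Nat.le_succ k) hk w hw, hwy]
      exact (hYprop y hy).2.2
  have hpow : (b ^ (K - k)) ^ n = b ^ n * (b ^ (K - (k + 1))) ^ n := by
    rw [← mul_pow, ← pow_succ']
    congr 2
    omega
  have hpos : 0 < (b ^ (K - (k + 1))) ^ n := by positivity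
  have hlow : (Y.card : ℝ) * (cL * (b ^ (K - (k + 1))) ^ n) ≤ ((L.cell k x).card : ℝ) := by
    rw [hdisj]
    push_cast
    rw [← nsmul_eq_mul]
    refine Finset.card_nsmul_le_sum _ _ _ fun y hy => ?_
    obtain ⟨hyW, hyy, -⟩ := hYprop y hy
    exact h1 (k + 1) hk y hyW hyy (h0 y hy)
  have hup := h2 k hk.le x hx hkx h0x
  rw [hpow] at hup
  have hle : (Y.card : ℝ) ≤ CL / cL * b ^ n := by
    have h3 : (Y.card : ℝ) * cL * (b ^ (K - (k + 1))) ^ n ≤
        (CL * b ^ n) * (b ^ (K - (k + 1))) ^ n := by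
      calc (Y.card : ℝ) * cL * (b ^ (K - (k + 1))) ^ n
          = (Y.card : ℝ) * (cL * (b ^ (K - (k + 1))) ^ n) := by ring
        _ ≤ CL * (b ^ n * (b ^ (K - (k + 1))) ^ n) := hlow.trans hup
        _ = _ := by ring
    have h4 : (Y.card : ℝ) * cL ≤ CL * b ^ n := le_of_mul_le_mul_right h3 hpos
    rw [div_mul_eq_mul_div, le_div_iff₀ hcL]
    exact h4
  exact_mod_cast hle.trans (Nat.le_ceil _)

/-- The discrete core of PART II. -/
theorem discrete_core (n d : ℕ) (hn : 1 ≤ n) (hnd : n ≤ d) (cL CL : ℝ) (hcL : 0 < cL)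
    (hCL : 0 < CL) :
    ∃ b ε : ℝ, 16 ≤ b ∧ 0 < ε ∧ ∀ C_B : ℝ, 0 ≤ C_B → ∃ η : ℝ, 0 < η ∧
      ∀ {S : Set (EuclideanSpace ℝ (Fin d))} {x₀ : EuclideanSpace ℝ (Fin d)}
        {ℓ : ℝ} {K : ℕ} (L : Lat S x₀ ℓ b K), 0 < ℓ →
        (∀ k ≤ K, ∀ x ∈ L.W, L.c k x = x → L.c 0 x = x₀ →
          cL * (b ^ (K - k)) ^ n ≤ ((L.cell k x).card : ℝ)) →
        (∀ k ≤ K, ∀ x ∈ L.W, L.c k x = x → L.c 0 x = x₀ →
          ((L.cell k x).card : ℝ) ≤ CL * (b ^ (K - k)) ^ n) →
        (∑ w ∈ L.top, (nbad L n 100 ε w : ℝ)) ≤ C_B * (L.top.card : ℝ) →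
        ∃ F : Finset (EuclideanSpace ℝ (Fin d)), F ⊆ L.top ∧
          (L.top.card : ℝ) ≤ 2 * F.card ∧
          ∃ f : EuclideanSpace ℝ (Fin d) → EuclideanSpace ℝ (Fin n),
            (∀ w ∈ F, ‖f w‖ ≤ 10 * ℓ) ∧
            ∀ w ∈ F, ∀ w' ∈ F, η * dist w w' ≤ dist (f w) (f w') := by
  classical
  obtain ⟨c₁, hc₁, hc₁', c₆, hc₆, hleft⟩ := leftover_large n hn cL CL hcL hCL
  set b : ℝ := 1000 / c₁ with hbdef
  have hbc : b * c₁ = 1000 := by rw [hbdef]; field_simp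
  have hb1000 : (1000 : ℝ) ≤ b := by
    rw [hbdef, le_div_iff₀ hc₁]; linarith
  have hb : 16 ≤ b := by linarith
  have hb0 : 0 < b := by linarith
  set ε : ℝ := 1 / b ^ 2 with hε
  have hε0 : 0 < ε := by positivity
  refine ⟨b, ε, hb, hε0, fun C_B hC_B => ?_⟩
  obtain ⟨κ, hκ, hκ1, η₀, hη₀, hmap⟩ := expanding_map n hn c₁ b hc₁ hc₁' hbc.ge
    ⌈CL / cL * b ^ n⌉₊
  set A : ℝ := C_B + (C_B + 2) / c₆ with hA
  have hA0 : 0 < A := by positivity
  set N : ℕ := ⌈2 * A⌉₊ with hN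
  refine ⟨η₀ * κ ^ N, by positivity, ?_⟩
  intro S x₀ ℓ K L hℓ h1 h2 hbad
  -- the isometries
  let ι₀ : EuclideanSpace ℝ (Fin n) →ₗᵢ[ℝ] EuclideanSpace ℝ (Fin d) :=
    Classical.choice (exists_iso_of_le hnd)
  let good : ℕ → EuclideanSpace ℝ (Fin d) → Prop := fun k x => IsBF S n x (sc ℓ b k) 100 ε
  let P : ℕ → EuclideanSpace ℝ (Fin d) → EuclideanSpace ℝ (Fin d) := fun k x =>
    if h : good k x then h.choose else 0
  let I : ℕ → EuclideanSpace ℝ (Fin d) →
      (EuclideanSpace ℝ (Fin n) →ₗᵢ[ℝ] EuclideanSpace ℝ (Fin d)) := fun k x =>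
    if h : good k x then h.choose_spec.choose else ι₀
  have hgood : ∀ k x, good k x → BF S n x (sc ℓ b k) 100 ε (P k x) (I k x) := by
    intro k x h
    simp only [P, I, dif_pos h]
    exact h.choose_spec.choose_spec
  have hL := hleft L hℓ (ε := ε) hbc.ge hε0 le_rfl h1 h2 good P I hgood
  have hcount := sum_nroot_le L good I c₁ c₆ hc₆ hL
  obtain ⟨f, hf1, hf2⟩ := hmap L hℓ (ε := ε) hε0 le_rfl
    (fun k hk x hx hkx h0x => card_children_le hcL hb0 L h1 h2 k hk x hx hkx h0x)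
    good P I hgood
  have hnb : ∀ w, ((Finset.range (K + 1)).filter (fun k => ¬ good k (L.c k w))).card =
      nbad L n 100 ε w := fun w => by
    unfold nbad
    rfl
  let T : EuclideanSpace ℝ (Fin d) → ℕ := fun w => nbad L n 100 ε w + nroot L good I c₁ w
  have hsum : ∑ w ∈ L.top, (T w : ℝ) ≤ A * (L.top.card : ℝ) := by
    have e1 : ∑ w ∈ L.top, (T w : ℝ) = ∑ w ∈ L.top, (nbad L n 100 ε w : ℝ) +
        ∑ w ∈ L.top, (nroot L good I c₁ w : ℝ) := by
      rw [← Finset.sum_add_distrib]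
      refine Finset.sum_congr rfl fun w _ => ?_
      simp only [T]
      push_cast
      ring
    have e2 : ∑ w ∈ L.top, ((((Finset.range (K + 1)).filter
        (fun k => ¬ good k (L.c k w))).card : ℝ) + 2) =
        ∑ w ∈ L.top, (nbad L n 100 ε w : ℝ) + 2 * (L.top.card : ℝ) := by
      rw [Finset.sum_add_distrib, Finset.sum_const, nsmul_eq_mul]
      simp only [hnb]
      ring
    rw [e2] at hcount
    have e3 : ∑ w ∈ L.top, (nroot L good I c₁ w : ℝ) ≤ (C_B + 2) / c₆ * (L.top.card : ℝ) := by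
      rw [div_mul_eq_mul_div, le_div_iff₀ hc₆]
      nlinarith
    rw [e1, hA]
    linarith
  let F := L.top.filter (fun w => T w ≤ N)
  refine ⟨F, Finset.filter_subset _ _, ?_, f, ?_, ?_⟩
  · -- Markov
    have hsplit : (L.top.card : ℝ) = F.card + (L.top.filter (fun w => ¬ T w ≤ N)).card := by
      exact_mod_cast (Finset.card_filter_add_card_filter_not (s := L.top)
        (fun w => T w ≤ N)).symm
    have hM : ((L.top.filter (fun w => ¬ T w ≤ N)).card : ℝ) * (2 * A) ≤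
        ∑ w ∈ L.top, (T w : ℝ) := by
      calc ((L.top.filter (fun w => ¬ T w ≤ N)).card : ℝ) * (2 * A)
          = (L.top.filter (fun w => ¬ T w ≤ N)).card • (2 * A) := by rw [nsmul_eq_mul]
        _ ≤ ∑ w ∈ L.top.filter (fun w => ¬ T w ≤ N), (T w : ℝ) := by
            refine Finset.card_nsmul_le_sum _ _ _ fun w hw => ?_
            rw [Finset.mem_filter] at hw
            have : N < T w := not_le.mp hw.2
            have h3 : (2 * A) ≤ (N : ℝ) := Nat.le_ceil _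
            have h4 : (N : ℝ) ≤ (T w : ℝ) := by exact_mod_cast this.le
            linarith
        _ ≤ ∑ w ∈ L.top, (T w : ℝ) :=
            Finset.sum_le_sum_of_subset_of_nonneg (Finset.filter_subset _ _)
              (fun w _ _ => Nat.cast_nonneg _)
    have h5 : ((L.top.filter (fun w => ¬ T w ≤ N)).card : ℝ) * (2 * A) ≤
        A * (L.top.card : ℝ) := hM.trans hsum
    have h6 : 2 * ((L.top.filter (fun w => ¬ T w ≤ N)).card : ℝ) ≤ (L.top.card : ℝ) := by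
      have : A * (2 * ((L.top.filter (fun w => ¬ T w ≤ N)).card : ℝ)) ≤
        A * (L.top.card : ℝ) := by linarith
      exact le_of_mul_le_mul_left this hA0
    linarith
  · intro w hw
    exact hf1 w (Finset.filter_subset _ _ hw)
  · intro w hw w' hw'
    have hw2 : T w ≤ N := (Finset.mem_filter.mp hw).2
    refine hf2 w (Finset.filter_subset _ _ hw) w' (Finset.filter_subset _ _ hw') N ?_
    rw [hnb]
    exact hw2

end Crest.Agent.R085
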