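import Mathlib
import Crest.Agent.R085.Defs

/-!
R085 PART II: the endgame `K → ∞`.

* `exists_lip_inverse` : an expanding map on a set has a globally Lipschitz left inverse.
* `limit_lipschitz_image` : a sequence of `M`-Lipschitz maps whose images come `δ k`-close to sets of
  mass at least `m` has an `M`-Lipschitz limit whose image carries mass at least `m`.
-/

set_option autoImplicit false

namespace Crest.Agent.R085

open MeasureTheory Metric Set Filter
open scoped ENNReal NNReal Topology

/-- An expanding map on a set `F` has a globally Lipschitz left inverse; the Lipschitz constant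
depends only on the expansion constant and the ambient dimension. -/
theorem exists_lip_inverse {n d : ℕ} (F : Set (V d)) (h : V d → V n) {c : ℝ} (hc : 0 < c)
    (hh : ∀ x ∈ F, ∀ y ∈ F, c * dist x y ≤ dist (h x) (h y)) :
    ∃ g : V n → V d,
      LipschitzWith (lipschitzExtensionConstant (V d) * Real.toNNReal c⁻¹) g ∧
        ∀ x ∈ F, g (h x) = x := by
  classical
  have hinj : InjOn h F := by
    intro x hx y hy hxy
    have h1 := hh x hx y hy
    rw [hxy, dist_self] at h1
    have h2 : dist x y ≤ 0 := by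
      by_contra hcon
      push Not at hcon
      exact absurd h1 (not_le.mpr (mul_pos hc hcon))
    exact dist_le_zero.mp h2
  let f : V n → V d := Function.invFunOn h F
  have hf : ∀ x ∈ F, f (h x) = x := fun x hx => hinj.leftInvOn_invFunOn hx
  have hlip : LipschitzOnWith (Real.toNNReal c⁻¹) f (h '' F) := by
    refine LipschitzOnWith.of_dist_le_mul ?_
    rintro _ ⟨x, hx, rfl⟩ _ ⟨y, hy, rfl⟩
    rw [hf x hx, hf y hy, Real.coe_toNNReal _ (inv_nonneg.mpr hc.le)]
    rw [inv_mul_eq_div, le_div_iff₀ hc, mul_comm]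
    exact hh x hx y hy
  obtain ⟨g, hg, hfg⟩ := hlip.extend_finite_dimension
  refine ⟨g, hg, fun x hx => ?_⟩
  rw [← hfg (mem_image_of_mem h hx), hf x hx]

/-- Limit of Lipschitz images. -/
theorem limit_lipschitz_image {n d : ℕ} (μ : Measure (V d)) (x : V d) (r' ρ : ℝ) (M : ℝ≥0)
    (m : ℝ≥0∞) (hm : 0 < m) (hfin : μ (closedBall x r') < ⊤)
    (g : ℕ → V n → V d) (hg : ∀ k, LipschitzWith M (g k))
    (A : ℕ → Set (V d)) (δ : ℕ → ℝ) (hδ : Tendsto δ atTop (𝓝 0))
    (hA : ∀ k, A k ⊆ closedBall x r') (hAm : ∀ k, m ≤ μ (A k))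
    (hcov : ∀ k, ∀ y ∈ A k, ∃ z ∈ closedBall (0 : V n) ρ, dist y (g k z) ≤ δ k) :
    ∃ G : V n → V d, LipschitzWith M G ∧
      m ≤ μ (closedBall x r' ∩ G '' closedBall 0 ρ) := by
  classical
  -- the maps are bounded at every point
  obtain ⟨D, hD⟩ := hδ.bddAbove_range
  have hD' : ∀ k, δ k ≤ D := fun k => hD (mem_range_self k)
  have hne : ∀ k, (A k).Nonempty := by
    intro k
    by_contra hcon
    rw [not_nonempty_iff_eq_empty] at hcon
    have := hAm k
    rw [hcon, measure_empty] at this
    exact absurd hm (not_lt.mpr this)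
  have hρ : 0 ≤ ρ := by
    obtain ⟨y, hy⟩ := hne 0
    obtain ⟨z, hz, -⟩ := hcov 0 y hy
    exact dist_nonneg.trans (mem_closedBall.mp hz)
  have hbd : ∀ k, ∀ z : V n, g k z ∈ closedBall x (r' + D + M * (ρ + ‖z‖)) := by
    intro k z
    obtain ⟨y, hy⟩ := hne k
    obtain ⟨w, hw, hyw⟩ := hcov k y hy
    rw [mem_closedBall]
    have h1 : dist (g k z) (g k w) ≤ M * dist z w := (hg k).dist_le_mul z w
    have h2 : dist z w ≤ ρ + ‖z‖ := by
      have h3 : ‖w‖ ≤ ρ := by simpa using hw
      have h4 : dist z w ≤ ‖z‖ + ‖w‖ := by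
        rw [dist_eq_norm]; exact norm_sub_le z w
      linarith
    have h3 : dist y x ≤ r' := mem_closedBall.mp (hA k hy)
    have h4 : dist (g k z) x ≤ dist (g k z) (g k w) + dist (g k w) y + dist y x :=
      dist_triangle4 _ _ _ _
    have h5 : dist (g k w) y ≤ D := by rw [dist_comm]; exact hyw.trans (hD' k)
    have h6 : (M : ℝ) * dist z w ≤ M * (ρ + ‖z‖) := mul_le_mul_of_nonneg_left h2 M.coe_nonneg
    linarith
  -- ultrafilter limit
  let U : Ultrafilter ℕ := hyperfilter ℕ
  have hU : (U : Filter ℕ) ≤ atTop := by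
    have := hyperfilter_le_cofinite (α := ℕ)
    rwa [Nat.cofinite_eq_atTop] at this
  have hlim : ∀ z : V n, ∃ a : V d, Tendsto (fun k => g k z) U (𝓝 a) := by
    intro z
    have hc : IsCompact (closedBall x (r' + D + M * (ρ + ‖z‖))) := isCompact_closedBall _ _
    have hle : ((U.map fun k => g k z : Ultrafilter (V d)) : Filter (V d)) ≤
        𝓟 (closedBall x (r' + D + M * (ρ + ‖z‖))) := by
      rw [le_principal_iff]
      exact Ultrafilter.mem_map.mpr (univ_mem' fun k => hbd k z)
    obtain ⟨a, -, ha⟩ := hc.ultrafilter_le_nhds _ hle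
    exact ⟨a, ha⟩
  choose G hG using hlim
  have hGlip : LipschitzWith M G := by
    refine LipschitzWith.of_dist_le_mul fun z w => ?_
    exact le_of_tendsto ((hG z).dist (hG w)) (Eventually.of_forall fun k => (hg k).dist_le_mul z w)
  refine ⟨G, hGlip, ?_⟩
  -- uniform convergence on the closed ball
  have hunif : ∀ ε : ℝ, 0 < ε → ∀ᶠ k in (U : Filter ℕ), ∀ z ∈ closedBall (0 : V n) ρ,
      dist (g k z) (G z) ≤ ε := by
    intro ε hε
    have hc : IsCompact (closedBall (0 : V n) ρ) := isCompact_closedBall _ _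
    obtain ⟨η, hη, hηM⟩ : ∃ η : ℝ, 0 < η ∧ (M : ℝ) * η ≤ ε / 3 := by
      refine ⟨ε / 3 / (M + 1), by positivity, ?_⟩
      rw [mul_div_assoc', div_le_iff₀ (by positivity)]
      have : (0 : ℝ) ≤ M := M.coe_nonneg
      nlinarith
    obtain ⟨t, -, htf, hcov'⟩ := hc.finite_cover_balls hη
    have h1 : ∀ᶠ k in (U : Filter ℕ), ∀ z ∈ t, dist (g k z) (G z) < ε / 3 := by
      rw [htf.eventually_all]
      intro z _
      have := (hG z)
      rw [Metric.tendsto_nhds] at this
      exact this (ε / 3) (by positivity)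
    filter_upwards [h1] with k hk z hz
    obtain ⟨w, hwt, hzw⟩ := mem_iUnion₂.mp (hcov' hz)
    have h2 : dist (g k z) (g k w) ≤ M * dist z w := (hg k).dist_le_mul z w
    have h3 : dist (G w) (G z) ≤ M * dist w z := hGlip.dist_le_mul w z
    have h4 : dist z w ≤ η := (mem_ball.mp hzw).le
    have h5 : (M : ℝ) * dist z w ≤ ε / 3 :=
      (mul_le_mul_of_nonneg_left h4 M.coe_nonneg).trans hηM
    rw [dist_comm w z] at h3
    have h6 := hk w hwt
    have h7 : dist (g k z) (G z) ≤ dist (g k z) (g k w) + dist (g k w) (G w) + dist (G w) (G z) :=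
      dist_triangle4 _ _ _ _
    linarith
  -- mass of thickenings
  let S : Set (V d) := G '' closedBall (0 : V n) ρ
  have hScomp : IsCompact S := (isCompact_closedBall _ _).image hGlip.continuous
  have hthick : ∀ ε : ℝ, 0 < ε → m ≤ (μ.restrict (closedBall x r')) (cthickening ε S) := by
    intro ε hε
    have h1 := hunif (ε / 2) (by positivity)
    have h2 : ∀ᶠ k in (U : Filter ℕ), δ k ≤ ε / 2 := by
      have : ∀ᶠ k in atTop, δ k < ε / 2 := hδ.eventually (gt_mem_nhds (by positivity))
      exact (this.filter_mono hU).mono fun k hk => hk.le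
    obtain ⟨k, hk1, hk2⟩ := (h1.and h2).exists
    have hsub : A k ⊆ cthickening ε S ∩ closedBall x r' := by
      intro y hy
      refine ⟨?_, hA k hy⟩
      obtain ⟨z, hz, hyz⟩ := hcov k y hy
      have h3 : dist y (G z) ≤ ε := by
        have h4 := dist_triangle y (g k z) (G z)
        have h5 := hk1 z hz
        linarith
      exact mem_cthickening_of_dist_le y (G z) ε S (mem_image_of_mem G hz) h3
    rw [Measure.restrict_apply isClosed_cthickening.measurableSet]
    exact (hAm k).trans (measure_mono hsub)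
  have hfinr : IsFiniteMeasure (μ.restrict (closedBall x r')) := by
    refine ⟨?_⟩
    rwa [Measure.restrict_apply_univ]
  have htend : Tendsto (fun ε : ℝ => (μ.restrict (closedBall x r')) (cthickening ε S))
      (𝓝 0) (𝓝 ((μ.restrict (closedBall x r')) S)) :=
    tendsto_measure_cthickening_of_isCompact hScomp
  have hfinal : m ≤ (μ.restrict (closedBall x r')) S := by
    refine ge_of_tendsto (htend.mono_left (nhdsWithin_le_nhds (s := Ioi (0 : ℝ)))) ?_
    filter_upwards [self_mem_nhdsWithin] with ε hε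
    exact hthick ε hε
  rw [Measure.restrict_apply hScomp.measurableSet] at hfinal
  rwa [inter_comm] at hfinal

end Crest.Agent.R085
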