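import Mathlib
import Crest.Agent.R085.P2Defs
import Crest.Agent.R085.P2Limit

/-!
R085 (S0113), PART II, file P2End: from finite depth expanding maps to a Lipschitz image.
-/

set_option autoImplicit false

namespace Crest.Agent.R085

open MeasureTheory Metric Set Filter
open scoped ENNReal NNReal Topology

/-- Different leaves are `sc K / 4`-separated. -/
theorem Lat.leaf_sep {d : ℕ} {S : Set (EuclideanSpace ℝ (Fin d))}
    {x₀ : EuclideanSpace ℝ (Fin d)} {ℓ b : ℝ} {K : ℕ} (L : Lat S x₀ ℓ b K)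
    {w w' : EuclideanSpace ℝ (Fin d)} (hw : w ∈ L.W) (hw' : w' ∈ L.W) (hne : w ≠ w') :
    sc ℓ b K / 4 ≤ dist w w' := by
  by_contra hcon
  push Not at hcon
  have h1 := L.c_inner K le_rfl w' hw' (L.c_last w' hw') w hw hcon
  rw [L.c_last w hw] at h1
  exact hne h1

/-- Lower bound for the number of leaves of the top cell (depth at least one). -/
theorem top_card_lower {d n : ℕ} {C : ℝ} (hC : 1 ≤ C)
    (μ : Measure (EuclideanSpace ℝ (Fin d))) {x₀ : EuclideanSpace ℝ (Fin d)} {ℓ b : ℝ}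
    (hx₀ : x₀ ∈ μ.support) (hℓ : 0 < ℓ) (hb : 16 ≤ b)
    (hAD : ADat n C (100 * ℓ) μ μ.support) {K : ℕ} (hK : 1 ≤ K)
    (L : Lat μ.support x₀ ℓ b K) :
    (C ^ 2 * 16 ^ n)⁻¹ * (b ^ K) ^ n ≤ (L.top.card : ℝ) := by
  classical
  have hb0 : 0 < b := by linarith
  have hsc : 0 < sc ℓ b K := sc_pos hℓ hb0 K
  have hscK : sc ℓ b K ≤ ℓ / 16 := by
    unfold sc
    have h1 : (16 : ℝ) ≤ b ^ K := by
      calc (16 : ℝ) ≤ b := hb
        _ = b ^ 1 := (pow_one b).symm
        _ ≤ b ^ K := pow_le_pow_right₀ (by linarith) hK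
    exact div_le_div_of_nonneg_left hℓ.le (by norm_num) h1
  have hcov : ball x₀ (ℓ / 8) ∩ μ.support ⊆ ⋃ w ∈ L.top, ball w (2 * sc ℓ b K) := by
    rintro y ⟨hy, hyS⟩
    rw [mem_ball] at hy
    obtain ⟨w, hwW, hyw⟩ := L.dense y hyS (by linarith)
    have hwx : dist w x₀ < sc ℓ b 0 / 4 := by
      rw [sc_zero]
      have h1 := dist_triangle w y x₀
      rw [dist_comm w y] at h1
      linarith
    have hwt : w ∈ L.top := by
      rw [L.mem_top]
      exact ⟨hwW, L.c_inner 0 (Nat.zero_le _) x₀ L.root_mem L.c_root w hwW hwx⟩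
    refine mem_iUnion₂.mpr ⟨w, hwt, ?_⟩
    rw [mem_ball]
    linarith
  have hcompl : μ μ.supportᶜ = 0 := μ.measure_compl_support
  have h1 : μ (ball x₀ (ℓ / 8)) ≤ μ (ball x₀ (ℓ / 8) ∩ μ.support) := by
    calc μ (ball x₀ (ℓ / 8)) ≤ μ ((ball x₀ (ℓ / 8) ∩ μ.support) ∪ μ.supportᶜ) := by
          refine measure_mono fun y hy => ?_
          by_cases h : y ∈ μ.support
          · exact Or.inl ⟨hy, h⟩
          · exact Or.inr h
      _ ≤ μ (ball x₀ (ℓ / 8) ∩ μ.support) + μ μ.supportᶜ := measure_union_le _ _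
      _ = μ (ball x₀ (ℓ / 8) ∩ μ.support) := by rw [hcompl, add_zero]
  have h2 : μ (ball x₀ (ℓ / 8) ∩ μ.support) ≤
      ∑ w ∈ L.top, ENNReal.ofReal (C * (2 * sc ℓ b K) ^ n) := by
    refine (measure_mono hcov).trans ((measure_biUnion_finset_le _ _).trans ?_)
    refine Finset.sum_le_sum fun w hw => ?_
    have hwS : w ∈ μ.support := L.W_sub w (L.mem_top.mp hw).1
    exact (hAD w hwS (2 * sc ℓ b K) (by linarith) (by linarith)).2
  have h3 := (hAD x₀ hx₀ (ℓ / 8) (by linarith) (by linarith)).1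
  have h4 : ENNReal.ofReal (C⁻¹ * (ℓ / 8) ^ n) ≤
      ENNReal.ofReal (L.top.card * (C * (2 * sc ℓ b K) ^ n)) := by
    refine h3.trans (h1.trans (h2.trans ?_))
    rw [Finset.sum_const, nsmul_eq_mul, ← ENNReal.ofReal_natCast,
      ← ENNReal.ofReal_mul (by positivity)]
  have h5 : C⁻¹ * (ℓ / 8) ^ n ≤ L.top.card * (C * (2 * sc ℓ b K) ^ n) :=
    (ENNReal.ofReal_le_ofReal_iff (by positivity)).mp h4
  have hCpos : 0 < C := by linarith
  have hbK : 0 < b ^ K := by positivity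
  have h6 : (ℓ / 8) ^ n = (2 * sc ℓ b K) ^ n * ((b ^ K) ^ n / 16 ^ n) := by
    rw [← div_pow, ← mul_pow]
    congr 1
    unfold sc
    field_simp
    norm_num
  rw [h6] at h5
  have h7 : 0 < (2 * sc ℓ b K) ^ n := by positivity
  have h8 : C⁻¹ * ((b ^ K) ^ n / 16 ^ n) ≤ L.top.card * C := by
    have h9 : (2 * sc ℓ b K) ^ n * (C⁻¹ * ((b ^ K) ^ n / 16 ^ n)) ≤
        (2 * sc ℓ b K) ^ n * (L.top.card * C) := by
      calc (2 * sc ℓ b K) ^ n * (C⁻¹ * ((b ^ K) ^ n / 16 ^ n))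
          = C⁻¹ * ((2 * sc ℓ b K) ^ n * ((b ^ K) ^ n / 16 ^ n)) := by ring
        _ ≤ L.top.card * (C * (2 * sc ℓ b K) ^ n) := h5
        _ = (2 * sc ℓ b K) ^ n * (L.top.card * C) := by ring
    exact le_of_mul_le_mul_left h9 h7
  have h10 : (C ^ 2 * 16 ^ n)⁻¹ * (b ^ K) ^ n = C⁻¹ * (C⁻¹ * ((b ^ K) ^ n / 16 ^ n)) := by
    field_simp
  rw [h10]
  calc C⁻¹ * (C⁻¹ * ((b ^ K) ^ n / 16 ^ n)) ≤ C⁻¹ * (L.top.card * C) :=
        mul_le_mul_of_nonneg_left h8 (by positivity)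
    _ = L.top.card := by field_simp

/-- Mass of the union of the leaf balls of a finite set of leaves. -/
theorem leaf_mass {d n : ℕ} {C : ℝ} (μ : Measure (EuclideanSpace ℝ (Fin d)))
    {x₀ : EuclideanSpace ℝ (Fin d)} {ℓ b : ℝ} (hℓ : 0 < ℓ) (hb : 16 ≤ b) (hC : 1 ≤ C)
    (hAD : ADat n C (100 * ℓ) μ μ.support) {K : ℕ}
    (L : Lat μ.support x₀ ℓ b K) (F : Finset (EuclideanSpace ℝ (Fin d))) (hF : F ⊆ L.W) :
    ENNReal.ofReal (F.card * (C⁻¹ * (sc ℓ b K / 8) ^ n)) ≤ μ (⋃ w ∈ F, ball w (sc ℓ b K / 8)) := by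
  classical
  have hb0 : 0 < b := by linarith
  have hsc : 0 < sc ℓ b K := sc_pos hℓ hb0 K
  have hscl : sc ℓ b K ≤ ℓ := by
    unfold sc
    exact div_le_self hℓ.le (one_le_pow₀ (by linarith))
  have hCpos : 0 < C := by linarith
  rw [measure_biUnion_finset]
  · rw [ENNReal.ofReal_mul (by positivity), ENNReal.ofReal_natCast, ← nsmul_eq_mul,
      ← Finset.sum_const]
    refine Finset.sum_le_sum fun w hw => ?_
    exact (hAD w (L.W_sub w (hF hw)) (sc ℓ b K / 8) (by linarith) (by linarith)).1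
  · intro w hw w' hw' hne
    have h1 := L.leaf_sep (hF hw) (hF hw') hne
    exact ball_disjoint_ball (by linarith)
  · intro w _
    exact measurableSet_ball

/-- From finite depth expanding maps to a Lipschitz image (limit `K → ∞`). -/
theorem endgame (n d : ℕ) (hn : 1 ≤ n) (C η b : ℝ) (hC : 1 ≤ C) (hη : 0 < η) (hb : 16 ≤ b) :
    ∃ θ : ℝ, 0 < θ ∧ ∃ M : NNReal, ∀ (μ : Measure (EuclideanSpace ℝ (Fin d)))
      (x₀ : EuclideanSpace ℝ (Fin d)) (r : ℝ), 0 < r → x₀ ∈ μ.support →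
      ADat n C r μ μ.support →
      (∀ K : ℕ, ∃ L : Lat μ.support x₀ (r / 100) b K,
        ∃ F : Finset (EuclideanSpace ℝ (Fin d)), F ⊆ L.top ∧
          (L.top.card : ℝ) ≤ 2 * F.card ∧
          ∃ f : EuclideanSpace ℝ (Fin d) → EuclideanSpace ℝ (Fin n),
            (∀ w ∈ F, ‖f w‖ ≤ 10 * (r / 100)) ∧
            ∀ w ∈ F, ∀ w' ∈ F, η * dist w w' ≤ dist (f w) (f w')) →
      ∃ g : EuclideanSpace ℝ (Fin n) → EuclideanSpace ℝ (Fin d),
        LipschitzOnWith M g (Metric.ball 0 r) ∧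
          ENNReal.ofReal (θ * r ^ n) ≤ μ (Metric.ball x₀ r ∩ g '' Metric.ball 0 r) := by
  classical
  have hCpos : 0 < C := by linarith
  have hb0 : 0 < b := by linarith
  refine ⟨(2 * C ^ 3 * 12800 ^ n)⁻¹, by positivity,
    lipschitzExtensionConstant (V d) * Real.toNNReal η⁻¹, ?_⟩
  intro μ x₀ r hr hx₀ hAD hL
  have hℓ : 0 < r / 100 := by positivity
  have hAD' : ADat n C (100 * (r / 100)) μ μ.support := by
    have : 100 * (r / 100) = r := by ring
    rwa [this]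
  choose L F hFL hcard f hfb hfe using fun K : ℕ => hL (K + 1)
  have hg : ∀ K : ℕ, ∃ g : V n → V d,
      LipschitzWith (lipschitzExtensionConstant (V d) * Real.toNNReal η⁻¹) g ∧
        ∀ w ∈ F K, g (f K w) = w := by
    intro K
    exact exists_lip_inverse (F K : Set (V d)) (f K) hη (fun x hx y hy => hfe K x hx y hy)
  choose g hglip hginv using hg
  set s : ℕ → ℝ := fun K => sc (r / 100) b (K + 1) with hs
  have hspos : ∀ K, 0 < s K := fun K => sc_pos hℓ hb0 _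
  have hsle : ∀ K, s K ≤ r / 100 := by
    intro K
    exact div_le_self hℓ.le (one_le_pow₀ (by linarith))
  have hs0 : Tendsto s atTop (𝓝 0) := by
    have h1 : Tendsto (fun K : ℕ => b ^ (K + 1)) atTop atTop :=
      (tendsto_pow_atTop_atTop_of_one_lt (by linarith : 1 < b)).comp (tendsto_add_atTop_nat 1)
    exact h1.const_div_atTop (r / 100)
  have hfinball : μ (closedBall x₀ (r / 2)) < ⊤ := by
    refine (measure_mono (closedBall_subset_ball (by linarith : r / 2 < r))).trans_lt ?_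
    exact (hAD x₀ hx₀ r hr le_rfl).2.trans_lt ENNReal.ofReal_lt_top
  -- the three inputs of the limit theorem
  have hsub : ∀ K, (⋃ w ∈ F K, ball w (s K / 8)) ⊆ closedBall x₀ (r / 2) := by
    intro K y hy
    obtain ⟨w, hw, hyw⟩ := mem_iUnion₂.mp hy
    rw [mem_ball] at hyw
    rw [mem_closedBall]
    obtain ⟨hwW, hwc⟩ := (L K).mem_top.mp (hFL K hw)
    have h1 := (L K).c_dist 0 (Nat.zero_le _) w hwW
    rw [hwc, sc_zero] at h1
    have h2 := dist_triangle y w x₀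
    have h3 := hsle K
    linarith
  have hmass : ∀ K, ENNReal.ofReal ((2 * C ^ 3 * 12800 ^ n)⁻¹ * r ^ n) ≤
      μ (⋃ w ∈ F K, ball w (s K / 8)) := by
    intro K
    have hFW : F K ⊆ (L K).W := fun w hw => ((L K).mem_top.mp (hFL K hw)).1
    refine le_trans ?_ (leaf_mass μ hℓ hb hC hAD' (L K) (F K) hFW)
    refine ENNReal.ofReal_le_ofReal ?_
    have h1 := top_card_lower hC μ hx₀ hℓ hb hAD' (Nat.succ_pos K) (L K)
    have h2 := hcard K
    have h3 : (C ^ 2 * 16 ^ n)⁻¹ * (b ^ (K + 1)) ^ n / 2 ≤ (F K).card := by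
      have h4 : (C ^ 2 * 16 ^ n)⁻¹ * (b ^ (K + 1)) ^ n ≤ 2 * ((F K).card : ℝ) := h1.trans h2
      exact (div_le_iff₀' two_pos).mpr h4
    have h5 : (2 * C ^ 3 * 12800 ^ n)⁻¹ * r ^ n =
        ((C ^ 2 * 16 ^ n)⁻¹ * (b ^ (K + 1)) ^ n / 2) *
          (C⁻¹ * (sc (r / 100) b (K + 1) / 8) ^ n) := by
      unfold sc
      have hbK : b ^ (K + 1) ≠ 0 := by positivity
      have h6 : (r / 100 / b ^ (K + 1) / 8) ^ n = r ^ n / (800 ^ n * (b ^ (K + 1)) ^ n) := by
        rw [← mul_pow, ← div_pow]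
        congr 1
        field_simp
        norm_num
      have h7 : (12800 : ℝ) ^ n = 16 ^ n * 800 ^ n := by
        rw [← mul_pow]; norm_num
      rw [h6, h7]
      field_simp
    rw [h5]
    refine mul_le_mul_of_nonneg_right h3 ?_
    have h8 : 0 < sc (r / 100) b (K + 1) := hspos K
    positivity
  have hclose : ∀ K, ∀ y ∈ (⋃ w ∈ F K, ball w (s K / 8)),
      ∃ z ∈ closedBall (0 : V n) (r / 10), dist y (g K z) ≤ s K / 8 := by
    intro K y hy
    obtain ⟨w, hw, hyw⟩ := mem_iUnion₂.mp hy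
    refine ⟨f K w, ?_, ?_⟩
    · rw [mem_closedBall, dist_zero_right]
      have := hfb K w hw
      linarith
    · rw [hginv K w hw]
      exact (mem_ball.mp hyw).le
  have hδ : Tendsto (fun K => s K / 8) atTop (𝓝 0) := by simpa using hs0.div_const 8
  obtain ⟨G, hG, hGm⟩ := limit_lipschitz_image μ x₀ (r / 2) (r / 10)
    (lipschitzExtensionConstant (V d) * Real.toNNReal η⁻¹)
    (ENNReal.ofReal ((2 * C ^ 3 * 12800 ^ n)⁻¹ * r ^ n)) (ENNReal.ofReal_pos.mpr (by positivity))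
    hfinball g hglip _ _ hδ hsub hmass hclose
  refine ⟨G, hG.lipschitzOnWith, hGm.trans (measure_mono ?_)⟩
  refine inter_subset_inter (closedBall_subset_ball (by linarith)) (image_mono ?_)
  exact closedBall_subset_ball (by linarith)

end Crest.Agent.R085
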