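/-
R085 (S0113), PART II: existence of finite-depth lattices.
Owner: helper18.
-/
import Crest.Agent.R085.P2Defs

set_option autoImplicit false

namespace Crest.Agent.R085

open MeasureTheory Set

namespace LatAux

variable {X : Type*} [MetricSpace X]

/-- Extension of a finite separated subset of a compact set to a finite maximal one. -/
lemma exists_net {T : Set X} (hT : IsCompact T) {δ : ℝ} (hδ : 0 < δ) (N₀ : Finset X)
    (h₀ : ∀ x ∈ N₀, x ∈ T) (hs : ∀ x ∈ N₀, ∀ y ∈ N₀, x ≠ y → δ ≤ dist x y) :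
    ∃ N : Finset X, N₀ ⊆ N ∧ (∀ x ∈ N, x ∈ T) ∧ (∀ x ∈ N, ∀ y ∈ N, x ≠ y → δ ≤ dist x y) ∧
      ∀ y ∈ T, ∃ w ∈ N, dist y w < δ := by
  classical
  obtain ⟨t, -, htf, hcov⟩ := hT.finite_cover_balls (half_pos hδ)
  -- cardinal bound
  have hbound : ∀ N : Finset X, (∀ x ∈ N, x ∈ T) →
      (∀ x ∈ N, ∀ y ∈ N, x ≠ y → δ ≤ dist x y) → N.card ≤ htf.toFinset.card := by
    intro N hN hsep
    have hex : ∀ x : X, x ∈ N → ∃ y ∈ t, dist x y < δ / 2 := by
      intro x hx
      have := hcov (hN x hx)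
      simpa using this
    have hex' : ∀ x : X, ∃ y, x ∈ N → y ∈ t ∧ dist x y < δ / 2 := by
      intro x
      by_cases hx : x ∈ N
      · obtain ⟨y, hy, hxy⟩ := hex x hx
        exact ⟨y, fun _ => ⟨hy, hxy⟩⟩
      · exact ⟨x, fun h => absurd h hx⟩
    choose f hf using hex'
    refine Finset.card_le_card_of_injOn f ?_ ?_
    · intro x hx
      simpa using (hf x hx).1
    · intro x hx y hy hxy
      by_contra hne
      have h1 := hsep x hx y hy hne
      have h2 := (hf x hx).2
      have h3 := (hf y hy).2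
      rw [← hxy] at h3
      have h4 := dist_triangle_right x y (f x)
      linarith
  -- induction
  have key : ∀ m : ℕ, ∀ N : Finset X, (∀ x ∈ N, x ∈ T) →
      (∀ x ∈ N, ∀ y ∈ N, x ≠ y → δ ≤ dist x y) → htf.toFinset.card - N.card = m →
      ∃ N' : Finset X, N ⊆ N' ∧ (∀ x ∈ N', x ∈ T) ∧
        (∀ x ∈ N', ∀ y ∈ N', x ≠ y → δ ≤ dist x y) ∧ ∀ y ∈ T, ∃ w ∈ N', dist y w < δ := by
    intro m
    induction m using Nat.strong_induction_on with
    | _ m ih =>
      intro N hN hsep hm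
      by_cases hd : ∀ y ∈ T, ∃ w ∈ N, dist y w < δ
      · exact ⟨N, Finset.Subset.refl _, hN, hsep, hd⟩
      · push Not at hd
        obtain ⟨y, hyT, hy⟩ := hd
        have hyN : y ∉ N := by
          intro h
          have := hy y h
          rw [dist_self] at this
          linarith
        have hN1 : ∀ x ∈ insert y N, x ∈ T := by
          intro x hx
          rcases Finset.mem_insert.1 hx with rfl | hx
          · exact hyT
          · exact hN x hx
        have hs1 : ∀ x ∈ insert y N, ∀ z ∈ insert y N, x ≠ z → δ ≤ dist x z := by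
          intro x hx z hz hne
          rcases Finset.mem_insert.1 hx with hx | hx
          · rcases Finset.mem_insert.1 hz with hz | hz
            · exact absurd (hx.trans hz.symm) hne
            · rw [hx]; exact hy z hz
          · rcases Finset.mem_insert.1 hz with hz | hz
            · rw [hz, dist_comm]; exact hy x hx
            · exact hsep x hx z hz hne
        have hc1 := hbound _ hN1 hs1
        have hc2 := Finset.card_insert_of_notMem hyN
        obtain ⟨N', h1, h2, h3, h4⟩ := ih (htf.toFinset.card - (insert y N).card)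
          (by omega) (insert y N) hN1 hs1 rfl
        exact ⟨N', (Finset.subset_insert y N).trans h1, h2, h3, h4⟩
  exact key _ N₀ h₀ hs rfl

/-- Nested nets. -/
lemma exists_nets {T : Set X} (hT : IsCompact T) (x₀ : X) (hx₀ : x₀ ∈ T) (s : ℕ → ℝ)
    (hs : ∀ k, 0 < s k) (hanti : ∀ k, s (k + 1) ≤ s k) :
    ∃ N : ℕ → Finset X, (∀ k, x₀ ∈ N k) ∧ (∀ k, N k ⊆ N (k + 1)) ∧ (∀ k, ∀ x ∈ N k, x ∈ T) ∧
      (∀ k, ∀ x ∈ N k, ∀ y ∈ N k, x ≠ y → s k ≤ dist x y) ∧
      ∀ k, ∀ y ∈ T, ∃ w ∈ N k, dist y w < s k := by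
  classical
  let P : ℕ → Finset X → Prop := fun k N => x₀ ∈ N ∧ (∀ x ∈ N, x ∈ T) ∧
    (∀ x ∈ N, ∀ y ∈ N, x ≠ y → s k ≤ dist x y) ∧ ∀ y ∈ T, ∃ w ∈ N, dist y w < s k
  have h0 : ∃ N, P 0 N := by
    obtain ⟨N, h1, h2, h3, h4⟩ := exists_net hT (hs 0) {x₀} (by simpa using hx₀)
      (by
        intro x hx y hy hne
        rw [Finset.mem_singleton] at hx hy
        exact absurd (hx.trans hy.symm) hne)
    exact ⟨N, h1 (Finset.mem_singleton_self _), h2, h3, h4⟩
  have hstep : ∀ k N, P k N → ∃ N', P (k + 1) N' ∧ N ⊆ N' := by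
    rintro k N ⟨a1, a2, a3, -⟩
    obtain ⟨N', h1, h2, h3, h4⟩ := exists_net hT (hs (k + 1)) N a2
      (fun x hx y hy hne => (hanti k).trans (a3 x hx y hy hne))
    exact ⟨N', ⟨h1 a1, h2, h3, h4⟩, h1⟩
  let seq : (k : ℕ) → {N : Finset X // P k N} := fun k =>
    Nat.rec ⟨h0.choose, h0.choose_spec⟩
      (fun k N => ⟨(hstep k N.1 N.2).choose, (hstep k N.1 N.2).choose_spec.1⟩) k
  refine ⟨fun k => (seq k).1, fun k => (seq k).2.1, fun k => ?_, fun k => (seq k).2.2.1,
    fun k => (seq k).2.2.2.1, fun k => (seq k).2.2.2.2⟩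
  exact (hstep k (seq k).1 (seq k).2).choose_spec.2

/-- Downward iteration of `p`. -/
def cc (p : ℕ → X → X) (K : ℕ) : ℕ → X → X
  | 0, w => w
  | (m + 1), w => p (K - (m + 1)) (cc p K m w)

omit [MetricSpace X] in
lemma cc_step (p : ℕ → X → X) (K : ℕ) {k : ℕ} (hk : k < K) (w : X) :
    cc p K (K - k) w = p k (cc p K (K - (k + 1)) w) := by
  have h : K - k = (K - (k + 1)) + 1 := by omega
  rw [h]
  show p (K - ((K - (k + 1)) + 1)) _ = _
  have h2 : K - ((K - (k + 1)) + 1) = k := by omega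
  rw [h2]

end LatAux

open LatAux in
/-- Existence of lattices of finite depth. -/
theorem exists_lat {d : ℕ} (S : Set (EuclideanSpace ℝ (Fin d))) (hS : IsClosed S)
    (x₀ : EuclideanSpace ℝ (Fin d)) (hx : x₀ ∈ S) (ℓ b : ℝ) (hℓ : 0 < ℓ) (hb : 16 ≤ b) (K : ℕ) :
    Nonempty (Lat S x₀ ℓ b K) := by
  classical
  have hb0 : 0 < b := by linarith
  set T : Set (EuclideanSpace ℝ (Fin d)) := S ∩ Metric.closedBall x₀ (10 * ℓ) with hTdef
  have hT : IsCompact T := (isCompact_closedBall x₀ (10 * ℓ)).inter_left hS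
  have hx₀T : x₀ ∈ T := ⟨hx, Metric.mem_closedBall_self (by positivity)⟩
  have hsp : ∀ k, 0 < sc ℓ b k := sc_pos hℓ hb0
  have hss : ∀ k, 16 * sc ℓ b (k + 1) ≤ sc ℓ b k := by
    intro k
    rw [sc_succ hb0 k]
    exact mul_le_mul_of_nonneg_right hb (hsp _).le
  obtain ⟨N, hNx, hNN, hNT, hNs, hNd⟩ := exists_nets hT x₀ hx₀T (sc ℓ b) hsp
    (fun k => by linarith [hss k, hsp (k + 1)])
  have hmono : ∀ {j k : ℕ}, j ≤ k → N j ⊆ N k := fun h => monotone_nat_of_le_succ hNN h
  -- nearest points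
  have hp : ∀ (k : ℕ) (x : EuclideanSpace ℝ (Fin d)), ∃ y ∈ N k, ∀ z ∈ N k, dist x y ≤ dist x z :=
    fun k x => Finset.exists_min_image (N k) (fun y => dist x y) ⟨x₀, hNx k⟩
  choose p hpm hpn using hp
  have hpfix : ∀ k, ∀ x ∈ N k, p k x = x := by
    intro k x hxk
    have h1 := hpn k x x hxk
    rw [dist_self] at h1
    exact (dist_le_zero.1 h1).symm
  have hpd : ∀ k, ∀ x ∈ T, dist x (p k x) ≤ sc ℓ b k := by
    intro k x hxT
    obtain ⟨w, hw, hxw⟩ := hNd k x hxT
    exact (hpn k x w hw).trans hxw.le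
  set c : ℕ → EuclideanSpace ℝ (Fin d) → EuclideanSpace ℝ (Fin d) :=
    fun k w => cc p K (K - k) w with hc
  have c_step : ∀ {k : ℕ}, k < K → ∀ w, c k w = p k (c (k + 1) w) := fun hk w => cc_step p K hk w
  have c_K : ∀ w, c K w = w := by
    intro w
    show cc p K (K - K) w = w
    rw [Nat.sub_self]; rfl
  have c_N : ∀ k ≤ K, ∀ w ∈ N K, c k w ∈ N k := by
    intro k hk w hw
    rcases hk.eq_or_lt with rfl | hk
    · rw [c_K]; exact hw
    · rw [c_step hk]; exact hpm _ _
  have c_fix : ∀ k, ∀ x ∈ N k, ∀ i, k ≤ i → i ≤ K → c i x = x := by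
    intro k x hxk i hki hiK
    induction hiK using Nat.decreasingInduction with
    | self => exact c_K x
    | of_succ i hi ih =>
      rw [c_step hi, ih (by omega)]
      exact hpfix i x (hmono hki hxk)
  have c_comp : ∀ j k, j ≤ k → k ≤ K → ∀ w ∈ N K, c j (c k w) = c j w := by
    intro j k hjk hkK w hw
    induction hjk using Nat.decreasingInduction with
    | self => exact c_fix k _ (c_N k hkK w hw) k le_rfl hkK
    | of_succ j hj ih =>
      rw [c_step (by omega : j < K), c_step (by omega : j < K), ih]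
  have c_dist : ∀ k ≤ K, ∀ w ∈ N K, dist w (c k w) ≤ 16 / 15 * sc ℓ b k := by
    intro k hk w hw
    induction hk using Nat.decreasingInduction with
    | self => rw [c_K, dist_self]; linarith [hsp K]
    | of_succ k hk ih =>
      have h1 := hpd k (c (k + 1) w) (hNT _ _ (c_N (k + 1) hk w hw))
      rw [← c_step hk] at h1
      have h2 := dist_triangle w (c (k + 1) w) (c k w)
      have h3 := hss k
      linarith
  refine ⟨⟨N K, c, ?_, ?_, ?_, c_comp, ?_, ?_, ?_, hNx K, ?_⟩⟩
  · exact fun w hw => (hNT K w hw).1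
  · exact fun k hk w hw => hmono hk (c_N k hk w hw)
  · exact fun w _ => c_K w
  · intro k hk w hw
    have := c_dist k hk w hw
    linarith [hsp k]
  · intro k hk x hxK hxk w hw hwx
    have hxN : x ∈ N k := by rw [← hxk]; exact c_N k hk x hxK
    by_contra hne
    have hcwN := c_N k hk w hw
    have hsep := hNs k _ hcwN x hxN hne
    rcases hk.eq_or_lt with rfl | hk
    · rw [c_K] at hsep
      linarith [hsp k]
    · have h1 := c_dist (k + 1) hk w hw
      have h2 := hpn k (c (k + 1) w) x hxN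
      rw [← c_step hk] at h2
      have h3 := dist_triangle_left (c k w) x (c (k + 1) w)
      have h4 := dist_triangle_left (c (k + 1) w) x w
      have h5 := hss k
      have h6 := hsp k
      linarith
  · intro y hy hyd
    obtain ⟨w, hw, hyw⟩ := hNd K y ⟨hy, Metric.mem_closedBall.2 hyd⟩
    exact ⟨w, hw, hyw.le⟩
  · exact c_fix 0 x₀ (hNx 0) 0 le_rfl (Nat.zero_le _)

end Crest.Agent.R085
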