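/-
R085 (S0113), PART II: main theorem of PART II (assembly).  Owner: helper887 (subtask 189).
-/
import Crest.Agent.R085.P2Core
import Crest.Agent.R085.P2Lat
import Crest.Agent.R085.P2Card
import Crest.Agent.R085.P2End

set_option autoImplicit false

namespace Crest.Agent.R085

open MeasureTheory Set

/-- PART II: the bilateral weak geometric lemma implies big pieces of Lipschitz images. -/
theorem part_two (d n : ℕ) (hn : 1 ≤ n) (hnd : n ≤ d) (C_AD C_R : ℝ)
    (h : BWGL d n C_AD C_R) :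
    ∃ θ : ℝ, 0 < θ ∧ ∃ M : NNReal, ∀ μ : MeasureTheory.Measure (EuclideanSpace ℝ (Fin d)),
      Crest.AnalysisR.IsADRegular n C_AD μ → Crest.AnalysisR.HasRieszBound n C_R μ →
        Crest.AnalysisR.IsUniformlyRectifiable n θ M μ := by
  by_cases hC : 1 ≤ C_AD
  swap
  · exact ⟨1, one_pos, 0, fun μ hμ _ => absurd hμ.1 hC⟩
  have hC0 : 0 < C_AD := by linarith
  obtain ⟨b, ε, hb, hε, hcore⟩ := discrete_core n d hn hnd ((C_AD ^ 2 * 16 ^ n)⁻¹)
    (C_AD ^ 2 * 24 ^ n) (by positivity) (by positivity)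
  obtain ⟨C_B, hC_B, hBW⟩ := h b 100 ε hb (by norm_num) hε
  obtain ⟨η, hη, hcore'⟩ := hcore C_B hC_B
  obtain ⟨θ, hθ, M, hend⟩ := endgame n d hn C_AD η b hC hη hb
  refine ⟨θ, hθ, M, fun μ hμ hR x₀ hx₀ r hr => ?_⟩
  have hr0 : 0 < r := hr.1
  have hADat : ADat n C_AD r μ μ.support := by
    intro x hx r' hr'0 hr'
    exact hμ.2 x hx r' ⟨hr'0, (ENNReal.ofReal_le_ofReal hr').trans hr.2⟩
  have hscale : 100 * (r / 100) = r := by ring
  have hℓ : 0 < r / 100 := by positivity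
  have hADat' : ADat n C_AD (100 * (r / 100)) μ μ.support := by rw [hscale]; exact hADat
  have hcompl : μ μ.supportᶜ = 0 := Measure.measure_compl_support
  refine hend μ x₀ r hr0 hx₀ hADat fun K => ?_
  obtain ⟨L⟩ := exists_lat μ.support Measure.isClosed_support x₀ hx₀ (r / 100) b hℓ hb K
  have hadm : Crest.AnalysisR.IsAdmissibleRadius μ (100 * (r / 100)) := by
    rw [hscale]; exact hr
  obtain ⟨F, hF, hcard, f, hf1, hf2⟩ := hcore' L hℓ
    (fun k hk x hx hkx h0x =>
      card_cell_lower hC μ μ.support hcompl hℓ hb hADat' L k hk x hx hkx h0x)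
    (fun k hk x hx hkx _ =>
      card_cell_upper hC μ μ.support hℓ hb hADat' L k hk x hx hkx)
    (hBW μ hμ hR x₀ hx₀ (r / 100) hadm K L)
  exact ⟨L, F, hF, hcard, f, hf1, hf2⟩

end Crest.Agent.R085
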