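import Mathlib

/-!
R085 / M2 : abstract almost-orthogonality lemma (finite Schur test without weights) and the
geometric counting lemma.
-/

set_option autoImplicit false

open scoped BigOperators InnerProductSpace ENNReal
open MeasureTheory Metric

namespace Crest.Agent.R085.Pack

/-- Abstract almost orthogonality: if the rows of the Gram matrix satisfy
`∑ j, |g i j| ≤ C w i` and a linear functional `ℓ` on the span is bounded by
`G (∑∑ a_i a_j g_ij)^(1/2)`, then `∑ ℓ_i² / w_i ≤ C G²`. -/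
theorem almost_orth {ι : Type*} (s : Finset ι) (g : ι → ι → ℝ) (w : ι → ℝ)
    (hw : ∀ i ∈ s, 0 < w i) (C G : ℝ) (hC0 : 0 ≤ C) (hG0 : 0 ≤ G)
    (hsym : ∀ i ∈ s, ∀ j ∈ s, g i j = g j i)
    (hC : ∀ i ∈ s, ∑ j ∈ s, |g i j| ≤ C * w i) (l : ι → ℝ)
    (hl : ∀ a : ι → ℝ, |∑ i ∈ s, a i * l i| ≤ G * √(∑ i ∈ s, ∑ j ∈ s, a i * a j * g i j)) :
    ∑ i ∈ s, l i ^ 2 / w i ≤ C * G ^ 2 := by
  classical
  set A : ℝ := ∑ i ∈ s, l i ^ 2 / w i with hA
  set a : ι → ℝ := fun i => l i / w i with ha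
  have hA0 : 0 ≤ A := Finset.sum_nonneg fun i hi => div_nonneg (sq_nonneg _) (hw i hi).le
  have hAeq : ∑ i ∈ s, a i * l i = A := by
    rw [hA]
    refine Finset.sum_congr rfl fun i _ => ?_
    simp only [ha]
    ring
  have h1 : A ≤ G * √(∑ i ∈ s, ∑ j ∈ s, a i * a j * g i j) := by
    have := hl a
    rw [hAeq] at this
    exact (le_abs_self A).trans this
  have h2 : ∑ i ∈ s, ∑ j ∈ s, a i * a j * g i j ≤ C * A := by
    have e2 : ∑ i ∈ s, ∑ j ∈ s, a i * a j * g i j
        ≤ ∑ i ∈ s, ∑ j ∈ s, (a i ^ 2 / 2 * |g i j| + a j ^ 2 / 2 * |g i j|) := by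
      refine Finset.sum_le_sum fun i _ => Finset.sum_le_sum fun j _ => ?_
      have h3 : a i * a j * g i j ≤ |a i * a j| * |g i j| := by
        rw [← abs_mul]; exact le_abs_self _
      have h4 : |a i * a j| ≤ a i ^ 2 / 2 + a j ^ 2 / 2 := by
        rw [abs_mul]
        nlinarith [sq_nonneg (|a i| - |a j|), sq_abs (a i), sq_abs (a j)]
      nlinarith [abs_nonneg (g i j)]
    have e3 : ∑ i ∈ s, ∑ j ∈ s, (a i ^ 2 / 2 * |g i j| + a j ^ 2 / 2 * |g i j|)
        = ∑ i ∈ s, a i ^ 2 * ∑ j ∈ s, |g i j| := by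
      have h5 : ∑ i ∈ s, ∑ j ∈ s, a j ^ 2 / 2 * |g i j|
          = ∑ i ∈ s, ∑ j ∈ s, a i ^ 2 / 2 * |g i j| := by
        rw [Finset.sum_comm]
        refine Finset.sum_congr rfl fun i hi => Finset.sum_congr rfl fun j hj => ?_
        rw [hsym j hj i hi]
      simp only [Finset.sum_add_distrib]
      rw [h5, ← Finset.sum_add_distrib]
      refine Finset.sum_congr rfl fun i _ => ?_
      rw [← Finset.sum_add_distrib, Finset.mul_sum]
      refine Finset.sum_congr rfl fun j _ => ?_
      ring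
    have e4 : ∑ i ∈ s, a i ^ 2 * ∑ j ∈ s, |g i j| ≤ ∑ i ∈ s, a i ^ 2 * (C * w i) :=
      Finset.sum_le_sum fun i hi => mul_le_mul_of_nonneg_left (hC i hi) (sq_nonneg _)
    have e5 : ∑ i ∈ s, a i ^ 2 * (C * w i) = C * A := by
      rw [hA, Finset.mul_sum]
      refine Finset.sum_congr rfl fun i hi => ?_
      have := (hw i hi).ne'
      simp only [ha]
      field_simp
    linarith
  rcases hA0.eq_or_lt with h0 | hpos
  · rw [← h0]; positivity
  · have h6 : A ^ 2 ≤ G ^ 2 * (C * A) := by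
      calc A ^ 2 ≤ (G * √(∑ i ∈ s, ∑ j ∈ s, a i * a j * g i j)) ^ 2 :=
            pow_le_pow_left₀ hA0 h1 2
        _ ≤ (G * √(C * A)) ^ 2 := by
            gcongr
        _ = G ^ 2 * (C * A) := by
            rw [mul_pow, Real.sq_sqrt (by positivity)]
    have h7 : A * A ≤ A * (C * G ^ 2) := by nlinarith
    exact le_of_mul_le_mul_left h7 hpos

/-- Counting lemma: a finite `σ r`-separated set inside `closedBall y ρ`, all of whose points
carry mass at least `c (σ r / 2)^n` on the ball of radius `σ r / 2`. -/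
theorem card_separated_le {X : Type*} [PseudoMetricSpace X] [MeasurableSpace X]
    [OpensMeasurableSpace X] {μ : Measure X} {n : ℕ} {C c : ℝ} (hc : 0 < c) (hC : 0 ≤ C)
    {ι : Type*} (T : Finset ι) (x : ι → X) (y : X) {t ρ : ℝ} (ht : 0 < t) (hρ : 0 ≤ ρ)
    (hup : μ (closedBall y (ρ + t)) ≤ ENNReal.ofReal (C * (ρ + t) ^ n))
    (hlow : ∀ i ∈ T, ENNReal.ofReal (c * t ^ n) ≤ μ (ball (x i) t))
    (hin : ∀ i ∈ T, dist (x i) y ≤ ρ)
    (hsep : ∀ i ∈ T, ∀ j ∈ T, i ≠ j → 2 * t ≤ dist (x i) (x j)) :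
    (T.card : ℝ) ≤ C / c * ((ρ + t) / t) ^ n := by
  classical
  have hdisj : (T : Set ι).PairwiseDisjoint fun i => ball (x i) t := by
    intro i hi j hj hij
    refine ball_disjoint_ball ?_
    have := hsep i hi j hj hij
    linarith
  have h1 : ∑ i ∈ T, μ (ball (x i) t) ≤ μ (closedBall y (ρ + t)) := by
    rw [← measure_biUnion_finset hdisj (fun i _ => measurableSet_ball)]
    refine measure_mono ?_
    refine Set.iUnion₂_subset fun i hi => ?_
    intro z hz
    rw [mem_ball] at hz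
    rw [mem_closedBall]
    have := dist_triangle z (x i) y
    have := hin i hi
    linarith
  have h2 : (T.card : ℝ≥0∞) * ENNReal.ofReal (c * t ^ n) ≤ ENNReal.ofReal (C * (ρ + t) ^ n) := by
    calc (T.card : ℝ≥0∞) * ENNReal.ofReal (c * t ^ n)
        = ∑ i ∈ T, ENNReal.ofReal (c * t ^ n) := by
          rw [Finset.sum_const, nsmul_eq_mul]
      _ ≤ ∑ i ∈ T, μ (ball (x i) t) := Finset.sum_le_sum fun i hi => hlow i hi
      _ ≤ μ (closedBall y (ρ + t)) := h1
      _ ≤ _ := hup
  have h3 : (T.card : ℝ) * (c * t ^ n) ≤ C * (ρ + t) ^ n := by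
    have hnn : 0 ≤ c * t ^ n := by positivity
    have h4 : (T.card : ℝ≥0∞) * ENNReal.ofReal (c * t ^ n)
        = ENNReal.ofReal ((T.card : ℝ) * (c * t ^ n)) := by
      rw [ENNReal.ofReal_mul (Nat.cast_nonneg T.card), ENNReal.ofReal_natCast]
    rw [h4] at h2
    exact (ENNReal.ofReal_le_ofReal_iff (by positivity)).1 h2
  have hct : 0 < c * t ^ n := by positivity
  rw [div_pow]
  rw [← sub_nonneg]
  have : C / c * ((ρ + t) ^ n / t ^ n) = C * (ρ + t) ^ n / (c * t ^ n) := by
    field_simp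
  rw [this, sub_nonneg, le_div_iff₀ hct]
  exact h3

/-- `∑_{k ∈ T} 2^{-|k - k₀|} ≤ 4`. -/
theorem sum_half_pow_dist_le (T : Finset ℕ) (k₀ : ℕ) :
    ∑ k ∈ T, (1 / 2 : ℝ) ^ ((k - k₀) + (k₀ - k)) ≤ 4 := by
  classical
  have hsplit : ∑ k ∈ T, (1 / 2 : ℝ) ^ ((k - k₀) + (k₀ - k))
      ≤ ∑ k ∈ T.filter (fun k => k₀ ≤ k), (1 / 2 : ℝ) ^ (k - k₀)
        + ∑ k ∈ T.filter (fun k => ¬ k₀ ≤ k), (1 / 2 : ℝ) ^ (k₀ - k) := by
    rw [← Finset.sum_filter_add_sum_filter_not T (fun k => k₀ ≤ k)]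
    refine add_le_add ?_ ?_
    · refine Finset.sum_le_sum fun k hk => ?_
      have : k₀ ≤ k := (Finset.mem_filter.1 hk).2
      rw [Nat.sub_eq_zero_of_le this, add_zero]
    · refine Finset.sum_le_sum fun k hk => ?_
      have : ¬ k₀ ≤ k := (Finset.mem_filter.1 hk).2
      rw [Nat.sub_eq_zero_of_le (by omega : k ≤ k₀), zero_add]
  have hgeo : ∀ m : ℕ, ∑ k ∈ Finset.range m, (1 / 2 : ℝ) ^ k ≤ 2 := by
    intro m
    have := sum_geometric_two_le m
    simpa using this
  have h1 : ∑ k ∈ T.filter (fun k => k₀ ≤ k), (1 / 2 : ℝ) ^ (k - k₀) ≤ 2 := by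
    have himg : ∑ k ∈ T.filter (fun k => k₀ ≤ k), (1 / 2 : ℝ) ^ (k - k₀)
        = ∑ j ∈ (T.filter (fun k => k₀ ≤ k)).image (fun k => k - k₀), (1 / 2 : ℝ) ^ j := by
      rw [Finset.sum_image]
      intro a ha b hb hab
      have ha' : k₀ ≤ a := (Finset.mem_filter.1 ha).2
      have hb' : k₀ ≤ b := (Finset.mem_filter.1 hb).2
      simp only at hab
      omega
    rw [himg]
    set S := (T.filter (fun k => k₀ ≤ k)).image (fun k => k - k₀)
    refine le_trans ?_ (hgeo (S.sup id + 1))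
    refine Finset.sum_le_sum_of_subset_of_nonneg ?_ fun _ _ _ => by positivity
    intro j hj
    rw [Finset.mem_range]
    have : id j ≤ S.sup id := Finset.le_sup hj
    simp only [id] at this
    exact Nat.lt_succ_of_le this
  have h2 : ∑ k ∈ T.filter (fun k => ¬ k₀ ≤ k), (1 / 2 : ℝ) ^ (k₀ - k) ≤ 2 := by
    have himg : ∑ k ∈ T.filter (fun k => ¬ k₀ ≤ k), (1 / 2 : ℝ) ^ (k₀ - k)
        = ∑ j ∈ (T.filter (fun k => ¬ k₀ ≤ k)).image (fun k => k₀ - k), (1 / 2 : ℝ) ^ j := by
      rw [Finset.sum_image]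
      intro a ha b hb hab
      have ha' : ¬ k₀ ≤ a := (Finset.mem_filter.1 ha).2
      have hb' : ¬ k₀ ≤ b := (Finset.mem_filter.1 hb).2
      simp only at hab
      omega
    rw [himg]
    set S := (T.filter (fun k => ¬ k₀ ≤ k)).image (fun k => k₀ - k)
    refine le_trans ?_ (hgeo (S.sup id + 1))
    refine Finset.sum_le_sum_of_subset_of_nonneg ?_ fun _ _ _ => by positivity
    intro j hj
    rw [Finset.mem_range]
    have : id j ≤ S.sup id := Finset.le_sup hj
    simp only [id] at this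
    exact Nat.lt_succ_of_le this
  linarith

/-- Row sums of the Gram matrix. `r i = R₀ / b ^ k i` with `b ≥ 2`. -/
theorem row_sum_le {X ι : Type*} [PseudoMetricSpace X] (s : Finset ι) (x : ι → X) (k : ι → ℕ)
    {b R₀ A B M : ℝ} (hb : 2 ≤ b) (hR : 0 < R₀) (hA : 0 ≤ A) (hB : 0 ≤ B) (hM : 0 ≤ M) (n : ℕ)
    (hcount : ∀ i ∈ s, ∀ m : ℕ, ∀ ρ : ℝ, 0 ≤ ρ →
      ((s.filter fun j => k j = m ∧ dist (x j) (x i) ≤ ρ).card : ℝ)
        ≤ B * ((ρ + R₀ / b ^ m) / (R₀ / b ^ m)) ^ n)
    (g : ι → ι → ℝ)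
    (hg : ∀ i ∈ s, ∀ j ∈ s, k i ≤ k j →
      |g i j| ≤ A * ((R₀ / b ^ k j) / (R₀ / b ^ k i)) * (R₀ / b ^ k j) ^ n)
    (hsym : ∀ i ∈ s, ∀ j ∈ s, g i j = g j i)
    (hzero : ∀ i ∈ s, ∀ j ∈ s, k i ≤ k j → 2 * M * (R₀ / b ^ k i) < dist (x j) (x i) → g i j = 0)
    (i : ι) (hi : i ∈ s) :
    ∑ j ∈ s, |g i j| ≤ 4 * (A * B * (2 * M + 1) ^ n) * (R₀ / b ^ k i) ^ n := by
  classical
  have hb0 : (0 : ℝ) < b := by linarith
  have hb1 : (1 : ℝ) ≤ b := by linarith
  set r : ℕ → ℝ := fun m => R₀ / b ^ m with hr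
  have hrpos : ∀ m, 0 < r m := fun m => by simp only [hr]; positivity
  have hanti : ∀ m m', m ≤ m' → r m' ≤ r m := by
    intro m m' h
    simp only [hr]
    exact div_le_div_of_nonneg_left hR.le (by positivity) (pow_le_pow_right₀ hb1 h)
  have hratio : ∀ m m', m ≤ m' → r m' / r m ≤ (1 / 2 : ℝ) ^ (m' - m) := by
    intro m m' h
    have e : r m' / r m = (1 / b) ^ (m' - m) := by
      simp only [hr]
      obtain ⟨p, rfl⟩ := Nat.exists_eq_add_of_le h
      rw [Nat.add_sub_cancel_left, pow_add, one_div, inv_pow]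
      field_simp
    rw [e]
    refine pow_le_pow_left₀ (by positivity) ?_ _
    exact one_div_le_one_div_of_le (by norm_num) hb
  -- split by scales
  have hfib : ∑ j ∈ s, |g i j| = ∑ m ∈ s.image k, ∑ j ∈ s.filter (fun j => k j = m), |g i j| := by
    rw [Finset.sum_fiberwise_of_maps_to]
    intro j hj
    exact Finset.mem_image_of_mem k hj
  rw [hfib]
  have hmain : ∀ m : ℕ, ∑ j ∈ s.filter (fun j => k j = m), |g i j|
      ≤ (A * B * (2 * M + 1) ^ n * r (k i) ^ n) * (1 / 2 : ℝ) ^ ((m - k i) + (k i - m)) := by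
    intro m
    rcases le_total (k i) m with h | h
    · -- finer scale
      have hz : ∑ j ∈ s.filter (fun j => k j = m), |g i j|
          ≤ ∑ j ∈ s.filter (fun j => k j = m ∧ dist (x j) (x i) ≤ 2 * M * r (k i)), |g i j| := by
        rw [← Finset.sum_filter_add_sum_filter_not (s.filter fun j => k j = m)
          (fun j => dist (x j) (x i) ≤ 2 * M * r (k i))]
        rw [Finset.filter_filter, Finset.filter_filter]
        have : ∑ j ∈ s.filter (fun j => k j = m ∧ ¬ dist (x j) (x i) ≤ 2 * M * r (k i)), |g i j|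
            = 0 := by
          refine Finset.sum_eq_zero fun j hj => ?_
          rw [Finset.mem_filter] at hj
          obtain ⟨hj1, hj2, hj3⟩ := hj
          rw [hzero i hi j hj1 (by rw [hj2]; exact h) (not_le.1 hj3), abs_zero]
        rw [this, add_zero]
      refine hz.trans ?_
      have hb1' : ∀ j ∈ s.filter (fun j => k j = m ∧ dist (x j) (x i) ≤ 2 * M * r (k i)),
          |g i j| ≤ A * (r m / r (k i)) * r m ^ n := by
        intro j hj
        rw [Finset.mem_filter] at hj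
        obtain ⟨hj1, hj2, _⟩ := hj
        have := hg i hi j hj1 (by rw [hj2]; exact h)
        rw [hj2] at this
        exact this
      refine (Finset.sum_le_card_nsmul _ _ _ hb1').trans ?_
      rw [nsmul_eq_mul]
      have hc := hcount i hi m (2 * M * r (k i)) (by have := hrpos (k i); positivity)
      have hpos : 0 ≤ A * (r m / r (k i)) * r m ^ n := by
        have := hrpos m; have := hrpos (k i); positivity
      refine (mul_le_mul_of_nonneg_right hc hpos).trans ?_
      have hq : (2 * M * r (k i) + R₀ / b ^ m) / (R₀ / b ^ m) ≤ (2 * M + 1) * r (k i) / r m := by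
        show (2 * M * r (k i) + r m) / r m ≤ _
        refine div_le_div_of_nonneg_right ?_ (hrpos m).le
        have := hanti _ _ h
        linarith
      have hq0 : 0 ≤ (2 * M * r (k i) + R₀ / b ^ m) / (R₀ / b ^ m) := by
        have := hrpos (k i)
        positivity
      have hq2 := pow_le_pow_left₀ hq0 hq n
      calc B * ((2 * M * r (k i) + R₀ / b ^ m) / (R₀ / b ^ m)) ^ n
            * (A * (r m / r (k i)) * r m ^ n)
          ≤ B * ((2 * M + 1) * r (k i) / r m) ^ n * (A * (r m / r (k i)) * r m ^ n) := by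
            gcongr
        _ = (A * B * (2 * M + 1) ^ n * r (k i) ^ n) * (r m / r (k i)) := by
            have h1 := (hrpos m).ne'
            have h2 := (hrpos (k i)).ne'
            rw [div_pow, mul_pow]
            field_simp
        _ ≤ (A * B * (2 * M + 1) ^ n * r (k i) ^ n) * (1 / 2 : ℝ) ^ ((m - k i) + (k i - m)) := by
            rw [Nat.sub_eq_zero_of_le h, add_zero]
            refine mul_le_mul_of_nonneg_left (hratio _ _ h) ?_
            have := hrpos (k i)
            positivity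
    · -- coarser scale
      have hz : ∑ j ∈ s.filter (fun j => k j = m), |g i j|
          ≤ ∑ j ∈ s.filter (fun j => k j = m ∧ dist (x j) (x i) ≤ 2 * M * r m), |g i j| := by
        rw [← Finset.sum_filter_add_sum_filter_not (s.filter fun j => k j = m)
          (fun j => dist (x j) (x i) ≤ 2 * M * r m)]
        rw [Finset.filter_filter, Finset.filter_filter]
        have : ∑ j ∈ s.filter (fun j => k j = m ∧ ¬ dist (x j) (x i) ≤ 2 * M * r m), |g i j|
            = 0 := by
          refine Finset.sum_eq_zero fun j hj => ?_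
          rw [Finset.mem_filter] at hj
          obtain ⟨hj1, hj2, hj3⟩ := hj
          rw [hsym i hi j hj1, hzero j hj1 i hi (by rw [hj2]; exact h)
            (by rw [dist_comm, hj2]; exact not_le.1 hj3), abs_zero]
        rw [this, add_zero]
      refine hz.trans ?_
      have hb1' : ∀ j ∈ s.filter (fun j => k j = m ∧ dist (x j) (x i) ≤ 2 * M * r m),
          |g i j| ≤ A * (r (k i) / r m) * r (k i) ^ n := by
        intro j hj
        rw [Finset.mem_filter] at hj
        obtain ⟨hj1, hj2, _⟩ := hj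
        have := hg j hj1 i hi (by rw [hj2]; exact h)
        rw [hj2] at this
        rw [hsym i hi j hj1]
        exact this
      refine (Finset.sum_le_card_nsmul _ _ _ hb1').trans ?_
      rw [nsmul_eq_mul]
      have hc := hcount i hi m (2 * M * r m) (by have := hrpos m; positivity)
      have hpos : 0 ≤ A * (r (k i) / r m) * r (k i) ^ n := by
        have := hrpos m; have := hrpos (k i); positivity
      refine (mul_le_mul_of_nonneg_right hc hpos).trans ?_
      have hq : (2 * M * r m + R₀ / b ^ m) / (R₀ / b ^ m) = (2 * M + 1) := by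
        show (2 * M * r m + r m) / r m = _
        have h1 := (hrpos m).ne'
        field_simp
      rw [hq]
      calc B * (2 * M + 1) ^ n * (A * (r (k i) / r m) * r (k i) ^ n)
          = (A * B * (2 * M + 1) ^ n * r (k i) ^ n) * (r (k i) / r m) := by ring
        _ ≤ (A * B * (2 * M + 1) ^ n * r (k i) ^ n) * (1 / 2 : ℝ) ^ ((m - k i) + (k i - m)) := by
            rw [Nat.sub_eq_zero_of_le h, zero_add]
            refine mul_le_mul_of_nonneg_left (hratio _ _ h) ?_
            have := hrpos (k i)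
            positivity
  calc ∑ m ∈ s.image k, ∑ j ∈ s.filter (fun j => k j = m), |g i j|
      ≤ ∑ m ∈ s.image k,
          (A * B * (2 * M + 1) ^ n * r (k i) ^ n) * (1 / 2 : ℝ) ^ ((m - k i) + (k i - m)) :=
        Finset.sum_le_sum fun m _ => hmain m
    _ = (A * B * (2 * M + 1) ^ n * r (k i) ^ n) *
          ∑ m ∈ s.image k, (1 / 2 : ℝ) ^ ((m - k i) + (k i - m)) := by rw [Finset.mul_sum]
    _ ≤ (A * B * (2 * M + 1) ^ n * r (k i) ^ n) * 4 := by
        refine mul_le_mul_of_nonneg_left (sum_half_pow_dist_le _ _) ?_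
        have := hrpos (k i)
        positivity
    _ = 4 * (A * B * (2 * M + 1) ^ n) * (R₀ / b ^ k i) ^ n := by
        simp only [hr]; ring

end Crest.Agent.R085.Pack
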