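import Mathlib
import Crest.Agent.R085.Defs
import Crest.Agent.R085.PackAbs

/-!
R085 / M2 : Gram estimate for mean-zero bumps and elementary facts about test functions.
-/

set_option autoImplicit false

namespace Crest.Agent.R085.Pack

open MeasureTheory Metric Set Filter
open scoped ENNReal NNReal Topology

/-- A measure with `μ (ball x r) ≤ C r^n` is locally finite. -/
theorem isLocallyFinite_of_upper {d n : ℕ} {C : ℝ} {μ : Measure (V d)}
    (hup : ∀ (x : V d) (r : ℝ), 0 < r → μ (ball x r) ≤ ENNReal.ofReal (C * r ^ n)) :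
    IsLocallyFiniteMeasure μ := by
  refine ⟨fun x => ⟨ball x 1, ball_mem_nhds x one_pos, ?_⟩⟩
  exact lt_of_le_of_lt (hup x 1 one_pos) ENNReal.ofReal_lt_top

theorem continuous_of_abs_sub_le {d : ℕ} {ψ : V d → ℝ} {r : ℝ} (hr : 0 < r)
    (h : ∀ y z, |ψ y - ψ z| ≤ dist y z / r) : LipschitzWith (Real.toNNReal r⁻¹) ψ := by
  refine LipschitzWith.of_dist_le_mul fun y z => ?_
  rw [Real.coe_toNNReal _ (by positivity), Real.dist_eq]
  refine (h y z).trans (le_of_eq ?_)
  rw [div_eq_inv_mul]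

theorem isTest_of {d : ℕ} {ψ : V d → ℝ} {x : V d} {r R : ℝ} (hr : 0 < r)
    (h : ∀ y z, |ψ y - ψ z| ≤ dist y z / r) (hs : ∀ y, y ∉ ball x R → ψ y = 0) : IsTest ψ := by
  refine ⟨⟨_, continuous_of_abs_sub_le hr h⟩, ?_⟩
  refine HasCompactSupport.intro (isCompact_closedBall x R) fun y hy => hs y fun h' => hy ?_
  exact ball_subset_closedBall h'

/-- Gram estimate. -/
theorem gram_le {d n : ℕ} {C : ℝ} {μ : Measure (V d)}
    (hup : ∀ (x : V d) (r : ℝ), 0 < r → μ (ball x r) ≤ ENNReal.ofReal (C * r ^ n)) (hC : 0 ≤ C)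
    {ψ φ : V d → ℝ} {y : V d} {r t M : ℝ} (hr : 0 < r) (ht : 0 < t) (hM : 0 < M)
    (hψ : ∀ y z, |ψ y - ψ z| ≤ dist y z / r) (hφ : ∀ y z, |φ y - φ z| ≤ dist y z / t)
    (hφ1 : ∀ z, |φ z| ≤ 1) (hφs : ∀ z, z ∉ ball y (M * t) → φ z = 0)
    (hφ0 : ∫ z, φ z ∂μ = 0) :
    |∫ z, ψ z * φ z ∂μ| ≤ (M * t / r) * (C * (M * t) ^ n) := by
  have hlf := isLocallyFinite_of_upper hup
  have hφT := isTest_of ht hφ hφs
  have hφc : Continuous φ := (continuous_of_abs_sub_le ht hφ).continuous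
  have hψc : Continuous ψ := (continuous_of_abs_sub_le hr hψ).continuous
  have hint1 : Integrable φ μ := hφc.integrable_of_hasCompactSupport hφT.cpt
  have hint2 : Integrable (fun z => (ψ z - ψ y) * φ z) μ := by
    refine Continuous.integrable_of_hasCompactSupport ((hψc.sub continuous_const).mul hφc) ?_
    exact hφT.cpt.mul_left
  have e1 : ∫ z, ψ z * φ z ∂μ = ∫ z, (ψ z - ψ y) * φ z ∂μ := by
    have : (fun z => ψ z * φ z) = fun z => (ψ z - ψ y) * φ z + ψ y * φ z := by
      funext z; ring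
    rw [this, integral_add hint2 (hint1.const_mul _), integral_const_mul, hφ0, mul_zero, add_zero]
  rw [e1]
  have e2 : ∫ z, (ψ z - ψ y) * φ z ∂μ = ∫ z in ball y (M * t), (ψ z - ψ y) * φ z ∂μ := by
    rw [setIntegral_eq_integral_of_forall_compl_eq_zero]
    intro z hz
    rw [hφs z hz, mul_zero]
  rw [e2]
  have hMt : 0 < M * t := by positivity
  have hfin : μ (ball y (M * t)) < ∞ := lt_of_le_of_lt (hup y _ hMt) ENNReal.ofReal_lt_top
  have h3 : ‖∫ z in ball y (M * t), (ψ z - ψ y) * φ z ∂μ‖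
      ≤ (M * t / r) * μ.real (ball y (M * t)) := by
    refine norm_setIntegral_le_of_norm_le_const hfin fun z hz => ?_
    rw [Real.norm_eq_abs, abs_mul]
    have h4 : |ψ z - ψ y| ≤ M * t / r := by
      refine (hψ z y).trans ?_
      exact div_le_div_of_nonneg_right (mem_ball.1 hz).le hr.le
    calc |ψ z - ψ y| * |φ z| ≤ (M * t / r) * 1 :=
          mul_le_mul h4 (hφ1 z) (abs_nonneg _) (by positivity)
      _ = M * t / r := mul_one _
  rw [Real.norm_eq_abs] at h3
  refine h3.trans ?_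
  refine mul_le_mul_of_nonneg_left ?_ (by positivity)
  rw [measureReal_def]
  refine ENNReal.toReal_le_of_le_ofReal (by positivity) (hup y _ hMt)

/-- The function `y ↦ ∑ a_i ψ_i(y) e_i` has `L²` norm squared given by the Gram matrix. -/
theorem integral_norm_sq_sum {d : ℕ} {μ : Measure (V d)} [IsLocallyFiniteMeasure μ] {ι : Type*}
    (s : Finset ι) (ψ : ι → V d → ℝ) (e : ι → V d) (a : ι → ℝ) (hψ : ∀ i ∈ s, IsTest (ψ i)) :
    ∫ y, ‖∑ i ∈ s, a i • ψ i y • e i‖ ^ 2 ∂μ
      = ∑ i ∈ s, ∑ j ∈ s, a i * a j * (inner ℝ (e i) (e j) * ∫ y, ψ i y * ψ j y ∂μ) := by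
  have hint : ∀ i ∈ s, ∀ j ∈ s, Integrable (fun y => ψ i y * ψ j y) μ := by
    intro i hi j hj
    obtain ⟨K, hK⟩ := (hψ i hi).lip
    obtain ⟨K', hK'⟩ := (hψ j hj).lip
    refine Continuous.integrable_of_hasCompactSupport (hK.continuous.mul hK'.continuous) ?_
    exact (hψ j hj).cpt.mul_left
  have e1 : ∀ y, ‖∑ i ∈ s, a i • ψ i y • e i‖ ^ 2
      = ∑ i ∈ s, ∑ j ∈ s, a i * a j * (inner ℝ (e i) (e j) * (ψ i y * ψ j y)) := by
    intro y
    rw [← real_inner_self_eq_norm_sq, sum_inner]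
    refine Finset.sum_congr rfl fun i _ => ?_
    rw [inner_sum]
    refine Finset.sum_congr rfl fun j _ => ?_
    simp only [real_inner_smul_left, real_inner_smul_right]
    ring
  simp only [e1]
  rw [integral_finsetSum]
  · refine Finset.sum_congr rfl fun i hi => ?_
    rw [integral_finsetSum]
    · refine Finset.sum_congr rfl fun j hj => ?_
      rw [integral_const_mul, integral_const_mul]
    · intro j hj
      exact ((hint i hi j hj).const_mul _).const_mul _
  · intro i hi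
    refine integrable_finsetSum _ fun j hj => ?_
    exact ((hint i hi j hj).const_mul _).const_mul _

/-- Lipschitz cutoff equal to `1` on `closedBall x ρ`, supported in `closedBall x (2ρ)`. -/
noncomputable def cutf {d : ℕ} (x : V d) (ρ : ℝ) (y : V d) : ℝ := cut (dist y x / ρ)

theorem cut_nonneg' (t : ℝ) : 0 ≤ cut t := le_max_left _ _

theorem cut_le_one' (t : ℝ) : cut t ≤ 1 := max_le zero_le_one (min_le_left _ _)

theorem cut_eq_one' {t : ℝ} (h : t ≤ 1) : cut t = 1 := by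
  unfold cut
  rw [min_eq_left (by linarith), max_eq_right zero_le_one]

theorem cut_eq_zero' {t : ℝ} (h : 2 ≤ t) : cut t = 0 := by
  unfold cut
  refine max_eq_left ((min_le_right _ _).trans (by linarith))

theorem lipschitzWith_cut' : LipschitzWith 1 cut := by
  unfold cut
  have h1 : LipschitzWith 1 (fun t : ℝ => 2 - t) := by
    refine LipschitzWith.of_dist_le_mul fun x y => ?_
    rw [Real.dist_eq, Real.dist_eq, NNReal.coe_one, one_mul]
    have : (2 - x - (2 - y)) = -(x - y) := by ring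
    rw [this, abs_neg]
  exact ((LipschitzWith.const_min h1 1)).const_max 0

theorem cutf_nonneg {d : ℕ} (x : V d) (ρ : ℝ) (y : V d) : 0 ≤ cutf x ρ y := cut_nonneg' _

theorem cutf_le_one {d : ℕ} (x : V d) (ρ : ℝ) (y : V d) : cutf x ρ y ≤ 1 := cut_le_one' _

theorem cutf_eq_one {d : ℕ} {x : V d} {ρ : ℝ} (hρ : 0 < ρ) {y : V d} (h : dist y x ≤ ρ) :
    cutf x ρ y = 1 := cut_eq_one' ((div_le_one hρ).2 h)

theorem cutf_eq_zero {d : ℕ} {x : V d} {ρ : ℝ} (hρ : 0 < ρ) {y : V d} (h : 2 * ρ ≤ dist y x) :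
    cutf x ρ y = 0 := cut_eq_zero' (by rw [le_div_iff₀ hρ]; exact h)

theorem isTest_cutf {d : ℕ} (x : V d) {ρ : ℝ} (hρ : 0 < ρ) : IsTest (cutf x ρ) := by
  refine isTest_of (x := x) (R := 2 * ρ) (r := ρ) hρ ?_ ?_
  · intro y z
    unfold cutf
    have h := lipschitzWith_cut'.dist_le_mul (dist y x / ρ) (dist z x / ρ)
    rw [Real.dist_eq, Real.dist_eq, NNReal.coe_one, one_mul, ← sub_div, abs_div,
      abs_of_pos hρ] at h
    refine h.trans ?_
    exact div_le_div_of_nonneg_right (abs_dist_sub_le y z x) hρ.le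
  · intro y hy
    refine cutf_eq_zero hρ ?_
    rw [mem_ball, not_lt] at hy
    exact hy

end Crest.Agent.R085.Pack
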