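import Mathlib
import Crest.Agent.R085.TouchK

/-!
R085 (S0113), module M2(a): the `L²` bound of the hard truncations of the Riesz transform gives the
"weak" bilinear bound
`|1/2 ∬ ⟪f y • X x - f x • X y, x - y⟫ |x-y|^{-(n+1)}| ≤ A ‖f‖₂ ‖X‖₂`
for Lipschitz compactly supported `f`, `X`.
-/

set_option autoImplicit false

namespace Crest.Agent.R085

open MeasureTheory Metric Set Filter
open scoped ENNReal NNReal Topology
open Touch

/-- Lipschitz compactly supported test field. -/
structure IsTestV {d : ℕ} (X : V d → V d) : Prop where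
  lip : ∃ K : ℝ≥0, LipschitzWith K X
  cpt : HasCompactSupport X

/-- the integrand of `Wf`. -/
noncomputable def wker {d : ℕ} (n : ℕ) (f : V d → ℝ) (X : V d → V d) (p : V d × V d) : ℝ :=
  inner ℝ (f p.2 • X p.1 - f p.1 • X p.2) (p.1 - p.2) * (‖p.1 - p.2‖ ^ (n + 1))⁻¹

/-- antisymmetrised weak form of the Riesz transform, `⟨R (f μ), X⟩_μ`. -/
noncomputable def Wf {d : ℕ} (n : ℕ) (μ : Measure (V d)) (f : V d → ℝ) (X : V d → V d) : ℝ :=
  (1 / 2 : ℝ) * ∫ p : V d × V d, wker n f X p ∂(μ.prod μ)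

/-- weak Riesz bound. -/
def WeakRiesz {d : ℕ} (n : ℕ) (A : ℝ) (μ : Measure (V d)) : Prop :=
  ∀ (f : V d → ℝ) (X : V d → V d), IsTest f → IsTestV X →
    |Wf n μ f X| ≤ A * Real.sqrt (∫ y, f y ^ 2 ∂μ) * Real.sqrt (∫ y, ‖X y‖ ^ 2 ∂μ)

variable {d n : ℕ} {μ : Measure (V d)} {C A : ℝ}

/-- shell estimate near the diagonal. -/
theorem UpperReg.lintegral_nearD (hC : 0 ≤ C) (hU : UpperReg n C μ) (x : V d) {r : ℝ} (hr : 0 < r) :
    ∫⁻ y in ball x r, ENNReal.ofReal (‖x - y‖ * (‖x - y‖ ^ n)⁻¹) ∂μ ≤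
      ENNReal.ofReal (2 ^ (n + 1) * C * r) := by
  set A : ℕ → Set (V d) := fun k => ball x (r / 2 ^ k) \ ball x (r / 2 ^ (k + 1)) with hAdef
  have hcov : ball x r ⊆ {x} ∪ ⋃ k, A k := by
    intro y hy
    by_cases hyx : y = x
    · exact Or.inl hyx
    right
    have hpos : 0 < dist y x := dist_pos.2 hyx
    have hlim : ∃ k : ℕ, r / 2 ^ k ≤ dist y x := by
      obtain ⟨k, hk⟩ := exists_pow_lt_of_lt_one (div_pos hpos hr) (by norm_num : (1/2:ℝ) < 1)
      refine ⟨k, ?_⟩
      rw [div_le_iff₀ (by positivity)]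
      have := (lt_div_iff₀ hr).1 hk
      have h2 : (0:ℝ) < 2 ^ k := by positivity
      have h3 : (1/2:ℝ)^k * r * 2 ^ k = r := by
        rw [one_div, inv_pow]; field_simp
      nlinarith
    classical
    have hk := Nat.find_spec hlim
    set k := Nat.find hlim with hkdef
    have hk0 : k ≠ 0 := by
      intro h0
      rw [h0] at hk
      simp at hk
      exact absurd (mem_ball.1 hy) (not_lt.2 hk)
    obtain ⟨j, hj⟩ := Nat.exists_eq_succ_of_ne_zero hk0
    have hlt : dist y x < r / 2 ^ j := by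
      by_contra hcon
      have := Nat.find_min' hlim (not_lt.1 hcon)
      omega
    refine mem_iUnion.2 ⟨j, ?_, ?_⟩
    · exact hlt
    · rw [mem_ball, not_lt]
      rw [hj] at hk
      exact hk
  have hterm : ∀ k, ∫⁻ y in A k, ENNReal.ofReal (‖x - y‖ * (‖x - y‖ ^ n)⁻¹) ∂μ ≤
      ENNReal.ofReal (2 ^ n * C * r * (1/2) ^ k) := by
    intro k
    have h1 : ∀ y ∈ A k, ENNReal.ofReal (‖x - y‖ * (‖x - y‖ ^ n)⁻¹) ≤
        ENNReal.ofReal (r / 2 ^ k * ((r / 2 ^ (k + 1)) ^ n)⁻¹) := by
      intro y hy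
      have hlt : ‖x - y‖ < r / 2 ^ k := by
        have := hy.1
        rwa [mem_ball, dist_comm, dist_eq_norm] at this
      have hle : r / 2 ^ (k + 1) ≤ ‖x - y‖ := by
        have := hy.2
        rwa [mem_ball, not_lt, dist_comm, dist_eq_norm] at this
      have h0 : 0 < r / 2 ^ (k + 1) := by positivity
      gcongr
    calc ∫⁻ y in A k, ENNReal.ofReal (‖x - y‖ * (‖x - y‖ ^ n)⁻¹) ∂μ
        ≤ ∫⁻ y in A k, ENNReal.ofReal (r / 2 ^ k * ((r / 2 ^ (k + 1)) ^ n)⁻¹) ∂μ := by
          refine setLIntegral_mono' ?_ h1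
          exact measurableSet_ball.diff measurableSet_ball
      _ = ENNReal.ofReal (r / 2 ^ k * ((r / 2 ^ (k + 1)) ^ n)⁻¹) * μ (A k) := by
          rw [setLIntegral_const]
      _ ≤ ENNReal.ofReal (r / 2 ^ k * ((r / 2 ^ (k + 1)) ^ n)⁻¹) *
            ENNReal.ofReal (C * (r / 2 ^ k) ^ n) := by
          gcongr
          exact (measure_mono sdiff_subset).trans (hU x _ (by positivity))
      _ = ENNReal.ofReal (2 ^ n * C * r * (1/2) ^ k) := by
          rw [← ENNReal.ofReal_mul (by positivity)]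
          congr 1
          have : (r / 2 ^ (k + 1)) ^ n = (r / 2 ^ k) ^ n / 2 ^ n := by
            rw [← div_pow]; congr 1; rw [pow_succ]; field_simp
          rw [this]
          have h0 : (r / 2 ^ k) ^ n ≠ 0 := by positivity
          rw [one_div, inv_pow]
          field_simp
  calc ∫⁻ y in ball x r, ENNReal.ofReal (‖x - y‖ * (‖x - y‖ ^ n)⁻¹) ∂μ
      ≤ ∫⁻ y in {x} ∪ ⋃ k, A k, ENNReal.ofReal (‖x - y‖ * (‖x - y‖ ^ n)⁻¹) ∂μ :=
        lintegral_mono_set hcov
    _ ≤ ∫⁻ y in {x}, ENNReal.ofReal (‖x - y‖ * (‖x - y‖ ^ n)⁻¹) ∂μ +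
        ∫⁻ y in ⋃ k, A k, ENNReal.ofReal (‖x - y‖ * (‖x - y‖ ^ n)⁻¹) ∂μ :=
        lintegral_union_le _ _ _
    _ ≤ 0 + ∑' k, ∫⁻ y in A k, ENNReal.ofReal (‖x - y‖ * (‖x - y‖ ^ n)⁻¹) ∂μ := by
        gcongr
        · rw [lintegral_singleton]; simp
        · exact lintegral_iUnion_le _ _
    _ ≤ 0 + ∑' k : ℕ, ENNReal.ofReal (2 ^ n * C * r * (1/2) ^ k) := by
        gcongr with k
        exact hterm k
    _ = ENNReal.ofReal (2 ^ (n + 1) * C * r) := by
        rw [zero_add, ← ENNReal.ofReal_tsum_of_nonneg]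
        · rw [tsum_mul_left, tsum_geometric_two]; congr 1; ring
        · intro k; positivity
        · exact (summable_geometric_two).mul_left _

theorem IsTest.cont {f : V d → ℝ} (hf : IsTest f) : Continuous f := by
  obtain ⟨K, hK⟩ := hf.lip; exact hK.continuous

theorem IsTestV.continuous {X : V d → V d} (hX : IsTestV X) : Continuous X := by
  obtain ⟨K, hK⟩ := hX.lip; exact hK.continuous

theorem measurable_wker {f : V d → ℝ} {X : V d → V d} (hf : Continuous f) (hX : Continuous X) :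
    Measurable (wker n f X) := by
  unfold wker
  apply Measurable.mul
  · apply Continuous.measurable
    fun_prop
  · apply Measurable.inv
    apply Continuous.measurable
    fun_prop

/-- common radius of a ball containing the supports -/
theorem exists_radius {f : V d → ℝ} {X : V d → V d} (hf : HasCompactSupport f)
    (hX : HasCompactSupport X) :
    ∃ R : ℝ, 0 < R ∧ (∀ y, y ∉ ball (0 : V d) R → f y = 0) ∧ (∀ y, y ∉ ball (0 : V d) R → X y = 0) := by
  obtain ⟨R1, hR1⟩ := hf.isCompact.isBounded.subset_ball (0 : V d)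
  obtain ⟨R2, hR2⟩ := hX.isCompact.isBounded.subset_ball (0 : V d)
  refine ⟨max 1 (max R1 R2), by positivity, ?_, ?_⟩
  · intro y hy
    by_contra h
    exact hy (ball_subset_ball (by simp) (hR1 (subset_tsupport _ h)))
  · intro y hy
    by_contra h
    exact hy (ball_subset_ball (by simp) (hR2 (subset_tsupport _ h)))

theorem wker_bound {f : V d → ℝ} {X : V d → V d} {R Kf KX Bf BX : ℝ}
    (hfR : ∀ y, y ∉ ball (0 : V d) R → f y = 0) (hXR : ∀ y, y ∉ ball (0 : V d) R → X y = 0)
    (hKf : ∀ x y, |f x - f y| ≤ Kf * ‖x - y‖) (hKX : ∀ x y, ‖X x - X y‖ ≤ KX * ‖x - y‖)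
    (hBf : ∀ x, |f x| ≤ Bf) (hBX : ∀ x, ‖X x‖ ≤ BX) (p : V d × V d) :
    |wker n f X p| ≤ (Bf * KX + Kf * BX) *
      (ball (0 : V d) R ×ˢ ball (0 : V d) R).indicator
        (fun p => ‖p.1 - p.2‖ * (‖p.1 - p.2‖ ^ n)⁻¹) p := by
  by_cases hp : p ∈ ball (0 : V d) R ×ˢ ball (0 : V d) R
  · rw [indicator_of_mem hp]
    unfold wker
    rw [abs_mul, abs_of_nonneg (inv_nonneg.2 (pow_nonneg (norm_nonneg _) _))]
    have h1 : |inner ℝ (f p.2 • X p.1 - f p.1 • X p.2) (p.1 - p.2)| ≤
        (Bf * KX + Kf * BX) * ‖p.1 - p.2‖ * ‖p.1 - p.2‖ := by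
      refine (abs_real_inner_le_norm _ _).trans ?_
      gcongr
      have : f p.2 • X p.1 - f p.1 • X p.2 = f p.2 • (X p.1 - X p.2) - (f p.1 - f p.2) • X p.2 := by
        module
      rw [this]
      calc _ ≤ ‖f p.2 • (X p.1 - X p.2)‖ + ‖(f p.1 - f p.2) • X p.2‖ := norm_sub_le _ _
        _ = |f p.2| * ‖X p.1 - X p.2‖ + |f p.1 - f p.2| * ‖X p.2‖ := by
            rw [norm_smul, norm_smul, Real.norm_eq_abs, Real.norm_eq_abs]
        _ ≤ Bf * (KX * ‖p.1 - p.2‖) + (Kf * ‖p.1 - p.2‖) * BX := by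
            have hBf0 : 0 ≤ Bf := (abs_nonneg _).trans (hBf 0)
            have hK0 : 0 ≤ Kf * ‖p.1 - p.2‖ := (abs_nonneg _).trans (hKf p.1 p.2)
            gcongr
            · exact hBf _
            · exact hKX _ _
            · exact hKf _ _
            · exact hBX _
        _ = _ := by ring
    by_cases h0 : ‖p.1 - p.2‖ = 0
    · rw [h0] at h1 ⊢
      simp
    · calc _ ≤ (Bf * KX + Kf * BX) * ‖p.1 - p.2‖ * ‖p.1 - p.2‖ * (‖p.1 - p.2‖ ^ (n + 1))⁻¹ := by
            gcongr
        _ = _ := by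
            rw [pow_succ]; field_simp
  · rw [indicator_of_notMem hp]
    have : f p.2 • X p.1 - f p.1 • X p.2 = 0 := by
      simp only [mem_prod, not_and_or] at hp
      rcases hp with hp | hp
      · rw [hXR _ hp, hfR _ hp]; simp
      · rw [hXR _ hp, hfR _ hp]; simp
    simp [wker, this]

theorem UpperReg.integrable_near (hC : 0 ≤ C) (hU : UpperReg n C μ) (R : ℝ) :
    Integrable ((ball (0 : V d) R ×ˢ ball (0 : V d) R).indicator
        (fun p => ‖p.1 - p.2‖ * (‖p.1 - p.2‖ ^ n)⁻¹)) (μ.prod μ) := by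
  have := Touch.lf_of_upper hU
  rw [integrable_indicator_iff (measurableSet_ball.prod measurableSet_ball)]
  have hmeas : Measurable (fun p : V d × V d => ‖p.1 - p.2‖ * (‖p.1 - p.2‖ ^ n)⁻¹) := by
    apply Measurable.mul
    · exact Continuous.measurable (by fun_prop)
    · apply Measurable.inv
      exact Continuous.measurable (by fun_prop)
  refine ⟨hmeas.aestronglyMeasurable, ?_⟩
  rcases le_or_gt R 0 with hR | hR
  · rw [ball_eq_empty.2 hR]; simp
  unfold HasFiniteIntegral
  have : ∀ p : V d × V d, ‖‖p.1 - p.2‖ * (‖p.1 - p.2‖ ^ n)⁻¹‖ₑ =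
      ENNReal.ofReal (‖p.1 - p.2‖ * (‖p.1 - p.2‖ ^ n)⁻¹) := by
    intro p
    rw [Real.enorm_of_nonneg (by positivity)]
  simp_rw [this]
  rw [← Measure.prod_restrict, lintegral_prod _ hmeas.ennreal_ofReal.aemeasurable]
  calc ∫⁻ x in ball (0 : V d) R, ∫⁻ y in ball (0 : V d) R,
        ENNReal.ofReal (‖x - y‖ * (‖x - y‖ ^ n)⁻¹) ∂μ ∂μ
      ≤ ∫⁻ x in ball (0 : V d) R, ENNReal.ofReal (2 ^ (n + 1) * C * (2 * R)) ∂μ := by
        refine setLIntegral_mono' measurableSet_ball ?_
        intro x hx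
        refine le_trans (lintegral_mono_set ?_) (hU.lintegral_nearD hC x (by positivity : 0 < 2 * R))
        intro y hy
        rw [mem_ball] at *
        calc dist y x ≤ dist y 0 + dist 0 x := dist_triangle _ _ _
          _ < 2 * R := by rw [dist_comm 0 x]; linarith
    _ = ENNReal.ofReal (2 ^ (n + 1) * C * (2 * R)) * μ (ball (0 : V d) R) := by
        rw [setLIntegral_const]
    _ < ⊤ := ENNReal.mul_lt_top ENNReal.ofReal_lt_top (hU.ball_lt_top _ _)

theorem integrable_wker' (hC : 0 ≤ C) (hU : UpperReg n C μ)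
    {f : V d → ℝ} {X : V d → V d} (hf : IsTest f) (hX : IsTestV X) :
    Integrable (wker n f X) (μ.prod μ) := by
  obtain ⟨R, hR, hfR, hXR⟩ := exists_radius hf.cpt hX.cpt
  obtain ⟨Kf, hKf⟩ := hf.lip
  obtain ⟨KX, hKX⟩ := hX.lip
  obtain ⟨Bf, hBf⟩ := hf.cont.bounded_above_of_compact_support hf.cpt
  obtain ⟨BX, hBX⟩ := hX.continuous.bounded_above_of_compact_support hX.cpt
  have hb := wker_bound (n := n) (Kf := Kf) (KX := KX) hfR hXR
    (fun x y => by
      have := hKf.dist_le_mul x y
      rwa [Real.dist_eq, dist_eq_norm] at this)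
    (fun x y => by
      have := hKX.dist_le_mul x y
      rwa [dist_eq_norm, dist_eq_norm] at this)
    (fun x => by simpa using hBf x) hBX
  refine Integrable.mono' ((hU.integrable_near hC R).const_mul (Bf * KX + Kf * BX))
    (measurable_wker hf.cont hX.continuous).aestronglyMeasurable ?_
  exact Eventually.of_forall (fun p => by simpa using hb p)

/-- the (not yet antisymmetrised) integrand of the hard truncation. -/
noncomputable def hker (n : ℕ) (f : V d → ℝ) (X : V d → V d) (p : V d × V d) : ℝ :=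
  (f p.2 * (‖p.1 - p.2‖ ^ (n + 1))⁻¹) * inner ℝ (p.1 - p.2) (X p.1)

theorem measurableSet_far (ε : ℝ) : MeasurableSet {p : V d × V d | ε < dist p.1 p.2} :=
  (isOpen_lt continuous_const (by fun_prop)).measurableSet

theorem integrable_hker (hU : UpperReg n C μ) {f : V d → ℝ} {X : V d → V d}
    (hf : Continuous f) (hfc : HasCompactSupport f) (hX : Continuous X)
    (hXc : HasCompactSupport X) {ε : ℝ} (hε : 0 < ε) :
    Integrable ({p : V d × V d | ε < dist p.1 p.2}.indicator (hker n f X)) (μ.prod μ) := by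
  have := Touch.lf_of_upper hU
  obtain ⟨R, hR, hfR, hXR⟩ := exists_radius hfc hXc
  obtain ⟨Bf, hBf⟩ := hf.bounded_above_of_compact_support hfc
  obtain ⟨BX, hBX⟩ := hX.bounded_above_of_compact_support hXc
  have hBf0 : 0 ≤ Bf := (norm_nonneg _).trans (hBf 0)
  have hBX0 : 0 ≤ BX := (norm_nonneg _).trans (hBX 0)
  have hmeas : Measurable (hker n f X) := by
    unfold hker
    refine Measurable.mul (Measurable.mul ?_ (Measurable.inv ?_)) ?_ <;>
      exact Continuous.measurable (by fun_prop)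
  have hfin : (μ.prod μ) (ball (0 : V d) R ×ˢ ball (0 : V d) R) < ⊤ := by
    rw [Measure.prod_prod]
    exact ENNReal.mul_lt_top (hU.ball_lt_top _ _) (hU.ball_lt_top _ _)
  have hI : Integrable ((ball (0 : V d) R ×ˢ ball (0 : V d) R).indicator
      (fun _ => Bf * BX * (ε ^ n)⁻¹)) (μ.prod μ) := by
    rw [integrable_indicator_iff (measurableSet_ball.prod measurableSet_ball)]
    exact integrableOn_const hfin.ne
  refine hI.mono' (hmeas.indicator (measurableSet_far ε)).aestronglyMeasurable ?_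
  refine Eventually.of_forall (fun p => ?_)
  by_cases hp : ε < dist p.1 p.2
  · rw [indicator_of_mem (s := {p : V d × V d | ε < dist p.1 p.2}) hp]
    by_cases hq : p ∈ ball (0 : V d) R ×ˢ ball (0 : V d) R
    · rw [indicator_of_mem hq]
      unfold hker
      rw [dist_eq_norm] at hp
      have h0 : 0 < ‖p.1 - p.2‖ := hε.trans hp
      rw [norm_mul, norm_mul, norm_inv, norm_pow, norm_norm]
      calc ‖f p.2‖ * (‖p.1 - p.2‖ ^ (n + 1))⁻¹ * ‖inner ℝ (p.1 - p.2) (X p.1)‖
          ≤ Bf * (‖p.1 - p.2‖ ^ (n + 1))⁻¹ * (‖p.1 - p.2‖ * BX) := by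
            gcongr
            · exact hBf _
            · exact (norm_inner_le_norm _ _).trans (by gcongr; exact hBX _)
        _ = Bf * BX * (‖p.1 - p.2‖ ^ n)⁻¹ := by
            rw [pow_succ]; field_simp
        _ ≤ Bf * BX * (ε ^ n)⁻¹ := by gcongr
    · rw [indicator_of_notMem hq]
      have : hker n f X p = 0 := by
        simp only [mem_prod, not_and_or] at hq
        rcases hq with hq | hq
        · simp [hker, hXR _ hq]
        · simp [hker, hfR _ hq]
      simp [this]
  · rw [indicator_of_notMem (s := {p : V d × V d | ε < dist p.1 p.2}) hp]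
    simp only [norm_zero]
    exact indicator_nonneg (fun _ _ => by positivity) _

theorem hker_add_swap (f : V d → ℝ) (X : V d → V d) (ε : ℝ) (p : V d × V d) :
    ({p : V d × V d | ε < dist p.1 p.2}.indicator (hker n f X)) p +
      ({p : V d × V d | ε < dist p.1 p.2}.indicator (hker n f X)) p.swap =
    ({p : V d × V d | ε < dist p.1 p.2}.indicator (wker n f X)) p := by
  by_cases hp : ε < dist p.1 p.2
  · have hp' : ε < dist p.swap.1 p.swap.2 := by simpa [dist_comm] using hp
    rw [indicator_of_mem (s := {p : V d × V d | ε < dist p.1 p.2}) hp,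
      indicator_of_mem (s := {p : V d × V d | ε < dist p.1 p.2}) hp',
      indicator_of_mem (s := {p : V d × V d | ε < dist p.1 p.2}) hp]
    unfold hker wker
    simp only [Prod.fst_swap, Prod.snd_swap]
    have e1 : inner ℝ (f p.2 • X p.1 - f p.1 • X p.2) (p.1 - p.2) =
        f p.2 * inner ℝ (p.1 - p.2) (X p.1) - f p.1 * inner ℝ (p.1 - p.2) (X p.2) := by
      rw [inner_sub_left (f p.2 • X p.1), real_inner_smul_left, real_inner_smul_left,
        real_inner_comm (p.1 - p.2), real_inner_comm (p.1 - p.2)]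
    rw [e1, norm_sub_rev p.2 p.1, ← neg_sub p.1 p.2, inner_neg_left]
    ring
  · have hp' : ¬ ε < dist p.swap.1 p.swap.2 := by simpa [dist_comm] using hp
    rw [indicator_of_notMem (s := {p : V d × V d | ε < dist p.1 p.2}) hp,
      indicator_of_notMem (s := {p : V d × V d | ε < dist p.1 p.2}) hp',
      indicator_of_notMem (s := {p : V d × V d | ε < dist p.1 p.2}) hp]
    ring

theorem integral_inner_rieszTruncation (hU : UpperReg n C μ) {f : V d → ℝ} {X : V d → V d}
    (hf : Continuous f) (hfc : HasCompactSupport f) (hX : Continuous X)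
    (hXc : HasCompactSupport X) {ε : ℝ} (hε : 0 < ε) :
    ∫ x, inner ℝ (Crest.AnalysisR.rieszTruncation n μ ε f x) (X x) ∂μ =
      (1 / 2 : ℝ) * ∫ p in {p : V d × V d | ε < dist p.1 p.2}, wker n f X p ∂(μ.prod μ) := by
  have := Touch.lf_of_upper hU
  have hI := integrable_hker (n := n) hU hf hfc hX hXc hε
  have h1 : ∀ x, inner ℝ (Crest.AnalysisR.rieszTruncation n μ ε f x) (X x) =
      ∫ y, ({p : V d × V d | ε < dist p.1 p.2}.indicator (hker n f X)) (x, y) ∂μ := by
    intro x
    unfold Crest.AnalysisR.rieszTruncation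
    have hint : Integrable (fun y => (f y * (‖x - y‖ ^ (n + 1))⁻¹) • (x - y))
        (μ.restrict {y | ε < dist x y}) := by
      obtain ⟨R, hR, hfR, -⟩ := exists_radius hfc hXc
      obtain ⟨Bf, hBf⟩ := hf.bounded_above_of_compact_support hfc
      have hBf0 : 0 ≤ Bf := (norm_nonneg _).trans (hBf 0)
      have hI' : Integrable ((ball (0 : V d) R).indicator
          (fun _ => Bf * (ε ^ n)⁻¹)) (μ.restrict {y | ε < dist x y}) := by
        rw [integrable_indicator_iff measurableSet_ball]
        refine integrableOn_const (ne_of_lt ?_)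
        exact (Measure.restrict_apply_le _ _).trans_lt (hU.ball_lt_top _ _)
      refine hI'.mono' ?_ ?_
      · have m1 : Measurable (fun y => (‖x - y‖ ^ (n + 1))⁻¹) :=
          Measurable.inv (Continuous.measurable (by fun_prop))
        exact ((hf.measurable.mul m1).smul
          (Continuous.measurable (by fun_prop))).aestronglyMeasurable
      · have hms : MeasurableSet {y | ε < dist x y} :=
          (isOpen_lt continuous_const (by fun_prop)).measurableSet
        rw [ae_restrict_iff' hms]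
        refine Eventually.of_forall (fun y hy => ?_)
        have hy' : ε < ‖x - y‖ := by rwa [mem_ofPred_eq, dist_eq_norm] at hy
        by_cases hq : y ∈ ball (0 : V d) R
        · rw [indicator_of_mem hq, norm_smul, norm_mul, norm_inv, norm_pow, norm_norm]
          have h0 : 0 < ‖x - y‖ := hε.trans hy'
          calc ‖f y‖ * (‖x - y‖ ^ (n + 1))⁻¹ * ‖x - y‖
              ≤ Bf * (‖x - y‖ ^ (n + 1))⁻¹ * ‖x - y‖ := by gcongr; exact hBf _
            _ = Bf * (‖x - y‖ ^ n)⁻¹ := by rw [pow_succ]; field_simp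
            _ ≤ Bf * (ε ^ n)⁻¹ := by gcongr
        · rw [indicator_of_notMem hq, hfR _ hq]; simp
    rw [real_inner_comm, ← integral_inner hint,
      ← integral_indicator (isOpen_lt continuous_const (by fun_prop)).measurableSet]
    refine integral_congr_ae (Eventually.of_forall (fun y => ?_))
    change _ = {p : V d × V d | ε < dist p.1 p.2}.indicator (hker n f X) (x, y)
    by_cases hy : ε < dist x y
    · rw [indicator_of_mem (s := {y | ε < dist x y}) hy,
        indicator_of_mem (s := {p : V d × V d | ε < dist p.1 p.2}) (a := (x, y)) hy]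
      unfold hker
      rw [real_inner_smul_right, real_inner_comm]
    · rw [indicator_of_notMem (s := {y | ε < dist x y}) hy,
        indicator_of_notMem (s := {p : V d × V d | ε < dist p.1 p.2}) (a := (x, y)) hy]
  simp_rw [h1]
  rw [← integral_prod _ hI, ← integral_indicator (measurableSet_far ε)]
  have hsw : ∫ p : V d × V d, ({p : V d × V d | ε < dist p.1 p.2}.indicator (hker n f X)) p.swap
      ∂(μ.prod μ) = ∫ p, ({p : V d × V d | ε < dist p.1 p.2}.indicator (hker n f X)) p
      ∂(μ.prod μ) := integral_prod_swap _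
  have hsum : ∫ p : V d × V d, ({p : V d × V d | ε < dist p.1 p.2}.indicator (wker n f X)) p
      ∂(μ.prod μ) = ∫ p, ({p : V d × V d | ε < dist p.1 p.2}.indicator (hker n f X)) p
      ∂(μ.prod μ) + ∫ p : V d × V d,
        ({p : V d × V d | ε < dist p.1 p.2}.indicator (hker n f X)) p.swap ∂(μ.prod μ) := by
    have := integral_add hI hI.swap
    simp only [Function.comp_def] at this
    rw [← this]
    exact integral_congr_ae (Eventually.of_forall (fun p => (hker_add_swap f X ε p).symm))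
  rw [hsum, hsw]; ring

theorem stronglyMeasurable_rieszTruncation (hU : UpperReg n C μ) {f : V d → ℝ} (hf : Continuous f)
    (ε : ℝ) : StronglyMeasurable (Crest.AnalysisR.rieszTruncation n μ ε f) := by
  have := Touch.lf_of_upper hU
  set g : V d × V d → V d := {p : V d × V d | ε < dist p.1 p.2}.indicator
    (fun p => (f p.2 * (‖p.1 - p.2‖ ^ (n + 1))⁻¹) • (p.1 - p.2)) with hg
  have hgm : StronglyMeasurable g := by
    apply StronglyMeasurable.indicator _ (measurableSet_far ε)
    apply Measurable.stronglyMeasurable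
    have m1 : Measurable (fun p : V d × V d => (‖p.1 - p.2‖ ^ (n + 1))⁻¹) :=
      Measurable.inv (Continuous.measurable (by fun_prop))
    have m2 : Measurable (fun p : V d × V d => f p.2) := Continuous.measurable (by fun_prop)
    exact (m2.mul m1).smul (Continuous.measurable (by fun_prop))
  have h := hgm.integral_prod_right' (ν := μ)
  suffices heq : Crest.AnalysisR.rieszTruncation n μ ε f = fun x => ∫ y, g (x, y) ∂μ by
    rw [heq]; exact h
  funext x
  unfold Crest.AnalysisR.rieszTruncation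
  rw [← integral_indicator (isOpen_lt continuous_const (by fun_prop)).measurableSet]
  refine integral_congr_ae (Eventually.of_forall (fun y => ?_))
  change _ = g (x, y)
  rw [hg]
  by_cases hy : ε < dist x y
  · rw [indicator_of_mem (s := {y | ε < dist x y}) hy,
      indicator_of_mem (s := {p : V d × V d | ε < dist p.1 p.2}) (a := (x, y)) hy]
  · rw [indicator_of_notMem (s := {y | ε < dist x y}) hy,
      indicator_of_notMem (s := {p : V d × V d | ε < dist p.1 p.2}) (a := (x, y)) hy]

theorem eLpNorm_two_eq {E : Type*} [NormedAddCommGroup E] {g : V d → E}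
    (hg : MemLp g 2 μ) : eLpNorm g 2 μ = ENNReal.ofReal (Real.sqrt (∫ x, ‖g x‖ ^ 2 ∂μ)) := by
  rw [hg.eLpNorm_eq_integral_rpow_norm (by norm_num) (by norm_num)]
  congr 1
  rw [Real.sqrt_eq_rpow]
  simp

theorem abs_integral_inner_leWR {T X : V d → V d} (hT : AEStronglyMeasurable T μ)
    (hX : AEStronglyMeasurable X μ) {a b : ℝ} (ha : 0 ≤ a) (hb : 0 ≤ b)
    (h1 : eLpNorm T 2 μ ≤ ENNReal.ofReal a)
    (h2 : eLpNorm X 2 μ ≤ ENNReal.ofReal b) : |∫ x, inner ℝ (T x) (X x) ∂μ| ≤ a * b := by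
  have h3 : ‖∫ x, inner ℝ (T x) (X x) ∂μ‖ₑ ≤ ENNReal.ofReal (a * b) := by
    calc ‖∫ x, inner ℝ (T x) (X x) ∂μ‖ₑ ≤ ∫⁻ x, ‖inner ℝ (T x) (X x)‖ₑ ∂μ :=
          enorm_integral_le_lintegral_enorm _
      _ ≤ ∫⁻ x, ((fun x => ‖T x‖ₑ) * (fun x => ‖X x‖ₑ)) x ∂μ := by
          refine lintegral_mono (fun x => ?_)
          simp only [Pi.mul_apply]
          rw [← ofReal_norm, ← ofReal_norm, ← ofReal_norm, ← ENNReal.ofReal_mul (norm_nonneg _)]
          exact ENNReal.ofReal_le_ofReal (norm_inner_le_norm _ _)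
      _ ≤ (∫⁻ x, ‖T x‖ₑ ^ (2:ℝ) ∂μ) ^ (1 / (2:ℝ)) * (∫⁻ x, ‖X x‖ₑ ^ (2:ℝ) ∂μ) ^ (1 / (2:ℝ)) :=
          ENNReal.lintegral_mul_le_Lp_mul_Lq μ (by constructor <;> norm_num) hT.enorm hX.enorm
      _ = eLpNorm T 2 μ * eLpNorm X 2 μ := by
          rw [eLpNorm_eq_lintegral_rpow_enorm_toReal (by norm_num) (by norm_num),
            eLpNorm_eq_lintegral_rpow_enorm_toReal (by norm_num) (by norm_num)]
          simp
      _ ≤ ENNReal.ofReal (a * b) := by
          rw [ENNReal.ofReal_mul ha]; gcongr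
  rw [← Real.norm_eq_abs]
  rw [← ofReal_norm] at h3
  exact (ENNReal.ofReal_le_ofReal_iff (by positivity)).1 h3

theorem UpperReg.nonneg_const (hU : UpperReg n C μ) : UpperReg n (max C 0) μ := by
  intro x r hr
  refine (hU x r hr).trans (ENNReal.ofReal_le_ofReal ?_)
  gcongr
  exact le_max_left _ _

theorem integrable_wker (hU : UpperReg n C μ)
    {f : V d → ℝ} {X : V d → V d} (hf : IsTest f) (hX : IsTestV X) :
    Integrable (wker n f X) (μ.prod μ) :=
  integrable_wker' (le_max_right C 0) hU.nonneg_const hf hX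

/-- the hard truncations converge to the weak form. -/
theorem tendsto_integral_far (hU : UpperReg n C μ)
    {f : V d → ℝ} {X : V d → V d} (hf : IsTest f) (hX : IsTestV X) :
    Tendsto (fun ε : ℝ => ∫ p in {p : V d × V d | ε < dist p.1 p.2}, wker n f X p ∂(μ.prod μ))
      (𝓝[>] 0) (𝓝 (∫ p, wker n f X p ∂(μ.prod μ))) := by
  have hI := integrable_wker hU hf hX
  have h1 : ∀ ε : ℝ, ∫ p in {p : V d × V d | ε < dist p.1 p.2}, wker n f X p ∂(μ.prod μ) =
      ∫ p, {p : V d × V d | ε < dist p.1 p.2}.indicator (wker n f X) p ∂(μ.prod μ) :=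
    fun ε => (integral_indicator (measurableSet_far ε)).symm
  simp_rw [h1]
  refine tendsto_integral_filter_of_dominated_convergence (fun p => ‖wker n f X p‖) ?_ ?_
    hI.norm ?_
  · refine Eventually.of_forall (fun ε => ?_)
    exact hI.aestronglyMeasurable.indicator (measurableSet_far ε)
  · refine Eventually.of_forall (fun ε => Eventually.of_forall (fun p => ?_))
    exact norm_indicator_le_norm_self _ _
  · refine Eventually.of_forall (fun p => ?_)
    by_cases hp : p.1 = p.2
    · have hw : wker n f X p = 0 := by simp [wker, hp]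
      have : ∀ ε : ℝ, {p : V d × V d | ε < dist p.1 p.2}.indicator (wker n f X) p = 0 := by
        intro ε
        by_cases h : p ∈ {p : V d × V d | ε < dist p.1 p.2}
        · rw [indicator_of_mem h, hw]
        · rw [indicator_of_notMem h]
      simp_rw [this, hw]
      exact tendsto_const_nhds
    · have hpos : 0 < dist p.1 p.2 := dist_pos.2 hp
      refine tendsto_const_nhds.congr' ?_
      filter_upwards [mem_nhdsWithin_of_mem_nhds (Iio_mem_nhds hpos)] with ε hε
      rw [indicator_of_mem]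
      exact hε

theorem IsTest.memLp (hU : UpperReg n C μ) {f : V d → ℝ} (hf : IsTest f) : MemLp f 2 μ := by
  have := Touch.lf_of_upper hU
  exact hf.cont.memLp_of_hasCompactSupport hf.cpt

theorem IsTestV.memLp (hU : UpperReg n C μ) {X : V d → V d} (hX : IsTestV X) : MemLp X 2 μ := by
  have := Touch.lf_of_upper hU
  exact hX.continuous.memLp_of_hasCompactSupport hX.cpt

theorem weakRiesz_of_hasRieszBound (hU : UpperReg n C μ)
    (hA : Crest.AnalysisR.HasRieszBound n A μ) : WeakRiesz n (max A 0) μ := by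
  intro f X hf hX
  have hfm := hf.memLp hU
  have hXm := hX.memLp hU
  set a := max A 0 * Real.sqrt (∫ y, f y ^ 2 ∂μ) with ha
  have ha0 : 0 ≤ a := by positivity
  set b := Real.sqrt (∫ y, ‖X y‖ ^ 2 ∂μ) with hb
  have hb0 : 0 ≤ b := by positivity
  have key : ∀ ε : ℝ, 0 < ε → |(1 / 2 : ℝ) *
      ∫ p in {p : V d × V d | ε < dist p.1 p.2}, wker n f X p ∂(μ.prod μ)| ≤ a * b := by
    intro ε hε
    rw [← integral_inner_rieszTruncation hU hf.cont hf.cpt hX.continuous hX.cpt hε]
    refine abs_integral_inner_leWR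
      (stronglyMeasurable_rieszTruncation hU hf.cont ε).aestronglyMeasurable
      hXm.aestronglyMeasurable ha0 hb0 ?_ (eLpNorm_two_eq hXm).le
    refine (hA f hfm ε hε).trans ?_
    rw [eLpNorm_two_eq hfm, ha, ENNReal.ofReal_mul (le_max_right _ _)]
    simp only [Real.norm_eq_abs, sq_abs]
    gcongr
    exact le_max_left _ _
  have hlim := ((tendsto_integral_far hU hf hX).const_mul (1 / 2 : ℝ)).abs
  have := le_of_tendsto hlim (b := a * b) (by
    filter_upwards [self_mem_nhdsWithin] with ε hε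
    exact key ε hε)
  rw [Wf]
  exact this

end Crest.Agent.R085
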