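import Mathlib
import Crest.Agent.R085.Defs
import Crest.Agent.R085.PackAbs
import Crest.Agent.R085.PackGram
import Crest.Agent.R085.WeakRiesz

/-!
R085 / M2 : packing of the scales with large Riesz oscillation.
-/

set_option autoImplicit false

namespace Crest.Agent.R085.Pack

open MeasureTheory Metric Set Filter
open scoped ENNReal NNReal Topology

/-- Far-field comparison of the truncated form with the weak form. -/
def FarComp (d n : ℕ) (C : ℝ) : Prop :=
  ∃ K : ℝ, 0 < K ∧ ∀ μ : Measure (V d), UpperReg n C μ → ∀ (x : V d) (r M ρ : ℝ) (f : V d → ℝ)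
    (e : V d) (ψ : V d → ℝ), 0 < r → 1 ≤ M → 2 * (M * r) ≤ ρ → ‖e‖ ≤ 1 → IsTest f →
    (∀ y, 0 ≤ f y ∧ f y ≤ 1) → (∀ y, y ∈ ball x (2 * ρ) → f y = 1) →
    (∀ y z, |ψ y - ψ z| ≤ dist y z / r) → (∀ y, |ψ y| ≤ 1) →
    (∀ y, y ∉ ball x (M * r) → ψ y = 0) → ∫ y, ψ y ∂μ = 0 →
    ∀ᶠ N : ℝ in atTop, |Bf n μ N (lin e) ψ - Wf n μ f (fun y => ψ y • e)|
      ≤ K * (M * r / ρ) * (M * r) ^ n

/-- Counting of same-scale separated points of the support. -/
theorem count_adr {d n : ℕ} {C : ℝ} {D : ℝ≥0∞} {μ : Measure (V d)} (h : ADR n C D μ)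
    {σ : ℝ} (hσ : 0 < σ) (hσ1 : σ ≤ 1) {ι : Type*} (T : Finset ι) (x : ι → V d) (y : V d)
    {r ρ : ℝ} (hr : 0 < r) (hρ : 0 ≤ ρ) (hrD : ENNReal.ofReal r ≤ D)
    (hsupp : ∀ i ∈ T, x i ∈ μ.support) (hin : ∀ i ∈ T, dist (x i) y ≤ ρ)
    (hsep : ∀ i ∈ T, ∀ j ∈ T, i ≠ j → σ * r ≤ dist (x i) (x j)) :
    (T.card : ℝ) ≤ (C ^ 2 * 2 ^ n * (2 / σ) ^ n) * ((ρ + r) / r) ^ n := by
  have hC1 := h.one_le
  have hC0 : 0 < C := by linarith
  have ht : 0 < σ * r / 2 := by positivity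
  have hle : σ * r / 2 ≤ r := by nlinarith
  have key := card_separated_le (μ := μ) (n := n) (C := C * 2 ^ n) (c := C⁻¹) (by positivity)
    (by positivity) T x y (t := σ * r / 2) (ρ := ρ) ht hρ ?_ ?_ hin ?_
  · refine key.trans ?_
    have e1 : (C * 2 ^ n) / C⁻¹ = C ^ 2 * 2 ^ n := by
      field_simp
    rw [e1, mul_assoc (C ^ 2 * 2 ^ n), ← mul_pow]
    have e2 : (ρ + σ * r / 2) / (σ * r / 2) ≤ 2 / σ * ((ρ + r) / r) := by
      rw [div_mul_div_comm, div_le_div_iff₀ ht (by positivity)]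
      nlinarith [mul_pos hσ hr]
    have e3 : 0 ≤ (ρ + σ * r / 2) / (σ * r / 2) := by positivity
    exact mul_le_mul_of_nonneg_left (pow_le_pow_left₀ e3 e2 n) (by positivity)
  · have h1 : closedBall y (ρ + σ * r / 2) ⊆ ball y (2 * (ρ + σ * r / 2)) :=
      closedBall_subset_ball (by linarith)
    refine (measure_mono h1).trans ((h.upper y _ (by positivity)).trans (le_of_eq ?_))
    congr 1
    rw [mul_pow]; ring
  · intro i hi
    refine h.lower (x i) (hsupp i hi) _ ht ?_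
    exact (ENNReal.ofReal_le_ofReal hle).trans hrD
  · intro i hi j hj hij
    have := hsep i hi j hj hij
    linarith

theorem wf_sum {d n : ℕ} {μ : Measure (V d)} {C : ℝ} (hU : UpperReg n C μ)
    {f : V d → ℝ} (hf : IsTest f) {ι : Type*} (s : Finset ι) (a : ι → ℝ) (X : ι → V d → V d)
    (hX : ∀ i ∈ s, IsTestV (X i)) :
    Wf n μ f (fun y => ∑ i ∈ s, a i • X i y) = ∑ i ∈ s, a i * Wf n μ f (X i) := by
  have e1 : ∀ p : V d × V d, wker n f (fun y => ∑ i ∈ s, a i • X i y) p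
      = ∑ i ∈ s, a i * wker n f (X i) p := by
    intro p
    unfold wker
    rw [Finset.smul_sum, Finset.smul_sum, ← Finset.sum_sub_distrib, sum_inner, Finset.sum_mul]
    refine Finset.sum_congr rfl fun i _ => ?_
    rw [smul_comm (f p.2), smul_comm (f p.1), ← smul_sub, real_inner_smul_left]
    ring
  unfold Wf
  simp only [e1]
  rw [integral_finsetSum]
  · rw [Finset.mul_sum]
    refine Finset.sum_congr rfl fun i _ => ?_
    rw [integral_const_mul]
    ring
  · intro i hi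
    exact (integrable_wker hU hf (hX i hi)).const_mul _

theorem isTestV_smul {d : ℕ} {ψ : V d → ℝ} (h : IsTest ψ) (e : V d) :
    IsTestV (fun y => ψ y • e) := by
  obtain ⟨K, hK⟩ := h.lip
  refine ⟨⟨K * ‖e‖₊, ?_⟩, ?_⟩
  · refine LipschitzWith.of_dist_le_mul fun y z => ?_
    rw [dist_eq_norm, ← sub_smul, norm_smul, NNReal.coe_mul, coe_nnnorm]
    have := hK.dist_le_mul y z
    rw [Real.dist_eq] at this
    rw [Real.norm_eq_abs]
    nlinarith [norm_nonneg e]
  · exact h.cpt.smul_right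

theorem isTestV_sum {d : ℕ} {ι : Type*} (s : Finset ι) (a : ι → ℝ) (X : ι → V d → V d)
    (hX : ∀ i ∈ s, IsTestV (X i)) : IsTestV (fun y => ∑ i ∈ s, a i • X i y) := by
  classical
  induction s using Finset.induction_on with
  | empty =>
    refine ⟨⟨0, ?_⟩, ?_⟩
    · simp only [Finset.sum_empty]
      exact LipschitzWith.const _
    · simp only [Finset.sum_empty]
      exact HasCompactSupport.zero
  | insert i s hi ih =>
    obtain ⟨⟨K, hK⟩, hc⟩ := ih fun j hj => hX j (Finset.mem_insert_of_mem hj)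
    obtain ⟨⟨K', hK'⟩, hc'⟩ := hX i (Finset.mem_insert_self i s)
    refine ⟨⟨‖a i‖₊ * K' + K, ?_⟩, ?_⟩
    · simp only [Finset.sum_insert hi]
      refine LipschitzWith.add ?_ hK
      refine LipschitzWith.of_dist_le_mul fun y z => ?_
      rw [dist_eq_norm, ← smul_sub, norm_smul, NNReal.coe_mul, coe_nnnorm, mul_assoc,
        ← dist_eq_norm (X i y)]
      exact mul_le_mul_of_nonneg_left (hK'.dist_le_mul y z) (norm_nonneg _)
    · simp only [Finset.sum_insert hi]
      refine HasCompactSupport.add ?_ hc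
      exact hc'.smul_left (f := fun _ => a i)

/-- M2, quantitative packing. -/
theorem packing_of_farComp {d n : ℕ} {C A M δ σ : ℝ} (hC1 : 1 ≤ C) (hA : 0 ≤ A)
    (hM : 1 ≤ M) (hδ : 0 < δ) (hσ : 0 < σ) (hσ1 : σ ≤ 1) (hcomp : FarComp d n C) :
    ∃ K : ℝ, 0 < K ∧ ∀ (μ : Measure (V d)) (D : ℝ≥0∞), ADR n C D μ → WeakRiesz n A μ →
      ∀ (x0 : V d) (R0 b : ℝ), 0 < R0 → 2 ≤ b → ∀ (ι : Type) (s : Finset ι) (x : ι → V d)
        (k : ι → ℕ),
        (∀ i ∈ s, x i ∈ μ.support ∧ dist (x i) x0 ≤ R0 ∧ ENNReal.ofReal (R0 / b ^ k i) ≤ D ∧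
          ¬ EtaS n μ (x i) (R0 / b ^ k i) M δ) →
        (∀ i ∈ s, ∀ j ∈ s, i ≠ j → k i = k j → σ * (R0 / b ^ k i) ≤ dist (x i) (x j)) →
        ∑ i ∈ s, (R0 / b ^ k i) ^ n ≤ K * R0 ^ n := by
  classical
  obtain ⟨K0, hK0, hK⟩ := hcomp
  have hC0 : 0 < C := by linarith
  have hM0 : 0 < M := by linarith
  set Λ : ℝ := max (2 * M) (2 * K0 * M ^ (n + 1) / δ) with hΛ
  have hΛ1 : 2 * M ≤ Λ := le_max_left _ _
  have hΛ2 : 2 * K0 * M ^ (n + 1) / δ ≤ Λ := le_max_right _ _
  have hΛ0 : 0 < Λ := by linarith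
  set B : ℝ := C ^ 2 * 2 ^ n * (2 / σ) ^ n with hB
  have hB0 : 0 < B := by positivity
  set Crow : ℝ := 4 * (M * (C * M ^ n) * B * (2 * M + 1) ^ n) with hCrow
  have hCrow0 : 0 < Crow := by positivity
  refine ⟨4 / δ ^ 2 * (Crow * (A ^ 2 * (C * (8 * Λ) ^ n)) + 1), by positivity, ?_⟩
  intro μ D hμ hW x0 R0 b hR0 hb ι s x k hs hsep
  have hU : UpperReg n C μ := hμ.upper
  have hlf := isLocallyFinite_of_upper hμ.upper
  have hb0 : (0 : ℝ) < b := by linarith
  have hb1 : (1 : ℝ) ≤ b := by linarith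
  have hrpos : ∀ m : ℕ, 0 < R0 / b ^ m := fun m => by positivity
  have hrle : ∀ m : ℕ, R0 / b ^ m ≤ R0 := fun m => div_le_self hR0.le (one_le_pow₀ hb1)
  -- choose the test functions
  have hch : ∀ i ∈ s, ∃ (e : V d) (ψ : V d → ℝ), ‖e‖ ≤ 1 ∧
      (∀ y z, |ψ y - ψ z| ≤ dist y z / (R0 / b ^ k i)) ∧ (∀ y, |ψ y| ≤ 1) ∧
      (∀ y, y ∉ ball (x i) (M * (R0 / b ^ k i)) → ψ y = 0) ∧ ∫ y, ψ y ∂μ = 0 ∧
      ∃ᶠ N : ℝ in atTop, δ * (R0 / b ^ k i) ^ n < |Bf n μ N (lin e) ψ| := by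
    intro i hi
    have h := (hs i hi).2.2.2
    unfold EtaS at h
    push Not at h
    obtain ⟨e, he, ψ, h1, h2, h3, h4, h5⟩ := h
    exact ⟨e, ψ, he, h1, h2, h3, h4, h5⟩
  choose! e ψ he hψL hψ1 hψs hψ0 hψB using hch
  set ρ : ℝ := Λ * R0 with hρ
  have hρ0 : 0 < ρ := by positivity
  have hR0ρ : R0 ≤ ρ := by
    have : 1 ≤ Λ := by linarith
    nlinarith
  set f : V d → ℝ := cutf x0 (4 * ρ) with hf
  have h4ρ : 0 < 4 * ρ := by positivity
  have hfT : IsTest f := isTest_cutf x0 h4ρ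
  have hψT : ∀ i ∈ s, IsTest (ψ i) := fun i hi => isTest_of (hrpos _) (hψL i hi) (hψs i hi)
  have hXT : ∀ i ∈ s, IsTestV (fun y => ψ i y • e i) := fun i hi => isTestV_smul (hψT i hi) _
  -- lower bound for the weak forms
  have hlow : ∀ i ∈ s, δ / 2 * (R0 / b ^ k i) ^ n ≤ |Wf n μ f (fun y => ψ i y • e i)| := by
    intro i hi
    set r := R0 / b ^ k i with hr
    have hr0 : 0 < r := hrpos _
    have hrR : r ≤ R0 := hrle _
    have hev := hK μ hU (x i) r M ρ f (e i) (ψ i) hr0 hM (by nlinarith) (he i hi) hfT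
      (fun y => ⟨cutf_nonneg _ _ _, cutf_le_one _ _ _⟩) ?_ (hψL i hi) (hψ1 i hi) (hψs i hi)
      (hψ0 i hi)
    · obtain ⟨N, hN1, hN2⟩ := ((hψB i hi).and_eventually hev).exists
      have h3 : K0 * (M * r / ρ) * (M * r) ^ n ≤ δ / 2 * r ^ n := by
        have h5 : K0 * (M * r / ρ) * (M * r) ^ n = (K0 * M ^ (n + 1) * (r / ρ)) * r ^ n := by
          rw [mul_pow, pow_succ]; ring
        rw [h5]
        refine mul_le_mul_of_nonneg_right ?_ (by positivity)
        have h6 : r / ρ ≤ 1 / Λ := by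
          rw [div_le_div_iff₀ hρ0 hΛ0, hρ]
          nlinarith
        calc K0 * M ^ (n + 1) * (r / ρ) ≤ K0 * M ^ (n + 1) * (1 / Λ) := by gcongr
          _ ≤ δ / 2 := by
            rw [mul_one_div, div_le_div_iff₀ hΛ0 two_pos]
            rw [div_le_iff₀ hδ] at hΛ2
            linarith
      have h7 : |Bf n μ N (lin (e i)) (ψ i)| ≤ |Wf n μ f (fun y => ψ i y • e i)|
          + |Bf n μ N (lin (e i)) (ψ i) - Wf n μ f (fun y => ψ i y • e i)| := by
        have := abs_add_le (Wf n μ f (fun y => ψ i y • e i))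
          (Bf n μ N (lin (e i)) (ψ i) - Wf n μ f (fun y => ψ i y • e i))
        rwa [add_sub_cancel] at this
      linarith
    · intro y hy
      refine cutf_eq_one h4ρ ?_
      have h1 := dist_triangle y (x i) x0
      have h2 := (hs i hi).2.1
      rw [mem_ball] at hy
      linarith
  -- L² norm of f
  have hf2 : ∫ y, f y ^ 2 ∂μ ≤ C * (8 * Λ) ^ n * R0 ^ n := by
    have h8 : 0 < 8 * ρ := by positivity
    have hfin : μ (ball x0 (8 * ρ)) < ∞ :=
      lt_of_le_of_lt (hμ.upper x0 _ h8) ENNReal.ofReal_lt_top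
    have e1 : ∫ y, f y ^ 2 ∂μ = ∫ y in ball x0 (8 * ρ), f y ^ 2 ∂μ := by
      rw [setIntegral_eq_integral_of_forall_compl_eq_zero]
      intro y hy
      rw [mem_ball, not_lt] at hy
      rw [hf, cutf_eq_zero h4ρ (by linarith)]
      norm_num
    have e2 : ‖∫ y in ball x0 (8 * ρ), f y ^ 2 ∂μ‖ ≤ 1 * μ.real (ball x0 (8 * ρ)) := by
      refine norm_setIntegral_le_of_norm_le_const hfin fun y _ => ?_
      rw [Real.norm_eq_abs, abs_of_nonneg (sq_nonneg _)]
      have h0 : 0 ≤ f y := cutf_nonneg _ _ _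
      have h1 : f y ≤ 1 := cutf_le_one _ _ _
      nlinarith
    rw [e1]
    refine (le_abs_self _).trans ?_
    rw [Real.norm_eq_abs, one_mul] at e2
    refine e2.trans ?_
    rw [measureReal_def]
    refine ENNReal.toReal_le_of_le_ofReal (by positivity) ?_
    refine (hμ.upper x0 _ h8).trans (le_of_eq ?_)
    congr 1
    rw [hρ, ← mul_assoc, mul_pow]; ring
  -- Gram matrix
  set g : ι → ι → ℝ := fun i j => inner ℝ (e i) (e j) * ∫ y, ψ i y * ψ j y ∂μ with hg
  have hsym : ∀ i ∈ s, ∀ j ∈ s, g i j = g j i := by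
    intro i _ j _
    simp only [hg]
    rw [real_inner_comm]
    congr 1
    exact integral_congr_ae (Eventually.of_forall fun y => mul_comm _ _)
  have hrow : ∀ i ∈ s, ∑ j ∈ s, |g i j| ≤ Crow * (R0 / b ^ k i) ^ n := by
    intro i hi
    refine row_sum_le s x k hb hR0 (A := M * (C * M ^ n)) (B := B) (M := M) (by positivity)
      hB0.le hM0.le n ?_ g ?_ hsym ?_ i hi
    · intro i hi m ρ' hρ'
      rcases (s.filter fun j => k j = m ∧ dist (x j) (x i) ≤ ρ').eq_empty_or_nonempty with h0 | h0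
      · rw [h0]
        have := hrpos m
        simp only [Finset.card_empty, Nat.cast_zero]
        positivity
      · obtain ⟨j0, hj0⟩ := h0
        rw [Finset.mem_filter] at hj0
        refine count_adr hμ hσ hσ1 _ x (x i) (hrpos m) hρ' ?_ ?_ ?_ ?_
        · have := (hs j0 hj0.1).2.2.1
          rwa [hj0.2.1] at this
        · intro j hj
          exact (hs j (Finset.mem_filter.1 hj).1).1
        · intro j hj
          exact (Finset.mem_filter.1 hj).2.2
        · intro j hj j' hj' hne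
          rw [Finset.mem_filter] at hj hj'
          have := hsep j hj.1 j' hj'.1 hne (by rw [hj.2.1, hj'.2.1])
          rwa [hj.2.1] at this
    · intro i hi j hj _
      simp only [hg]
      rw [abs_mul]
      have h1 : |inner ℝ (e i) (e j)| ≤ 1 := by
        refine (abs_real_inner_le_norm _ _).trans ?_
        have := he i hi
        have := he j hj
        have := norm_nonneg (e i)
        have := norm_nonneg (e j)
        nlinarith
      have h2 := gram_le hμ.upper hC0.le (ψ := ψ i) (φ := ψ j) (y := x j) (hrpos (k i))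
        (hrpos (k j)) hM0 (hψL i hi) (hψL j hj) (hψ1 j hj) (hψs j hj) (hψ0 j hj)
      calc |inner ℝ (e i) (e j)| * |∫ y, ψ i y * ψ j y ∂μ|
          ≤ 1 * ((M * (R0 / b ^ k j) / (R0 / b ^ k i)) * (C * (M * (R0 / b ^ k j)) ^ n)) :=
            mul_le_mul h1 h2 (abs_nonneg _) zero_le_one
        _ = M * (C * M ^ n) * ((R0 / b ^ k j) / (R0 / b ^ k i)) * (R0 / b ^ k j) ^ n := by
            rw [mul_pow]; ring
    · intro i hi j hj hij hd
      simp only [hg]
      have hle : R0 / b ^ k j ≤ R0 / b ^ k i :=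
        div_le_div_of_nonneg_left hR0.le (by positivity) (pow_le_pow_right₀ hb1 hij)
      have : ∀ y, ψ i y * ψ j y = 0 := by
        intro y
        by_cases hy : y ∈ ball (x i) (M * (R0 / b ^ k i))
        · have hy' : y ∉ ball (x j) (M * (R0 / b ^ k j)) := by
            intro hy'
            rw [mem_ball] at hy hy'
            have := dist_triangle (x j) y (x i)
            rw [dist_comm (x j) y] at this
            nlinarith
          rw [hψs j hj y hy', mul_zero]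
        · rw [hψs i hi y hy, zero_mul]
      simp only [this, integral_zero, mul_zero]
  -- duality
  have hdual := almost_orth s g (fun i => (R0 / b ^ k i) ^ n) (fun i _ => by
      have := hrpos (k i); positivity) Crow (A * √(∫ y, f y ^ 2 ∂μ)) hCrow0.le
      (by positivity) hsym hrow (fun i => Wf n μ f (fun y => ψ i y • e i)) ?_
  · have hsq : (A * √(∫ y, f y ^ 2 ∂μ)) ^ 2 = A ^ 2 * ∫ y, f y ^ 2 ∂μ := by
      rw [mul_pow, Real.sq_sqrt]
      exact integral_nonneg fun y => sq_nonneg _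
    rw [hsq] at hdual
    have h1 : ∑ i ∈ s, (δ / 2) ^ 2 * (R0 / b ^ k i) ^ n
        ≤ ∑ i ∈ s, (Wf n μ f (fun y => ψ i y • e i)) ^ 2 / (R0 / b ^ k i) ^ n := by
      refine Finset.sum_le_sum fun i hi => ?_
      have hr0 : 0 < (R0 / b ^ k i) ^ n := by
        have := hrpos (k i); positivity
      rw [le_div_iff₀ hr0, ← sq_abs (Wf n μ f _)]
      have := hlow i hi
      calc (δ / 2) ^ 2 * (R0 / b ^ k i) ^ n * (R0 / b ^ k i) ^ n
          = (δ / 2 * (R0 / b ^ k i) ^ n) ^ 2 := by ring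
        _ ≤ |Wf n μ f (fun y => ψ i y • e i)| ^ 2 := by
            exact pow_le_pow_left₀ (by positivity) this 2
    rw [← Finset.mul_sum] at h1
    have h2 : (δ / 2) ^ 2 * ∑ i ∈ s, (R0 / b ^ k i) ^ n
        ≤ Crow * (A ^ 2 * (C * (8 * Λ) ^ n * R0 ^ n)) := by
      refine h1.trans (hdual.trans ?_)
      gcongr
    have h3 : ∑ i ∈ s, (R0 / b ^ k i) ^ n
        ≤ 4 / δ ^ 2 * (Crow * (A ^ 2 * (C * (8 * Λ) ^ n * R0 ^ n))) := by
      have h4 : (δ / 2) ^ 2 = δ ^ 2 / 4 := by ring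
      rw [h4] at h2
      have h5 : ∑ i ∈ s, (R0 / b ^ k i) ^ n
          = 4 / δ ^ 2 * (δ ^ 2 / 4 * ∑ i ∈ s, (R0 / b ^ k i) ^ n) := by
        field_simp
      rw [h5]
      exact mul_le_mul_of_nonneg_left h2 (by positivity)
    refine h3.trans ?_
    have h6 : 4 / δ ^ 2 * (Crow * (A ^ 2 * (C * (8 * Λ) ^ n * R0 ^ n)))
        = 4 / δ ^ 2 * (Crow * (A ^ 2 * (C * (8 * Λ) ^ n))) * R0 ^ n := by ring
    rw [h6]
    refine mul_le_mul_of_nonneg_right ?_ (by positivity)
    refine mul_le_mul_of_nonneg_left ?_ (by positivity)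
    linarith
  · intro a
    rw [← wf_sum hU hfT s a _ hXT]
    refine (hW f _ hfT (isTestV_sum s a _ hXT)).trans (le_of_eq ?_)
    rw [integral_norm_sq_sum s ψ e a hψT]

end Crest.Agent.R085.Pack
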