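import Mathlib
import Crest.Agent.R085.Packing

/-!
R085 / M2 : maximal separated sets and the outer-measure (Borel-Cantelli) form of the packing.
-/

set_option autoImplicit false

namespace Crest.Agent.R085.Pack

open MeasureTheory Metric Set Filter
open scoped ENNReal NNReal Topology

/-- Maximal separated finite subsets of a totally bounded set. -/
theorem exists_maximal_separated {X : Type*} [PseudoMetricSpace X] {A : Set X}
    (hA : TotallyBounded A) {r : ℝ} (hr : 0 < r) :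
    ∃ T : Finset X, (∀ x ∈ T, x ∈ A) ∧ (∀ x ∈ T, ∀ y ∈ T, x ≠ y → r ≤ dist x y) ∧
      ∀ x ∈ A, ∃ y ∈ T, dist x y < r := by
  classical
  obtain ⟨t, ht, htA⟩ := Metric.totallyBounded_iff.1 hA (r / 2) (by positivity)
  set P : Finset X → Prop := fun T => (∀ x ∈ T, x ∈ A) ∧
    ∀ x ∈ T, ∀ y ∈ T, x ≠ y → r ≤ dist x y with hP
  have hbound : ∀ T : Finset X, P T → T.card ≤ ht.toFinset.card := by
    rintro T ⟨hTA, hTs⟩
    have hch : ∀ x ∈ T, ∃ y ∈ ht.toFinset, x ∈ ball y (r / 2) := by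
      intro x hx
      have := htA (hTA x hx)
      rw [mem_iUnion₂] at this
      obtain ⟨y, hy, hxy⟩ := this
      exact ⟨y, by simpa using hy, hxy⟩
    choose! f hf1 hf2 using hch
    refine Finset.card_le_card_of_injOn f (fun x hx => hf1 x hx) ?_
    intro x hx y hy hxy
    by_contra hne
    have h1 := hf2 x hx
    have h2 := hf2 y hy
    rw [hxy] at h1
    rw [mem_ball] at h1 h2
    have h3 := hTs x hx y hy hne
    have h4 := dist_triangle_right x y (f y)
    linarith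
  set S : Set ℕ := {m | ∃ T : Finset X, P T ∧ T.card = m} with hS
  have hSne : S.Nonempty := ⟨0, ∅, ⟨by simp, by simp⟩, rfl⟩
  have hSb : BddAbove S := by
    refine ⟨ht.toFinset.card, ?_⟩
    rintro m ⟨T, hT, rfl⟩
    exact hbound T hT
  obtain ⟨T, hT, hTc⟩ := Nat.sSup_mem hSne hSb
  refine ⟨T, hT.1, hT.2, ?_⟩
  intro x hx
  by_contra hcon
  push Not at hcon
  have hxT : x ∉ T := by
    intro h
    have := hcon x h
    rw [dist_self] at this
    linarith
  have hins : P (insert x T) := by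
    refine ⟨?_, ?_⟩
    · intro y hy
      rcases Finset.mem_insert.1 hy with rfl | hy
      · exact hx
      · exact hT.1 y hy
    · intro y hy z hz hne
      rcases Finset.mem_insert.1 hy with hyx | hy
      · rcases Finset.mem_insert.1 hz with hzx | hz
        · exact absurd (hyx.trans hzx.symm) hne
        · rw [hyx]; exact hcon z hz
      · rcases Finset.mem_insert.1 hz with hzx | hz
        · rw [dist_comm, hzx]; exact hcon y hy
        · exact hT.2 y hy z hz hne
  have h1 : (insert x T).card ∈ S := ⟨_, hins, rfl⟩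
  have h2 := le_csSup hSb h1
  rw [Finset.card_insert_of_notMem hxT, ← hTc] at h2
  omega

/-- M2, outer-measure form of the packing. -/
theorem packing_measure_of_farComp {d n : ℕ} {C A M δ : ℝ} (hC1 : 1 ≤ C)
    (hA : 0 ≤ A) (hM : 1 ≤ M) (hδ : 0 < δ) (hcomp : FarComp d n C) :
    ∃ K : ℝ, 0 < K ∧ ∀ (μ : Measure (V d)) (D : ℝ≥0∞), ADR n C D μ → WeakRiesz n A μ →
      ∀ (x0 : V d) (R0 : ℝ), 0 < R0 → ENNReal.ofReal R0 ≤ D →
        ∑' k : ℕ, μ {x | x ∈ μ.support ∧ dist x x0 ≤ R0 ∧ ¬ EtaS n μ x (R0 / 2 ^ k) M δ}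
          ≤ ENNReal.ofReal (K * R0 ^ n) := by
  classical
  obtain ⟨K, hK0, hK⟩ := packing_of_farComp hC1 hA hM hδ (σ := 1) one_pos le_rfl hcomp
  refine ⟨C * K, by positivity, ?_⟩
  intro μ D hμ hW x0 R0 hR0 hD
  have hC0 : 0 < C := by linarith
  set Ak : ℕ → Set (V d) := fun k =>
    {x | x ∈ μ.support ∧ dist x x0 ≤ R0 ∧ ¬ EtaS n μ x (R0 / 2 ^ k) M δ} with hAk
  have hrpos : ∀ m : ℕ, 0 < R0 / 2 ^ m := fun m => by positivity
  have hrle : ∀ m : ℕ, R0 / 2 ^ m ≤ R0 := fun m => div_le_self hR0.le (one_le_pow₀ (by norm_num))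
  have htb : ∀ k, TotallyBounded (Ak k) := by
    intro k
    refine (isCompact_closedBall x0 R0).totallyBounded.subset ?_
    intro x hx
    exact hx.2.1
  have hT := fun k => exists_maximal_separated (htb k) (hrpos k)
  choose T hT1 hT2 hT3 using hT
  have hcov : ∀ k, μ (Ak k) ≤ ∑ x ∈ T k, ENNReal.ofReal (C * (R0 / 2 ^ k) ^ n) := by
    intro k
    have h1 : Ak k ⊆ ⋃ x ∈ T k, ball x (R0 / 2 ^ k) := by
      intro x hx
      obtain ⟨y, hy, hxy⟩ := hT3 k x hx
      exact mem_iUnion₂.2 ⟨y, hy, hxy⟩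
    refine (measure_mono h1).trans ((measure_biUnion_finset_le _ _).trans ?_)
    exact Finset.sum_le_sum fun x _ => hμ.upper x _ (hrpos k)
  refine (ENNReal.tsum_le_tsum hcov).trans ?_
  rw [ENNReal.tsum_eq_iSup_sum]
  refine iSup_le fun J => ?_
  -- index type: pairs
  set s : Finset (Σ _ : ℕ, V d) := J.sigma T with hs
  have e1 : ∑ k ∈ J, ∑ x ∈ T k, ENNReal.ofReal (C * (R0 / 2 ^ k) ^ n)
      = ENNReal.ofReal (∑ p ∈ s, C * (R0 / 2 ^ p.1) ^ n) := by
    rw [ENNReal.ofReal_sum_of_nonneg, Finset.sum_sigma]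
    intro p _
    have := hrpos p.1
    positivity
  rw [e1, ← Finset.mul_sum]
  refine ENNReal.ofReal_le_ofReal ?_
  rw [mul_assoc]
  refine mul_le_mul_of_nonneg_left ?_ hC0.le
  refine hK μ D hμ hW x0 R0 2 hR0 le_rfl (Σ _ : ℕ, V d) s (fun p => p.2) (fun p => p.1) ?_ ?_
  · rintro ⟨k, x⟩ hp
    rw [hs, Finset.mem_sigma] at hp
    have hx := hT1 k x hp.2
    exact ⟨hx.1, hx.2.1, (ENNReal.ofReal_le_ofReal (hrle k)).trans hD, hx.2.2⟩
  · rintro ⟨k, x⟩ hp ⟨k', y⟩ hp' hne hkk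
    rw [hs, Finset.mem_sigma] at hp hp'
    simp only at hkk
    subst hkk
    rw [one_mul]
    refine hT2 k x hp.2 y hp'.2 ?_
    rintro rfl
    exact hne rfl

end Crest.Agent.R085.Pack
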