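import Mathlib
import Crest.Agent.R085.WeakRiesz

/-!
R085 (S0113), module M2(a), second part: linearity of `Wf` in the field and the far-field
comparison between the truncated form `Bf n μ N (lin e) ψ` and the weak form `Wf n μ f (ψ e)`.
-/

set_option autoImplicit false

namespace Crest.Agent.R085

open MeasureTheory Metric Set Filter
open scoped ENNReal NNReal Topology
open Touch

variable {d n : ℕ} {μ : Measure (V d)} {C A : ℝ}

/-! ### closure properties of test functions and test fields -/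

theorem IsTest.smul_vec {ψ : V d → ℝ} (hψ : IsTest ψ) (e : V d) :
    IsTestV (fun y => ψ y • e) := by
  obtain ⟨K, hK⟩ := hψ.lip
  refine ⟨⟨K * ‖e‖₊, ?_⟩, ?_⟩
  · refine LipschitzWith.of_dist_le_mul (fun x y => ?_)
    rw [dist_eq_norm, ← sub_smul, norm_smul, ← dist_eq_norm]
    calc dist (ψ x) (ψ y) * ‖e‖ ≤ (K * dist x y) * ‖e‖ := by
          gcongr; exact hK.dist_le_mul x y
      _ = ((K * ‖e‖₊ : ℝ≥0) : ℝ) * dist x y := by push_cast; ring
  · exact hψ.cpt.smul_right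

theorem isTestV_zero : IsTestV (fun _ : V d => (0 : V d)) :=
  ⟨⟨0, LipschitzWith.const' 0⟩, HasCompactSupport.zero⟩

theorem IsTestV.add {X Y : V d → V d} (hX : IsTestV X) (hY : IsTestV Y) :
    IsTestV (fun y => X y + Y y) := by
  obtain ⟨K, hK⟩ := hX.lip
  obtain ⟨L, hL⟩ := hY.lip
  exact ⟨⟨K + L, hK.add hL⟩, hX.cpt.add hY.cpt⟩

theorem IsTestV.const_smul {X : V d → V d} (hX : IsTestV X) (a : ℝ) :
    IsTestV (fun y => a • X y) := by
  obtain ⟨K, hK⟩ := hX.lip
  refine ⟨⟨‖a‖₊ * K, ?_⟩, ?_⟩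
  · refine LipschitzWith.of_dist_le_mul (fun x y => ?_)
    rw [dist_eq_norm, ← smul_sub, norm_smul, ← dist_eq_norm]
    calc ‖a‖ * dist (X x) (X y) ≤ ‖a‖ * (K * dist x y) := by
          gcongr; exact hK.dist_le_mul x y
      _ = ((‖a‖₊ * K : ℝ≥0) : ℝ) * dist x y := by push_cast; ring
  · exact hX.cpt.smul_left (f := fun _ => a)

theorem IsTestV.sum {ι : Type*} (s : Finset ι) (a : ι → ℝ) {X : ι → V d → V d}
    (hX : ∀ i ∈ s, IsTestV (X i)) : IsTestV (fun y => ∑ i ∈ s, a i • X i y) := by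
  classical
  induction s using Finset.induction_on with
  | empty => simpa using isTestV_zero
  | insert i s hi ih =>
    simp_rw [Finset.sum_insert hi]
    exact ((hX i (Finset.mem_insert_self i s)).const_smul (a i)).add
      (ih fun j hj => hX j (Finset.mem_insert_of_mem hj))

/-! ### linearity -/

theorem wker_sum {ι : Type*} (s : Finset ι) (a : ι → ℝ) (f : V d → ℝ) (X : ι → V d → V d)
    (p : V d × V d) :
    wker n f (fun y => ∑ i ∈ s, a i • X i y) p = ∑ i ∈ s, a i * wker n f (X i) p := by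
  have e1 : f p.2 • (∑ i ∈ s, a i • X i p.1) - f p.1 • (∑ i ∈ s, a i • X i p.2)
      = ∑ i ∈ s, a i • (f p.2 • X i p.1 - f p.1 • X i p.2) := by
    rw [Finset.smul_sum, Finset.smul_sum, ← Finset.sum_sub_distrib]
    refine Finset.sum_congr rfl fun i _ => ?_
    module
  unfold wker
  rw [e1, sum_inner, Finset.sum_mul]
  refine Finset.sum_congr rfl fun i _ => ?_
  rw [real_inner_smul_left]; ring

/-- `Wf` is linear in the field. -/
theorem Wf_sum (hU : UpperReg n C μ) {ι : Type*} (s : Finset ι) (a : ι → ℝ) {f : V d → ℝ}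
    (hf : IsTest f) {X : ι → V d → V d} (hX : ∀ i ∈ s, IsTestV (X i)) :
    Wf n μ f (fun y => ∑ i ∈ s, a i • X i y) = ∑ i ∈ s, a i * Wf n μ f (X i) := by
  unfold Wf
  simp_rw [wker_sum]
  rw [integral_finsetSum _ (fun i hi => (integrable_wker hU hf (hX i hi)).const_mul (a i)),
    Finset.mul_sum]
  refine Finset.sum_congr rfl fun i _ => ?_
  rw [integral_const_mul]; ring

/-! ### comparison of `Bf` and `Wf` -/

/-- one half of the difference of the two kernels. -/
noncomputable def cker (n : ℕ) (N : ℝ) (e : V d) (f ψ : V d → ℝ) (p : V d × V d) : ℝ :=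
  ψ p.1 * (inner ℝ (p.1 - p.2) e * kN n N (p.1 - p.2) -
    f p.2 * (inner ℝ (p.1 - p.2) e * (‖p.1 - p.2‖ ^ (n + 1))⁻¹))

theorem cker_add_swap (N : ℝ) (e : V d) (f ψ : V d → ℝ) (p : V d × V d) :
    bfI n N (lin e) ψ p - wker n f (fun y => ψ y • e) p =
      cker n N e f ψ p + cker n N e f ψ p.swap := by
  unfold bfI wker cker lin
  simp only [Prod.fst_swap, Prod.snd_swap]
  rw [kN_sub_comm n N p.2 p.1, norm_sub_rev p.2 p.1, ← inner_sub_left, ← neg_sub p.1 p.2,
    inner_neg_left]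
  have e1 : inner ℝ (f p.2 • ψ p.1 • e - f p.1 • ψ p.2 • e) (p.1 - p.2) =
      (f p.2 * ψ p.1 - f p.1 * ψ p.2) * inner ℝ (p.1 - p.2) e := by
    rw [smul_smul, smul_smul, ← sub_smul, real_inner_smul_left, real_inner_comm]
  rw [e1]; ring

theorem abs_inner_k_sub_le {u v : V d} {m : ℝ} (hm : 0 < m) (hu : m ≤ ‖u‖)
    (hv : m ≤ ‖v‖) (e : V d) (he : ‖e‖ ≤ 1) :
    |inner ℝ u e * (‖u‖ ^ (n + 1))⁻¹ - inner ℝ v e * (‖v‖ ^ (n + 1))⁻¹| ≤
      (n + 4) * ‖u - v‖ / m ^ (n + 1) := by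
  have hN : 0 < max ‖u‖ ‖v‖ := (hm.trans_le hu).trans_le (le_max_left _ _)
  have h := abs_inner_kN_sub_le (n := n) hN hm hu hv e he
  rwa [kN_eq hN (le_max_left _ _), kN_eq hN (le_max_right _ _)] at h

theorem abs_inner_mul_k_le (e z : V d) (he : ‖e‖ ≤ 1) :
    |inner ℝ z e * (‖z‖ ^ (n + 1))⁻¹| ≤ (‖z‖ ^ n)⁻¹ := by
  rcases eq_or_ne z 0 with rfl | hz
  · simp
  have hN : 0 < ‖z‖ := norm_pos_iff.2 hz
  have h := abs_inner_mul_kN_le (n := n) ‖z‖ e z he
  rwa [kN_eq hN le_rfl] at h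

section compare

variable {x0 e : V d} {R ρ N : ℝ} {ψ f : V d → ℝ}

theorem cker_eq_zero_of_left (hψR : ∀ y, y ∉ ball x0 R → ψ y = 0) {p : V d × V d}
    (hp : p.1 ∉ ball x0 R) : cker n N e f ψ p = 0 := by
  unfold cker; rw [hψR _ hp, zero_mul]

theorem cker_eq_zero_of_near (hR : 0 < R) (hRρ : R ≤ ρ) (hN : 3 * ρ ≤ N)
    (hψR : ∀ y, y ∉ ball x0 R → ψ y = 0)
    (hf1 : ∀ y ∈ ball x0 (2 * ρ), f y = 1) {p : V d × V d} (hp : p.2 ∈ ball x0 (2 * ρ)) :
    cker n N e f ψ p = 0 := by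
  by_cases h1 : p.1 ∈ ball x0 R
  · have hd : ‖p.1 - p.2‖ ≤ N := by
      rw [← dist_eq_norm]
      have := dist_triangle_right p.1 p.2 x0
      rw [mem_ball] at h1 hp
      linarith
    unfold cker
    rw [hf1 _ hp, kN_eq (by linarith) hd]; ring
  · exact cker_eq_zero_of_left hψR h1

theorem cker_diff_bound (hR : 0 < R) (hRρ : R ≤ ρ) (hN : 3 * ρ ≤ N)
    (hψR : ∀ y, y ∉ ball x0 R → ψ y = 0) (hf0 : ∀ y, |f y| ≤ 1) (he : ‖e‖ ≤ 1)
    (x y : V d) (hy : 2 * ρ ≤ dist x0 y) :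
    |cker n N e f ψ (x, y) - ψ x * (inner ℝ (x0 - y) e * kN n N (x0 - y) -
    f y * (inner ℝ (x0 - y) e * (‖x0 - y‖ ^ (n + 1))⁻¹))| ≤
      |ψ x| * (2 * ((n + 4) * R * 2 ^ (n + 1)) * (dist x0 y ^ (n + 1))⁻¹) := by
  by_cases hx : x ∈ ball x0 R
  · have hN0 : 0 < N := by linarith
    set m : ℝ := dist x0 y / 2 with hm
    have hm0 : 0 < m := by rw [hm]; linarith
    have h1 : m ≤ ‖x - y‖ := by
      rw [← dist_eq_norm]
      have := dist_triangle_left x0 y x
      rw [mem_ball] at hx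
      rw [hm]; linarith
    have h2 : m ≤ ‖x0 - y‖ := by rw [← dist_eq_norm, hm]; linarith
    have h3 : ‖(x - y) - (x0 - y)‖ ≤ R := by
      rw [sub_sub_sub_cancel_right, ← dist_eq_norm]
      exact (mem_ball.1 hx).le
    have k1 := abs_inner_kN_sub_le (n := n) hN0 hm0 h1 h2 e he
    have k2 := abs_inner_k_sub_le (n := n) hm0 h1 h2 e he
    have k3 : (n + 4) * ‖(x - y) - (x0 - y)‖ / m ^ (n + 1) ≤
        (n + 4) * R * 2 ^ (n + 1) * (dist x0 y ^ (n + 1))⁻¹ := by
      have : m ^ (n + 1) = dist x0 y ^ (n + 1) / 2 ^ (n + 1) := by rw [hm, div_pow]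
      rw [this, div_div_eq_mul_div, div_eq_mul_inv]
      gcongr
    unfold cker
    rw [← mul_sub, abs_mul]
    gcongr
    simp only
    set a := inner ℝ (x - y) e * kN n N (x - y)
    set b := inner ℝ (x0 - y) e * kN n N (x0 - y)
    set a' := inner ℝ (x - y) e * (‖x - y‖ ^ (n + 1))⁻¹
    set b' := inner ℝ (x0 - y) e * (‖x0 - y‖ ^ (n + 1))⁻¹
    have e1 : a - f y * a' - (b - f y * b') = (a - b) - f y * (a' - b') := by ring
    rw [e1]
    calc |(a - b) - f y * (a' - b')| ≤ |a - b| + |f y * (a' - b')| := abs_sub _ _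
      _ = |a - b| + |f y| * |a' - b'| := by rw [abs_mul]
      _ ≤ (n + 4) * R * 2 ^ (n + 1) * (dist x0 y ^ (n + 1))⁻¹ +
          1 * ((n + 4) * R * 2 ^ (n + 1) * (dist x0 y ^ (n + 1))⁻¹) := by
          gcongr
          · exact k1.trans k3
          · exact hf0 y
          · exact k2.trans k3
      _ = _ := by ring
  · rw [cker_eq_zero_of_left hψR (p := (x, y)) hx, hψR _ hx]; simp

theorem measurable_cker (hf : Measurable f) (hψ : Measurable ψ) :
    Measurable (cker n N e f ψ) := by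
  unfold cker
  have m0 : Measurable (fun p : V d × V d => p.1 - p.2) := measurable_fst.sub measurable_snd
  have m1 : Measurable (fun p : V d × V d => inner ℝ (p.1 - p.2) e) :=
    Continuous.measurable (by fun_prop)
  have m2 : Measurable (fun p : V d × V d => (‖p.1 - p.2‖ ^ (n + 1))⁻¹) :=
    (m0.norm.pow_const _).inv
  exact (hψ.comp measurable_fst).mul ((m1.mul ((measurable_kN n N).comp m0)).sub
    ((hf.comp measurable_snd).mul (m1.mul m2)))

theorem abs_cker_le (hR : 0 < R) (hRρ : R ≤ ρ) (hN : 3 * ρ ≤ N)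
    (hψR : ∀ y, y ∉ ball x0 R → ψ y = 0)
    (hf1 : ∀ y ∈ ball x0 (2 * ρ), f y = 1) (hf0 : ∀ y, |f y| ≤ 1) (he : ‖e‖ ≤ 1)
    (p : V d × V d) : |cker n N e f ψ p| ≤ |ψ p.1| * (2 * (ρ ^ n)⁻¹) := by
  by_cases h2 : p.2 ∈ ball x0 (2 * ρ)
  · rw [cker_eq_zero_of_near hR hRρ hN hψR hf1 h2, abs_zero]
    have : 0 < ρ := hR.trans_le hRρ
    positivity
  by_cases h1 : p.1 ∈ ball x0 R
  · have hρ0 : 0 < ρ := hR.trans_le hRρ
    have hd : ρ ≤ ‖p.1 - p.2‖ := by
      rw [← dist_eq_norm]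
      have := dist_triangle_left p.2 x0 p.1
      rw [mem_ball] at h1
      rw [mem_ball, not_lt] at h2
      linarith
    unfold cker
    rw [abs_mul]
    gcongr
    calc _ ≤ |inner ℝ (p.1 - p.2) e * kN n N (p.1 - p.2)| +
          |f p.2 * (inner ℝ (p.1 - p.2) e * (‖p.1 - p.2‖ ^ (n + 1))⁻¹)| := abs_sub _ _
      _ ≤ (‖p.1 - p.2‖ ^ n)⁻¹ + 1 * (‖p.1 - p.2‖ ^ n)⁻¹ := by
          rw [abs_mul (f p.2)]
          gcongr
          · exact abs_inner_mul_kN_le _ _ _ he
          · exact hf0 _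
          · exact abs_inner_mul_k_le _ _ he
      _ = 2 * (‖p.1 - p.2‖ ^ n)⁻¹ := by ring
      _ ≤ 2 * (ρ ^ n)⁻¹ := by gcongr
  · rw [cker_eq_zero_of_left hψR h1, hψR _ h1]; simp

theorem integrable_cker (hU : UpperReg n C μ) (hR : 0 < R) (hRρ : R ≤ ρ) (hN : 3 * ρ ≤ N)
    (hψ : IsTest ψ) (hψR : ∀ y, y ∉ ball x0 R → ψ y = 0) (hf : IsTest f)
    (hf1 : ∀ y ∈ ball x0 (2 * ρ), f y = 1) (hf0 : ∀ y, |f y| ≤ 1) (he : ‖e‖ ≤ 1) :
    Integrable (cker n N e f ψ) (μ.prod μ) := by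
  have := Touch.lf_of_upper hU
  have hρ0 : 0 < ρ := hR.trans_le hRρ
  obtain ⟨S1, hS1⟩ := hf.cpt.isCompact.isBounded.subset_ball x0
  set S : ℝ := max S1 (R + 2 * N) with hS
  obtain ⟨B, hB⟩ := hψ.cont.bounded_above_of_compact_support hψ.cpt
  have hB0 : 0 ≤ B := (norm_nonneg _).trans (hB 0)
  have hfin : (μ.prod μ) (ball x0 R ×ˢ ball x0 S) < ⊤ := by
    rw [Measure.prod_prod]
    exact ENNReal.mul_lt_top (hU.ball_lt_top _ _) (hU.ball_lt_top _ _)
  have hI : Integrable ((ball x0 R ×ˢ ball x0 S).indicator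
      (fun _ => B * (2 * (ρ ^ n)⁻¹))) (μ.prod μ) := by
    rw [integrable_indicator_iff (measurableSet_ball.prod measurableSet_ball)]
    exact integrableOn_const hfin.ne
  refine hI.mono' (measurable_cker hf.cont.measurable
    hψ.cont.measurable).aestronglyMeasurable (Eventually.of_forall fun p => ?_)
  rw [Real.norm_eq_abs]
  by_cases hp : p ∈ ball x0 R ×ˢ ball x0 S
  · rw [indicator_of_mem hp]
    refine (abs_cker_le hR hRρ hN hψR hf1 hf0 he p).trans ?_
    gcongr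
    exact hB _
  · rw [indicator_of_notMem hp]
    simp only [mem_prod, not_and_or] at hp
    rcases hp with hp | hp
    · rw [cker_eq_zero_of_left hψR hp, abs_zero]
    · by_cases h1 : p.1 ∈ ball x0 R
      · have hf2 : f p.2 = 0 := by
          by_contra h
          exact hp (ball_subset_ball (le_max_left _ _) (hS1 (subset_tsupport _ h)))
        have hk : kN n N (p.1 - p.2) = 0 := by
          apply kN_eq_zero (by linarith)
          rw [← dist_eq_norm]
          have h3 := dist_triangle_left p.2 x0 p.1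
          have h4 : S ≤ dist p.2 x0 := by
            rw [mem_ball, not_lt] at hp
            exact hp
          have h5 : R + 2 * N ≤ S := le_max_right _ _
          rw [mem_ball] at h1
          linarith
        unfold cker
        rw [hf2, hk]; simp
      · rw [cker_eq_zero_of_left hψR h1, abs_zero]

/-- **Far-field comparison**. -/
theorem Bf_sub_Wf_le (hn : 1 ≤ n) (hC : 0 ≤ C) (hU : UpperReg n C μ) (hR : 0 < R) (hRρ : R ≤ ρ)
    (hN : 3 * ρ ≤ N) (hψ : IsTest ψ) (hψR : ∀ y, y ∉ ball x0 R → ψ y = 0)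
    (hψ0 : ∫ y, ψ y ∂μ = 0) (hf : IsTest f)
    (hf1 : ∀ y ∈ ball x0 (2 * ρ), f y = 1) (hf0 : ∀ y, |f y| ≤ 1) (he : ‖e‖ ≤ 1) :
    |Bf n μ N (lin e) ψ - Wf n μ f (fun y => ψ y • e)| ≤
      (n + 4) * 4 ^ (n + 1) * C * (R / ρ) * ∫ y, |ψ y| ∂μ := by
  have := Touch.lf_of_upper hU
  have hρ0 : 0 < ρ := hR.trans_le hRρ
  have hN0 : 0 < N := by linarith
  obtain ⟨K, hK⟩ := hψ.lip
  have hψI : Integrable ψ μ := hψ.cont.integrable_of_hasCompactSupport hψ.cpt
  have hI := integrable_cker (n := n) (e := e) hU hR hRρ hN hψ hψR hf hf1 hf0 he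
  have hB : Integrable (bfI n N (lin e) ψ) (μ.prod μ) := by
    refine integrable_bfI hn hC hU hN0 (L := ‖e‖) (K := K) (norm_nonneg _) K.2 ?_ ?_ ?_
      hψ.cont.measurable (c := x0) (R := R) ?_
    · intro x y
      unfold lin
      rw [← inner_sub_left, dist_eq_norm, mul_comm]
      exact abs_real_inner_le_norm _ _
    · intro x y
      have := hK.dist_le_mul x y
      rwa [Real.dist_eq] at this
    · exact Continuous.measurable (by unfold lin; fun_prop)
    · intro y hy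
      exact hψR y (fun h => hy (ball_subset_closedBall h))
  have hW := integrable_wker hU hf (hψ.smul_vec e)
  have e1 : Bf n μ N (lin e) ψ - Wf n μ f (fun y => ψ y • e) =
      ∫ p, cker n N e f ψ p ∂(μ.prod μ) := by
    rw [Bf_eq, Wf, ← mul_sub, ← integral_sub hB hW]
    simp_rw [cker_add_swap]
    have h2 := integral_add hI hI.swap
    simp only [Function.comp_def] at h2
    rw [h2]
    have h3 : ∫ p : V d × V d, cker n N e f ψ p.swap ∂(μ.prod μ) =
        ∫ p, cker n N e f ψ p ∂(μ.prod μ) := integral_prod_swap _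
    rw [h3]; ring
  rw [e1, integral_prod_symm _ hI]
  have hT := integrableOn_tail hU hC (m := 1) le_rfl x0 (r := 2 * ρ) (by positivity)
  set c0 : ℝ := (∫ y, |ψ y| ∂μ) * (2 * ((n + 4) * R * 2 ^ (n + 1))) with hc0
  have hms : MeasurableSet {y : V d | 2 * ρ ≤ dist x0 y} :=
    (isClosed_le continuous_const (by fun_prop)).measurableSet
  have hinner : ∀ y, ‖∫ x, cker n N e f ψ (x, y) ∂μ‖ ≤
      {y : V d | 2 * ρ ≤ dist x0 y}.indicator (fun y => c0 * (dist x0 y ^ (n + 1))⁻¹) y := by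
    intro y
    by_cases hy : 2 * ρ ≤ dist x0 y
    · rw [indicator_of_mem (s := {y : V d | 2 * ρ ≤ dist x0 y}) hy]
      set G0 : ℝ := inner ℝ (x0 - y) e * kN n N (x0 - y) -
        f y * (inner ℝ (x0 - y) e * (‖x0 - y‖ ^ (n + 1))⁻¹) with hG0
      have hc : Integrable (fun x => cker n N e f ψ (x, y)) μ := by
        refine (hψI.abs.mul_const (2 * (ρ ^ n)⁻¹)).mono' ?_ (Eventually.of_forall fun x => ?_)
        · exact ((measurable_cker hf.cont.measurable hψ.cont.measurable).comp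
            (measurable_id.prodMk measurable_const)).aestronglyMeasurable
        · rw [Real.norm_eq_abs]
          exact abs_cker_le hR hRρ hN hψR hf1 hf0 he (x, y)
      have e2 : ∫ x, cker n N e f ψ (x, y) ∂μ = ∫ x, (cker n N e f ψ (x, y) - ψ x * G0) ∂μ := by
        rw [integral_sub hc (hψI.mul_const _), integral_mul_const, hψ0]; ring
      rw [e2]
      have hb := norm_integral_le_of_norm_le
        (hψI.abs.mul_const (2 * ((n + 4) * R * 2 ^ (n + 1)) * (dist x0 y ^ (n + 1))⁻¹))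
        (Eventually.of_forall fun x => by
          rw [Real.norm_eq_abs]
          exact cker_diff_bound hR hRρ hN hψR hf0 he x y hy)
      refine hb.trans (le_of_eq ?_)
      rw [integral_mul_const, hc0]; ring
    · rw [indicator_of_notMem (s := {y : V d | 2 * ρ ≤ dist x0 y}) hy]
      have h2 : y ∈ ball x0 (2 * ρ) := by
        rw [mem_ball, dist_comm]; exact not_le.1 hy
      have : ∀ x, cker n N e f ψ (x, y) = 0 := fun x =>
        cker_eq_zero_of_near hR hRρ hN hψR hf1 (p := (x, y)) h2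
      simp [this]
  have hIT : Integrable ({y : V d | 2 * ρ ≤ dist x0 y}.indicator
      (fun y => c0 * (dist x0 y ^ (n + 1))⁻¹)) μ := by
    rw [integrable_indicator_iff hms]
    exact hT.1.const_mul c0
  rw [← Real.norm_eq_abs]
  refine (norm_integral_le_of_norm_le hIT (Eventually.of_forall hinner)).trans ?_
  rw [integral_indicator hms, integral_const_mul]
  have hc00 : 0 ≤ c0 := by
    rw [hc0]
    have : 0 ≤ ∫ y, |ψ y| ∂μ := integral_nonneg fun _ => abs_nonneg _
    positivity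
  calc c0 * ∫ y in {y : V d | 2 * ρ ≤ dist x0 y}, (dist x0 y ^ (n + 1))⁻¹ ∂μ
      ≤ c0 * (C * 2 ^ (n + 1) / (2 * ρ) ^ 1) := by
        gcongr
        exact hT.2
    _ = (n + 4) * 4 ^ (n + 1) * C * (R / ρ) * ∫ y, |ψ y| ∂μ := by
        have h4 : (4 : ℝ) ^ (n + 1) = 2 ^ (n + 1) * 2 ^ (n + 1) := by
          rw [← mul_pow]; norm_num
        rw [hc0, h4]
        field_simp

end compare

end Crest.Agent.R085
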