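import Mathlib
import Crest.Agent.R085.PackMeas
import Crest.Agent.R085.WeakRiesz2

/-!
R085 / M2 : final packing theorems.

* `packing` : finite families of places with large Riesz oscillation.
* `packing_measure` : outer-measure form.
-/

set_option autoImplicit false

namespace Crest.Agent.R085

open MeasureTheory Metric Set Filter
open scoped ENNReal NNReal Topology

theorem Pack.farComp {d n : ℕ} (hn : 1 ≤ n) {C : ℝ} (hC : 0 ≤ C) : Pack.FarComp d n C := by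
  refine ⟨(n + 4) * 4 ^ (n + 1) * C * C + 1, by positivity, ?_⟩
  intro μ hU x r M ρ f e ψ hr hM hρ he hf hf01 hf1 hψL hψ1 hψs hψ0
  have hM0 : 0 < M := by linarith
  have hMr : 0 < M * r := by positivity
  have hρ0 : 0 < ρ := by linarith
  have hψT : IsTest ψ := Pack.isTest_of hr hψL hψs
  filter_upwards [eventually_ge_atTop (3 * ρ)] with N hN
  have h1 := Bf_sub_Wf_le (n := n) (μ := μ) (C := C) (x0 := x) (e := e) (R := M * r) (ρ := ρ)
    (N := N) hn hC hU hMr (by linarith) hN hψT hψs hψ0 hf hf1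
    (fun y => by rw [abs_of_nonneg (hf01 y).1]; exact (hf01 y).2) he
  refine h1.trans ?_
  have h2 : ∫ y, |ψ y| ∂μ ≤ C * (M * r) ^ n := by
    have e1 : ∫ y, |ψ y| ∂μ = ∫ y in ball x (M * r), |ψ y| ∂μ := by
      rw [setIntegral_eq_integral_of_forall_compl_eq_zero]
      intro z hz
      rw [hψs z hz, abs_zero]
    rw [e1]
    have hfin : μ (ball x (M * r)) < ∞ := lt_of_le_of_lt (hU x _ hMr) ENNReal.ofReal_lt_top
    have h3 : ‖∫ y in ball x (M * r), |ψ y| ∂μ‖ ≤ 1 * μ.real (ball x (M * r)) := by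
      refine norm_setIntegral_le_of_norm_le_const hfin fun z _ => ?_
      rw [Real.norm_eq_abs, abs_abs]
      exact hψ1 z
    refine (le_abs_self _).trans ?_
    rw [Real.norm_eq_abs, one_mul] at h3
    refine h3.trans ?_
    rw [measureReal_def]
    exact ENNReal.toReal_le_of_le_ofReal (by positivity) (hU x _ hMr)
  calc (n + 4) * 4 ^ (n + 1) * C * (M * r / ρ) * ∫ y, |ψ y| ∂μ
      ≤ (n + 4) * 4 ^ (n + 1) * C * (M * r / ρ) * (C * (M * r) ^ n) :=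
        mul_le_mul_of_nonneg_left h2 (by positivity)
    _ = ((n + 4) * 4 ^ (n + 1) * C * C) * (M * r / ρ) * (M * r) ^ n := by ring
    _ ≤ ((n + 4) * 4 ^ (n + 1) * C * C + 1) * (M * r / ρ) * (M * r) ^ n := by
        gcongr
        linarith

/-- M2 (packing of the places with large Riesz oscillation). -/
theorem packing (d n : ℕ) (hn : 1 ≤ n) (C A M δ σ : ℝ) (hC1 : 1 ≤ C) (hA : 0 ≤ A)
    (hM : 1 ≤ M) (hδ : 0 < δ) (hσ : 0 < σ) (hσ1 : σ ≤ 1) :
    ∃ K : ℝ, 0 < K ∧ ∀ (μ : Measure (V d)) (D : ℝ≥0∞), ADR n C D μ → WeakRiesz n A μ →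
      ∀ (x0 : V d) (R0 b : ℝ), 0 < R0 → 2 ≤ b → ∀ (ι : Type) (s : Finset ι) (x : ι → V d)
        (k : ι → ℕ),
        (∀ i ∈ s, x i ∈ μ.support ∧ dist (x i) x0 ≤ R0 ∧ ENNReal.ofReal (R0 / b ^ k i) ≤ D ∧
          ¬ EtaS n μ (x i) (R0 / b ^ k i) M δ) →
        (∀ i ∈ s, ∀ j ∈ s, i ≠ j → k i = k j → σ * (R0 / b ^ k i) ≤ dist (x i) (x j)) →
        ∑ i ∈ s, (R0 / b ^ k i) ^ n ≤ K * R0 ^ n :=
  Pack.packing_of_farComp hC1 hA hM hδ hσ hσ1 (Pack.farComp hn (by linarith))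

/-- M2, outer-measure form. -/
theorem packing_measure (d n : ℕ) (hn : 1 ≤ n) (C A M δ : ℝ) (hC1 : 1 ≤ C) (hA : 0 ≤ A)
    (hM : 1 ≤ M) (hδ : 0 < δ) :
    ∃ K : ℝ, 0 < K ∧ ∀ (μ : Measure (V d)) (D : ℝ≥0∞), ADR n C D μ → WeakRiesz n A μ →
      ∀ (x0 : V d) (R0 : ℝ), 0 < R0 → ENNReal.ofReal R0 ≤ D →
        ∑' k : ℕ, μ {x | x ∈ μ.support ∧ dist x x0 ≤ R0 ∧ ¬ EtaS n μ x (R0 / 2 ^ k) M δ}
          ≤ ENNReal.ofReal (K * R0 ^ n) :=
  Pack.packing_measure_of_farComp hC1 hA hM hδ (Pack.farComp hn (by linarith))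

end Crest.Agent.R085
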