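import Crest.Agent.R085.Touch5
import Crest.Agent.R085.M8b

/-!
Row 85, module M4: full support (corollaries of `support_eq_of_subset_subspace`).
-/

set_option autoImplicit false

namespace Crest.Agent.R085

open MeasureTheory Metric Set Filter
open scoped ENNReal NNReal Topology

/-- **M4 (full support).** -/
theorem tFull {n d : ℕ} (hn : 1 ≤ n) (C : ℝ) : TFull n d C := by
  intro ν hν hR h0 ι hι
  have hW : Module.finrank ℝ (LinearMap.range ι.toLinearMap) ≤ n := by
    refine (LinearMap.finrank_range_le ι.toLinearMap).trans ?_
    rw [finrank_euclideanSpace, Fintype.card_fin]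
  have h := support_eq_of_subset_subspace hn hν hR ⟨0, h0⟩ (W := LinearMap.range ι.toLinearMap)
    (by intro y hy; exact hι hy) hW
  intro y hy
  rw [h]
  exact hy

/-- full support in dimension `n` -/
theorem support_eq_univ {n : ℕ} (hn : 1 ≤ n) {C : ℝ} {ν : Measure (V n)} (h : ADR n C ⊤ ν)
    (hR : Refl n ν) (hne : ν.support.Nonempty) : ν.support = univ := by
  have h1 := support_eq_of_subset_subspace hn h hR hne (W := ⊤) (by simp) (by
    rw [finrank_top, finrank_euclideanSpace, Fintype.card_fin])
  simpa using h1

end Crest.Agent.R085
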