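import Crest.Agent.R085.M9Main
import Crest.Agent.R085.PackMain
import Crest.Agent.R085.M8b
import Crest.Agent.R085.Touch6
import Crest.Agent.R085.Abund
import Crest.Agent.R085.P2Main

/-!
R085: the final assembly of S0113 from the remaining module interfaces
(`TPropagation` = M8, `TFlatSomewhere` and `TFull` = M4).
Owner: helper237.
-/

set_option autoImplicit false

namespace Crest.Agent.R085

open MeasureTheory Metric Set Filter
open scoped ENNReal NNReal Topology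

/-- `TReflLim` from `refl_of_wLim`. -/
theorem tReflLim (n d : ℕ) (hn : 1 ≤ n) (C : ℝ) : TReflLim n d C := by
  intro U m ν D hW hA hE
  refine refl_of_wLim (C := C) hn hW (Eventually.of_forall fun k => ?_) hE
  intro x r hr
  exact (hA k).upper x r hr

/-- `TPacking` from `packing`. -/
theorem tPacking (n d : ℕ) (hn : 1 ≤ n) (C A M δ σ : ℝ) (hC : 1 ≤ C) (hA : 0 ≤ A) (hM : 1 ≤ M)
    (hδ : 0 < δ) (hσ : 0 < σ) (hσ1 : σ ≤ 1) : TPacking n d C A M δ σ :=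
  packing d n hn C A M δ σ hC hA hM hδ hσ hσ1

/-- The bilateral weak geometric lemma from M4 and M8. -/
theorem bwgl_of_M4_M8 (d n : ℕ) (hn : 1 ≤ n) (C_AD C_R : ℝ)
    (hProp : ∀ C ϱ : ℝ, 1 ≤ C → 0 < ϱ → ϱ ≤ 1 / 16 → TPropagation n d C ϱ)
    (hFS : ∀ C : ℝ, 1 ≤ C → TFlatSomewhere n d C)
    (hFull : ∀ C : ℝ, 1 ≤ C → TFull n d C) :
    BWGL d n C_AD C_R :=
  bwgl_of_targets d n C_AD C_R hProp
    (fun C A ε' hC _ hε' => tBiFlat_of (tReflLim n d hn C) (hFull C hC) A ε' hε')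
    (fun C _ hC hε => abundance hn hε (hFS C hC))
    (fun C A M δ σ hC hA hM hδ hσ hσ1 => tPacking n d hn C A M δ σ hC hA hM hδ hσ hσ1)

/-- S0113 from M4 and M8. -/
theorem s0113_of_M4_M8 (d n : ℕ) (hn : 1 ≤ n) (hnd : n ≤ d) (C_AD C_R : ℝ)
    (hProp : ∀ C ϱ : ℝ, 1 ≤ C → 0 < ϱ → ϱ ≤ 1 / 16 → TPropagation n d C ϱ)
    (hFS : ∀ C : ℝ, 1 ≤ C → TFlatSomewhere n d C)
    (hFull : ∀ C : ℝ, 1 ≤ C → TFull n d C) :
    ∃ θ : ℝ, 0 < θ ∧ ∃ M : NNReal, ∀ μ : MeasureTheory.Measure (EuclideanSpace ℝ (Fin d)),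
      Crest.AnalysisR.IsADRegular n C_AD μ → Crest.AnalysisR.HasRieszBound n C_R μ →
        Crest.AnalysisR.IsUniformlyRectifiable n θ M μ :=
  part_two d n hn hnd C_AD C_R (bwgl_of_M4_M8 d n hn C_AD C_R hProp hFS hFull)

/-- S0113 from M8 only (everything else is proved). -/
theorem s0113_of_M8 (d n : ℕ) (hn : 1 ≤ n) (hnd : n ≤ d) (C_AD C_R : ℝ)
    (hProp : ∀ C ϱ : ℝ, 1 ≤ C → 0 < ϱ → ϱ ≤ 1 / 16 → TPropagation n d C ϱ) :
    ∃ θ : ℝ, 0 < θ ∧ ∃ M : NNReal, ∀ μ : MeasureTheory.Measure (EuclideanSpace ℝ (Fin d)),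
      Crest.AnalysisR.IsADRegular n C_AD μ → Crest.AnalysisR.HasRieszBound n C_R μ →
        Crest.AnalysisR.IsUniformlyRectifiable n θ M μ :=
  s0113_of_M4_M8 d n hn hnd C_AD C_R hProp (fun C _ => flatSomewhere hn C) (fun C _ => tFull hn C)

end Crest.Agent.R085
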