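import Crest.Agent.R085.LiouLam

/-!
R085 (S0113), module M6 (linear Liouville lemma): the form `Bf` on `ℝⁿ` in terms of `LamN`.
-/

set_option autoImplicit false

namespace Crest.Agent.R085

open MeasureTheory Metric Set Filter
open scoped ENNReal NNReal Topology ContDiff

namespace Liou

variable {n : ℕ}

theorem cont_of_locLip {u : V n → ℝ}
    (hu : ∀ R : ℝ, ∃ L : ℝ≥0, LipschitzOnWith L u (ball (0 : V n) R)) : Continuous u := by
  rw [continuous_iff_continuousAt]
  intro x
  obtain ⟨L, hL⟩ := hu (‖x‖ + 1)
  exact hL.continuousOn.continuousAt (isOpen_ball.mem_nhds (by simp))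

theorem continuous_of_isTest {ψ : V n → ℝ} (h : IsTest ψ) : Continuous ψ := by
  obtain ⟨K, hK⟩ := h.lip
  exact hK.continuous

theorem isTest_of_smooth {ψ : V n → ℝ} (h1 : ContDiff ℝ ∞ ψ) (h2 : HasCompactSupport ψ) :
    IsTest ψ := by
  obtain ⟨L, hL⟩ := h1.lipschitzWith_of_hasCompactSupport h2 (by norm_num)
  exact ⟨⟨L, hL⟩, h2⟩

theorem exists_supp {ψ : V n → ℝ} (h2 : HasCompactSupport ψ) :
    ∃ ρ : ℝ, 1 < ρ ∧ ∀ y, ρ ≤ ‖y‖ → ψ y = 0 := by
  obtain ⟨ρ, hρ1, hρ⟩ := h2.isCompact.isBounded.subset_ball_lt 1 0
  refine ⟨ρ, hρ1, fun y hy => ?_⟩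
  by_contra h
  have := hρ (subset_tsupport _ h)
  rw [mem_ball_zero_iff] at this
  linarith

/-- integrability of the translated integrand of `Bf` -/
theorem integrable_shear (hn : 0 < n) {u ψ : V n → ℝ}
    (hu : ∀ R : ℝ, ∃ L : ℝ≥0, LipschitzOnWith L u (ball (0 : V n) R)) (hψ : IsTest ψ)
    {N : ℝ} (hN : 0 < N) :
    Integrable (fun p : V n × V n =>
      (u p.1 - u (p.1 + p.2)) * (ψ p.1 - ψ (p.1 + p.2)) * kN n N p.2)
      (volume.prod volume) := by
  obtain ⟨C, hC, hU⟩ := upperReg_volume hn
  obtain ⟨ρ, hρ1, hρ⟩ := exists_supp hψ.cpt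
  obtain ⟨L, hL⟩ := hu (ρ + 4 * N)
  obtain ⟨L', hL'⟩ := hψ.lip
  have huc := cont_of_locLip hu
  have hψc := continuous_of_isTest hψ
  have h2 := (integrableOn_near hU hC (k := n - 1) (by omega) 0 (r := 2 * N) (by positivity)).1
  have h2' : Integrable (indicator (closedBall (0 : V n) (2 * N))
      fun y => ((dist 0 y) ^ (n - 1))⁻¹) volume :=
    (integrable_indicator_iff measurableSet_closedBall).2 h2
  have h3 : Integrable (indicator (ball (0 : V n) (ρ + 2 * N)) fun _ => (1 : ℝ)) volume :=
    (integrable_indicator_iff measurableSet_ball).2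
      (integrableOn_const measure_ball_lt_top.ne)
  have h4 := (h3.mul_prod h2').const_mul ((L : ℝ) * L')
  refine h4.mono' ?_ (Filter.Eventually.of_forall fun p => ?_)
  · refine AEStronglyMeasurable.mul ?_ ((measurable_kN N).comp measurable_snd).aestronglyMeasurable
    exact Continuous.aestronglyMeasurable (by fun_prop)
  · obtain ⟨x, h⟩ := p
    simp only
    by_cases hh : 2 * N ≤ ‖h‖
    · rw [kN_eq_zero hN hh, mul_zero, norm_zero]
      refine mul_nonneg (by positivity) (mul_nonneg ?_ ?_)
      · exact indicator_nonneg (fun _ _ => zero_le_one) _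
      · exact indicator_nonneg (fun _ _ => by positivity) _
    rw [not_le] at hh
    by_cases hx : ρ + 2 * N ≤ ‖x‖
    · have e1 : ψ x = 0 := hρ x (by linarith)
      have e2 : ψ (x + h) = 0 := hρ _ (by
        have := norm_sub_norm_le x (-h)
        rw [norm_neg, sub_neg_eq_add] at this
        linarith)
      rw [e1, e2, sub_zero, mul_zero, zero_mul, norm_zero]
      refine mul_nonneg (by positivity) (mul_nonneg ?_ ?_)
      · exact indicator_nonneg (fun _ _ => zero_le_one) _
      · exact indicator_nonneg (fun _ _ => by positivity) _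
    rw [not_le] at hx
    have m1 : x ∈ ball (0 : V n) (ρ + 2 * N) := by simpa using hx
    have m2 : h ∈ closedBall (0 : V n) (2 * N) := by simpa using hh.le
    rw [indicator_of_mem m1, indicator_of_mem m2, dist_zero_left, one_mul]
    have hA : ‖u x - u (x + h)‖ ≤ L * ‖h‖ := by
      have a1 : x ∈ ball (0 : V n) (ρ + 4 * N) := by
        rw [mem_ball_zero_iff]; linarith
      have a2 : x + h ∈ ball (0 : V n) (ρ + 4 * N) := by
        rw [mem_ball_zero_iff]
        have := norm_add_le x h
        linarith
      have := hL.dist_le_mul x a1 (x + h) a2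
      simpa [dist_eq_norm] using this
    have hB : ‖ψ x - ψ (x + h)‖ ≤ L' * ‖h‖ := by
      have := hL'.dist_le_mul x (x + h)
      simpa [dist_eq_norm] using this
    rw [norm_mul, norm_mul, Real.norm_of_nonneg (kN_nonneg _ _)]
    calc ‖u x - u (x + h)‖ * ‖ψ x - ψ (x + h)‖ * kN n N h
        ≤ (L * ‖h‖) * (L' * ‖h‖) * (‖h‖ ^ (n + 1))⁻¹ := by
          gcongr
          · exact kN_nonneg _ _
          · exact kN_le _ _
      _ ≤ L * L' * (‖h‖ ^ (n - 1))⁻¹ := by
          by_cases h0 : ‖h‖ = 0
          · rw [h0]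
            simp only [mul_zero, zero_mul]
            positivity
          · have hpos : 0 < ‖h‖ := lt_of_le_of_ne (norm_nonneg _) (Ne.symm h0)
            have : n + 1 = (n - 1) + 2 := by omega
            rw [this, pow_add]
            refine le_of_eq ?_
            field_simp

/-- the form `Bf` on `ℝⁿ` by translation: only for `u` locally Lipschitz, `ψ` Lipschitz. -/
theorem Bf_eq_h (hn : 0 < n) {u ψ : V n → ℝ}
    (hu : ∀ R : ℝ, ∃ L : ℝ≥0, LipschitzOnWith L u (ball (0 : V n) R)) (hψ : IsTest ψ)
    {N : ℝ} (hN : 0 < N) :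
    Bf n volume N u ψ =
      (1 / 2 : ℝ) * ∫ h : V n, (∫ x, u x * (2 * ψ x - ψ (x + h) - ψ (x - h))) * kN n N h := by
  have hint := integrable_shear hn hu hψ hN
  have huc := cont_of_locLip hu
  have hψc := continuous_of_isTest hψ
  unfold Bf
  congr 1
  have hshear : ∫ p : V n × V n, (u p.1 - u p.2) * (ψ p.1 - ψ p.2) * kN n N (p.1 - p.2)
        ∂((volume : Measure (V n)).prod volume)
      = ∫ p : V n × V n, (u p.1 - u (p.1 + p.2)) * (ψ p.1 - ψ (p.1 + p.2)) * kN n N p.2
        ∂((volume : Measure (V n)).prod volume) := by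
    have hmp : MeasurePreserving (fun z : V n × V n => (z.1, z.1 + z.2))
        ((volume : Measure (V n)).prod volume) ((volume : Measure (V n)).prod volume) :=
      measurePreserving_prod_add _ _
    rw [← hmp.integral_comp (MeasurableEquiv.shearAddRight (V n)).measurableEmbedding]
    refine integral_congr_ae (Filter.Eventually.of_forall fun p => ?_)
    simp only
    rw [show p.1 - (p.1 + p.2) = -p.2 by abel, kN_neg]
  rw [hshear, integral_prod_symm _ hint]
  refine integral_congr_ae (Filter.Eventually.of_forall fun h => ?_)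
  simp only
  rw [integral_mul_const]
  congr 1
  have c1 : HasCompactSupport (fun x => ψ x - ψ (x + h)) := by
    refine hψ.cpt.sub ?_
    exact hψ.cpt.comp_homeomorph (Homeomorph.addRight h)
  have c2 : HasCompactSupport (fun x => ψ (x - h) - ψ x) := by
    refine HasCompactSupport.sub ?_ hψ.cpt
    have := hψ.cpt.comp_homeomorph (Homeomorph.addRight (-h))
    have e : (fun x => ψ (x - h)) = ψ ∘ (Homeomorph.addRight (-h)) := by
      funext x
      simp [sub_eq_add_neg]
    rw [e]
    exact this
  have i1 : Integrable (fun x => u x * (ψ x - ψ (x + h))) := by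
    refine Continuous.integrable_of_hasCompactSupport (by fun_prop) ?_
    exact c1.mul_left
  have i2 : Integrable (fun x => u x * (ψ (x - h) - ψ x)) := by
    refine Continuous.integrable_of_hasCompactSupport (by fun_prop) ?_
    exact c2.mul_left
  have i3 : Integrable (fun x => u (x + h) * (ψ x - ψ (x + h))) := by
    refine (i2.comp_add_right h).congr (Filter.Eventually.of_forall fun x => ?_)
    simp
  have e3 : ∫ x, u (x + h) * (ψ x - ψ (x + h)) = ∫ x, u x * (ψ (x - h) - ψ x) := by
    rw [← integral_add_right_eq_self (fun x => u x * (ψ (x - h) - ψ x)) h]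
    refine integral_congr_ae (Filter.Eventually.of_forall fun x => ?_)
    simp
  calc ∫ x, (u x - u (x + h)) * (ψ x - ψ (x + h))
      = ∫ x, (u x * (ψ x - ψ (x + h)) - u (x + h) * (ψ x - ψ (x + h))) := by
        refine integral_congr_ae (Filter.Eventually.of_forall fun x => ?_)
        simp only
        ring
    _ = (∫ x, u x * (ψ x - ψ (x + h))) - ∫ x, u x * (ψ (x - h) - ψ x) := by
        rw [integral_sub i1 i3, e3]
    _ = ∫ x, u x * (2 * ψ x - ψ (x + h) - ψ (x - h)) := by
        rw [← integral_sub i1 i2]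
        refine integral_congr_ae (Filter.Eventually.of_forall fun x => ?_)
        simp only
        ring

/-- for smooth `φ` and locally integrable `T`. -/
theorem integral_LamN_eq_h (hn : 0 < n) {T φ : V n → ℝ}
    (hT : LocallyIntegrable T volume) (h1 : ContDiff ℝ ∞ φ) (h2 : HasCompactSupport φ)
    {N : ℝ} (hN : 0 < N) :
    ∫ x, T x * LamN N φ x =
      ∫ h : V n, (∫ x, T x * (2 * φ x - φ (x + h) - φ (x - h))) * kN n N h := by
  obtain ⟨M, hM0, hM⟩ := sd_bound h1 h2
  obtain ⟨ρ, hρ1, hρ⟩ := exists_supp h2
  have hTi : Integrable (indicator (ball (0 : V n) (ρ + 2 * N)) T) := by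
    rw [integrable_indicator_iff measurableSet_ball]
    exact (hT.integrableOn_isCompact (isCompact_closedBall 0 (ρ + 2 * N))).mono_set
      ball_subset_closedBall
  have hint : Integrable (fun p : V n × V n => T p.1 * (sd φ p.1 p.2 * kN n N p.2))
      (volume.prod volume) := by
    have h4 := (hTi.norm.mul_prod (integrable_wt hn)).const_mul M
    refine h4.mono' ?_ (Filter.Eventually.of_forall fun p => ?_)
    · refine (hT.aestronglyMeasurable.comp_fst).mul ?_
      exact (continuous_sd h1.continuous).aestronglyMeasurable.mul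
        ((measurable_kN N).comp measurable_snd).aestronglyMeasurable
    · obtain ⟨x, h⟩ := p
      simp only
      have hwt := wt_nonneg (n := n) h
      by_cases hh : 2 * N ≤ ‖h‖
      · rw [kN_eq_zero hN hh, mul_zero, mul_zero, norm_zero]
        positivity
      rw [not_le] at hh
      by_cases hx : ρ + 2 * N ≤ ‖x‖
      · have e1 : φ x = 0 := hρ x (by linarith)
        have e2 : φ (x + h) = 0 := hρ _ (by
          have := norm_sub_norm_le x (-h)
          rw [norm_neg, sub_neg_eq_add] at this
          linarith)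
        have e3 : φ (x - h) = 0 := hρ _ (by
          have := norm_sub_norm_le x h
          linarith)
        have : sd φ x h = 0 := by
          unfold sd; rw [e1, e2, e3]; ring
        rw [this, zero_mul, mul_zero, norm_zero]
        positivity
      rw [not_le] at hx
      have m1 : x ∈ ball (0 : V n) (ρ + 2 * N) := by simpa using hx
      rw [indicator_of_mem m1, norm_mul]
      calc ‖T x‖ * ‖sd φ x h * kN n N h‖ ≤ ‖T x‖ * (M * wt n h) := by
            gcongr
            exact sd_bound_wt hM0 hM N x h
        _ = _ := by ring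
  calc ∫ x, T x * LamN N φ x = ∫ x, ∫ h, T x * (sd φ x h * kN n N h) := by
        refine integral_congr_ae (Filter.Eventually.of_forall fun x => ?_)
        simp only
        rw [integral_const_mul]
        rfl
    _ = ∫ h, ∫ x, T x * (sd φ x h * kN n N h) := integral_integral_swap hint
    _ = _ := by
        refine integral_congr_ae (Filter.Eventually.of_forall fun h => ?_)
        simp only
        rw [← integral_mul_const]
        refine integral_congr_ae (Filter.Eventually.of_forall fun x => ?_)
        simp only [sd]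
        ring

theorem Bf_eq_LamN (hn : 0 < n) {u ψ : V n → ℝ}
    (hu : ∀ R : ℝ, ∃ L : ℝ≥0, LipschitzOnWith L u (ball (0 : V n) R))
    (h1 : ContDiff ℝ ∞ ψ) (h2 : HasCompactSupport ψ) {N : ℝ} (hN : 0 < N) :
    Bf n volume N u ψ = (1 / 2 : ℝ) * ∫ x, u x * LamN N ψ x := by
  rw [Bf_eq_h hn hu (isTest_of_smooth h1 h2) hN,
    integral_LamN_eq_h hn (cont_of_locLip hu).locallyIntegrable h1 h2 hN]

end Liou

end Crest.Agent.R085
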