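import Crest.Agent.R085.LiouSol
import Crest.Agent.R085.LiouLam
import Crest.Agent.R085.LiouBf

/-!
R085 (S0113), module M6 (LL-B): mollification, and the `L²_loc` form of the Liouville theorem.
-/

set_option autoImplicit false

namespace Crest.Agent.R085

open MeasureTheory Metric Set Filter ContinuousLinearMap
open scoped ENNReal NNReal Topology ContDiff Convolution

namespace Liou

/-- mollifier -/
structure Moll {n : ℕ} (ρ : V n → ℝ) : Prop where
  smooth : ContDiff ℝ ∞ ρ
  cpt : HasCompactSupport ρ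
  nonneg : ∀ x, 0 ≤ ρ x
  integral : ∫ x, ρ x = 1
  supp : ∀ x, 1 ≤ ‖x‖ → ρ x = 0
  even : ∀ x, ρ (-x) = ρ x

/-- convolution with a mollifier -/
noncomputable def mo {n : ℕ} (ρ T : V n → ℝ) (x : V n) : ℝ := ∫ t, ρ t * T (x - t)

variable {n : ℕ} {ρ T : V n → ℝ}

theorem mo_eq : mo ρ T = (ρ ⋆[lsmul ℝ ℝ, volume] T) := by
  funext x
  rw [convolution_def]
  rfl

theorem mo_smooth (hρ : Moll ρ) (hT : LocallyIntegrable T volume) : ContDiff ℝ ∞ (mo ρ T) := by
  rw [mo_eq]
  exact hρ.cpt.contDiff_convolution_left _ hρ.smooth hT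

theorem mo_integrable (hρ : Moll ρ) (hT : LocallyIntegrable T volume) (x : V n) :
    Integrable (fun t => ρ t * T (x - t)) :=
  (hρ.cpt.convolutionExists_left (lsmul ℝ ℝ) hρ.smooth.continuous hT) x

theorem locLip_of_smooth {u : V n → ℝ} (hu : ContDiff ℝ ∞ u) (R : ℝ) :
    ∃ L : ℝ≥0, LipschitzOnWith L u (ball (0 : V n) R) := by
  have h1 : Continuous (fun x => ‖fderiv ℝ u x‖) := (hu.continuous_fderiv (by simp)).norm
  obtain ⟨C, hC⟩ := (isCompact_closedBall (0 : V n) R).exists_bound_of_continuousOn h1.continuousOn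
  refine ⟨Real.toNNReal C, ?_⟩
  apply Convex.lipschitzOnWith_of_nnnorm_fderiv_le (𝕜 := ℝ)
  · intro x _
    exact (hu.differentiable (by simp)).differentiableAt
  · intro x hx
    have := hC x (ball_subset_closedBall hx)
    rw [← NNReal.coe_le_coe]
    simp only [norm_norm] at this
    exact this.trans (Real.le_coe_toNNReal C)
  · exact convex_ball _ _

theorem mo_sq_le (hρ : Moll ρ) (hT : LocallyIntegrable T volume)
    (hT2 : LocallyIntegrable (fun x => T x ^ 2) volume) (x : V n) :
    mo ρ T x ^ 2 ≤ mo ρ (fun x => T x ^ 2) x := by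
  set m := mo ρ T x with hm
  have i1 := mo_integrable hρ hT x
  have i2 := mo_integrable hρ hT2 x
  have i0 : Integrable ρ := hρ.smooth.continuous.integrable_of_hasCompactSupport hρ.cpt
  have h0 : 0 ≤ ∫ t, ρ t * (T (x - t) - m) ^ 2 :=
    integral_nonneg fun t => mul_nonneg (hρ.nonneg t) (sq_nonneg _)
  have h1 : ∫ t, ρ t * (T (x - t) - m) ^ 2 =
      (∫ t, ρ t * T (x - t) ^ 2) - 2 * m * (∫ t, ρ t * T (x - t)) + m ^ 2 * ∫ t, ρ t := by
    have i3 : Integrable (fun t => ρ t * T (x - t) ^ 2 - 2 * m * (ρ t * T (x - t))) :=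
      i2.sub (i1.const_mul _)
    rw [← integral_const_mul, ← integral_const_mul, ← integral_sub i2 (i1.const_mul _),
      ← integral_add i3 (i0.const_mul _)]
    congr 1
    funext t
    ring
  rw [h1, hρ.integral] at h0
  have h2 : ∫ t, ρ t * T (x - t) = m := hm.symm
  rw [h2] at h0
  simp only [mo]
  nlinarith

theorem mo_growth (hρ : Moll ρ) (hT2 : LocallyIntegrable (fun x => T x ^ 2) volume)
    (hT : LocallyIntegrable T volume) (R : ℝ) :
    ∫ x in ball (0 : V n) R, mo ρ T x ^ 2 ≤ ∫ x in ball (0 : V n) (R + 1), T x ^ 2 := by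
  set g : V n → ℝ := (ball (0 : V n) (R + 1)).indicator (fun x => T x ^ 2) with hg
  have hgi : Integrable g := by
    rw [hg, integrable_indicator_iff measurableSet_ball]
    exact (hT2.integrableOn_isCompact (isCompact_closedBall 0 (R + 1))).mono_set
      ball_subset_closedBall
  have i0 : Integrable ρ := hρ.smooth.continuous.integrable_of_hasCompactSupport hρ.cpt
  have hmo2 : Continuous (mo ρ (fun x => T x ^ 2)) := (mo_smooth hρ hT2).continuous
  have hmo1 : Continuous (mo ρ T) := (mo_smooth hρ hT).continuous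
  have a1 : ∫ x in ball (0 : V n) R, mo ρ T x ^ 2 ≤
      ∫ x in ball (0 : V n) R, mo ρ (fun x => T x ^ 2) x := by
    apply setIntegral_mono
    · exact ((hmo1.pow 2).continuousOn.integrableOn_compact (isCompact_closedBall 0 R)).mono_set
        ball_subset_closedBall
    · exact (hmo2.continuousOn.integrableOn_compact (isCompact_closedBall 0 R)).mono_set
        ball_subset_closedBall
    · exact fun x => mo_sq_le hρ hT hT2 x
  have a2 : ∫ x in ball (0 : V n) R, mo ρ (fun x => T x ^ 2) x =
      ∫ x in ball (0 : V n) R, mo ρ g x := by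
    apply setIntegral_congr_fun measurableSet_ball
    intro x hx
    simp only [mo]
    congr 1
    funext t
    by_cases ht : 1 ≤ ‖t‖
    · rw [hρ.supp t ht]; simp
    · push Not at ht
      congr 1
      rw [hg, indicator_of_mem]
      rw [mem_ball, dist_zero_right] at *
      calc ‖x - t‖ ≤ ‖x‖ + ‖t‖ := norm_sub_le _ _
        _ < R + 1 := by linarith
  have hgnn : ∀ x, 0 ≤ g x := fun x => indicator_nonneg (fun y _ => sq_nonneg _) x
  have a3 : ∫ x in ball (0 : V n) R, mo ρ g x ≤ ∫ x, mo ρ g x := by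
    apply setIntegral_le_integral
    · rw [mo_eq]
      exact i0.integrable_convolution _ hgi
    · exact Eventually.of_forall fun x =>
        integral_nonneg fun t => mul_nonneg (hρ.nonneg t) (hgnn _)
  have a4 : ∫ x, mo ρ g x = ∫ x in ball (0 : V n) (R + 1), T x ^ 2 := by
    rw [mo_eq, integral_convolution (lsmul ℝ ℝ) i0 hgi, hρ.integral, hg,
      integral_indicator measurableSet_ball]
    simp
  linarith

/-- duality: `∫ (ρ * T) g = ∫ T (ρ * g)` for even `ρ` and `g` continuous compactly supported -/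
theorem mo_dual (hρ : Moll ρ) (hT : LocallyIntegrable T volume) {g : V n → ℝ}
    (hg : Continuous g) (hgc : HasCompactSupport g) :
    ∫ x, mo ρ T x * g x = ∫ z, T z * mo ρ g z := by
  obtain ⟨R, hR⟩ := hgc.isCompact.isBounded.subset_closedBall (0 : V n)
  have hg0 : ∀ x, R < ‖x‖ → g x = 0 := by
    intro x hx
    apply image_eq_zero_of_notMem_tsupport
    intro h
    have := hR h
    rw [mem_closedBall, dist_zero_right] at this
    linarith
  obtain ⟨B, hB⟩ := hgc.exists_bound_of_continuous hg
  set T' : V n → ℝ := (closedBall (0 : V n) (R + 1)).indicator T with hT'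
  have hT'i : Integrable T' := by
    rw [hT', integrable_indicator_iff measurableSet_closedBall]
    exact hT.integrableOn_isCompact (isCompact_closedBall 0 (R + 1))
  have i0 : Integrable ρ := hρ.smooth.continuous.integrable_of_hasCompactSupport hρ.cpt
  -- replace `T` by `T'`
  have e1 : ∫ x, mo ρ T x * g x = ∫ x, ∫ t, ρ t * T' (x - t) * g x := by
    congr 1
    funext x
    by_cases hx : R < ‖x‖
    · simp [hg0 x hx]
    · push Not at hx
      rw [mo, ← integral_mul_const]
      congr 1
      funext t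
      by_cases ht : 1 ≤ ‖t‖
      · rw [hρ.supp t ht]; simp
      · push Not at ht
        congr 2
        rw [hT', indicator_of_mem]
        rw [mem_closedBall, dist_zero_right]
        calc ‖x - t‖ ≤ ‖x‖ + ‖t‖ := norm_sub_le _ _
          _ ≤ R + 1 := by linarith
  have hint : Integrable (fun p : V n × V n => ρ p.2 * T' (p.1 - p.2) * g p.1)
      (volume.prod volume) := by
    have h1 : Integrable (fun p : V n × V n => ρ p.2 * T' (p.1 - p.2)) (volume.prod volume) :=
      i0.convolution_integrand (lsmul ℝ ℝ) hT'i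
    exact h1.mul_bdd (c := B) (hg.comp continuous_fst).aestronglyMeasurable
      (Eventually.of_forall fun p => hB p.1)
  have e2 : ∫ x, ∫ t, ρ t * T' (x - t) * g x = ∫ t, ∫ x, ρ t * T' (x - t) * g x :=
    integral_integral_swap hint
  have e3 : ∀ t, ∫ x, ρ t * T' (x - t) * g x = ∫ z, ρ t * T' z * g (z + t) := by
    intro t
    rw [← integral_add_right_eq_self (fun x => ρ t * T' (x - t) * g x) t]
    simp
  have hint2 : Integrable (fun p : V n × V n => ρ p.1 * T' p.2 * g (p.2 + p.1))
      (volume.prod volume) := by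
    have h1 : Integrable (fun p : V n × V n => ρ p.1 * T' p.2) (volume.prod volume) :=
      i0.mul_prod hT'i
    exact h1.mul_bdd (c := B) (hg.comp (continuous_snd.add continuous_fst)).aestronglyMeasurable
      (Eventually.of_forall fun p => hB _)
  have e4 : ∫ t, ∫ z, ρ t * T' z * g (z + t) = ∫ z, ∫ t, ρ t * T' z * g (z + t) :=
    integral_integral_swap hint2
  rw [e1, e2]
  simp_rw [e3]
  rw [e4]
  congr 1
  funext z
  by_cases hz : ‖z‖ ≤ R + 1
  · have hT'z : T' z = T z := by
      rw [hT', indicator_of_mem]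
      rwa [mem_closedBall, dist_zero_right]
    rw [hT'z, mo, ← integral_const_mul, ← integral_neg_eq_self (fun t => ρ t * T z * g (z + t))]
    congr 1
    funext t
    rw [hρ.even, ← sub_eq_add_neg]
    ring
  · push Not at hz
    have h1 : T' z = 0 := by
      rw [hT', indicator_of_notMem]
      rw [mem_closedBall, dist_zero_right]
      linarith
    have h2 : mo ρ g z = 0 := by
      rw [mo]
      rw [show (fun t => ρ t * g (z - t)) = fun _ => 0 from ?_]
      · simp
      funext t
      by_cases ht : 1 ≤ ‖t‖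
      · rw [hρ.supp t ht]; simp
      · push Not at ht
        rw [hg0 (z - t)]
        · simp
        · have := norm_sub_norm_le z t
          linarith
    simp [h1, h2]

/-- symmetric second difference -/
def D2 {n : ℕ} (h : V n) (ψ : V n → ℝ) (x : V n) : ℝ := 2 * ψ x - ψ (x + h) - ψ (x - h)

theorem mo_D2 (hρ : Moll ρ) {ψ : V n → ℝ} (hψ : Continuous ψ) (h z : V n) :
    mo ρ (D2 h ψ) z = D2 h (mo ρ ψ) z := by
  have hl : LocallyIntegrable ψ volume := hψ.locallyIntegrable
  have i1 := mo_integrable hρ hl z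
  have i2 := mo_integrable hρ hl (z + h)
  have i3 := mo_integrable hρ hl (z - h)
  simp only [mo, D2]
  have i4 : Integrable (fun t => 2 * (ρ t * ψ (z - t)) - ρ t * ψ (z + h - t)) :=
    (i1.const_mul 2).sub i2
  rw [← integral_const_mul, ← integral_sub (i1.const_mul 2) i2, ← integral_sub i4 i3]
  congr 1
  funext t
  rw [show z + h - t = z - t + h by abel, show z - h - t = z - t - h by abel]
  ring

theorem continuous_D2 {ψ : V n → ℝ} (hψ : Continuous ψ) (h : V n) : Continuous (D2 h ψ) := by
  unfold D2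
  fun_prop

theorem hasCompactSupport_D2 {ψ : V n → ℝ} (hψ : HasCompactSupport ψ) (h : V n) :
    HasCompactSupport (D2 h ψ) := by
  have h1 : HasCompactSupport (fun x => ψ (x + h)) :=
    hψ.comp_homeomorph (Homeomorph.addRight h)
  have h2 : HasCompactSupport (fun x => ψ (x - h)) :=
    hψ.comp_homeomorph (Homeomorph.subRight h)
  have h3 : HasCompactSupport (fun x => 2 * ψ x) := hψ.mul_left
  exact (h3.sub h1).sub h2

theorem mo_smTest (hρ : Moll ρ) {ψ : V n → ℝ} (hψ : IsTest ψ) (h0 : ∫ x, ψ x = 0) :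
    SmTest (mo ρ ψ) := by
  obtain ⟨K, hK⟩ := hψ.lip
  have hc : Continuous ψ := hK.continuous
  refine ⟨mo_smooth hρ hc.locallyIntegrable, ?_, ?_⟩
  · rw [mo_eq]
    exact hρ.cpt.convolution _ hψ.cpt
  · rw [mo_eq, integral_convolution (lsmul ℝ ℝ)
      (hρ.smooth.continuous.integrable_of_hasCompactSupport hρ.cpt)
      (hc.integrable_of_hasCompactSupport hψ.cpt), h0]
    simp

theorem locallyIntegrable_of_memLp
    (hT : ∀ R : ℝ, MemLp T 2 (volume.restrict (ball (0 : V n) R))) :
    LocallyIntegrable T volume := by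
  intro x
  obtain ⟨R, hR⟩ : ∃ R : ℝ, ‖x‖ < R := exists_gt _
  refine ⟨ball 0 R, isOpen_ball.mem_nhds (by simpa using hR), ?_⟩
  have : IsFiniteMeasure (volume.restrict (ball (0 : V n) R)) :=
    ⟨by rw [Measure.restrict_apply_univ]; exact measure_ball_lt_top⟩
  exact (hT R).integrable (by norm_num)

theorem locallyIntegrable_sq_of_memLp
    (hT : ∀ R : ℝ, MemLp T 2 (volume.restrict (ball (0 : V n) R))) :
    LocallyIntegrable (fun x => T x ^ 2) volume := by
  intro x
  obtain ⟨R, hR⟩ : ∃ R : ℝ, ‖x‖ < R := exists_gt _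
  refine ⟨ball 0 R, isOpen_ball.mem_nhds (by simpa using hR), ?_⟩
  exact (hT R).integrable_sq

/-- the mollification is a solution -/
theorem mo_sol (hn : 0 < n) (hρ : Moll ρ) {K s : ℝ} (hs : s < n + 4)
    (hT : ∀ R : ℝ, MemLp T 2 (volume.restrict (ball (0 : V n) R))) (hG : Gr K s T)
    (hw : ∀ ψ : V n → ℝ, SmTest ψ → ∫ x, T x * Lam ψ x = 0) : Sol (mo ρ T) := by
  have hTl := locallyIntegrable_of_memLp hT
  have hsm := mo_smooth hρ hTl
  refine ⟨locLip_of_smooth hsm, fun ψ hψ h0 => ?_⟩
  obtain ⟨L, hL⟩ := hψ.lip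
  have hψc : Continuous ψ := hL.continuous
  have hφ := mo_smTest hρ hψ h0
  have key : ∀ᶠ N : ℝ in atTop, Bf n volume N (mo ρ T) ψ =
      (1 / 2 : ℝ) * ∫ x, T x * LamN N (mo ρ ψ) x := by
    filter_upwards [eventually_gt_atTop 0] with N hN
    rw [Bf_eq_h hn (locLip_of_smooth hsm) hψ hN,
      integral_LamN_eq_h hn hTl hφ.smooth hφ.cpt hN]
    congr 2
    funext h
    congr 1
    have := mo_dual hρ hTl (continuous_D2 hψc h) (hasCompactSupport_D2 hψ.cpt h)
    simp only [D2] at this
    rw [this]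
    congr 1
    funext z
    congr 1
    exact mo_D2 hρ hψc h z
  have lim := (tendsto_integral_LamN hn hs hT hG hφ).const_mul (1 / 2 : ℝ)
  rw [hw _ hφ, mul_zero] at lim
  exact lim.congr' (key.mono fun N h => h.symm)

theorem mo_gr (hρ : Moll ρ) {K s : ℝ}
    (hT : ∀ R : ℝ, MemLp T 2 (volume.restrict (ball (0 : V n) R))) (hG : Gr K s T) :
    Gr (K * max 1 (2 ^ s)) s (mo ρ T) := by
  intro R hR
  have h1 := mo_growth hρ (locallyIntegrable_sq_of_memLp hT) (locallyIntegrable_of_memLp hT) R
  have h2 := hG (R + 1) (by linarith)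
  have hK : 0 ≤ K := by
    have := hG 1 le_rfl
    rw [Real.one_rpow, mul_one] at this
    exact (setIntegral_nonneg measurableSet_ball fun x _ => sq_nonneg _).trans this
  have h3 : (R + 1) ^ s ≤ max 1 (2 ^ s) * R ^ s := by
    rcases le_or_gt 0 s with h | h
    · calc (R + 1) ^ s ≤ (2 * R) ^ s := Real.rpow_le_rpow (by linarith) (by linarith) h
        _ = 2 ^ s * R ^ s := Real.mul_rpow (by norm_num) (by linarith)
        _ ≤ _ := by gcongr; exact le_max_right _ _
    · calc (R + 1) ^ s ≤ R ^ s := Real.rpow_le_rpow_of_nonpos (by linarith) (by linarith) h.le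
        _ = 1 * R ^ s := (one_mul _).symm
        _ ≤ _ := by gcongr; exact le_max_left _ _
  calc ∫ x in ball (0 : V n) R, mo ρ T x ^ 2 ≤ K * (R + 1) ^ s := h1.trans h2
    _ ≤ K * (max 1 (2 ^ s) * R ^ s) := by gcongr
    _ = _ := by ring

/-- an a.e. limit of affine functions is a.e. affine -/
theorem affine_of_ae_tendsto {f : ℕ → V n → ℝ}
    (hf : ∀ k, ∃ (ℓ : V n →L[ℝ] ℝ) (c : ℝ), ∀ x, f k x = ℓ x + c)
    (hlim : ∀ᵐ x ∂(volume : Measure (V n)), Tendsto (fun k => f k x) atTop (𝓝 (T x))) :
    ∃ (ℓ : V n →L[ℝ] ℝ) (c : ℝ), T =ᵐ[volume] fun x => ℓ x + c := by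
  choose L c hL using hf
  -- convergence everywhere
  have hconv : ∀ x : V n, ∃ y : ℝ, Tendsto (fun k => f k x) atTop (𝓝 y) := by
    intro x
    have h1 : ∀ᵐ y ∂(volume : Measure (V n)),
        Tendsto (fun k => f k (2 • x - y)) atTop (𝓝 (T (2 • x - y))) :=
      (Measure.measurePreserving_sub_left volume (2 • x)).quasiMeasurePreserving.ae hlim
    obtain ⟨y, hy1, hy2⟩ := (hlim.and h1).exists
    refine ⟨(1 / 2) * (T y + T (2 • x - y)), ?_⟩
    have h2 := (hy1.add hy2).const_mul (1 / 2 : ℝ)
    refine h2.congr fun k => ?_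
    rw [hL, hL, hL, map_sub, two_smul, map_add]
    ring
  choose F hF using hconv
  let ℓ : V n →ₗ[ℝ] ℝ :=
    { toFun := fun x => F x - F 0
      map_add' := by
        intro x y
        have h1 := (((hF x).add (hF y)).sub (hF 0))
        have h2 := hF (x + y)
        have h3 : (fun k => f k (x + y)) = fun k => f k x + f k y - f k 0 := by
          funext k; rw [hL, hL, hL, hL, map_add, map_zero]; ring
        rw [h3] at h2
        have := tendsto_nhds_unique h1 h2
        linarith
      map_smul' := by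
        intro a x
        have h1 := (((hF x).sub (hF 0)).const_mul a).add (hF 0)
        have h2 := hF (a • x)
        have h3 : (fun k => f k (a • x)) = fun k => a * (f k x - f k 0) + f k 0 := by
          funext k; rw [hL, hL, hL, map_smul, map_zero, smul_eq_mul]; ring
        rw [h3] at h2
        have := tendsto_nhds_unique h1 h2
        simp only [RingHom.id_apply, smul_eq_mul]
        linarith }
  refine ⟨LinearMap.toContinuousLinearMap ℓ, F 0, ?_⟩
  filter_upwards [hlim] with x hx
  have := tendsto_nhds_unique hx (hF x)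
  rw [this]
  simp [ℓ]

/-- a standard sequence of mollifiers -/
theorem exists_moll (n : ℕ) : ∃ φ : ℕ → ContDiffBump (0 : V n),
    (∀ k, Moll ((φ k).normed volume)) ∧ Tendsto (fun k => (φ k).rOut) atTop (𝓝 0) ∧
      ∀ k, (φ k).rOut ≤ 2 * (φ k).rIn := by
  let φ : ℕ → ContDiffBump (0 : V n) := fun k =>
    { rIn := 1 / (2 * ((k : ℝ) + 1))
      rOut := 1 / ((k : ℝ) + 1)
      rIn_pos := by positivity
      rIn_lt_rOut := by
        apply one_div_lt_one_div_of_lt
        · positivity
        · linarith [show (0 : ℝ) ≤ k from Nat.cast_nonneg k] }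
  have hr : ∀ k, (φ k).rOut = 1 / ((k : ℝ) + 1) := fun k => rfl
  refine ⟨φ, fun k => ⟨(φ k).contDiff_normed, (φ k).hasCompactSupport_normed,
    (φ k).nonneg_normed, (φ k).integral_normed, ?_, (φ k).normed_neg⟩, ?_, ?_⟩
  · intro x hx
    have : x ∉ Function.support ((φ k).normed volume) := by
      rw [(φ k).support_normed_eq, mem_ball, dist_zero_right, hr, not_lt]
      refine le_trans ?_ hx
      rw [div_le_one (by positivity)]
      linarith [show (0 : ℝ) ≤ k from Nat.cast_nonneg k]
    exact Function.notMem_support.mp this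
  · simp only [hr]
    exact tendsto_one_div_add_atTop_nhds_zero_nat
  · intro k
    rw [hr]
    apply le_of_eq
    change _ = 2 * (1 / (2 * ((k : ℝ) + 1)))
    field_simp

/-- **Linear Liouville lemma**, weak form for `T ∈ L²_loc` (= `liouville_L2`). -/
theorem liouville_L2' (hn : 0 < n) {K s : ℝ} (hs : s < n + 4)
    (hT : ∀ R : ℝ, MemLp T 2 (volume.restrict (ball (0 : V n) R))) (hG : Gr K s T)
    (hw : ∀ ψ : V n → ℝ, SmTest ψ → ∫ x, T x * Lam ψ x = 0) :
    ∃ (ℓ : V n →L[ℝ] ℝ) (c : ℝ), T =ᵐ[volume] fun x => ℓ x + c := by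
  obtain ⟨φ, hφ, hφ0, hφ2⟩ := exists_moll n
  apply affine_of_ae_tendsto (f := fun k => mo ((φ k).normed volume) T)
  · intro k
    exact Sol.affine hn (mo_sol hn (hφ k) hs hT hG hw) hs (mo_gr (hφ k) hT hG)
  · have := ContDiffBump.ae_convolution_tendsto_right_of_locallyIntegrable (μ := (volume : Measure (V n)))
      (φ := φ) (l := atTop) (K := 2) hφ0 (Eventually.of_forall hφ2)
      (locallyIntegrable_of_memLp hT)
    filter_upwards [this] with x hx
    simp only [mo_eq]
    exact hx

/-- constant version: growth `s < n + 2`. -/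
theorem liouville_L2_const (hn : 0 < n) {K s : ℝ} (hs : s < n + 2)
    (hT : ∀ R : ℝ, MemLp T 2 (volume.restrict (ball (0 : V n) R))) (hG : Gr K s T)
    (hw : ∀ ψ : V n → ℝ, SmTest ψ → ∫ x, T x * Lam ψ x = 0) :
    ∃ c : ℝ, T =ᵐ[volume] fun _ => c := by
  obtain ⟨φ, hφ, hφ0, hφ2⟩ := exists_moll n
  have hae := ContDiffBump.ae_convolution_tendsto_right_of_locallyIntegrable
    (μ := (volume : Measure (V n))) (φ := φ) (l := atTop) (K := 2) hφ0 (Eventually.of_forall hφ2)
    (locallyIntegrable_of_memLp hT)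
  have hc : ∀ k x, mo ((φ k).normed volume) T x = mo ((φ k).normed volume) T 0 := fun k x =>
    Sol.const hn (mo_sol hn (hφ k) (by linarith) hT hG hw) hs (mo_gr (hφ k) hT hG) x
  have hae' : ∀ᵐ x ∂(volume : Measure (V n)),
      Tendsto (fun k => mo ((φ k).normed volume) T 0) atTop (𝓝 (T x)) := by
    filter_upwards [hae] with x hx
    refine hx.congr fun k => ?_
    rw [← mo_eq, hc]
  obtain ⟨y, hy⟩ := hae'.exists
  refine ⟨T y, ?_⟩
  filter_upwards [hae'] with x hx
  exact tendsto_nhds_unique hx hy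

end Liou

end Crest.Agent.R085
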