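import Crest.Agent.R085.FlatLam
import Crest.Agent.R085.LiouMoll

/-!
R085, module M7: a reflectionless measure on `V n` with two-sided regularity on all balls is a
multiple of Lebesgue measure.
-/

set_option autoImplicit false
set_option linter.unusedSectionVars false
set_option linter.unusedVariables false

noncomputable section

namespace Crest.Agent.R085.Flat

open MeasureTheory Metric Set Filter
open scoped ENNReal NNReal Topology

variable {n : ℕ} {C c : ℝ} {ν : Measure (V n)}

theorem const_of_full (hn : 1 ≤ n) (hν : UpperReg n C ν) (hC : 0 ≤ C) (hc : 0 < c)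
    (hL : ∀ (x : V n) (r : ℝ), 0 < r → ENNReal.ofReal (c * r ^ n) ≤ ν (ball x r))
    (hR : Refl n ν) :
    ∃ c0 : ℝ, 0 < c0 ∧ ν = ENNReal.ofReal c0 • (volume : Measure (V n)) := by
  have hlf := isLocallyFinite_of_upper hν
  obtain ⟨K, hK⟩ := exists_le_smul_volume hν hC
  have hac : ν ≪ (volume : Measure (V n)) :=
    (Measure.absolutelyContinuous_of_le hK).trans Measure.smul_absolutelyContinuous
  set T : V n → ℝ := fun x => (ν.rnDeriv volume x).toReal with hT
  have hTm : Measurable T := (Measure.measurable_rnDeriv ν volume).ennreal_toReal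
  have hle : ∀ᵐ x ∂(volume : Measure (V n)), ν.rnDeriv volume x ≤ (K : ℝ≥0∞) := by
    refine ae_le_of_forall_setLIntegral_le_of_sigmaFinite (Measure.measurable_rnDeriv ν volume)
      fun s hs _ => ?_
    rw [setLIntegral_const]
    refine (Measure.setLIntegral_rnDeriv_le s).trans ((hK s).trans (le_of_eq ?_))
    rw [Measure.smul_apply, ENNReal.smul_def, smul_eq_mul]
  have hTle : ∀ᵐ x ∂(volume : Measure (V n)), ‖T x‖ ≤ (K : ℝ) := by
    filter_upwards [hle] with x hx
    rw [Real.norm_of_nonneg ENNReal.toReal_nonneg]
    have := ENNReal.toReal_mono ENNReal.coe_ne_top hx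
    simpa using this
  have hmem : ∀ R : ℝ, MemLp T 2 (volume.restrict (ball (0 : V n) R)) := by
    intro R
    have : IsFiniteMeasure ((volume : Measure (V n)).restrict (ball (0 : V n) R)) :=
      ⟨by rw [Measure.restrict_apply_univ]; exact measure_ball_lt_top⟩
    exact MemLp.of_bound hTm.aestronglyMeasurable (K : ℝ) (ae_restrict_of_ae hTle)
  have hGr : Gr ((K : ℝ) ^ 2 * (volume (ball (0 : V n) 1)).toReal) (n : ℝ) T := by
    intro R hR
    have hR0 : 0 < R := by linarith
    have : Nonempty (Fin n) := ⟨⟨0, hn⟩⟩
    calc ∫ x in ball (0 : V n) R, (T x) ^ 2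
        ≤ ∫ x in ball (0 : V n) R, (K : ℝ) ^ 2 := by
          apply integral_mono_of_nonneg
          · exact Eventually.of_forall fun x => by positivity
          · exact integrableOn_const measure_ball_lt_top.ne
          · refine ae_restrict_of_ae ?_
            filter_upwards [hTle] with x hx
            rw [Real.norm_eq_abs] at hx
            have h3 := pow_le_pow_left₀ (abs_nonneg _) hx 2
            rwa [sq_abs] at h3
      _ = (K : ℝ) ^ 2 * (volume (ball (0 : V n) 1)).toReal * R ^ (n : ℝ) := by
          rw [setIntegral_const, smul_eq_mul, measureReal_def]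
          have h1 := Measure.addHaar_ball (volume : Measure (V n)) 0 hR0.le
          rw [finrank_euclideanSpace_fin] at h1
          rw [h1, ENNReal.toReal_mul, ENNReal.toReal_ofReal (by positivity), Real.rpow_natCast]
          ring
  obtain ⟨c0, hc0⟩ := Liou.liouville_L2_const (n := n) (by omega) (by linarith : (n:ℝ) < n + 2)
    hmem hGr (fun ψ hψ => by
      have h1 := integral_rnDeriv_smul (μ := ν) (ν := (volume : Measure (V n))) hac
        (f := fun x => Liou.Lam ψ x)
      simp only [smul_eq_mul] at h1
      have h2 := integral_Lam_eq_zero hn hν hC hc hL hR hψ.smooth hψ.cpt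
      rw [h2] at h1
      exact h1)
  have hrn : ν.rnDeriv volume =ᵐ[volume] fun _ => ENNReal.ofReal c0 := by
    filter_upwards [hc0, hle] with x h1 h2
    rw [← h1]
    exact (ENNReal.ofReal_toReal (ne_top_of_le_ne_top ENNReal.coe_ne_top h2)).symm
  have hνeq : ν = ENNReal.ofReal c0 • (volume : Measure (V n)) := by
    rw [← Measure.withDensity_rnDeriv_eq ν volume hac, withDensity_congr_ae hrn,
      withDensity_const]
  refine ⟨c0, ?_, hνeq⟩
  by_contra hneg
  push Not at hneg
  have h1 := hL 0 1 one_pos
  rw [hνeq, ENNReal.ofReal_of_nonpos hneg, zero_smul] at h1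
  simp only [one_pow, mul_one, Measure.coe_zero, Pi.zero_apply, nonpos_iff_eq_zero,
    ENNReal.ofReal_eq_zero] at h1
  linarith

end Crest.Agent.R085.Flat
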