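import Crest.Agent.R085.FlatPot

/-!
R085, module M7, step (C): a two-sided regular measure on `V n` is comparable to Lebesgue measure,
and the regularised potentials converge weakly to constants w.r.t. Lebesgue measure.
-/

set_option autoImplicit false
set_option linter.unusedSectionVars false
set_option linter.unusedVariables false

noncomputable section

namespace Crest.Agent.R085.Flat

open MeasureTheory Metric Set Filter
open scoped ENNReal NNReal Topology ContDiff

variable {n : ℕ} {C c : ℝ} {ν : Measure (V n)}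

theorem le_smul_of_closedBall_le {α β : Measure (V n)} [IsLocallyFiniteMeasure α]
    [IsLocallyFiniteMeasure β] {K : ℝ≥0}
    (h : ∀ (x : V n) (r : ℝ), 0 < r → α (closedBall x r) ≤ K * β (closedBall x r)) :
    α ≤ K • β := by
  rw [Measure.le_iff']
  intro s
  refine (Besicovitch.vitaliFamily α).measure_le_of_frequently_le (K • β)
    Measure.AbsolutelyContinuous.rfl s fun x _ => ?_
  apply Eventually.frequently
  filter_upwards [(Besicovitch.vitaliFamily α).eventually_filterAt_mem_setsAt x] with a ha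
  obtain ⟨r, hr, rfl⟩ := ha
  rw [Measure.smul_apply, ENNReal.smul_def, smul_eq_mul]
  exact h x r hr

theorem volume_closedBall_eq (x : V n) {r : ℝ} (hr : 0 ≤ r) :
    volume (closedBall x r) = ENNReal.ofReal (r ^ n) * volume (ball (0 : V n) 1) := by
  have := Measure.addHaar_closedBall (volume : Measure (V n)) x hr
  rwa [finrank_euclideanSpace_fin] at this

theorem volume_unit_pos : 0 < volume (ball (0 : V n) 1) := measure_ball_pos _ _ one_pos

theorem volume_unit_lt_top : volume (ball (0 : V n) 1) < ⊤ := measure_ball_lt_top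

theorem exists_le_smul_volume (hν : UpperReg n C ν) (hC : 0 ≤ C) :
    ∃ K : ℝ≥0, ν ≤ K • (volume : Measure (V n)) := by
  have hlf := isLocallyFinite_of_upper hν
  set w : ℝ := (volume (ball (0 : V n) 1)).toReal with hw
  have hw0 : 0 < w := ENNReal.toReal_pos volume_unit_pos.ne' volume_unit_lt_top.ne
  have hwe : volume (ball (0 : V n) 1) = ENNReal.ofReal w :=
    (ENNReal.ofReal_toReal volume_unit_lt_top.ne).symm
  refine ⟨Real.toNNReal (C * 2 ^ n / w), le_smul_of_closedBall_le fun x r hr => ?_⟩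
  rw [volume_closedBall_eq x hr.le, hwe]
  refine (hν.closedBall_le x hr).trans (le_of_eq ?_)
  rw [← ENNReal.ofReal_mul (by positivity)]
  change _ = ENNReal.ofReal (C * 2 ^ n / w) * _
  rw [← ENNReal.ofReal_mul (by positivity)]
  congr 1
  field_simp

theorem exists_volume_le_smul (hν : UpperReg n C ν) (hc : 0 < c)
    (hL : ∀ (x : V n) (r : ℝ), 0 < r → ENNReal.ofReal (c * r ^ n) ≤ ν (ball x r)) :
    ∃ K : ℝ≥0, (volume : Measure (V n)) ≤ K • ν := by
  have hlf := isLocallyFinite_of_upper hν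
  set w : ℝ := (volume (ball (0 : V n) 1)).toReal with hw
  have hw0 : 0 < w := ENNReal.toReal_pos volume_unit_pos.ne' volume_unit_lt_top.ne
  have hwe : volume (ball (0 : V n) 1) = ENNReal.ofReal w :=
    (ENNReal.ofReal_toReal volume_unit_lt_top.ne).symm
  refine ⟨Real.toNNReal (w / c), le_smul_of_closedBall_le fun x r hr => ?_⟩
  rw [volume_closedBall_eq x hr.le, hwe, ← ENNReal.ofReal_mul (by positivity)]
  change _ ≤ ENNReal.ofReal (w / c) * _
  calc ENNReal.ofReal (r ^ n * w) = ENNReal.ofReal (w / c) * ENNReal.ofReal (c * r ^ n) := by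
        rw [← ENNReal.ofReal_mul (by positivity)]
        congr 1
        field_simp
    _ ≤ ENNReal.ofReal (w / c) * ν (closedBall x r) := by
        gcongr
        exact (hL x r hr).trans (measure_mono ball_subset_closedBall)

/-- smooth compactly supported functions are test functions. -/
theorem isTest_of_contDiff {f : V n → ℝ} (hf : ContDiff ℝ (⊤ : ℕ∞) f) (hs : HasCompactSupport f) :
    IsTest f := by
  obtain ⟨L, hL⟩ := ContDiff.lipschitzWith_of_hasCompactSupport hs hf (by simp)
  exact ⟨⟨L, hL⟩, hs⟩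

/-- **(C)** weak convergence to zero against Lebesgue mean-zero continuous functions. -/
theorem tendsto_integral_mul_Ft (hn : 1 ≤ n) (hν : UpperReg n C ν) (hC : 0 ≤ C) (hc : 0 < c)
    (hL : ∀ (x : V n) (r : ℝ), 0 < r → ENNReal.ofReal (c * r ^ n) ≤ ν (ball x r))
    (hR : Refl n ν) (e : V n) {φ : V n → ℝ} (hφ : Continuous φ) (hφs : HasCompactSupport φ)
    (hφ0 : ∫ x, φ x = 0) :
    Tendsto (fun t : ℝ => ∫ x, φ x * Ft n ν t e x) (𝓝[>] 0) (𝓝 0) := by
  have hlf := isLocallyFinite_of_upper hν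
  obtain ⟨M, hM0, hM⟩ := Ft_bounded hn hν hC hc hL hR
  obtain ⟨K, hK⟩ := exists_volume_le_smul hν hc hL
  have hac : (volume : Measure (V n)) ≪ ν :=
    (Measure.absolutelyContinuous_of_le hK).trans Measure.smul_absolutelyContinuous
  set g : V n → ℝ := fun x => ((volume : Measure (V n)).rnDeriv ν x).toReal with hg
  have hφi : Integrable φ (volume : Measure (V n)) := hφ.integrable_of_hasCompactSupport hφs
  set f : V n → ℝ := fun x => g x • φ x with hf
  have hfi : Integrable f ν := (integrable_rnDeriv_smul_iff hac).2 hφi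
  have hf0 : ∫ x, f x ∂ν = 0 := by
    rw [← hφ0]; exact integral_rnDeriv_smul hac
  have hfmem : MemLp f 1 ν := memLp_one_iff_integrable.2 hfi
  -- identity
  have hid : ∀ t : ℝ, ∫ x, φ x * Ft n ν t e x = ∫ x, f x * Ft n ν t e x ∂ν := by
    intro t
    have := integral_rnDeriv_smul (μ := (volume : Measure (V n))) (ν := ν) hac
      (f := fun x => φ x * Ft n ν t e x)
    rw [← this]
    congr 1; ext x
    simp only [hf, hg, smul_eq_mul]; ring
  -- a test function of integral one
  set τ : V n → ℝ := tent 1 0 with hτ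
  have hτc : Continuous τ := continuous_tent 1 0
  have hτs : HasCompactSupport τ := hasCompactSupport_tent one_pos 0
  have hτi : Integrable τ ν := hτc.integrable_of_hasCompactSupport hτs
  have hτm : 0 < ∫ y, τ y ∂ν := lt_of_lt_of_le (by positivity) (le_integral_tent hν hc hL one_pos 0)
  have hτ0 : ∀ y, 0 ≤ τ y := fun y => tent_nonneg _ _ _
  rw [Metric.tendsto_nhds]
  intro ε hε
  set ε1 : ℝ := ε / (4 * (M * ‖e‖ + 1)) with hε1
  have hMe : 0 < M * ‖e‖ + 1 := by positivity
  have hε10 : 0 < ε1 := by positivity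
  obtain ⟨ψ2, hψ2s, hψ2c, hψ2⟩ := hfmem.exist_eLpNorm_sub_le (by simp) le_rfl hε10
  have hψ2t := isTest_of_contDiff hψ2c hψ2s
  have hψ2cont : Continuous ψ2 := hψ2c.continuous
  have hψ2i : Integrable ψ2 ν := hψ2cont.integrable_of_hasCompactSupport hψ2s
  have hdiff : ∫ x, |f x - ψ2 x| ∂ν ≤ ε1 := by
    have h1 : ∫ x, |f x - ψ2 x| ∂ν = (eLpNorm (f - ψ2) 1 ν).toReal := by
      rw [eLpNorm_one_eq_lintegral_enorm, ← integral_norm_eq_lintegral_enorm
        (hfi.sub hψ2i).aestronglyMeasurable]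
      rfl
    rw [h1]
    exact ENNReal.toReal_le_of_le_ofReal hε10.le hψ2
  set a : ℝ := (∫ x, ψ2 x ∂ν) / ∫ y, τ y ∂ν with ha
  have ha1 : |∫ x, ψ2 x ∂ν| ≤ ε1 := by
    have : ∫ x, ψ2 x ∂ν = - ∫ x, (f x - ψ2 x) ∂ν := by
      rw [integral_sub hfi hψ2i, hf0]; ring
    rw [this, abs_neg]
    exact (abs_integral_le_integral_abs).trans hdiff
  set ψ : V n → ℝ := fun x => ψ2 x - a * τ x with hψ
  have hψt : IsTest ψ := by
    obtain ⟨L, hL2⟩ := hψ2t.lip
    refine ⟨⟨L + Real.toNNReal (|a|), ?_⟩, hψ2s.sub hτs.mul_left⟩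
    apply LipschitzWith.of_dist_le_mul
    intro x y
    have h1 := hL2.dist_le_mul x y
    rw [Real.dist_eq] at h1 ⊢
    have h2 := tent_lip one_pos (0 : V n) x y
    rw [inv_one, one_mul, ← dist_eq_norm] at h2
    have h3 : ψ x - ψ y = (ψ2 x - ψ2 y) - a * (τ x - τ y) := by simp only [hψ]; ring
    rw [h3]
    refine (abs_sub _ _).trans ?_
    rw [abs_mul]
    push_cast
    rw [Real.coe_toNNReal _ (abs_nonneg a), add_mul]
    have h4 : |a| * |τ x - τ y| ≤ |a| * dist x y := by
      have := abs_nonneg a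
      gcongr
    linarith
  have hψ0 : ∫ x, ψ x ∂ν = 0 := by
    simp only [hψ]
    rw [integral_sub hψ2i (hτi.const_mul a), integral_const_mul, ha]
    field_simp
    ring
  have hψi : Integrable ψ ν := hψ2i.sub (hτi.const_mul a)
  have hd1 : Integrable (fun x => |f x - ψ2 x|) ν := (hfi.sub hψ2i).abs
  have hd2 : Integrable (fun x => f x - ψ x) ν := hfi.sub hψi
  obtain ⟨K1, hK10, hK1⟩ := integral_mul_Ft_le hn hν hC hR e hψt hψ0
  have hdiff2 : ∫ x, |f x - ψ x| ∂ν ≤ 2 * ε1 := by
    calc ∫ x, |f x - ψ x| ∂ν ≤ ∫ x, (|f x - ψ2 x| + |a| * τ x) ∂ν := by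
          apply integral_mono hd2.abs (hd1.add (hτi.const_mul _))
          intro x
          have : f x - ψ x = (f x - ψ2 x) + a * τ x := by simp only [hψ]; ring
          change |f x - ψ x| ≤ |f x - ψ2 x| + |a| * τ x
          rw [this]
          refine (abs_add_le _ _).trans ?_
          rw [abs_mul, abs_of_nonneg (hτ0 x)]
      _ = ∫ x, |f x - ψ2 x| ∂ν + |a| * ∫ x, τ x ∂ν := by
          rw [integral_add hd1 (hτi.const_mul _), integral_const_mul]
      _ ≤ ε1 + ε1 := by
          have : |a| * ∫ x, τ x ∂ν = |∫ x, ψ2 x ∂ν| := by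
            rw [ha, abs_div, abs_of_pos hτm]; field_simp
          rw [this]
          exact add_le_add hdiff ha1
      _ = 2 * ε1 := by ring
  have hMt : ∀ t : ℝ, 0 < t → |∫ x, φ x * Ft n ν t e x| ≤ 2 * ε1 * (M * ‖e‖) + K1 * t := by
    intro t ht
    have hcF := continuous_Ft hν hC ht e
    have hFi : ∀ {h : V n → ℝ}, Integrable h ν → Integrable (fun x => h x * Ft n ν t e x) ν := by
      intro h hh
      exact hh.mul_bdd (c := M * ‖e‖) hcF.aestronglyMeasurable
        (Eventually.of_forall fun x => hM t ht e x)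
    rw [hid t]
    have h1 : ∫ x, f x * Ft n ν t e x ∂ν
        = ∫ x, (f x - ψ x) * Ft n ν t e x ∂ν + ∫ x, ψ x * Ft n ν t e x ∂ν := by
      rw [← integral_add (hFi hd2) (hFi hψi)]
      congr 1; ext x; ring
    rw [h1]
    refine (abs_add_le _ _).trans (add_le_add ?_ (hK1 t ht))
    calc |∫ x, (f x - ψ x) * Ft n ν t e x ∂ν| ≤ ∫ x, |f x - ψ x| * (M * ‖e‖) ∂ν := by
          rw [← Real.norm_eq_abs]
          apply norm_integral_le_of_norm_le (hd2.abs.mul_const _)
          refine Eventually.of_forall fun x => ?_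
          rw [norm_mul, Real.norm_eq_abs, Real.norm_eq_abs]
          exact mul_le_mul_of_nonneg_left (hM t ht e x) (abs_nonneg _)
      _ = (∫ x, |f x - ψ x| ∂ν) * (M * ‖e‖) := by rw [integral_mul_const]
      _ ≤ 2 * ε1 * (M * ‖e‖) := by
          gcongr
  have hsmall : 2 * ε1 * (M * ‖e‖) < ε / 2 + 0 := by
    have h1 : ε1 * (M * ‖e‖ + 1) = ε / 4 := by rw [hε1]; field_simp
    nlinarith
  have hev : ∀ᶠ t : ℝ in 𝓝[>] 0, K1 * t < ε / 2 := by
    have : Tendsto (fun t : ℝ => K1 * t) (𝓝[>] 0) (𝓝 (K1 * 0)) :=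
      ((continuous_const.mul continuous_id).tendsto 0).mono_left nhdsWithin_le_nhds
    rw [mul_zero] at this
    exact this.eventually (gt_mem_nhds (by positivity))
  filter_upwards [hev, self_mem_nhdsWithin] with t ht1 ht2
  rw [Real.dist_eq, sub_zero]
  have := hMt t ht2
  linarith

end Crest.Agent.R085.Flat
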