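import Crest.Agent.R085.FlatDens
import Crest.Agent.R085.LiouLam

/-!
R085, module M7, step (D): integration by parts.
`∑ i ∫ ∂_i Φ · Ft^{e_i} dx = - ∫ (∫ Φ(x) Dt(x - y) dx) dν(y)` and `∫ Dt = 0`.
-/

set_option autoImplicit false
set_option linter.unusedSectionVars false
set_option linter.unusedVariables false

noncomputable section

namespace Crest.Agent.R085.Flat

open MeasureTheory Metric Set Filter
open scoped ENNReal NNReal Topology

variable {n : ℕ} {C c : ℝ} {ν : Measure (V n)}

/-- divergence of the regularised kernel. -/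
def Dt (n : ℕ) (t : ℝ) (z : V n) : ℝ := (n * t ^ 2 - ‖z‖ ^ 2) * ((rt t z) ^ (n + 3))⁻¹

/-- derivative of `Kt n t e` in direction `e`. -/
def dK (n : ℕ) (t : ℝ) (e z : V n) : ℝ :=
  inner ℝ e e * kt n t z - (n + 1) * inner ℝ z e ^ 2 * ((rt t z) ^ (n + 3))⁻¹

theorem continuous_dK (n : ℕ) {t : ℝ} (ht : 0 < t) (e : V n) : Continuous (dK n t e) := by
  have h1 := continuous_kt (E := V n) n ht
  have h2 : Continuous fun z : V n => ((rt t z) ^ (n + 3))⁻¹ :=
    Continuous.inv₀ ((continuous_rt t).pow _) fun z => by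
      have := rt_pos ht z
      positivity
  unfold dK
  fun_prop

theorem continuous_Dt (n : ℕ) {t : ℝ} (ht : 0 < t) : Continuous (Dt n t) := by
  have h2 : Continuous fun z : V n => ((rt t z) ^ (n + 3))⁻¹ :=
    Continuous.inv₀ ((continuous_rt t).pow _) fun z => by
      have := rt_pos ht z
      positivity
  unfold Dt
  fun_prop

theorem Dt_neg (n : ℕ) (t : ℝ) (z : V n) : Dt n t (-z) = Dt n t z := by
  unfold Dt; rw [norm_neg, rt_neg]

theorem abs_Dt_le (hn : 1 ≤ n) {t : ℝ} (ht : 0 < t) (z : V n) : |Dt n t z| ≤ n * kt n t z := by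
  have h := rt_pos ht z
  have hn' : (1:ℝ) ≤ n := by exact_mod_cast hn
  unfold Dt
  rw [abs_mul, abs_of_pos (by positivity : 0 < ((rt t z) ^ (n + 3))⁻¹)]
  have h1 : |(n:ℝ) * t ^ 2 - ‖z‖ ^ 2| ≤ n * (rt t z) ^ 2 := by
    rw [rt_sq, abs_le]
    constructor <;> nlinarith [sq_nonneg ‖z‖, sq_nonneg t]
  calc |(n:ℝ) * t ^ 2 - ‖z‖ ^ 2| * ((rt t z) ^ (n + 3))⁻¹
      ≤ (n * (rt t z) ^ 2) * ((rt t z) ^ (n + 3))⁻¹ := by gcongr
    _ = n * kt n t z := by
        unfold kt
        have : rt t z ^ (n + 3) = rt t z ^ 2 * rt t z ^ (n + 1) := by rw [← pow_add]; congr 1; omega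
        rw [this]; field_simp

theorem sum_dK (n : ℕ) {t : ℝ} (ht : 0 < t) (z : V n) :
    ∑ i : Fin n, dK n t (EuclideanSpace.single i (1:ℝ)) z = Dt n t z := by
  have h := rt_pos ht z
  unfold dK Dt
  rw [Finset.sum_sub_distrib, ← Finset.sum_mul, ← Finset.sum_mul, ← Finset.mul_sum]
  have h1 : ∑ i : Fin n, inner ℝ (EuclideanSpace.single i (1:ℝ)) (EuclideanSpace.single i (1:ℝ))
      = (n : ℝ) := by
    have : ∀ i : Fin n,
        inner ℝ (EuclideanSpace.single i (1:ℝ)) (EuclideanSpace.single i (1:ℝ)) = (1:ℝ) := by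
      intro i
      rw [real_inner_self_eq_norm_sq, PiLp.norm_single]
      simp
    rw [Finset.sum_congr rfl fun i _ => this i]
    simp
  have h2 : ∑ i : Fin n, inner ℝ z (EuclideanSpace.single i (1:ℝ)) ^ 2 = ‖z‖ ^ 2 := by
    rw [EuclideanSpace.norm_sq_eq]
    refine Finset.sum_congr rfl fun i _ => ?_
    rw [EuclideanSpace.inner_single_right]
    simp
  rw [h1, h2]
  unfold kt
  have : rt t z ^ (n + 3) = rt t z ^ 2 * rt t z ^ (n + 1) := by rw [← pow_add]; congr 1; omega
  rw [this]
  have h3 := rt_sq t z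
  have h4 : t ^ 2 = rt t z ^ 2 - ‖z‖ ^ 2 := by linarith
  rw [h4]
  field_simp
  ring

theorem hasLineDerivAt_Kt (n : ℕ) {t : ℝ} (ht : 0 < t) (e z : V n) :
    HasLineDerivAt ℝ (Kt n t e) (dK n t e z) z e := by
  have hr := rt_pos ht z
  unfold HasLineDerivAt
  have h0 : z + (0:ℝ) • e = z := by simp
  have h1 : HasDerivAt (fun s : ℝ => z + s • e) e 0 := by
    have := ((hasDerivAt_id (0:ℝ)).smul_const e).const_add z
    simpa using this
  have h2 : HasDerivAt (fun s : ℝ => inner ℝ (z + s • e) e) (inner ℝ e e) 0 := by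
    have := h1.inner ℝ (hasDerivAt_const (0:ℝ) e)
    simpa using this
  have h3 : HasDerivAt (fun s : ℝ => ‖z + s • e‖ ^ 2 + t ^ 2) (2 * inner ℝ z e) 0 := by
    have := (h1.norm_sq).add_const (t ^ 2)
    simpa using this
  have h4 : HasDerivAt (fun s : ℝ => rt t (z + s • e)) (2 * inner ℝ z e / (2 * rt t z)) 0 := by
    have h5 := h3.sqrt (by rw [h0]; positivity)
    rw [h0] at h5
    exact h5
  have h5 : HasDerivAt (fun s : ℝ => kt n t (z + s • e))
      (-(((n + 1 : ℕ) : ℝ) * rt t z ^ n * (2 * inner ℝ z e / (2 * rt t z)))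
        / (rt t z ^ (n + 1)) ^ 2) 0 := by
    have h6 := h4.fun_pow (n + 1)
    have h7 := h6.fun_inv (by rw [h0]; positivity)
    rw [h0] at h7
    simpa [kt] using h7
  have h6 := h2.fun_mul h5
  rw [h0] at h6
  refine HasDerivAt.congr_deriv h6 ?_
  unfold dK kt
  have e1 : rt t z ^ (n + 3) = rt t z ^ 3 * rt t z ^ n := by rw [← pow_add]; congr 1; omega
  have e2 : rt t z ^ (n + 1) = rt t z * rt t z ^ n := by rw [pow_succ]; ring
  rw [e1, e2]
  push_cast
  field_simp
  ring

/-- integral of a directional derivative of a compactly supported function. -/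
theorem integral_fderiv_eq_zero {Φ : V n → ℝ} (hΦ : ContDiff ℝ (⊤ : ℕ∞) Φ)
    (hs : HasCompactSupport Φ) (e : V n) : ∫ x, fderiv ℝ Φ x e = 0 := by
  have hd : Differentiable ℝ Φ := hΦ.differentiable (by simp)
  have hc : Continuous fun x => fderiv ℝ Φ x e :=
    (hΦ.continuous_fderiv (by simp)).clm_apply continuous_const
  have hcs : HasCompactSupport fun x => fderiv ℝ Φ x e := hs.fderiv_apply (𝕜 := ℝ) e
  have h := integral_mul_fderiv_eq_neg_fderiv_mul_of_integrable (μ := (volume : Measure (V n)))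
    (f := Φ) (g := fun _ => (1:ℝ)) (v := e)
    (by simpa using hc.integrable_of_hasCompactSupport hcs) (by simp)
    (by simpa using hΦ.continuous.integrable_of_hasCompactSupport hs)
    (fun x _ => hd x) (fun x _ => differentiableAt_const _)
  simpa using h.symm

/-- integration by parts for one direction and one centre. -/
theorem integral_fderiv_mul_Kt {t : ℝ} (ht : 0 < t) {Φ : V n → ℝ} (hΦ : ContDiff ℝ (⊤ : ℕ∞) Φ)
    (hs : HasCompactSupport Φ) (e y : V n) :
    ∫ x, fderiv ℝ Φ x e * Kt n t e (x - y) = -∫ x, Φ x * dK n t e (x - y) := by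
  have hd : Differentiable ℝ Φ := hΦ.differentiable (by simp)
  have hc : Continuous fun x => fderiv ℝ Φ x e :=
    (hΦ.continuous_fderiv (by simp)).clm_apply continuous_const
  have hcs : HasCompactSupport fun x => fderiv ℝ Φ x e := hs.fderiv_apply (𝕜 := ℝ) e
  have hK := continuous_Kt n ht e
  have hdK := continuous_dK n ht e
  have hKy : Continuous fun x => Kt n t e (x - y) := by fun_prop
  have hdKy : Continuous fun x => dK n t e (x - y) := by fun_prop
  have h := integral_bilinear_hasLineDerivAt_right_eq_neg_left_of_integrable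
    (μ := (volume : Measure (V n))) (f := Φ) (f' := fun x => fderiv ℝ Φ x e)
    (g := fun x => Kt n t e (x - y)) (g' := fun x => dK n t e (x - y)) (v := e)
    (B := ContinuousLinearMap.mul ℝ ℝ)
    ((hc.mul hKy).integrable_of_hasCompactSupport hcs.mul_right)
    ((hΦ.continuous.mul hdKy).integrable_of_hasCompactSupport hs.mul_right)
    ((hΦ.continuous.mul hKy).integrable_of_hasCompactSupport hs.mul_right)
    (fun x _ => (hd x).hasFDerivAt.hasLineDerivAt e)
    (fun x _ => by
      have := hasLineDerivAt_Kt n ht e (x - y)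
      unfold HasLineDerivAt at this ⊢
      refine this.congr_of_eventuallyEq (Eventually.of_forall fun s => ?_)
      simp only
      congr 1
      abel)
  simp only [ContinuousLinearMap.mul_apply'] at h
  rw [h, neg_neg]

/-- Fubini for the regularised potential. -/
theorem integral_fderiv_mul_Ft (hν : UpperReg n C ν) (hC : 0 ≤ C) {t : ℝ} (ht : 0 < t)
    {Φ : V n → ℝ} (hΦ : ContDiff ℝ (⊤ : ℕ∞) Φ) (hs : HasCompactSupport Φ) (e : V n) :
    Integrable (fun y => ∫ x, Φ x * dK n t e (x - y)) ν ∧
    ∫ x, fderiv ℝ Φ x e * Ft n ν t e x = -∫ y, (∫ x, Φ x * dK n t e (x - y)) ∂ν := by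
  have hlf := isLocallyFinite_of_upper hν
  have hc : Continuous fun x => fderiv ℝ Φ x e :=
    (hΦ.continuous_fderiv (by simp)).clm_apply continuous_const
  have hcs : HasCompactSupport fun x => fderiv ℝ Φ x e := hs.fderiv_apply (𝕜 := ℝ) e
  have hK := continuous_Kt n ht e
  have hk := continuous_kt (E := V n) n ht
  set H : V n × V n → ℝ := fun p => fderiv ℝ Φ p.1 e * (Kt n t e (p.1 - p.2) - Kt n t e (0 - p.2))
    with hH
  have hHc : Continuous H := by
    have h1 : Continuous fun p : V n × V n => fderiv ℝ Φ p.1 e := hc.comp continuous_fst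
    rw [hH]; fun_prop
  set w : V n → ℝ := fun x => |fderiv ℝ Φ x e| * ((n + 2) * ‖e‖ * ‖x‖) with hw
  have hwc : Continuous w := by rw [hw]; fun_prop
  have hw0 : ∀ x, 0 ≤ w x := fun x => by simp only [hw]; positivity
  have hws : HasCompactSupport w := hcs.abs.mul_right
  have hwi : Integrable w (volume : Measure (V n)) := hwc.integrable_of_hasCompactSupport hws
  have hHle : ∀ p : V n × V n, ‖H p‖ ≤ w p.1 * (kt n t (p.1 - p.2) + kt n t (0 - p.2)) := by
    rintro ⟨x, y⟩
    simp only [hH, hw]
    rw [norm_mul, Real.norm_eq_abs, Real.norm_eq_abs, mul_assoc]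
    gcongr
    have := abs_Kt_sub_le n ht e (x - y) (0 - y)
    rwa [sub_sub_sub_cancel_right, sub_zero] at this
  have hHi : Integrable H ((volume : Measure (V n)).prod ν) := by
    refine ⟨hHc.aestronglyMeasurable, ?_⟩
    rw [hasFiniteIntegral_iff_enorm]
    set Q : ℝ := C * 2 ^ (n + 2) / t with hQ
    have hQ0 : 0 ≤ Q := by positivity
    calc ∫⁻ p, ‖H p‖ₑ ∂((volume : Measure (V n)).prod ν)
        ≤ ∫⁻ p, ENNReal.ofReal (w p.1 * (kt n t (p.1 - p.2) + kt n t (0 - p.2)))
            ∂((volume : Measure (V n)).prod ν) := by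
          gcongr with p
          rw [← ofReal_norm]
          exact ENNReal.ofReal_le_ofReal (hHle p)
      _ = ∫⁻ x, ∫⁻ y, ENNReal.ofReal (w x * (kt n t (x - y) + kt n t (0 - y))) ∂ν := by
          rw [lintegral_prod]
          have : Continuous fun p : V n × V n =>
              w p.1 * (kt n t (p.1 - p.2) + kt n t (0 - p.2)) := by fun_prop
          exact this.measurable.ennreal_ofReal.aemeasurable
      _ ≤ ∫⁻ x, ENNReal.ofReal (w x) * ENNReal.ofReal (2 * Q) := by
          gcongr with x
          calc ∫⁻ y, ENNReal.ofReal (w x * (kt n t (x - y) + kt n t (0 - y))) ∂ν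
              = ENNReal.ofReal (w x) * ∫⁻ y, (ENNReal.ofReal (kt n t (x - y))
                  + ENNReal.ofReal (kt n t (0 - y))) ∂ν := by
                rw [← lintegral_const_mul' _ _ ENNReal.ofReal_ne_top]
                congr 1; ext y
                rw [ENNReal.ofReal_mul (hw0 x), ENNReal.ofReal_add (kt_nonneg _ _ _)
                  (kt_nonneg _ _ _)]
            _ = ENNReal.ofReal (w x) * (∫⁻ y, ENNReal.ofReal (kt n t (x - y)) ∂ν
                  + ∫⁻ y, ENNReal.ofReal (kt n t (0 - y)) ∂ν) := by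
                rw [lintegral_add_left (measurable_kt n ht x).ennreal_ofReal]
            _ ≤ ENNReal.ofReal (w x) * (ENNReal.ofReal Q + ENNReal.ofReal Q) := by
                gcongr
                · exact lintegral_kt_le hν hC ht x
                · exact lintegral_kt_le hν hC ht 0
            _ = ENNReal.ofReal (w x) * ENNReal.ofReal (2 * Q) := by
                rw [← ENNReal.ofReal_add hQ0 hQ0]; congr 2; ring
      _ = (∫⁻ x, ENNReal.ofReal (w x)) * ENNReal.ofReal (2 * Q) := by
          rw [lintegral_mul_const' _ _ ENNReal.ofReal_ne_top]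
      _ < ⊤ := by
          rw [← ofReal_integral_eq_lintegral_ofReal hwi (Eventually.of_forall hw0)]
          exact ENNReal.mul_lt_top ENNReal.ofReal_lt_top ENNReal.ofReal_lt_top
  have hinner : ∀ y, ∫ x, H (x, y) = -∫ x, Φ x * dK n t e (x - y) := by
    intro y
    simp only [hH]
    have h1 : Integrable (fun x => fderiv ℝ Φ x e * Kt n t e (x - y)) (volume : Measure (V n)) :=
      (hc.mul (by fun_prop : Continuous fun x => Kt n t e (x - y))).integrable_of_hasCompactSupport
        hcs.mul_right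
    have h2 : Integrable (fun x => fderiv ℝ Φ x e * Kt n t e (0 - y)) (volume : Measure (V n)) :=
      (hc.integrable_of_hasCompactSupport hcs).mul_const _
    have e1 : ∀ x, fderiv ℝ Φ x e * (Kt n t e (x - y) - Kt n t e (0 - y))
        = fderiv ℝ Φ x e * Kt n t e (x - y) - fderiv ℝ Φ x e * Kt n t e (0 - y) := fun x => by ring
    simp only [e1]
    rw [integral_sub h1 h2, integral_mul_const, integral_fderiv_eq_zero hΦ hs e, zero_mul,
      sub_zero, integral_fderiv_mul_Kt ht hΦ hs e y]
  constructor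
  · have h1 := hHi.integral_prod_right
    have h2 := h1.neg
    refine h2.congr (Eventually.of_forall fun y => ?_)
    simp only [Pi.neg_apply]
    rw [hinner y, neg_neg]
  · have h1 : ∫ x, fderiv ℝ Φ x e * Ft n ν t e x = ∫ x, ∫ y, H (x, y) ∂ν := by
      congr 1; ext x
      simp only [hH]
      rw [integral_const_mul]
      rfl
    rw [h1, integral_integral_swap hHi]
    simp only [hinner]
    rw [integral_neg]

/-- **(D)** sum over the coordinate directions. -/
theorem sum_integral_fderiv_mul_Ft (hν : UpperReg n C ν) (hC : 0 ≤ C) {t : ℝ} (ht : 0 < t)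
    {Φ : V n → ℝ} (hΦ : ContDiff ℝ (⊤ : ℕ∞) Φ) (hs : HasCompactSupport Φ) :
    ∑ i : Fin n, ∫ x, fderiv ℝ Φ x (EuclideanSpace.single i (1:ℝ)) *
        Ft n ν t (EuclideanSpace.single i (1:ℝ)) x
      = -∫ y, (∫ x, Φ x * Dt n t (x - y)) ∂ν := by
  have h := fun i : Fin n => integral_fderiv_mul_Ft hν hC ht hΦ hs (EuclideanSpace.single i (1:ℝ))
  rw [Finset.sum_congr rfl fun i _ => (h i).2, Finset.sum_neg_distrib,
    ← integral_finsetSum _ fun i _ => (h i).1]
  congr 2; ext y
  rw [← integral_finsetSum]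
  · congr 1; ext x
    rw [← Finset.mul_sum, sum_dK n ht]
  · intro i _
    have := continuous_dK n ht (EuclideanSpace.single i (1:ℝ))
    exact (hΦ.continuous.mul (by fun_prop : Continuous fun x =>
      dK n t (EuclideanSpace.single i (1:ℝ)) (x - y))).integrable_of_hasCompactSupport hs.mul_right

theorem FtN_volume {t N : ℝ} (ht : 0 < t) (hN : 0 < N) (e x : V n) :
    FtN n volume t N e x = ∫ z, KtN n t N e z := by
  have : FtN n volume t N e x = ∫ y, KtN n t N e (x - y) := rfl
  rw [this, integral_sub_left_eq_self (KtN n t N e) volume x]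

theorem Ft_volume (hn : 1 ≤ n) {t : ℝ} (ht : 0 < t) (e x : V n) :
    Ft n volume t e x = 0 := by
  obtain ⟨C, hC, hU⟩ := Liou.upperReg_volume (n := n) (by omega)
  have h1 := tendsto_FtN hU hC ht e x
  refine tendsto_nhds_unique h1 ?_
  apply tendsto_const_nhds.congr'
  filter_upwards [eventually_gt_atTop 0] with N hN
  rw [FtN_volume ht hN, FtN_volume ht hN, sub_self]

theorem integrable_Dt (hn : 1 ≤ n) {t : ℝ} (ht : 0 < t) : Integrable (Dt n t) := by
  obtain ⟨C, hC, hU⟩ := Liou.upperReg_volume (n := n) (by omega)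
  have h1 := (integrable_kt hU hC ht 0).1
  have h2 : Integrable (fun z : V n => kt n t z) := by
    refine h1.congr (Eventually.of_forall fun z => ?_)
    simp only [zero_sub, kt_neg]
  refine (h2.const_mul n).mono' (continuous_Dt n ht).aestronglyMeasurable
    (Eventually.of_forall fun z => ?_)
  rw [Real.norm_eq_abs]
  exact abs_Dt_le hn ht z

theorem integral_Dt (hn : 1 ≤ n) {t : ℝ} (ht : 0 < t) : ∫ z, Dt n t z = 0 := by
  obtain ⟨C, hC, hU⟩ := Liou.upperReg_volume (n := n) (by omega)
  -- a bump function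
  let b : ContDiffBump (0 : V n) := ⟨1, 2, one_pos, one_lt_two⟩
  have hb : ContDiff ℝ (⊤ : ℕ∞) (b : V n → ℝ) := b.contDiff
  have hbs : HasCompactSupport (b : V n → ℝ) := b.hasCompactSupport
  have hbi : Integrable (b : V n → ℝ) := hb.continuous.integrable_of_hasCompactSupport hbs
  have hpos : 0 < ∫ x, b x := b.integral_pos
  have h1 := sum_integral_fderiv_mul_Ft hU hC ht hb hbs
  have h2 : ∑ i : Fin n, ∫ x, fderiv ℝ (b : V n → ℝ) x (EuclideanSpace.single i (1:ℝ)) *
        Ft n volume t (EuclideanSpace.single i (1:ℝ)) x = 0 := by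
    apply Finset.sum_eq_zero
    intro i _
    simp only [Ft_volume hn ht, mul_zero, integral_zero]
  rw [h2] at h1
  have hDi := integrable_Dt hn ht
  have hDc := continuous_Dt n ht
  have hprod : Integrable (fun p : V n × V n => b p.1 * Dt n t (p.1 - p.2))
      ((volume : Measure (V n)).prod volume) := by
    have h3 : Integrable (fun p : V n × V n => b p.1 * Dt n t p.2)
        ((volume : Measure (V n)).prod volume) := hbi.mul_prod hDi
    have hc : Continuous (fun p : V n × V n => b p.1 * Dt n t (p.1 - p.2)) := by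
      have := hb.continuous
      fun_prop
    rw [integrable_prod_iff hc.aestronglyMeasurable]
    constructor
    · refine Eventually.of_forall fun x => ?_
      have h6 : Integrable (fun y : V n => b x * Dt n t (x - y)) :=
        (hDi.comp_sub_left x).const_mul _
      exact h6
    · have : ∀ x : V n, ∫ y, ‖b x * Dt n t (x - y)‖ = b x * ∫ y, ‖Dt n t y‖ := by
        intro x
        simp only [norm_mul]
        rw [integral_const_mul, integral_sub_left_eq_self (fun z => ‖Dt n t z‖) volume x,
          Real.norm_of_nonneg b.nonneg]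
      simp only [this]
      exact hbi.mul_const _
  have h4 : ∫ y, (∫ x, b x * Dt n t (x - y)) = (∫ x, b x) * ∫ z, Dt n t z := by
    rw [← integral_integral_swap hprod]
    simp only [integral_const_mul]
    rw [← integral_mul_const]
    congr 1; ext x
    rw [integral_sub_left_eq_self (Dt n t) volume x]
  rw [h4] at h1
  have h5 : (∫ x, b x) * ∫ z, Dt n t z = 0 := by linarith
  exact (mul_eq_zero.1 h5).resolve_left hpos.ne'

end Crest.Agent.R085.Flat
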