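import Crest.Agent.R085.FlatKer

/-!
R085, module M7: integral estimates for the regularised kernel and the comparison
of the truncated Riesz form with the regularised Riesz potential.
-/

set_option autoImplicit false
set_option linter.unusedSectionVars false
set_option linter.unusedVariables false

noncomputable section

namespace Crest.Agent.R085.Flat

open MeasureTheory Metric Set Filter
open scoped ENNReal NNReal Topology

variable {n : ℕ} {C : ℝ} {ν : Measure (V n)}

theorem isLocallyFinite_of_upper (hν : UpperReg n C ν) : IsLocallyFiniteMeasure ν :=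
  ⟨fun x => ⟨ball x 1, ball_mem_nhds x one_pos,
    lt_of_le_of_lt (hν x 1 one_pos) ENNReal.ofReal_lt_top⟩⟩

theorem measurable_kt (n : ℕ) {t : ℝ} (ht : 0 < t) (x : V n) :
    Measurable fun y : V n => kt n t (x - y) :=
  ((continuous_kt n ht).comp (continuous_const.sub continuous_id)).measurable

/-- `∫ kt(x - y) dν(y) ≤ C 2^(n+2) / t`. -/
theorem lintegral_kt_le (hν : UpperReg n C ν) (hC : 0 ≤ C) {t : ℝ} (ht : 0 < t) (x : V n) :
    ∫⁻ y, ENNReal.ofReal (kt n t (x - y)) ∂ν ≤ ENNReal.ofReal (C * 2 ^ (n + 2) / t) := by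
  have hcov : (univ : Set (V n)) ⊆ closedBall x t ∪ {y | t ≤ dist x y} := by
    intro y _
    rcases le_total (dist x y) t with h | h
    · left; rw [mem_closedBall, dist_comm]; exact h
    · right; exact h
  have h1 : ∫⁻ y in closedBall x t, ENNReal.ofReal (kt n t (x - y)) ∂ν
      ≤ ENNReal.ofReal (C * 2 ^ n / t) := by
    calc ∫⁻ y in closedBall x t, ENNReal.ofReal (kt n t (x - y)) ∂ν
        ≤ ∫⁻ y in closedBall x t, ENNReal.ofReal ((t ^ (n + 1))⁻¹) ∂ν := by
          apply setLIntegral_mono' isClosed_closedBall.measurableSet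
          intro y _
          exact ENNReal.ofReal_le_ofReal (kt_le_t n ht _)
      _ = ENNReal.ofReal ((t ^ (n + 1))⁻¹) * ν (closedBall x t) := by rw [setLIntegral_const]
      _ ≤ ENNReal.ofReal ((t ^ (n + 1))⁻¹) * ENNReal.ofReal (C * 2 ^ n * t ^ n) := by
          gcongr
          exact hν.closedBall_le x ht
      _ = ENNReal.ofReal (C * 2 ^ n / t) := by
          rw [← ENNReal.ofReal_mul (by positivity)]
          congr 1
          rw [pow_succ]; field_simp
  have h2 : ∫⁻ y in {y | t ≤ dist x y}, ENNReal.ofReal (kt n t (x - y)) ∂ν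
      ≤ ENNReal.ofReal (C * 2 ^ (n + 1) / t) := by
    have hmeas : MeasurableSet {y : V n | t ≤ dist x y} :=
      (isClosed_le continuous_const (continuous_const.dist continuous_id)).measurableSet
    calc ∫⁻ y in {y | t ≤ dist x y}, ENNReal.ofReal (kt n t (x - y)) ∂ν
        ≤ ∫⁻ y in {y | t ≤ dist x y}, ENNReal.ofReal (((dist x y) ^ (n + 1))⁻¹) ∂ν := by
          apply setLIntegral_mono' hmeas
          intro y hy
          apply ENNReal.ofReal_le_ofReal
          rw [dist_eq_norm]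
          apply kt_le_norm
          intro h0
          have hy' : t ≤ dist x y := hy
          rw [dist_eq_norm, h0, norm_zero] at hy'
          linarith
      _ ≤ ENNReal.ofReal (C * 2 ^ (n + 1) / t ^ 1) := lintegral_tail hν hC le_rfl x ht
      _ = _ := by rw [pow_one]
  calc ∫⁻ y, ENNReal.ofReal (kt n t (x - y)) ∂ν
      = ∫⁻ y in univ, ENNReal.ofReal (kt n t (x - y)) ∂ν := by rw [setLIntegral_univ]
    _ ≤ ∫⁻ y in closedBall x t ∪ {y | t ≤ dist x y}, ENNReal.ofReal (kt n t (x - y)) ∂ν :=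
        lintegral_mono_set hcov
    _ ≤ _ := lintegral_union_le _ _ _
    _ ≤ ENNReal.ofReal (C * 2 ^ n / t) + ENNReal.ofReal (C * 2 ^ (n + 1) / t) := add_le_add h1 h2
    _ = ENNReal.ofReal (C * 2 ^ n / t + C * 2 ^ (n + 1) / t) := by
        rw [ENNReal.ofReal_add (by positivity) (by positivity)]
    _ ≤ ENNReal.ofReal (C * 2 ^ (n + 2) / t) := by
        apply ENNReal.ofReal_le_ofReal
        rw [← add_div]
        gcongr
        have : (0:ℝ) ≤ C * 2 ^ n := by positivity
        rw [pow_succ, pow_succ (2:ℝ) (n + 1), pow_succ]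
        nlinarith

theorem integrable_kt (hν : UpperReg n C ν) (hC : 0 ≤ C) {t : ℝ} (ht : 0 < t) (x : V n) :
    Integrable (fun y => kt n t (x - y)) ν ∧ ∫ y, kt n t (x - y) ∂ν ≤ C * 2 ^ (n + 2) / t :=
  integrable_and_integral_le_of_lintegral (measurable_kt n ht x).aestronglyMeasurable
    (fun y => kt_nonneg n t _) (by positivity) (lintegral_kt_le hν hC ht x)

/-- difference of the singular and regularised kernels, weighted with `‖z‖²`. -/
def wt (n : ℕ) (t : ℝ) (z : V n) : ℝ := ‖z‖ ^ 2 * |(‖z‖ ^ (n + 1))⁻¹ - kt n t z|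

theorem wt_nonneg (n : ℕ) (t : ℝ) (z : V n) : 0 ≤ wt n t z := by unfold wt; positivity

theorem wt_neg (n : ℕ) (t : ℝ) (z : V n) : wt n t (-z) = wt n t z := by
  unfold wt; rw [norm_neg, kt_neg]

theorem measurable_wt {n : ℕ} {t : ℝ} (ht : 0 < t) : Measurable (wt n t : V n → ℝ) := by
  have := (continuous_kt (E := V n) n ht).measurable
  unfold wt
  fun_prop

/-- constant in the comparison. -/
def C2 (n : ℕ) (C : ℝ) : ℝ := C * 4 ^ n + (n + 1) * (C * 2 ^ (n + 1))

theorem C2_nonneg (hC : 0 ≤ C) : 0 ≤ C2 n C := by unfold C2; positivity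

theorem lintegral_wt_le (hn : 1 ≤ n) (hν : UpperReg n C ν) (hC : 0 ≤ C) {t : ℝ} (ht : 0 < t)
    (x : V n) :
    ∫⁻ y, ENNReal.ofReal (wt n t (x - y)) ∂ν ≤ ENNReal.ofReal (C2 n C * t) := by
  have hcov : (univ : Set (V n)) ⊆ closedBall x t ∪ {y | t ≤ dist x y} := by
    intro y _
    rcases le_total (dist x y) t with h | h
    · left; rw [mem_closedBall, dist_comm]; exact h
    · right; exact h
  have h1 : ∫⁻ y in closedBall x t, ENNReal.ofReal (wt n t (x - y)) ∂ν
      ≤ ENNReal.ofReal (C * 4 ^ n * t) := by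
    calc ∫⁻ y in closedBall x t, ENNReal.ofReal (wt n t (x - y)) ∂ν
        ≤ ∫⁻ y in closedBall x t, ENNReal.ofReal (((dist x y) ^ (n - 1))⁻¹) ∂ν := by
          apply setLIntegral_mono' isClosed_closedBall.measurableSet
          intro y _
          rw [dist_eq_norm]
          exact ENNReal.ofReal_le_ofReal (sq_mul_abs_inv_sub_kt_le_near hn ht _)
      _ ≤ ENNReal.ofReal (C * 4 ^ n * t ^ (n - (n - 1))) :=
          lintegral_near hν hC (by omega) x ht
      _ = _ := by
          congr 2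
          rw [show n - (n - 1) = 1 by omega, pow_one]
  have h2 : ∫⁻ y in {y | t ≤ dist x y}, ENNReal.ofReal (wt n t (x - y)) ∂ν
      ≤ ENNReal.ofReal ((n + 1) * (C * 2 ^ (n + 1)) * t) := by
    have hmeas : MeasurableSet {y : V n | t ≤ dist x y} :=
      (isClosed_le continuous_const (continuous_const.dist continuous_id)).measurableSet
    calc ∫⁻ y in {y | t ≤ dist x y}, ENNReal.ofReal (wt n t (x - y)) ∂ν
        ≤ ∫⁻ y in {y | t ≤ dist x y},
            ENNReal.ofReal ((n + 1) * t ^ 2) * ENNReal.ofReal (((dist x y) ^ (n + 1))⁻¹) ∂ν := by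
          apply setLIntegral_mono' hmeas
          intro y hy
          rw [← ENNReal.ofReal_mul (by positivity)]
          apply ENNReal.ofReal_le_ofReal
          rw [dist_eq_norm]
          apply sq_mul_abs_inv_sub_kt_le_far ht
          intro h0
          have hy' : t ≤ dist x y := hy
          rw [dist_eq_norm, h0, norm_zero] at hy'
          linarith
      _ = ENNReal.ofReal ((n + 1) * t ^ 2) *
            ∫⁻ y in {y | t ≤ dist x y}, ENNReal.ofReal (((dist x y) ^ (n + 1))⁻¹) ∂ν := by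
          rw [lintegral_const_mul' _ _ ENNReal.ofReal_ne_top]
      _ ≤ ENNReal.ofReal ((n + 1) * t ^ 2) * ENNReal.ofReal (C * 2 ^ (n + 1) / t ^ 1) := by
          gcongr
          exact lintegral_tail hν hC le_rfl x ht
      _ = _ := by
          rw [← ENNReal.ofReal_mul (by positivity)]
          congr 1
          field_simp
  calc ∫⁻ y, ENNReal.ofReal (wt n t (x - y)) ∂ν
      = ∫⁻ y in univ, ENNReal.ofReal (wt n t (x - y)) ∂ν := by rw [setLIntegral_univ]
    _ ≤ ∫⁻ y in closedBall x t ∪ {y | t ≤ dist x y}, ENNReal.ofReal (wt n t (x - y)) ∂ν :=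
        lintegral_mono_set hcov
    _ ≤ _ := lintegral_union_le _ _ _
    _ ≤ ENNReal.ofReal (C * 4 ^ n * t) + ENNReal.ofReal ((n + 1) * (C * 2 ^ (n + 1)) * t) :=
        add_le_add h1 h2
    _ = ENNReal.ofReal (C2 n C * t) := by
        rw [← ENNReal.ofReal_add (by positivity) (by positivity)]
        congr 1
        unfold C2; ring

/-- Regularised and truncated Riesz potential in direction `e`. -/
def FtN (n : ℕ) (ν : Measure (V n)) (t N : ℝ) (e x : V n) : ℝ :=
  ∫ y, inner ℝ (x - y) e * (cut (‖x - y‖ / N) * kt n t (x - y)) ∂ν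

/-- the regularised truncated kernel. -/
def KtN (n : ℕ) (t N : ℝ) (e z : V n) : ℝ := inner ℝ z e * (cut (‖z‖ / N) * kt n t z)

theorem KtN_neg (n : ℕ) (t N : ℝ) (e z : V n) : KtN n t N e (-z) = -KtN n t N e z := by
  unfold KtN; rw [norm_neg, kt_neg, inner_neg_left]; ring

theorem continuous_KtN (n : ℕ) {t : ℝ} (ht : 0 < t) (N : ℝ) (e : V n) :
    Continuous (KtN n t N e) := by
  unfold KtN
  have h1 := continuous_kt (E := V n) n ht
  have h2 := continuous_cut
  fun_prop

theorem KtN_eq_zero (n : ℕ) (t : ℝ) {N : ℝ} (hN : 0 < N) (e : V n) {z : V n} (hz : 2 * N ≤ ‖z‖) :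
    KtN n t N e z = 0 := by
  unfold KtN
  rw [cut_of_two_le (by rw [le_div_iff₀ hN]; exact hz)]
  ring

/-- Comparison of the truncated Riesz form with the regularised potential. -/
theorem abs_Bf_sub_le (hn : 1 ≤ n) (hν : UpperReg n C ν) (hC : 0 ≤ C) {t N : ℝ} (ht : 0 < t)
    (hN : 0 < N) (e : V n) {ψ G : V n → ℝ} (hψ : Continuous ψ) (hψc : HasCompactSupport ψ)
    (hG0 : ∀ x, 0 ≤ G x) (hGm : Measurable G) (hGi : Integrable G ν)
    (hGψ : ∀ x y, |ψ x - ψ y| ≤ ‖x - y‖ * (G x + G y)) :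
    |Bf n ν N (lin e) ψ - ∫ x, ψ x * FtN n ν t N e x ∂ν| ≤ C2 n C * ‖e‖ * t * ∫ x, G x ∂ν := by
  have hlf := isLocallyFinite_of_upper hν
  set A : V n × V n → ℝ := fun p =>
    (lin e p.1 - lin e p.2) * (ψ p.1 - ψ p.2) * kN n N (p.1 - p.2) with hA
  set B1 : V n × V n → ℝ := fun p => ψ p.1 * KtN n t N e (p.1 - p.2) with hB1
  -- `B1` is integrable
  obtain ⟨R, hR⟩ := hψc.isCompact.isBounded.subset_closedBall (0 : V n)
  have hψ0 : ∀ x, x ∉ closedBall (0 : V n) R → ψ x = 0 := fun x hx =>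
    image_eq_zero_of_notMem_tsupport fun h => hx (hR h)
  have hKc := continuous_KtN n ht N e
  have hB1c : Continuous B1 := by
    rw [hB1]; fun_prop
  have hB1s : HasCompactSupport B1 := by
    apply HasCompactSupport.intro'
      (K := closedBall (0 : V n) R ×ˢ closedBall (0 : V n) (R + 2 * N))
    · exact (isCompact_closedBall _ _).prod (isCompact_closedBall _ _)
    · exact isClosed_closedBall.prod isClosed_closedBall
    · rintro ⟨x, y⟩ hxy
      simp only [hB1]
      by_cases hx : x ∈ closedBall (0 : V n) R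
      · have hy : y ∉ closedBall (0 : V n) (R + 2 * N) := fun hy => hxy ⟨hx, hy⟩
        rw [mem_closedBall, dist_zero_right] at hx hy
        push Not at hy
        rw [KtN_eq_zero n t hN e, mul_zero]
        have := norm_sub_norm_le y x
        rw [norm_sub_rev] at this
        linarith
      · rw [hψ0 x hx, zero_mul]
  have hB1i : Integrable B1 (ν.prod ν) := hB1c.integrable_of_hasCompactSupport hB1s
  have hB1int : ∫ p, B1 p ∂(ν.prod ν) = ∫ x, ψ x * FtN n ν t N e x ∂ν := by
    rw [integral_prod _ hB1i]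
    congr 1
    ext x
    simp only [hB1]
    rw [integral_const_mul]
    rfl
  have hB2i : Integrable (fun p : V n × V n => B1 p.swap) (ν.prod ν) := hB1i.swap
  have hB2int : ∫ p, B1 p.swap ∂(ν.prod ν) = ∫ p, B1 p ∂(ν.prod ν) :=
    integral_prod_swap (μ := ν) (ν := ν) B1
  -- the difference
  set D : V n × V n → ℝ := fun p => A p - (B1 p + B1 p.swap) with hD
  have hDeq : ∀ p : V n × V n, D p = inner ℝ (p.1 - p.2) e * (ψ p.1 - ψ p.2) *
      (cut (‖p.1 - p.2‖ / N) * ((‖p.1 - p.2‖ ^ (n + 1))⁻¹ - kt n t (p.1 - p.2))) := by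
    rintro ⟨x, y⟩
    simp only [hD, hA, hB1, lin, kN, Prod.swap]
    have h1 : KtN n t N e (y - x) = - KtN n t N e (x - y) := by
      rw [← neg_sub, KtN_neg]
    rw [h1]
    unfold KtN
    rw [inner_sub_left]
    ring
  have hDle : ∀ p : V n × V n, ‖D p‖ ≤ ‖e‖ * (G p.1 * wt n t (p.1 - p.2))
      + ‖e‖ * (G p.2 * wt n t (p.1 - p.2)) := by
    rintro ⟨x, y⟩
    rw [hDeq, Real.norm_eq_abs, abs_mul, abs_mul, abs_mul, abs_of_nonneg (cut_nonneg _)]
    have h1 := abs_real_inner_le_norm (x - y) e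
    have h2 := hGψ x y
    have h3 := cut_le_one (‖x - y‖ / N)
    have h4 := cut_nonneg (‖x - y‖ / N)
    have hGx := hG0 x
    have hGy := hG0 y
    simp only
    calc |inner ℝ (x - y) e| * |ψ x - ψ y| * (cut (‖x - y‖ / N) *
          |(‖x - y‖ ^ (n + 1))⁻¹ - kt n t (x - y)|)
        ≤ (‖x - y‖ * ‖e‖) * (‖x - y‖ * (G x + G y)) * (1 *
          |(‖x - y‖ ^ (n + 1))⁻¹ - kt n t (x - y)|) := by gcongr
      _ = _ := by unfold wt; ring
  have hDm : Measurable D := by
    have h1 := (continuous_kt (E := V n) n ht).measurable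
    have h2 := continuous_cut.measurable
    have h3 := hψ.measurable
    have : D = fun p : V n × V n => inner ℝ (p.1 - p.2) e * (ψ p.1 - ψ p.2) *
      (cut (‖p.1 - p.2‖ / N) * ((‖p.1 - p.2‖ ^ (n + 1))⁻¹ - kt n t (p.1 - p.2))) := funext hDeq
    rw [this]
    have h4 : Measurable fun p : V n × V n => inner ℝ (p.1 - p.2) e :=
      (by fun_prop : Continuous fun p : V n × V n => inner ℝ (p.1 - p.2) e).measurable
    fun_prop
  have hwm := measurable_wt (n := n) ht
  have key : ∫⁻ p, ENNReal.ofReal (G p.1 * wt n t (p.1 - p.2)) ∂(ν.prod ν)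
      ≤ ENNReal.ofReal (C2 n C * t * ∫ x, G x ∂ν) := by
    have hm : Measurable fun p : V n × V n => ENNReal.ofReal (G p.1 * wt n t (p.1 - p.2)) := by
      fun_prop
    rw [lintegral_prod _ hm.aemeasurable]
    calc ∫⁻ x, ∫⁻ y, ENNReal.ofReal (G x * wt n t (x - y)) ∂ν ∂ν
        = ∫⁻ x, ENNReal.ofReal (G x) * ∫⁻ y, ENNReal.ofReal (wt n t (x - y)) ∂ν ∂ν := by
          congr 1; ext x
          rw [← lintegral_const_mul' _ _ ENNReal.ofReal_ne_top]
          congr 1; ext y
          rw [ENNReal.ofReal_mul (hG0 x)]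
      _ ≤ ∫⁻ x, ENNReal.ofReal (G x) * ENNReal.ofReal (C2 n C * t) ∂ν := by
          gcongr with x
          exact lintegral_wt_le hn hν hC ht x
      _ = ENNReal.ofReal (∫ x, G x ∂ν) * ENNReal.ofReal (C2 n C * t) := by
          rw [lintegral_mul_const' _ _ ENNReal.ofReal_ne_top,
            ofReal_integral_eq_lintegral_ofReal hGi (Eventually.of_forall hG0)]
      _ = _ := by
          rw [← ENNReal.ofReal_mul (integral_nonneg hG0)]
          congr 1; ring
  have key2 : ∫⁻ p, ENNReal.ofReal (G p.2 * wt n t (p.1 - p.2)) ∂(ν.prod ν)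
      ≤ ENNReal.ofReal (C2 n C * t * ∫ x, G x ∂ν) := by
    refine le_trans (le_of_eq ?_) key
    rw [← lintegral_prod_swap]
    congr 1; ext p
    simp only [Prod.swap]
    rw [← neg_sub, wt_neg]
  have hGint0 : 0 ≤ ∫ x, G x ∂ν := integral_nonneg hG0
  have hC20 : 0 ≤ C2 n C := C2_nonneg hC
  have hDlint : ∫⁻ p, ‖D p‖ₑ ∂(ν.prod ν)
      ≤ ENNReal.ofReal (2 * (C2 n C * ‖e‖ * t * ∫ x, G x ∂ν)) := by
    calc ∫⁻ p, ‖D p‖ₑ ∂(ν.prod ν)
        ≤ ∫⁻ p, (ENNReal.ofReal ‖e‖ * ENNReal.ofReal (G p.1 * wt n t (p.1 - p.2)) +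
            ENNReal.ofReal ‖e‖ * ENNReal.ofReal (G p.2 * wt n t (p.1 - p.2))) ∂(ν.prod ν) := by
          gcongr with p
          rw [← ENNReal.ofReal_mul (norm_nonneg _), ← ENNReal.ofReal_mul (norm_nonneg _),
            ← ENNReal.ofReal_add, ← ofReal_norm]
          · exact ENNReal.ofReal_le_ofReal (hDle p)
          · have := hG0 p.1; have := wt_nonneg n t (p.1 - p.2); positivity
          · have := hG0 p.2; have := wt_nonneg n t (p.1 - p.2); positivity
      _ = ENNReal.ofReal ‖e‖ * ∫⁻ p, ENNReal.ofReal (G p.1 * wt n t (p.1 - p.2)) ∂(ν.prod ν) +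
            ENNReal.ofReal ‖e‖ *
              ∫⁻ p, ENNReal.ofReal (G p.2 * wt n t (p.1 - p.2)) ∂(ν.prod ν) := by
          rw [lintegral_add_left, lintegral_const_mul' _ _ ENNReal.ofReal_ne_top,
            lintegral_const_mul' _ _ ENNReal.ofReal_ne_top]
          fun_prop
      _ ≤ ENNReal.ofReal ‖e‖ * ENNReal.ofReal (C2 n C * t * ∫ x, G x ∂ν) +
            ENNReal.ofReal ‖e‖ * ENNReal.ofReal (C2 n C * t * ∫ x, G x ∂ν) := by
          gcongr
      _ = _ := by
          rw [← ENNReal.ofReal_mul (norm_nonneg _), ← ENNReal.ofReal_add (by positivity)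
            (by positivity)]
          congr 1; ring
  have hDi : Integrable D (ν.prod ν) := by
    refine ⟨hDm.aestronglyMeasurable, ?_⟩
    rw [hasFiniteIntegral_iff_enorm]
    exact lt_of_le_of_lt hDlint ENNReal.ofReal_lt_top
  have hDint : |∫ p, D p ∂(ν.prod ν)| ≤ 2 * (C2 n C * ‖e‖ * t * ∫ x, G x ∂ν) := by
    have h1 := enorm_integral_le_lintegral_enorm (μ := ν.prod ν) D
    have h2 := h1.trans hDlint
    rw [← ofReal_norm, Real.norm_eq_abs] at h2
    exact (ENNReal.ofReal_le_ofReal_iff (by positivity)).1 h2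
  have hAeq : ∫ p, A p ∂(ν.prod ν) = ∫ p, D p ∂(ν.prod ν)
      + 2 * ∫ x, ψ x * FtN n ν t N e x ∂ν := by
    have h1 : ∀ p, A p = D p + (B1 p + B1 p.swap) := fun p => by simp only [hD]; ring
    calc ∫ p, A p ∂(ν.prod ν) = ∫ p, (D p + (B1 p + B1 p.swap)) ∂(ν.prod ν) := by
          congr 1; ext p; exact h1 p
      _ = ∫ p, D p ∂(ν.prod ν) + ∫ p, (B1 p + B1 p.swap) ∂(ν.prod ν) :=
          integral_add hDi (hB1i.add hB2i)
      _ = _ := by
          rw [integral_add hB1i hB2i, hB2int, hB1int]; ring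
  have hBf : Bf n ν N (lin e) ψ = 1 / 2 * ∫ p, A p ∂(ν.prod ν) := rfl
  rw [hBf, hAeq]
  have : 1 / 2 * (∫ p, D p ∂(ν.prod ν) + 2 * ∫ x, ψ x * FtN n ν t N e x ∂ν)
      - ∫ x, ψ x * FtN n ν t N e x ∂ν = 1 / 2 * ∫ p, D p ∂(ν.prod ν) := by ring
  rw [this, abs_mul, abs_of_pos (by norm_num : (0:ℝ) < 1 / 2)]
  linarith

end Crest.Agent.R085.Flat
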