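import Crest.Agent.R085.Defs
import Crest.Agent.R085.AdrInt2

/-!
R085, module M7 (flat reflectionless measures have constant density): kernel estimates.

`kt n t z = (‖z‖² + t²)^{-(n+1)/2}` is the regularised scalar kernel.
-/

set_option autoImplicit false
set_option linter.unusedSectionVars false
set_option linter.unusedVariables false

noncomputable section

namespace Crest.Agent.R085.Flat

open MeasureTheory Metric Set Filter
open scoped ENNReal NNReal Topology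

section Alg

variable {E : Type*} [NormedAddCommGroup E] [InnerProductSpace ℝ E]

/-- `√(‖z‖² + t²)`. -/
def rt (t : ℝ) (z : E) : ℝ := √(‖z‖ ^ 2 + t ^ 2)

/-- regularised scalar kernel `(‖z‖² + t²)^{-(n+1)/2}`. -/
def kt (n : ℕ) (t : ℝ) (z : E) : ℝ := ((rt t z) ^ (n + 1))⁻¹

theorem rt_pos {t : ℝ} (ht : 0 < t) (z : E) : 0 < rt t z := by
  unfold rt; positivity

theorem le_rt {t : ℝ} (ht : 0 < t) (z : E) : t ≤ rt t z := by
  unfold rt
  apply Real.le_sqrt_of_sq_le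
  nlinarith [sq_nonneg ‖z‖]

theorem norm_le_rt (t : ℝ) (z : E) : ‖z‖ ≤ rt t z := by
  unfold rt
  apply Real.le_sqrt_of_sq_le
  nlinarith [sq_nonneg t]

theorem rt_sq (t : ℝ) (z : E) : rt t z ^ 2 = ‖z‖ ^ 2 + t ^ 2 := by
  unfold rt
  rw [Real.sq_sqrt (by positivity)]

theorem rt_neg (t : ℝ) (z : E) : rt t (-z) = rt t z := by
  unfold rt; rw [norm_neg]

theorem kt_neg (n : ℕ) (t : ℝ) (z : E) : kt n t (-z) = kt n t z := by
  unfold kt; rw [rt_neg]

theorem kt_pos (n : ℕ) {t : ℝ} (ht : 0 < t) (z : E) : 0 < kt n t z := by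
  have := rt_pos ht z
  unfold kt; positivity

theorem kt_nonneg (n : ℕ) (t : ℝ) (z : E) : 0 ≤ kt n t z := by
  unfold kt rt; positivity

theorem kt_le_t (n : ℕ) {t : ℝ} (ht : 0 < t) (z : E) : kt n t z ≤ (t ^ (n + 1))⁻¹ := by
  unfold kt
  exact inv_anti₀ (by positivity) (pow_le_pow_left₀ ht.le (le_rt ht z) _)

theorem kt_le_norm (n : ℕ) {t : ℝ} {z : E} (hz : z ≠ 0) :
    kt n t z ≤ (‖z‖ ^ (n + 1))⁻¹ := by
  unfold kt
  have : 0 < ‖z‖ := norm_pos_iff.2 hz
  exact inv_anti₀ (by positivity) (pow_le_pow_left₀ this.le (norm_le_rt t z) _)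

theorem abs_rt_sub_le {t : ℝ} (ht : 0 < t) (a b : E) : |rt t a - rt t b| ≤ ‖a - b‖ := by
  have ha := rt_pos ht a
  have hb := rt_pos ht b
  have h1 : (rt t a - rt t b) * (rt t a + rt t b) = (‖a‖ - ‖b‖) * (‖a‖ + ‖b‖) := by
    have e1 := rt_sq t a
    have e2 := rt_sq t b
    nlinarith
  have h2 : |rt t a - rt t b| * (rt t a + rt t b) = |‖a‖ - ‖b‖| * (‖a‖ + ‖b‖) := by
    rw [← abs_of_pos (by positivity : 0 < rt t a + rt t b), ← abs_mul, h1, abs_mul,
      abs_of_nonneg (by positivity : 0 ≤ ‖a‖ + ‖b‖)]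
  have h3 : |‖a‖ - ‖b‖| ≤ ‖a - b‖ := abs_norm_sub_norm_le a b
  have h4 : ‖a‖ + ‖b‖ ≤ rt t a + rt t b := add_le_add (norm_le_rt t a) (norm_le_rt t b)
  have h5 : |rt t a - rt t b| * (rt t a + rt t b) ≤ ‖a - b‖ * (rt t a + rt t b) := by
    rw [h2]
    exact mul_le_mul h3 h4 (by positivity) (norm_nonneg _)
  exact le_of_mul_le_mul_right h5 (by positivity)

/-- `|α^{m} - β^{m}| ≤ m |α - β| max(α,β)^{m-1}`, `m = n+1`. -/
theorem abs_pow_succ_sub_le (n : ℕ) {α β M : ℝ} (hα : 0 ≤ α) (hβ : 0 ≤ β) (hαM : α ≤ M)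
    (hβM : β ≤ M) : |α ^ (n + 1) - β ^ (n + 1)| ≤ (n + 1) * |α - β| * M ^ n := by
  have hM : 0 ≤ M := hα.trans hαM
  have h := (Commute.all α β).mul_geom_sum₂ (n + 1)
  rw [← h, abs_mul]
  have h2 : |∑ i ∈ Finset.range (n + 1), α ^ i * β ^ (n + 1 - 1 - i)| ≤ (n + 1) * M ^ n := by
    refine (Finset.abs_sum_le_sum_abs _ _).trans ?_
    have : ∀ i ∈ Finset.range (n + 1), |α ^ i * β ^ (n + 1 - 1 - i)| ≤ M ^ n := by
      intro i hi
      rw [Finset.mem_range] at hi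
      rw [abs_of_nonneg (by positivity)]
      calc α ^ i * β ^ (n + 1 - 1 - i) ≤ M ^ i * M ^ (n + 1 - 1 - i) := by
            gcongr
        _ = M ^ n := by rw [← pow_add]; congr 1; omega
    refine (Finset.sum_le_sum this).trans ?_
    rw [Finset.sum_const, Finset.card_range, nsmul_eq_mul]
    push_cast
    exact le_rfl
  calc |α - β| * |∑ i ∈ Finset.range (n + 1), α ^ i * β ^ (n + 1 - 1 - i)|
      ≤ |α - β| * ((n + 1) * M ^ n) := by gcongr
    _ = (n + 1) * |α - β| * M ^ n := by ring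

/-- Difference estimate for the regularised vector kernel tested against `e`. -/
theorem abs_inner_kt_sub_le (n : ℕ) {t : ℝ} (ht : 0 < t) (e a b : E) :
    |inner ℝ a e * kt n t a - inner ℝ b e * kt n t b|
      ≤ (n + 2) * ‖e‖ * ‖a - b‖ * (kt n t a + kt n t b) := by
  have ha := rt_pos ht a
  have hb := rt_pos ht b
  set α := (rt t a)⁻¹ with hα
  set β := (rt t b)⁻¹ with hβ
  have hα0 : 0 < α := inv_pos.2 ha
  have hβ0 : 0 < β := inv_pos.2 hb
  have hka : kt n t a = α ^ (n + 1) := by rw [kt, hα, inv_pow]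
  have hkb : kt n t b = β ^ (n + 1) := by rw [kt, hβ, inv_pow]
  set M := max α β with hM
  have hM0 : 0 < M := lt_max_of_lt_left hα0
  have hαβ : |α - β| ≤ ‖a - b‖ * (α * β) := by
    have : α - β = (rt t b - rt t a) * (α * β) := by
      rw [hα, hβ]; field_simp
    rw [this, abs_mul, abs_of_pos (mul_pos hα0 hβ0)]
    have h1 := abs_rt_sub_le ht b a
    rw [norm_sub_rev] at h1
    gcongr
  have hMsum : M ^ (n + 1) ≤ α ^ (n + 1) + β ^ (n + 1) := by
    rcases le_total α β with h | h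
    · rw [hM, max_eq_right h]
      have : 0 ≤ α ^ (n + 1) := by positivity
      linarith
    · rw [hM, max_eq_left h]
      have : 0 ≤ β ^ (n + 1) := by positivity
      linarith
  have hsplit : inner ℝ a e * kt n t a - inner ℝ b e * kt n t b
      = inner ℝ (a - b) e * kt n t a + inner ℝ b e * (kt n t a - kt n t b) := by
    rw [inner_sub_left]; ring
  rw [hsplit]
  have h1 : |inner ℝ (a - b) e * kt n t a| ≤ ‖e‖ * ‖a - b‖ * M ^ (n + 1) := by
    rw [abs_mul, hka, abs_of_pos (by positivity : 0 < α ^ (n + 1))]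
    have := abs_real_inner_le_norm (a - b) e
    calc |inner ℝ (a - b) e| * α ^ (n + 1) ≤ (‖a - b‖ * ‖e‖) * M ^ (n + 1) := by
          gcongr
          exact le_max_left _ _
      _ = _ := by ring
  have h2 : |inner ℝ b e * (kt n t a - kt n t b)| ≤ (n + 1) * ‖e‖ * ‖a - b‖ * M ^ (n + 1) := by
    rw [abs_mul, hka, hkb]
    have h3 := abs_real_inner_le_norm b e
    have h4 := abs_pow_succ_sub_le n hα0.le hβ0.le (le_max_left α β) (le_max_right α β)
    have h5 : ‖b‖ * β ≤ 1 := by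
      rw [hβ, ← div_eq_mul_inv, div_le_one hb]
      exact norm_le_rt t b
    calc |inner ℝ b e| * |α ^ (n + 1) - β ^ (n + 1)|
        ≤ (‖b‖ * ‖e‖) * ((n + 1) * |α - β| * M ^ n) := by gcongr
      _ ≤ (‖b‖ * ‖e‖) * ((n + 1) * (‖a - b‖ * (α * β)) * M ^ n) := by gcongr
      _ = (n + 1) * ‖e‖ * ‖a - b‖ * ((‖b‖ * β) * (α * M ^ n)) := by ring
      _ ≤ (n + 1) * ‖e‖ * ‖a - b‖ * (1 * (M * M ^ n)) := by
          gcongr
          exact le_max_left _ _
      _ = (n + 1) * ‖e‖ * ‖a - b‖ * M ^ (n + 1) := by rw [pow_succ]; ring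
  calc |inner ℝ (a - b) e * kt n t a + inner ℝ b e * (kt n t a - kt n t b)|
      ≤ ‖e‖ * ‖a - b‖ * M ^ (n + 1) + (n + 1) * ‖e‖ * ‖a - b‖ * M ^ (n + 1) :=
        (abs_add_le _ _).trans (add_le_add h1 h2)
    _ = (n + 2) * ‖e‖ * ‖a - b‖ * M ^ (n + 1) := by ring
    _ ≤ (n + 2) * ‖e‖ * ‖a - b‖ * (kt n t a + kt n t b) := by
        rw [hka, hkb]; gcongr

theorem cut_nonneg (s : ℝ) : 0 ≤ cut s := le_max_left _ _

theorem cut_le_one (s : ℝ) : cut s ≤ 1 := by
  unfold cut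
  exact max_le zero_le_one (min_le_left _ _)

theorem cut_of_le_one {s : ℝ} (hs : s ≤ 1) : cut s = 1 := by
  unfold cut
  rw [min_eq_left (by linarith), max_eq_right zero_le_one]

theorem cut_of_two_le {s : ℝ} (hs : 2 ≤ s) : cut s = 0 := by
  unfold cut
  rw [max_eq_left]
  exact (min_le_right _ _).trans (by linarith)

theorem abs_cut_sub_le (s s' : ℝ) : |cut s - cut s'| ≤ |s - s'| := by
  unfold cut
  have h1 : |max 0 (min 1 (2 - s)) - max 0 (min 1 (2 - s'))| ≤ |min 1 (2 - s) - min 1 (2 - s')| := by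
    have := abs_max_sub_max_le_abs (min 1 (2 - s)) (min 1 (2 - s')) 0
    rwa [max_comm _ (0:ℝ), max_comm _ (0:ℝ)] at this
  have h2 : |min 1 (2 - s) - min 1 (2 - s')| ≤ |(2 - s) - (2 - s')| := by
    have := abs_min_sub_min_le_max 1 (2 - s) 1 (2 - s')
    simpa using this
  have h3 : |(2 - s) - (2 - s')| = |s - s'| := by
    rw [show (2 - s) - (2 - s') = -(s - s') by ring, abs_neg]
  linarith

theorem continuous_cut : Continuous cut := by
  unfold cut
  fun_prop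

/-- Difference estimate with the cutoff at distance `N`. -/
theorem abs_cut_inner_kt_sub_le (n : ℕ) {t N : ℝ} (ht : 0 < t) (hN : 0 < N) (e a b : E) :
    |inner ℝ a e * (cut (‖a‖ / N) * kt n t a) - inner ℝ b e * (cut (‖b‖ / N) * kt n t b)|
      ≤ (n + 4) * ‖e‖ * ‖a - b‖ * (kt n t a + kt n t b) := by
  have hcut : |cut (‖a‖ / N) - cut (‖b‖ / N)| ≤ ‖a - b‖ / N := by
    refine (abs_cut_sub_le _ _).trans ?_
    rw [← sub_div, abs_div, abs_of_pos hN]
    gcongr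
    exact abs_norm_sub_norm_le a b
  have hka := kt_nonneg n t a
  have hkb := kt_nonneg n t b
  have hmain := abs_inner_kt_sub_le n ht e a b
  have hN2 : ∀ z : E, ‖z‖ ≤ 2 * N → |inner ℝ z e * kt n t z| * (‖a - b‖ / N)
      ≤ 2 * ‖e‖ * ‖a - b‖ * kt n t z := by
    intro z hz
    rw [abs_mul, abs_of_nonneg (kt_nonneg n t z)]
    have h1 := abs_real_inner_le_norm z e
    calc |inner ℝ z e| * kt n t z * (‖a - b‖ / N)
        ≤ ((2 * N) * ‖e‖) * kt n t z * (‖a - b‖ / N) := by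
          have := kt_nonneg n t z
          gcongr
          exact h1.trans (by gcongr)
      _ = 2 * ‖e‖ * ‖a - b‖ * kt n t z := by field_simp
  rcases le_or_gt ‖b‖ (2 * N) with hb | hb
  · have hsplit : inner ℝ a e * (cut (‖a‖ / N) * kt n t a) - inner ℝ b e * (cut (‖b‖ / N) * kt n t b)
        = cut (‖a‖ / N) * (inner ℝ a e * kt n t a - inner ℝ b e * kt n t b)
          + (inner ℝ b e * kt n t b) * (cut (‖a‖ / N) - cut (‖b‖ / N)) := by ring
    rw [hsplit]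
    refine (abs_add_le _ _).trans ?_
    rw [abs_mul, abs_mul, abs_of_nonneg (cut_nonneg _)]
    have h1 : cut (‖a‖ / N) * |inner ℝ a e * kt n t a - inner ℝ b e * kt n t b|
        ≤ 1 * ((n + 2) * ‖e‖ * ‖a - b‖ * (kt n t a + kt n t b)) := by
      gcongr
      exact cut_le_one _
    have h2 : |inner ℝ b e * kt n t b| * |cut (‖a‖ / N) - cut (‖b‖ / N)|
        ≤ 2 * ‖e‖ * ‖a - b‖ * kt n t b := by
      refine le_trans ?_ (hN2 b hb)
      gcongr
    have h3 : 0 ≤ 2 * ‖e‖ * ‖a - b‖ * kt n t a := by positivity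
    nlinarith
  · rcases le_or_gt ‖a‖ (2 * N) with ha | ha
    · have hsplit : inner ℝ a e * (cut (‖a‖ / N) * kt n t a)
            - inner ℝ b e * (cut (‖b‖ / N) * kt n t b)
          = cut (‖b‖ / N) * (inner ℝ a e * kt n t a - inner ℝ b e * kt n t b)
            + (inner ℝ a e * kt n t a) * (cut (‖a‖ / N) - cut (‖b‖ / N)) := by ring
      rw [hsplit]
      refine (abs_add_le _ _).trans ?_
      rw [abs_mul, abs_mul, abs_of_nonneg (cut_nonneg _)]
      have h1 : cut (‖b‖ / N) * |inner ℝ a e * kt n t a - inner ℝ b e * kt n t b|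
          ≤ 1 * ((n + 2) * ‖e‖ * ‖a - b‖ * (kt n t a + kt n t b)) := by
        gcongr
        exact cut_le_one _
      have h2 : |inner ℝ a e * kt n t a| * |cut (‖a‖ / N) - cut (‖b‖ / N)|
          ≤ 2 * ‖e‖ * ‖a - b‖ * kt n t a := by
        refine le_trans ?_ (hN2 a ha)
        gcongr
      have h3 : 0 ≤ 2 * ‖e‖ * ‖a - b‖ * kt n t b := by positivity
      nlinarith
    · rw [cut_of_two_le (by rw [le_div_iff₀ hN]; linarith),
        cut_of_two_le (by rw [le_div_iff₀ hN]; linarith)]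
      simp only [zero_mul, mul_zero, sub_zero, abs_zero]
      positivity

/-- Comparison of the singular and the regularised kernel, near part. -/
theorem sq_mul_abs_inv_sub_kt_le_near {n : ℕ} (hn : 1 ≤ n) {t : ℝ} (ht : 0 < t) (z : E) :
    ‖z‖ ^ 2 * |(‖z‖ ^ (n + 1))⁻¹ - kt n t z| ≤ (‖z‖ ^ (n - 1))⁻¹ := by
  rcases eq_or_ne z 0 with rfl | hz
  · simp
  have hz0 : 0 < ‖z‖ := norm_pos_iff.2 hz
  have h1 := kt_le_norm n (t := t) hz
  have h2 := kt_nonneg n t z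
  rw [abs_of_nonneg (by linarith)]
  calc ‖z‖ ^ 2 * ((‖z‖ ^ (n + 1))⁻¹ - kt n t z) ≤ ‖z‖ ^ 2 * (‖z‖ ^ (n + 1))⁻¹ := by
        gcongr; linarith
    _ = (‖z‖ ^ (n - 1))⁻¹ := by
        have : ‖z‖ ^ (n + 1) = ‖z‖ ^ 2 * ‖z‖ ^ (n - 1) := by
          rw [← pow_add]; congr 1; omega
        rw [this]; field_simp

/-- Comparison of the singular and the regularised kernel, far part. -/
theorem sq_mul_abs_inv_sub_kt_le_far {n : ℕ} {t : ℝ} (ht : 0 < t) {z : E} (hz : z ≠ 0) :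
    ‖z‖ ^ 2 * |(‖z‖ ^ (n + 1))⁻¹ - kt n t z| ≤ (n + 1) * t ^ 2 * (‖z‖ ^ (n + 1))⁻¹ := by
  have hz0 : 0 < ‖z‖ := norm_pos_iff.2 hz
  have hr := rt_pos ht z
  set α := (‖z‖)⁻¹ with hα
  set β := (rt t z)⁻¹ with hβ
  have hα0 : 0 < α := inv_pos.2 hz0
  have hβ0 : 0 < β := inv_pos.2 hr
  have hβα : β ≤ α := inv_anti₀ hz0 (norm_le_rt t z)
  have hk : kt n t z = β ^ (n + 1) := by rw [kt, hβ, inv_pow]
  have hk2 : (‖z‖ ^ (n + 1))⁻¹ = α ^ (n + 1) := by rw [hα, inv_pow]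
  rw [hk, hk2]
  have h1 := abs_pow_succ_sub_le n hα0.le hβ0.le le_rfl hβα
  have h2 : |α - β| ≤ t ^ 2 * α ^ 3 := by
    rw [abs_of_nonneg (by linarith)]
    have e1 : α - β = (rt t z - ‖z‖) * (α * β) := by
      rw [hα, hβ]; field_simp
    have e2 : (rt t z - ‖z‖) * (rt t z + ‖z‖) = t ^ 2 := by
      have := rt_sq t z
      nlinarith
    have e3 : rt t z - ‖z‖ = t ^ 2 * (rt t z + ‖z‖)⁻¹ := by
      rw [← e2]; field_simp
    have e4 : (rt t z + ‖z‖)⁻¹ ≤ α := inv_anti₀ hz0 (by linarith)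
    calc α - β = t ^ 2 * (rt t z + ‖z‖)⁻¹ * (α * β) := by rw [e1, e3]
      _ ≤ t ^ 2 * α * (α * α) := by gcongr
      _ = t ^ 2 * α ^ 3 := by ring
  have h3 : ‖z‖ * α = 1 := by rw [hα]; field_simp
  calc ‖z‖ ^ 2 * |α ^ (n + 1) - β ^ (n + 1)| ≤ ‖z‖ ^ 2 * ((n + 1) * |α - β| * α ^ n) := by gcongr
    _ ≤ ‖z‖ ^ 2 * ((n + 1) * (t ^ 2 * α ^ 3) * α ^ n) := by gcongr
    _ = (n + 1) * t ^ 2 * ((‖z‖ * α) ^ 2 * α ^ (n + 1)) := by ring
    _ = (n + 1) * t ^ 2 * α ^ (n + 1) := by rw [h3]; ring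

theorem continuous_rt (t : ℝ) : Continuous (rt t : E → ℝ) := by
  unfold rt; fun_prop

theorem continuous_kt (n : ℕ) {t : ℝ} (ht : 0 < t) : Continuous (kt n t : E → ℝ) := by
  unfold kt
  refine Continuous.inv₀ ((continuous_rt t).pow _) fun z => ?_
  have := rt_pos ht z
  positivity

end Alg

end Crest.Agent.R085.Flat
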