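import Crest.Agent.R085.FlatDiv

/-!
R085, module M7, step (E): `∫ Λψ dν = 0` for all `ψ ∈ C_c^∞`.
-/

set_option autoImplicit false
set_option linter.unusedSectionVars false
set_option linter.unusedVariables false

noncomputable section

namespace Crest.Agent.R085.Flat

open MeasureTheory Metric Set Filter
open scoped ENNReal NNReal Topology

variable {n : ℕ} {C c : ℝ} {ν : Measure (V n)}

/-- `Pt ψ y = ∫ ψ(x) Dt(x - y) dx`. -/
def Pt (n : ℕ) (t : ℝ) (ψ : V n → ℝ) (y : V n) : ℝ := ∫ x, ψ x * Dt n t (x - y)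

theorem Pt_eq (hn : 1 ≤ n) {t : ℝ} (ht : 0 < t) {ψ : V n → ℝ} (hψ : ContDiff ℝ (⊤ : ℕ∞) ψ)
    (hs : HasCompactSupport ψ) (y : V n) :
    Pt n t ψ y = -(1 / 2) * ∫ h, Liou.sd ψ y h * Dt n t h := by
  have hc := hψ.continuous
  have hD := continuous_Dt n ht
  have hDi := integrable_Dt hn ht
  have h1 : Pt n t ψ y = ∫ h, ψ (y + h) * Dt n t h := by
    unfold Pt
    rw [← integral_add_left_eq_self (fun x => ψ x * Dt n t (x - y)) y]
    congr 1; ext h
    rw [add_sub_cancel_left]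
  have h2 : Pt n t ψ y = ∫ h, ψ (y - h) * Dt n t h := by
    rw [h1, ← integral_neg_eq_self]
    congr 1; ext h
    rw [Dt_neg, sub_eq_add_neg]
  have hs1 : HasCompactSupport fun h => ψ (y + h) :=
    hs.comp_homeomorph (Homeomorph.addLeft y)
  have hs2 : HasCompactSupport fun h => ψ (y - h) :=
    hs.comp_homeomorph (Homeomorph.subLeft y)
  have hc1 : Continuous fun h => ψ (y + h) := by fun_prop
  have hc2 : Continuous fun h => ψ (y - h) := by fun_prop
  have i1 : Integrable fun h => ψ (y + h) * Dt n t h :=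
    (hc1.mul hD).integrable_of_hasCompactSupport hs1.mul_right
  have i2 : Integrable fun h => ψ (y - h) * Dt n t h :=
    (hc2.mul hD).integrable_of_hasCompactSupport hs2.mul_right
  have i0 : Integrable fun h => 2 * ψ y * Dt n t h := hDi.const_mul _
  have h3 : ∫ h, Liou.sd ψ y h * Dt n t h
      = (∫ h, 2 * ψ y * Dt n t h) - (∫ h, ψ (y + h) * Dt n t h)
        - (∫ h, ψ (y - h) * Dt n t h) := by
    rw [← integral_sub i0 i1, ← integral_sub (f := fun h => 2 * ψ y * Dt n t h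
      - ψ (y + h) * Dt n t h) (i0.sub i1) i2]
    congr 1; ext h
    unfold Liou.sd
    ring
  rw [h3, integral_const_mul, integral_Dt hn ht, ← h1, ← h2]
  ring

theorem abs_sd_mul_Dt_le (hn : 1 ≤ n) {t : ℝ} (ht : 0 < t) {ψ : V n → ℝ} {M : ℝ} (hM0 : 0 ≤ M)
    (hM : ∀ x h : V n, |Liou.sd ψ x h| ≤ M * min (‖h‖ ^ 2) 1) (y h : V n) :
    ‖Liou.sd ψ y h * Dt n t h‖ ≤ M * n * Liou.wt n h := by
  rw [norm_mul, Real.norm_eq_abs, Real.norm_eq_abs]
  have h0 := hM y h
  have h1 := abs_Dt_le hn ht h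
  rcases eq_or_ne h 0 with rfl | hz
  · have : Liou.sd ψ y 0 = 0 := by unfold Liou.sd; simp; ring
    rw [this, abs_zero, zero_mul]
    have := Liou.wt_nonneg (0 : V n)
    positivity
  · have h2 := kt_le_norm n (t := t) hz
    have h3 : |Dt n t h| ≤ n * (‖h‖ ^ (n + 1))⁻¹ := h1.trans (by gcongr)
    calc |Liou.sd ψ y h| * |Dt n t h|
        ≤ (M * min (‖h‖ ^ 2) 1) * (n * (‖h‖ ^ (n + 1))⁻¹) := by gcongr
      _ = M * n * Liou.wt n h := by unfold Liou.wt; ring

theorem tendsto_Dt (n : ℕ) {h : V n} (hh : h ≠ 0) :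
    Tendsto (fun t : ℝ => Dt n t h) (𝓝[>] 0) (𝓝 (-(‖h‖ ^ (n + 1))⁻¹)) := by
  have hpos : 0 < ‖h‖ := norm_pos_iff.2 hh
  have hcont : ContinuousAt (fun t : ℝ => Dt n t h) 0 := by
    unfold Dt rt
    have h1 : ContinuousAt (fun t : ℝ => (√(‖h‖ ^ 2 + t ^ 2)) ^ (n + 3)) 0 := by fun_prop
    have h2 : (√(‖h‖ ^ 2 + (0:ℝ) ^ 2)) ^ (n + 3) ≠ 0 := by
      have : 0 < √(‖h‖ ^ 2 + (0:ℝ) ^ 2) := by
        apply Real.sqrt_pos.2; positivity
      positivity
    exact ContinuousAt.mul (by fun_prop) (h1.inv₀ h2)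
  have h0 : Dt n 0 h = -(‖h‖ ^ (n + 1))⁻¹ := by
    unfold Dt rt
    rw [zero_pow two_ne_zero, add_zero, Real.sqrt_sq hpos.le]
    have : ‖h‖ ^ (n + 3) = ‖h‖ ^ 2 * ‖h‖ ^ (n + 1) := by rw [← pow_add]; congr 1; omega
    rw [this]; field_simp; ring
  rw [← h0]
  exact hcont.tendsto.mono_left nhdsWithin_le_nhds

theorem tendsto_Pt (hn : 1 ≤ n) {ψ : V n → ℝ} (hψ : ContDiff ℝ (⊤ : ℕ∞) ψ)
    (hs : HasCompactSupport ψ) (y : V n) :
    Tendsto (fun t : ℝ => Pt n t ψ y) (𝓝[>] 0) (𝓝 (1 / 2 * Liou.Lam ψ y)) := by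
  obtain ⟨M, hM0, hM⟩ := Liou.sd_bound hψ hs
  have key : Tendsto (fun t : ℝ => ∫ h, Liou.sd ψ y h * Dt n t h) (𝓝[>] 0)
      (𝓝 (∫ h, Liou.sd ψ y h * (-(‖h‖ ^ (n + 1))⁻¹))) := by
    apply tendsto_integral_filter_of_dominated_convergence (fun h => M * n * Liou.wt n h)
    · filter_upwards [self_mem_nhdsWithin] with t ht
      have h1 : Continuous fun h : V n => Liou.sd ψ y h := by
        have := hψ.continuous
        unfold Liou.sd; fun_prop
      exact (h1.mul (continuous_Dt n ht)).aestronglyMeasurable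
    · filter_upwards [self_mem_nhdsWithin] with t ht
      exact Eventually.of_forall fun h => abs_sd_mul_Dt_le hn ht hM0 hM y h
    · exact (Liou.integrable_wt (by omega)).const_mul _
    · refine Eventually.of_forall fun h => ?_
      rcases eq_or_ne h 0 with rfl | hz
      · have : Liou.sd ψ y 0 = 0 := by unfold Liou.sd; simp; ring
        simp only [this, zero_mul]
        exact tendsto_const_nhds
      · exact (tendsto_Dt n hz).const_mul _
  have h2 : 1 / 2 * Liou.Lam ψ y = -(1 / 2) * ∫ h, Liou.sd ψ y h * (-(‖h‖ ^ (n + 1))⁻¹) := by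
    have : ∀ h : V n, Liou.sd ψ y h * (-(‖h‖ ^ (n + 1))⁻¹)
        = -((2 * ψ y - ψ (y + h) - ψ (y - h)) * (‖h‖ ^ (n + 1))⁻¹) := fun h => by
      unfold Liou.sd; ring
    simp only [this]
    rw [integral_neg]
    unfold Liou.Lam
    ring
  rw [h2]
  refine (key.const_mul _).congr' ?_
  filter_upwards [self_mem_nhdsWithin] with t ht
  rw [Pt_eq hn ht hψ hs y]

theorem continuous_Pt (hn : 1 ≤ n) {t : ℝ} (ht : 0 < t) {ψ : V n → ℝ} (hψ : Continuous ψ)
    (hs : HasCompactSupport ψ) : AEStronglyMeasurable (Pt n t ψ) ν := by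
  have hD := continuous_Dt n ht
  have h : StronglyMeasurable (fun p : V n × V n => ψ p.2 * Dt n t (p.2 - p.1)) :=
    (by fun_prop : Continuous fun p : V n × V n => ψ p.2 * Dt n t (p.2 - p.1)).stronglyMeasurable
  exact (h.integral_prod_right' (ν := (volume : Measure (V n)))).aestronglyMeasurable

/-- uniform decay of `Pt ψ`. -/
theorem exists_Pt_bound (hn : 1 ≤ n) {ψ : V n → ℝ} (hψ : ContDiff ℝ (⊤ : ℕ∞) ψ)
    (hs : HasCompactSupport ψ) :
    ∃ B : ℝ, 0 ≤ B ∧ ∀ t : ℝ, 0 < t → ∀ y : V n, |Pt n t ψ y| ≤ B * kt n 1 y := by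
  obtain ⟨M, hM0, hM⟩ := Liou.sd_bound hψ hs
  obtain ⟨ρ, hρ1, hρ⟩ := hs.isCompact.isBounded.subset_ball_lt 1 0
  have hρ0 : 0 < ρ := by linarith
  have hz : ∀ x, x ∉ ball (0 : V n) ρ → ψ x = 0 := fun x hx =>
    image_eq_zero_of_notMem_tsupport fun h => hx (hρ h)
  have hψi : Integrable ψ := hψ.continuous.integrable_of_hasCompactSupport hs
  set c1 : ℝ := 1 / 2 * ∫ h, M * n * Liou.wt n h with hc1
  have hwnn : 0 ≤ ∫ h, M * n * Liou.wt n h := integral_nonneg fun h => by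
    have := Liou.wt_nonneg h
    positivity
  have hc10 : 0 ≤ c1 := by positivity
  set L1 : ℝ := ∫ x, |ψ x| with hL1
  have hL10 : 0 ≤ L1 := integral_nonneg fun x => abs_nonneg _
  refine ⟨c1 * (1 + 2 * ρ) ^ (n + 1) + L1 * n * 4 ^ (n + 1), by positivity, fun t ht y => ?_⟩
  have hkt1 := kt_pos n one_pos y
  have hrt1 := rt_pos one_pos y
  have hrtle : rt 1 y ≤ 1 + ‖y‖ := by
    unfold rt
    rw [Real.sqrt_le_left (by positivity)]
    nlinarith [norm_nonneg y]
  rcases le_or_gt (2 * ρ) ‖y‖ with hy | hy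
  · -- far
    have hy0 : 0 < ‖y‖ := by linarith
    have hker : ∀ x : V n, |ψ x * Dt n t (x - y)| ≤ |ψ x| * (n * (4 ^ (n + 1) * kt n 1 y)) := by
      intro x
      rw [abs_mul]
      by_cases hx : x ∈ ball (0 : V n) ρ
      · gcongr
        rw [mem_ball, dist_zero_right] at hx
        have h1 : ‖y‖ / 2 ≤ ‖x - y‖ := by
          have := norm_sub_norm_le y x
          rw [norm_sub_rev] at this
          linarith
        have hne : x - y ≠ 0 := by
          intro h0
          rw [h0, norm_zero] at h1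
          linarith
        refine (abs_Dt_le hn ht _).trans ?_
        gcongr
        refine (kt_le_norm n (t := t) hne).trans ?_
        unfold kt
        rw [← inv_pow, ← inv_pow, ← mul_pow]
        gcongr
        have h2 : rt 1 y ≤ 4 * ‖x - y‖ := by linarith
        rw [inv_le_iff_one_le_mul₀ (by linarith), mul_comm, ← mul_assoc, mul_comm ‖x - y‖ 4,
          ← div_eq_mul_inv, one_le_div hrt1]
        exact h2
      · rw [hz x hx, abs_zero, zero_mul, zero_mul]
    have h2 : |Pt n t ψ y| ≤ L1 * (n * (4 ^ (n + 1) * kt n 1 y)) := by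
      unfold Pt
      rw [← Real.norm_eq_abs]
      calc ‖∫ x, ψ x * Dt n t (x - y)‖ ≤ ∫ x, |ψ x| * (n * (4 ^ (n + 1) * kt n 1 y)) := by
            apply norm_integral_le_of_norm_le (hψi.abs.mul_const _)
            exact Eventually.of_forall fun x => hker x
        _ = _ := by rw [integral_mul_const]
    refine h2.trans ?_
    have : 0 ≤ c1 * (1 + 2 * ρ) ^ (n + 1) * kt n 1 y := by positivity
    nlinarith
  · -- near
    have h2 : |Pt n t ψ y| ≤ c1 := by
      rw [Pt_eq hn ht hψ hs y, abs_mul, abs_neg, abs_of_pos (by norm_num : (0:ℝ) < 1 / 2), hc1]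
      gcongr
      rw [← Real.norm_eq_abs]
      apply norm_integral_le_of_norm_le ((Liou.integrable_wt (by omega)).const_mul _)
      exact Eventually.of_forall fun h => abs_sd_mul_Dt_le hn ht hM0 hM y h
    have h3 : 1 ≤ (1 + 2 * ρ) ^ (n + 1) * kt n 1 y := by
      unfold kt
      rw [← inv_pow, ← mul_pow]
      apply one_le_pow₀
      rw [← div_eq_mul_inv, one_le_div hrt1]
      linarith
    calc |Pt n t ψ y| ≤ c1 * 1 := by linarith
      _ ≤ c1 * ((1 + 2 * ρ) ^ (n + 1) * kt n 1 y) := by gcongr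
      _ ≤ (c1 * (1 + 2 * ρ) ^ (n + 1) + L1 * n * 4 ^ (n + 1)) * kt n 1 y := by
          have : 0 ≤ L1 * n * 4 ^ (n + 1) * kt n 1 y := by positivity
          nlinarith

/-- **(E)** `∫ Λψ dν = 0`. -/
theorem integral_Lam_eq_zero (hn : 1 ≤ n) (hν : UpperReg n C ν) (hC : 0 ≤ C) (hc : 0 < c)
    (hL : ∀ (x : V n) (r : ℝ), 0 < r → ENNReal.ofReal (c * r ^ n) ≤ ν (ball x r))
    (hR : Refl n ν) {ψ : V n → ℝ} (hψ : ContDiff ℝ (⊤ : ℕ∞) ψ) (hs : HasCompactSupport ψ) :
    ∫ y, Liou.Lam ψ y ∂ν = 0 := by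
  have hlf := isLocallyFinite_of_upper hν
  obtain ⟨B, hB0, hB⟩ := exists_Pt_bound hn hψ hs
  have hki : Integrable (fun y => kt n 1 y) ν := by
    refine (integrable_kt hν hC one_pos 0).1.congr (Eventually.of_forall fun z => ?_)
    simp only [zero_sub, kt_neg]
  have h1 : Tendsto (fun t : ℝ => ∫ y, Pt n t ψ y ∂ν) (𝓝[>] 0)
      (𝓝 (∫ y, 1 / 2 * Liou.Lam ψ y ∂ν)) := by
    apply tendsto_integral_filter_of_dominated_convergence (fun y => B * kt n 1 y)
    · filter_upwards [self_mem_nhdsWithin] with t ht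
      exact continuous_Pt hn ht hψ.continuous hs
    · filter_upwards [self_mem_nhdsWithin] with t ht
      exact Eventually.of_forall fun y => hB t ht y
    · exact hki.const_mul _
    · exact Eventually.of_forall fun y => tendsto_Pt hn hψ hs y
  have h2 : Tendsto (fun t : ℝ => ∑ i : Fin n, ∫ x,
      fderiv ℝ ψ x (EuclideanSpace.single i (1:ℝ)) *
        Ft n ν t (EuclideanSpace.single i (1:ℝ)) x) (𝓝[>] 0) (𝓝 (∑ i : Fin n, (0:ℝ))) := by
    apply tendsto_finsetSum
    intro i _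
    exact tendsto_integral_mul_Ft hn hν hC hc hL hR _
      ((hψ.continuous_fderiv (by simp)).clm_apply continuous_const)
      (hs.fderiv_apply (𝕜 := ℝ) _) (integral_fderiv_eq_zero hψ hs _)
  have h3 : Tendsto (fun t : ℝ => ∫ y, Pt n t ψ y ∂ν) (𝓝[>] 0) (𝓝 0) := by
    have h4 := h2.neg
    simp only [Finset.sum_const_zero, neg_zero] at h4
    refine h4.congr' ?_
    filter_upwards [self_mem_nhdsWithin] with t ht
    rw [sum_integral_fderiv_mul_Ft hν hC ht hψ hs, neg_neg]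
    rfl
  have h5 := tendsto_nhds_unique h1 h3
  rw [integral_const_mul] at h5
  linarith

end Crest.Agent.R085.Flat
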