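import Mathlib
import Crest.Agent.R085.Defs
import Crest.Agent.R085.Incl

/-!
# R085, M7-S1: transfer of a measure supported in the standard `n`-plane to `V n`.
-/

set_option autoImplicit false

namespace Crest.Agent.R085.Flat

open MeasureTheory Metric Set Filter
open scoped ENNReal NNReal Topology

section aux

variable {n d : ℕ}

/-- the projection as a linear map -/
noncomputable def prjLin (n d : ℕ) : V d →ₗ[ℝ] V n where
  toFun := prj n
  map_add' := prj_add n
  map_smul' := prj_smul n

lemma continuous_prj (n d : ℕ) : Continuous (prj n : V d → V n) :=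
  (prjLin n d).continuous_of_finiteDimensional

/-- the normal part as a linear map -/
noncomputable def nrmLin (n d : ℕ) : V d →ₗ[ℝ] V d where
  toFun := nrm n
  map_add' := nrm_add n
  map_smul' := nrm_smul n

lemma continuous_nrm (n d : ℕ) : Continuous (nrm n : V d → V d) :=
  (nrmLin n d).continuous_of_finiteDimensional

lemma continuous_inc (n d : ℕ) (hnd : n ≤ d) : Continuous (inc n d) :=
  (incL hnd).continuous

lemma inner_inc (hnd : n ≤ d) (x y : V n) : inner ℝ (inc n d x) (inc n d y) = inner ℝ x y :=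
  (incL hnd).inner_map_map x y

lemma dist_inc (hnd : n ≤ d) (x y : V n) : dist (inc n d x) (inc n d y) = dist x y :=
  (incL hnd).dist_map x y

lemma inc_sub (hnd : n ≤ d) (x y : V n) : inc n d x - inc n d y = inc n d (x - y) :=
  ((incL hnd).map_sub x y).symm

lemma prj_sub (x y : V d) : prj n x - prj n y = prj n (x - y) :=
  ((prjLin n d).map_sub x y).symm

lemma inc_prj_of_nsq (z : V d) (hz : nsq n z = 0) : inc n d (prj n z) = z := by
  have h1 : nrm n z = 0 := by
    have := norm_nrm_sq n z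
    rw [hz] at this
    exact norm_eq_zero.mp (pow_eq_zero_iff (two_ne_zero) |>.mp this)
  have h2 := inc_prj_add_nrm n z
  rwa [h1, add_zero] at h2

lemma norm_prj_le (hnd : n ≤ d) (z : V d) : ‖prj n z‖ ≤ ‖z‖ := by
  have h1 : ‖inc n d (prj n z)‖ = ‖prj n z‖ := norm_inc hnd _
  rw [← h1]
  refine le_of_sq_le_sq ?_ (norm_nonneg _)
  rw [EuclideanSpace.norm_sq_eq, EuclideanSpace.norm_sq_eq]
  refine Finset.sum_le_sum fun i _ => ?_
  rw [inc_apply]
  split_ifs with h
  · rw [prj_apply, dif_pos i.2]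
  · simp only [norm_zero, ne_eq, OfNat.ofNat_ne_zero, not_false_eq_true, zero_pow]
    positivity

/-- the extension of a test function to `V d` -/
noncomputable def ext (n : ℕ) (ψ : V n → ℝ) (y : V d) : ℝ := ψ (prj n y) * max 0 (1 - ‖nrm n y‖)

lemma ext_inc (hnd : n ≤ d) (ψ : V n → ℝ) (x : V n) : ext n ψ (inc n d x) = ψ x := by
  unfold ext
  rw [nrm_inc, prj_inc hnd]
  simp

lemma isTest_ext (hnd : n ≤ d) {ψ : V n → ℝ} (h : IsTest ψ) :
    IsTest (ext n ψ : V d → ℝ) := by
  obtain ⟨⟨K, hK⟩, hc⟩ := h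
  obtain ⟨M, hM⟩ := hc.exists_bound_of_continuous hK.continuous
  have hM0 : 0 ≤ M := (norm_nonneg _).trans (hM 0)
  have hg1 : ∀ y : V d, |max 0 (1 - ‖nrm n y‖)| ≤ 1 := by
    intro y
    rw [abs_of_nonneg (le_max_left _ _)]
    exact max_le zero_le_one (by linarith [norm_nonneg (nrm n y)])
  have hg2 : ∀ y z : V d, |max 0 (1 - ‖nrm n y‖) - max 0 (1 - ‖nrm n z‖)| ≤ dist y z := by
    intro y z
    have h1 : |max (1 - ‖nrm n y‖) 0 - max (1 - ‖nrm n z‖) 0| ≤
        |(1 - ‖nrm n y‖) - (1 - ‖nrm n z‖)| := abs_max_sub_max_le_abs _ _ _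
    rw [max_comm 0, max_comm 0]
    refine h1.trans ?_
    have h2 : |(1 - ‖nrm n y‖) - (1 - ‖nrm n z‖)| = |‖nrm n z‖ - ‖nrm n y‖| := by
      congr 1; ring
    rw [h2, abs_sub_comm]
    refine (abs_norm_sub_norm_le _ _).trans ?_
    rw [← nrm_sub, dist_eq_norm]
    exact norm_nrm_le n _
  have hf2 : ∀ y z : V d, |ψ (prj n y) - ψ (prj n z)| ≤ K * dist y z := by
    intro y z
    have h1 := hK.dist_le_mul (prj n y) (prj n z)
    rw [Real.dist_eq] at h1
    refine h1.trans (mul_le_mul_of_nonneg_left ?_ K.2)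
    rw [dist_eq_norm, prj_sub, dist_eq_norm]
    exact norm_prj_le hnd _
  constructor
  · refine ⟨K + ⟨M, hM0⟩, LipschitzWith.of_dist_le_mul fun y z => ?_⟩
    rw [Real.dist_eq]
    have e1 : ext n ψ y - ext n ψ z =
        (ψ (prj n y) - ψ (prj n z)) * max 0 (1 - ‖nrm n y‖) +
        ψ (prj n z) * (max 0 (1 - ‖nrm n y‖) - max 0 (1 - ‖nrm n z‖)) := by
      unfold ext; ring
    rw [e1]
    refine (abs_add_le _ _).trans ?_
    rw [abs_mul, abs_mul]
    have h3 : |ψ (prj n y) - ψ (prj n z)| * |max 0 (1 - ‖nrm n y‖)| ≤ (K * dist y z) * 1 :=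
      mul_le_mul (hf2 y z) (hg1 y) (abs_nonneg _) (by positivity)
    have h4 : |ψ (prj n z)| * |max 0 (1 - ‖nrm n y‖) - max 0 (1 - ‖nrm n z‖)| ≤ M * dist y z :=
      mul_le_mul (hM _) (hg2 y z) (abs_nonneg _) hM0
    have h5 : ((K + ⟨M, hM0⟩ : ℝ≥0) : ℝ) = K + M := rfl
    rw [h5]
    linarith
  · have hb : Bornology.IsBounded (tsupport ψ) := hc.isCompact.isBounded
    obtain ⟨R, hR⟩ := hb.subset_closedBall 0
    refine HasCompactSupport.of_support_subset_isCompact
      (isCompact_closedBall (0 : V d) (R + 1)) fun y hy => ?_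
    rw [Function.mem_support] at hy
    unfold ext at hy
    have h1 : ψ (prj n y) ≠ 0 := left_ne_zero_of_mul hy
    have h2 : max 0 (1 - ‖nrm n y‖) ≠ 0 := right_ne_zero_of_mul hy
    have h3 : ‖prj n y‖ ≤ R := by
      have := hR (subset_tsupport ψ (Function.mem_support.mpr h1))
      rwa [mem_closedBall, dist_zero_right] at this
    have h4 : ‖nrm n y‖ ≤ 1 := by
      by_contra hcon
      push Not at hcon
      exact h2 (max_eq_left (by linarith))
    rw [mem_closedBall, dist_zero_right]
    calc ‖y‖ = ‖inc n d (prj n y) + nrm n y‖ := by rw [inc_prj_add_nrm]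
      _ ≤ ‖inc n d (prj n y)‖ + ‖nrm n y‖ := norm_add_le _ _
      _ ≤ R + 1 := by rw [norm_inc hnd]; linarith

end aux

theorem transfer {n d : ℕ} (hnd : n ≤ d) {C : ℝ} {μ : Measure (V d)} (hμ : ADR n C ⊤ μ)
    (hR : Refl n μ) (hne : μ.support.Nonempty) (hfl : ∀ y ∈ μ.support, nsq n y = 0) :
    ADR n C ⊤ (μ.map (prj n)) ∧ Refl n (μ.map (prj n)) ∧ (μ.map (prj n)).support.Nonempty ∧
      (μ.map (prj n)).map (inc n d) = μ := by
  have hpm : Measurable (prj n : V d → V n) := (continuous_prj n d).measurable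
  have him : Measurable (inc n d) := (continuous_inc n d hnd).measurable
  have hae : ∀ᵐ y ∂μ, inc n d (prj n y) = y := by
    have h1 : ∀ᵐ y ∂μ, y ∈ μ.support := Measure.support_mem_ae
    filter_upwards [h1] with y hy
    exact inc_prj_of_nsq y (hfl y hy)
  have hback : (μ.map (prj n)).map (inc n d) = μ := by
    rw [Measure.map_map him hpm]
    calc μ.map (inc n d ∘ prj n) = μ.map id := Measure.map_congr hae
      _ = μ := Measure.map_id
  set ν : Measure (V n) := μ.map (prj n) with hν
  have hball : ∀ (x : V n) (r : ℝ), ν (ball x r) = μ (ball (inc n d x) r) := by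
    intro x r
    rw [hν, Measure.map_apply hpm measurableSet_ball]
    refine measure_congr ?_
    filter_upwards [hae] with y hy
    refine propext ?_
    change dist (prj n y) x < r ↔ dist y (inc n d x) < r
    rw [← dist_inc hnd (prj n y) x, hy]
  have hsupp : ∀ x : V n, x ∈ ν.support ↔ inc n d x ∈ μ.support := by
    intro x
    rw [(nhds_basis_ball (x := x)).mem_measureSupport,
      (nhds_basis_ball (x := inc n d x)).mem_measureSupport]
    simp only [hball]
  have hADR : ADR n C ⊤ ν := by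
    refine ⟨hμ.one_le, fun x r hr => ?_, fun x hx r hr hD => ?_⟩
    · rw [hball]; exact hμ.upper _ r hr
    · rw [hball]; exact hμ.lower _ ((hsupp x).1 hx) r hr hD
  refine ⟨hADR, ?_, ?_, hback⟩
  · intro e ψ hψ h0
    have : IsLocallyFiniteMeasure ν := by
      refine ⟨fun x => ⟨ball x 1, ball_mem_nhds x one_pos, ?_⟩⟩
      exact (hADR.upper x 1 one_pos).trans_lt ENNReal.ofReal_lt_top
    have hemb : MeasurableEmbedding (inc n d) :=
      ((incL hnd).isometry.isClosedEmbedding).measurableEmbedding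
    have h1 : ∫ y, ext n ψ y ∂μ = 0 := by
      rw [← hback, hemb.integral_map]
      simpa only [ext_inc hnd] using h0
    have h2 := hR (inc n d e) (ext n ψ) (isTest_ext hnd hψ) h1
    refine h2.congr fun N => ?_
    unfold Bf
    congr 1
    have h3 : μ.prod μ = (ν.prod ν).map (Prod.map (inc n d) (inc n d)) := by
      rw [← Measure.map_prod_map _ _ him him, hback]
    have hemb2 : MeasurableEmbedding (Prod.map (inc n d) (inc n d)) :=
      (((incL hnd).isometry.isClosedEmbedding).prodMap
        ((incL hnd).isometry.isClosedEmbedding)).measurableEmbedding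
    rw [h3, hemb2.integral_map]
    refine integral_congr_ae (Eventually.of_forall fun p => ?_)
    simp only [Prod.map_fst, Prod.map_snd, lin, ext_inc hnd, inner_inc hnd, kN, inc_sub hnd,
      norm_inc hnd]
  · obtain ⟨y, hy⟩ := hne
    refine ⟨prj n y, ?_⟩
    rw [hsupp, inc_prj_of_nsq y (hfl y hy)]
    exact hy

end Crest.Agent.R085.Flat
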