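import Crest.Agent.R085.FlatConst
import Crest.Agent.R085.FlatTransfer
import Crest.Agent.R085.Touch6
import Crest.Agent.R085.Targets

/-!
R085, module M7: `TConst`.
-/

set_option autoImplicit false

namespace Crest.Agent.R085

open MeasureTheory Metric Set Filter
open scoped ENNReal NNReal Topology

/-- **M7.** Reflectionless regular measures on the standard `n`-plane have constant density. -/
theorem tConst {n d : ℕ} (hn : 1 ≤ n) (hnd : n ≤ d) (C : ℝ) : TConst n d C := by
  intro μ hμ hR hne hfl
  obtain ⟨h1, h2, h3, h4⟩ := Flat.transfer hnd hμ hR hne hfl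
  have hfull := support_eq_univ hn h1 h2 h3
  have hC1 : 1 ≤ C := hμ.one_le
  have hC0 : 0 < C := by linarith
  obtain ⟨c0, hc0, hν⟩ := Flat.const_of_full hn (C := C) (c := C⁻¹) h1.upper hC0.le
    (inv_pos.2 hC0) (fun x r hr => h1.lower x (by rw [hfull]; exact mem_univ x) r hr le_top) h2
  refine ⟨c0, hc0, fun f hf hfs => ?_⟩
  have him : Measurable (inc n d) := (Flat.continuous_inc n d hnd).measurable
  rw [← h4, integral_map him.aemeasurable hf.aestronglyMeasurable, hν,
    integral_smul_measure, ENNReal.toReal_ofReal hc0.le, smul_eq_mul]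

end Crest.Agent.R085
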