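import Crest.Agent.R085.FlatInt

/-!
R085, module M7: the regularised Riesz potential `Ft` of a reflectionless measure on `V n` is
bounded uniformly in `t` (`Ft_bounded`) and is asymptotically orthogonal to mean-zero test
functions (`integral_mul_Ft_le`).
-/

set_option autoImplicit false
set_option linter.unusedSectionVars false
set_option linter.unusedVariables false

noncomputable section

namespace Crest.Agent.R085.Flat

open MeasureTheory Metric Set Filter
open scoped ENNReal NNReal Topology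

variable {n : ℕ} {C : ℝ} {ν : Measure (V n)}

/-- regularised kernel in direction `e`. -/
def Kt (n : ℕ) (t : ℝ) (e z : V n) : ℝ := inner ℝ z e * kt n t z

/-- Regularised Riesz potential in direction `e`, normalised to vanish at `0`. -/
def Ft (n : ℕ) (ν : Measure (V n)) (t : ℝ) (e x : V n) : ℝ :=
  ∫ y, (Kt n t e (x - y) - Kt n t e (0 - y)) ∂ν

theorem continuous_Kt (n : ℕ) {t : ℝ} (ht : 0 < t) (e : V n) : Continuous (Kt n t e) := by
  unfold Kt
  have h1 := continuous_kt (E := V n) n ht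
  fun_prop

theorem abs_Kt_sub_le (n : ℕ) {t : ℝ} (ht : 0 < t) (e a b : V n) :
    |Kt n t e a - Kt n t e b| ≤ (n + 2) * ‖e‖ * ‖a - b‖ * (kt n t a + kt n t b) :=
  abs_inner_kt_sub_le n ht e a b

theorem abs_KtN_sub_le (n : ℕ) {t N : ℝ} (ht : 0 < t) (hN : 0 < N) (e a b : V n) :
    |KtN n t N e a - KtN n t N e b| ≤ (n + 4) * ‖e‖ * ‖a - b‖ * (kt n t a + kt n t b) :=
  abs_cut_inner_kt_sub_le n ht hN e a b

theorem integrable_KtN (hν : UpperReg n C ν) {t N : ℝ} (ht : 0 < t) (hN : 0 < N) (e x : V n) :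
    Integrable (fun y => KtN n t N e (x - y)) ν := by
  have hlf := isLocallyFinite_of_upper hν
  apply Continuous.integrable_of_hasCompactSupport
  · exact (continuous_KtN n ht N e).comp (continuous_const.sub continuous_id)
  · apply HasCompactSupport.intro (K := closedBall x (2 * N)) (isCompact_closedBall _ _)
    intro y hy
    rw [mem_closedBall, dist_comm, dist_eq_norm] at hy
    push Not at hy
    exact KtN_eq_zero n t hN e hy.le

theorem integrable_sub_Kt (hν : UpperReg n C ν) (hC : 0 ≤ C) {t : ℝ} (ht : 0 < t)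
    (e x x' : V n) :
    Integrable (fun y => Kt n t e (x - y) - Kt n t e (x' - y)) ν := by
  have h1 := (integrable_kt hν hC ht x).1
  have h2 := (integrable_kt hν hC ht x').1
  refine Integrable.mono' ((h1.add h2).const_mul ((n + 2) * ‖e‖ * ‖x - x'‖)) ?_ ?_
  · have := continuous_Kt n ht e
    exact (by fun_prop : Continuous fun y =>
      Kt n t e (x - y) - Kt n t e (x' - y)).aestronglyMeasurable
  · refine Eventually.of_forall fun y => ?_
    have := abs_Kt_sub_le n ht e (x - y) (x' - y)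
    rw [sub_sub_sub_cancel_right] at this
    rw [Real.norm_eq_abs]
    exact this

theorem abs_FtN_sub_le (hν : UpperReg n C ν) (hC : 0 ≤ C) {t N : ℝ} (ht : 0 < t) (hN : 0 < N)
    (e x x' : V n) :
    |FtN n ν t N e x - FtN n ν t N e x'| ≤
      (n + 4) * ‖e‖ * ‖x - x'‖ * (2 * (C * 2 ^ (n + 2) / t)) := by
  have h1 := integrable_kt hν hC ht x
  have h2 := integrable_kt hν hC ht x'
  have e1 : FtN n ν t N e x - FtN n ν t N e x'
      = ∫ y, (KtN n t N e (x - y) - KtN n t N e (x' - y)) ∂ν := by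
    rw [integral_sub (integrable_KtN hν ht hN e x) (integrable_KtN hν ht hN e x')]
    rfl
  rw [e1]
  calc |∫ y, (KtN n t N e (x - y) - KtN n t N e (x' - y)) ∂ν|
      ≤ ∫ y, (n + 4) * ‖e‖ * ‖x - x'‖ * (kt n t (x - y) + kt n t (x' - y)) ∂ν := by
        rw [← Real.norm_eq_abs]
        apply norm_integral_le_of_norm_le ((h1.1.add h2.1).const_mul _)
        refine Eventually.of_forall fun y => ?_
        have := abs_KtN_sub_le n ht hN e (x - y) (x' - y)
        rw [sub_sub_sub_cancel_right] at this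
        exact this
    _ = (n + 4) * ‖e‖ * ‖x - x'‖ * (∫ y, kt n t (x - y) ∂ν + ∫ y, kt n t (x' - y) ∂ν) := by
        rw [integral_const_mul, integral_add h1.1 h2.1]
    _ ≤ _ := by
        have := h1.2
        have := h2.2
        gcongr
        linarith

theorem abs_Ft_sub_le (hν : UpperReg n C ν) (hC : 0 ≤ C) {t : ℝ} (ht : 0 < t)
    (e x x' : V n) :
    |Ft n ν t e x - Ft n ν t e x'| ≤
      (n + 2) * ‖e‖ * ‖x - x'‖ * (2 * (C * 2 ^ (n + 2) / t)) := by
  have h1 := integrable_kt hν hC ht x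
  have h2 := integrable_kt hν hC ht x'
  have e1 : Ft n ν t e x - Ft n ν t e x'
      = ∫ y, (Kt n t e (x - y) - Kt n t e (x' - y)) ∂ν := by
    unfold Ft
    rw [← integral_sub (integrable_sub_Kt hν hC ht e x 0) (integrable_sub_Kt hν hC ht e x' 0)]
    congr 1; ext y; ring
  rw [e1]
  calc |∫ y, (Kt n t e (x - y) - Kt n t e (x' - y)) ∂ν|
      ≤ ∫ y, (n + 2) * ‖e‖ * ‖x - x'‖ * (kt n t (x - y) + kt n t (x' - y)) ∂ν := by
        rw [← Real.norm_eq_abs]
        apply norm_integral_le_of_norm_le ((h1.1.add h2.1).const_mul _)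
        refine Eventually.of_forall fun y => ?_
        have := abs_Kt_sub_le n ht e (x - y) (x' - y)
        rw [sub_sub_sub_cancel_right] at this
        exact this
    _ = (n + 2) * ‖e‖ * ‖x - x'‖ * (∫ y, kt n t (x - y) ∂ν + ∫ y, kt n t (x' - y) ∂ν) := by
        rw [integral_const_mul, integral_add h1.1 h2.1]
    _ ≤ _ := by
        have := h1.2
        have := h2.2
        gcongr
        linarith

theorem continuous_Ft (hν : UpperReg n C ν) (hC : 0 ≤ C) {t : ℝ} (ht : 0 < t) (e : V n) :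
    Continuous (Ft n ν t e) := by
  set K : ℝ := (n + 2) * ‖e‖ * (2 * (C * 2 ^ (n + 2) / t)) with hK
  have hK0 : 0 ≤ K := by positivity
  have : LipschitzWith (Real.toNNReal K) (Ft n ν t e) := by
    apply LipschitzWith.of_dist_le_mul
    intro x y
    rw [Real.dist_eq, dist_eq_norm, Real.coe_toNNReal _ hK0]
    refine (abs_Ft_sub_le hν hC ht e x y).trans (le_of_eq ?_)
    rw [hK]; ring
  exact this.continuous

theorem continuous_FtN (hν : UpperReg n C ν) (hC : 0 ≤ C) {t N : ℝ} (ht : 0 < t) (hN : 0 < N)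
    (e : V n) : Continuous (FtN n ν t N e) := by
  set K : ℝ := (n + 4) * ‖e‖ * (2 * (C * 2 ^ (n + 2) / t)) with hK
  have hK0 : 0 ≤ K := by positivity
  have : LipschitzWith (Real.toNNReal K) (FtN n ν t N e) := by
    apply LipschitzWith.of_dist_le_mul
    intro x y
    rw [Real.dist_eq, dist_eq_norm, Real.coe_toNNReal _ hK0]
    refine (abs_FtN_sub_le hν hC ht hN e x y).trans (le_of_eq ?_)
    rw [hK]; ring
  exact this.continuous

theorem tendsto_KtN (n : ℕ) (t : ℝ) (e z : V n) :
    Tendsto (fun N : ℝ => KtN n t N e z) atTop (𝓝 (Kt n t e z)) := by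
  apply tendsto_const_nhds.congr'
  filter_upwards [eventually_ge_atTop (max ‖z‖ 1)] with N hN
  have h1 : ‖z‖ ≤ N := (le_max_left _ _).trans hN
  have h2 : 0 < N := lt_of_lt_of_le one_pos ((le_max_right _ _).trans hN)
  unfold Kt KtN
  rw [cut_of_le_one (by rw [div_le_one h2]; exact h1), one_mul]

theorem tendsto_FtN (hν : UpperReg n C ν) (hC : 0 ≤ C) {t : ℝ} (ht : 0 < t) (e x : V n) :
    Tendsto (fun N : ℝ => FtN n ν t N e x - FtN n ν t N e 0) atTop (𝓝 (Ft n ν t e x)) := by
  have h1 := (integrable_kt hν hC ht x).1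
  have h2 := (integrable_kt hν hC ht 0).1
  have key : Tendsto (fun N : ℝ => ∫ y, (KtN n t N e (x - y) - KtN n t N e (0 - y)) ∂ν) atTop
      (𝓝 (Ft n ν t e x)) := by
    unfold Ft
    apply tendsto_integral_filter_of_dominated_convergence
      (fun y => (n + 4) * ‖e‖ * ‖x - 0‖ * (kt n t (x - y) + kt n t (0 - y)))
    · filter_upwards with N
      have := continuous_KtN n ht N e
      exact (by fun_prop : Continuous fun y =>
        KtN n t N e (x - y) - KtN n t N e (0 - y)).aestronglyMeasurable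
    · filter_upwards [eventually_gt_atTop 0] with N hN
      refine Eventually.of_forall fun y => ?_
      have := abs_KtN_sub_le n ht hN e (x - y) (0 - y)
      rw [sub_sub_sub_cancel_right] at this
      exact this
    · exact (h1.add h2).const_mul _
    · exact Eventually.of_forall fun y => (tendsto_KtN n t e _).sub (tendsto_KtN n t e _)
  refine key.congr' ?_
  filter_upwards [eventually_gt_atTop 0] with N hN
  rw [integral_sub (integrable_KtN hν ht hN e x) (integrable_KtN hν ht hN e 0)]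
  rfl

/-- Lipschitz functions supported in a ball satisfy the hypothesis of `abs_Bf_sub_le`. -/
theorem abs_sub_le_indicator {ψ : V n → ℝ} {a : V n} {r L : ℝ} (hL : 0 ≤ L)
    (hlip : ∀ x y, |ψ x - ψ y| ≤ L * ‖x - y‖) (h0 : ∀ x, x ∉ closedBall a r → ψ x = 0)
    (x y : V n) :
    |ψ x - ψ y| ≤ ‖x - y‖ * ((closedBall a r).indicator (fun _ => L) x
      + (closedBall a r).indicator (fun _ => L) y) := by
  have hx0 : 0 ≤ (closedBall a r).indicator (fun _ => L) x := indicator_nonneg (fun _ _ => hL) _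
  have hy0 : 0 ≤ (closedBall a r).indicator (fun _ => L) y := indicator_nonneg (fun _ _ => hL) _
  by_cases hx : x ∈ closedBall a r
  · rw [indicator_of_mem hx]
    refine (hlip x y).trans ?_
    have := norm_nonneg (x - y)
    nlinarith
  · by_cases hy : y ∈ closedBall a r
    · rw [indicator_of_mem hy]
      refine (hlip x y).trans ?_
      have := norm_nonneg (x - y)
      nlinarith
    · rw [h0 x hx, h0 y hy, sub_zero, abs_zero]
      positivity

/-- tent function. -/
def tent (t : ℝ) (x y : V n) : ℝ := max 0 (1 - dist y x / t)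

theorem tent_nonneg (t : ℝ) (x y : V n) : 0 ≤ tent t x y := le_max_left _ _

theorem tent_lip {t : ℝ} (ht : 0 < t) (x y z : V n) :
    |tent t x y - tent t x z| ≤ t⁻¹ * ‖y - z‖ := by
  unfold tent
  have h1 : |max 0 (1 - dist y x / t) - max 0 (1 - dist z x / t)|
      ≤ |(1 - dist y x / t) - (1 - dist z x / t)| := by
    have := abs_max_sub_max_le_abs (1 - dist y x / t) (1 - dist z x / t) 0
    rwa [max_comm _ (0:ℝ), max_comm _ (0:ℝ)] at this
  have h2 : (1 - dist y x / t) - (1 - dist z x / t) = -(t⁻¹ * (dist y x - dist z x)) := by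
    field_simp; ring
  rw [h2, abs_neg, abs_mul, abs_of_pos (inv_pos.2 ht)] at h1
  refine h1.trans ?_
  have h3 := abs_dist_sub_le y z x
  rw [← dist_eq_norm]
  have : 0 ≤ t⁻¹ := (inv_pos.2 ht).le
  gcongr

theorem continuous_tent (t : ℝ) (x : V n) : Continuous (tent t x) := by
  unfold tent; fun_prop

theorem tent_eq_zero {t : ℝ} (ht : 0 < t) (x y : V n) (hy : y ∉ closedBall x t) :
    tent t x y = 0 := by
  rw [mem_closedBall] at hy
  push Not at hy
  unfold tent
  rw [max_eq_left]
  have : 1 < dist y x / t := by rwa [lt_div_iff₀ ht, one_mul]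
  linarith

theorem hasCompactSupport_tent {t : ℝ} (ht : 0 < t) (x : V n) : HasCompactSupport (tent t x) :=
  HasCompactSupport.intro (isCompact_closedBall x t) fun y hy => tent_eq_zero ht x y hy

theorem le_integral_tent (hν : UpperReg n C ν) {c : ℝ} (hc : 0 < c)
    (hL : ∀ (x : V n) (r : ℝ), 0 < r → ENNReal.ofReal (c * r ^ n) ≤ ν (ball x r))
    {t : ℝ} (ht : 0 < t) (x : V n) :
    c * (t / 2) ^ n / 2 ≤ ∫ y, tent t x y ∂ν := by
  have hlf := isLocallyFinite_of_upper hν
  have hint : Integrable (tent t x) ν :=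
    (continuous_tent t x).integrable_of_hasCompactSupport (hasCompactSupport_tent ht x)
  have hfin : ν (ball x (t / 2)) < ∞ :=
    lt_of_le_of_lt (hν x (t / 2) (by positivity)) ENNReal.ofReal_lt_top
  have h1 : c * (t / 2) ^ n ≤ ν.real (ball x (t / 2)) := by
    rw [measureReal_def]
    rw [← ENNReal.ofReal_le_iff_le_toReal hfin.ne]
    exact hL x (t / 2) (by positivity)
  calc c * (t / 2) ^ n / 2 ≤ ν.real (ball x (t / 2)) * (1 / 2) := by linarith
    _ = ∫ y in ball x (t / 2), (1 / 2 : ℝ) ∂ν := by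
        rw [setIntegral_const, smul_eq_mul]
    _ ≤ ∫ y in ball x (t / 2), tent t x y ∂ν := by
        apply setIntegral_mono_on
        · exact integrableOn_const hfin.ne
        · exact hint.integrableOn
        · exact measurableSet_ball
        · intro y hy
          rw [mem_ball] at hy
          unfold tent
          refine le_trans ?_ (le_max_right _ _)
          have : dist y x / t < 1 / 2 := by
            rw [div_lt_iff₀ ht]; linarith
          linarith
    _ ≤ ∫ y, tent t x y ∂ν :=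
        setIntegral_le_integral hint (Eventually.of_forall fun y => tent_nonneg t x y)

/-- **(A)** the regularised potential of a reflectionless measure is bounded. -/
theorem Ft_bounded (hn : 1 ≤ n) (hν : UpperReg n C ν) (hC : 0 ≤ C) {c : ℝ} (hc : 0 < c)
    (hL : ∀ (x : V n) (r : ℝ), 0 < r → ENNReal.ofReal (c * r ^ n) ≤ ν (ball x r))
    (hR : Refl n ν) :
    ∃ M : ℝ, 0 ≤ M ∧ ∀ (t : ℝ), 0 < t → ∀ e x : V n, |Ft n ν t e x| ≤ M * ‖e‖ := by
  have hlf := isLocallyFinite_of_upper hν
  set C3 : ℝ := C * 2 ^ n * (2 * 2 ^ n / c) with hC3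
  have hC30 : 0 ≤ C3 := by positivity
  have hC20 := C2_nonneg (n := n) hC
  set C4 : ℝ := (n + 4) * (2 * (C * 2 ^ (n + 2))) with hC4
  have hC40 : 0 ≤ C4 := by positivity
  refine ⟨2 * (C2 n C * C3) + 2 * C4, by positivity, fun t ht e x => ?_⟩
  -- normalised bumps
  set m : V n → ℝ := fun a => ∫ y, tent t a y ∂ν with hm
  have hmlow : ∀ a, c * (t / 2) ^ n / 2 ≤ m a := fun a => le_integral_tent hν hc hL ht a
  have hm0 : ∀ a, 0 < m a := fun a => lt_of_lt_of_le (by positivity) (hmlow a)
  set ψ : V n → V n → ℝ := fun a y => (m a)⁻¹ * tent t a y with hψ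
  have hψc : ∀ a, Continuous (ψ a) := fun a => continuous_const.mul (continuous_tent t a)
  have hψ0 : ∀ a y, y ∉ closedBall a t → ψ a y = 0 := fun a y hy => by
    simp only [hψ, tent_eq_zero ht a y hy, mul_zero]
  have hψs : ∀ a, HasCompactSupport (ψ a) := fun a =>
    HasCompactSupport.intro (isCompact_closedBall a t) (hψ0 a)
  have hψi : ∀ a, Integrable (ψ a) ν := fun a =>
    (hψc a).integrable_of_hasCompactSupport (hψs a)
  have hψ1 : ∀ a, ∫ y, ψ a y ∂ν = 1 := fun a => by
    simp only [hψ]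
    rw [integral_const_mul]
    exact inv_mul_cancel₀ (hm0 a).ne'
  have hψlip : ∀ a y z, |ψ a y - ψ a z| ≤ ((m a)⁻¹ * t⁻¹) * ‖y - z‖ := fun a y z => by
    simp only [hψ]
    rw [← mul_sub, abs_mul, abs_of_pos (inv_pos.2 (hm0 a)), mul_assoc]
    have := (inv_pos.2 (hm0 a)).le
    have := tent_lip ht a y z
    gcongr
  have hψnn : ∀ a y, 0 ≤ ψ a y := fun a y => mul_nonneg (inv_pos.2 (hm0 a)).le (tent_nonneg t a y)
  set G : V n → V n → ℝ := fun a => (closedBall a t).indicator (fun _ => (m a)⁻¹ * t⁻¹) with hG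
  have hLnn : ∀ a, 0 ≤ (m a)⁻¹ * t⁻¹ := fun a =>
    mul_nonneg (inv_pos.2 (hm0 a)).le (inv_pos.2 ht).le
  have hG0 : ∀ a y, 0 ≤ G a y := fun a y => indicator_nonneg (fun _ _ => hLnn a) _
  have hGm : ∀ a, Measurable (G a) := fun a =>
    measurable_const.indicator isClosed_closedBall.measurableSet
  have hfin : ∀ a, ν (closedBall a t) < ∞ := fun a =>
    lt_of_le_of_lt (hν.closedBall_le a ht) ENNReal.ofReal_lt_top
  have hGi : ∀ a, Integrable (G a) ν := fun a => by
    apply IntegrableOn.integrable_indicator _ isClosed_closedBall.measurableSet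
    exact integrableOn_const (hfin a).ne
  have hGint : ∀ a, ∫ y, G a y ∂ν ≤ C3 / t := fun a => by
    simp only [hG]
    rw [integral_indicator isClosed_closedBall.measurableSet, setIntegral_const, smul_eq_mul]
    have h1 : ν.real (closedBall a t) ≤ C * 2 ^ n * t ^ n := by
      rw [measureReal_def]
      exact ENNReal.toReal_le_of_le_ofReal (by positivity) (hν.closedBall_le a ht)
    have h2 : (m a)⁻¹ ≤ 2 * 2 ^ n / (c * t ^ n) := by
      rw [inv_le_comm₀ (hm0 a) (by positivity)]
      refine le_trans (le_of_eq ?_) (hmlow a)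
      rw [div_pow]; field_simp
    calc ν.real (closedBall a t) * ((m a)⁻¹ * t⁻¹)
        ≤ (C * 2 ^ n * t ^ n) * ((2 * 2 ^ n / (c * t ^ n)) * t⁻¹) := by
          have := (inv_pos.2 (hm0 a)).le
          gcongr
      _ = C3 / t := by rw [hC3]; field_simp
  -- evaluation at the centre
  have hev : ∀ (N : ℝ), 0 < N → ∀ a,
      |∫ y, ψ a y * FtN n ν t N e y ∂ν - FtN n ν t N e a| ≤ C4 * ‖e‖ := by
    intro N hN a
    have hcF := continuous_FtN hν hC ht hN e
    have hi : Integrable (fun y => ψ a y * FtN n ν t N e y) ν :=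
      ((hψc a).mul hcF).integrable_of_hasCompactSupport
        ((hψs a).mul_right)
    have e1 : ∫ y, ψ a y * FtN n ν t N e y ∂ν - FtN n ν t N e a
        = ∫ y, ψ a y * (FtN n ν t N e y - FtN n ν t N e a) ∂ν := by
      have : ∀ y, ψ a y * (FtN n ν t N e y - FtN n ν t N e a)
          = ψ a y * FtN n ν t N e y - ψ a y * FtN n ν t N e a := fun y => by ring
      simp only [this]
      rw [integral_sub hi ((hψi a).mul_const _), integral_mul_const, hψ1, one_mul]
    rw [e1, ← Real.norm_eq_abs]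
    calc ‖∫ y, ψ a y * (FtN n ν t N e y - FtN n ν t N e a) ∂ν‖
        ≤ ∫ y, ψ a y * (C4 * ‖e‖) ∂ν := by
          apply norm_integral_le_of_norm_le ((hψi a).mul_const _)
          refine Eventually.of_forall fun y => ?_
          rw [norm_mul, Real.norm_eq_abs, abs_of_nonneg (hψnn a y)]
          by_cases hy : y ∈ closedBall a t
          · have h1 := abs_FtN_sub_le hν hC ht hN e y a
            rw [mem_closedBall, dist_eq_norm] at hy
            have := hψnn a y
            gcongr
            rw [Real.norm_eq_abs]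
            refine h1.trans ?_
            calc (n + 4) * ‖e‖ * ‖y - a‖ * (2 * (C * 2 ^ (n + 2) / t))
                ≤ (n + 4) * ‖e‖ * t * (2 * (C * 2 ^ (n + 2) / t)) := by gcongr
              _ = C4 * ‖e‖ := by rw [hC4]; field_simp
          · rw [hψ0 a y hy, zero_mul, zero_mul]
      _ = C4 * ‖e‖ := by rw [integral_mul_const, hψ1, one_mul]
  -- test function
  set φ : V n → ℝ := fun y => ψ x y - ψ 0 y with hφ
  have hφtest : IsTest φ := by
    refine ⟨⟨Real.toNNReal (((m x)⁻¹ * t⁻¹) + ((m 0)⁻¹ * t⁻¹)), ?_⟩, (hψs x).sub (hψs 0)⟩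
    apply LipschitzWith.of_dist_le_mul
    intro y z
    rw [Real.dist_eq, dist_eq_norm, Real.coe_toNNReal _ (add_nonneg (hLnn x) (hLnn 0))]
    have h1 := hψlip x y z
    have h2 := hψlip 0 y z
    have : φ y - φ z = (ψ x y - ψ x z) - (ψ 0 y - ψ 0 z) := by simp only [hφ]; ring
    rw [this]
    refine (abs_sub _ _).trans ?_
    linarith
  have hφint : ∫ y, φ y ∂ν = 0 := by
    simp only [hφ]
    rw [integral_sub (hψi x) (hψi 0), hψ1, hψ1, sub_self]
  have hlim := hR e φ hφtest hφint
  -- bound for all N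
  have hbound : ∀ N : ℝ, 0 < N → |FtN n ν t N e x - FtN n ν t N e 0|
      ≤ |Bf n ν N (lin e) φ| + (2 * (C2 n C * C3) + 2 * C4) * ‖e‖ := by
    intro N hN
    have hcF := continuous_FtN hν hC ht hN e
    have hi : ∀ a, Integrable (fun y => ψ a y * FtN n ν t N e y) ν := fun a =>
      ((hψc a).mul hcF).integrable_of_hasCompactSupport ((hψs a).mul_right)
    have h1 := abs_Bf_sub_le hn hν hC ht hN e (ψ := φ) (G := fun y => G x y + G 0 y)
      ((hψc x).sub (hψc 0)) hφtest.cpt (fun y => add_nonneg (hG0 x y) (hG0 0 y))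
      ((hGm x).add (hGm 0)) ((hGi x).add (hGi 0)) (by
        intro y z
        have h1 := abs_sub_le_indicator (hLnn x) (hψlip x) (hψ0 x) y z
        have h2 := abs_sub_le_indicator (hLnn 0) (hψlip 0) (hψ0 0) y z
        have : φ y - φ z = (ψ x y - ψ x z) - (ψ 0 y - ψ 0 z) := by simp only [hφ]; ring
        rw [this]
        refine (abs_sub _ _).trans ?_
        refine (add_le_add h1 h2).trans (le_of_eq ?_)
        simp only [hG]; ring)
    have h2 : ∫ y, (G x y + G 0 y) ∂ν ≤ 2 * (C3 / t) := by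
      rw [integral_add (hGi x) (hGi 0)]
      linarith [hGint x, hGint 0]
    have h3 : C2 n C * ‖e‖ * t * ∫ y, (G x y + G 0 y) ∂ν ≤ 2 * (C2 n C * C3) * ‖e‖ := by
      calc C2 n C * ‖e‖ * t * ∫ y, (G x y + G 0 y) ∂ν
          ≤ C2 n C * ‖e‖ * t * (2 * (C3 / t)) := by gcongr
        _ = _ := by field_simp
    have h4 : ∫ y, φ y * FtN n ν t N e y ∂ν
        = ∫ y, ψ x y * FtN n ν t N e y ∂ν - ∫ y, ψ 0 y * FtN n ν t N e y ∂ν := by
      rw [← integral_sub (hi x) (hi 0)]
      congr 1; ext y; simp only [hφ]; ring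
    rw [h4] at h1
    have h5 := hev N hN x
    have h6 := hev N hN 0
    rw [abs_le] at h1 h5 h6 ⊢
    have h7 := neg_abs_le (Bf n ν N (lin e) φ)
    have h8 := le_abs_self (Bf n ν N (lin e) φ)
    constructor <;> nlinarith [h1.1, h1.2, h5.1, h5.2, h6.1, h6.2]
  have hT := tendsto_FtN hν hC ht e x
  have hT2 : Tendsto (fun N : ℝ => |Bf n ν N (lin e) φ| + (2 * (C2 n C * C3) + 2 * C4) * ‖e‖) atTop
      (𝓝 (|(0:ℝ)| + (2 * (C2 n C * C3) + 2 * C4) * ‖e‖)) :=
    (hlim.abs).add tendsto_const_nhds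
  rw [abs_zero, zero_add] at hT2
  refine le_of_tendsto_of_tendsto hT.abs hT2 ?_
  filter_upwards [eventually_gt_atTop 0] with N hN
  exact hbound N hN

/-- **(B)** asymptotic orthogonality to mean-zero test functions. -/
theorem integral_mul_Ft_le (hn : 1 ≤ n) (hν : UpperReg n C ν) (hC : 0 ≤ C)
    (hR : Refl n ν) (e : V n) {ψ : V n → ℝ} (hψ : IsTest ψ) (hψ0 : ∫ y, ψ y ∂ν = 0) :
    ∃ K : ℝ, 0 ≤ K ∧ ∀ t : ℝ, 0 < t → |∫ x, ψ x * Ft n ν t e x ∂ν| ≤ K * t := by
  have hlf := isLocallyFinite_of_upper hν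
  obtain ⟨L, hL⟩ := hψ.lip
  have hψc := hψ.cpt
  have hcont : Continuous ψ := hL.continuous
  obtain ⟨R, hR1, hRs⟩ : ∃ R : ℝ, 0 < R ∧ tsupport ψ ⊆ closedBall (0 : V n) R := by
    obtain ⟨R, hR⟩ := hψc.isCompact.isBounded.subset_closedBall (0 : V n)
    exact ⟨max R 1, lt_max_of_lt_right one_pos,
      hR.trans (closedBall_subset_closedBall (le_max_left _ _))⟩
  have hz : ∀ x, x ∉ closedBall (0 : V n) R → ψ x = 0 := fun x hx =>
    image_eq_zero_of_notMem_tsupport fun h => hx (hRs h)
  have hlip : ∀ x y, |ψ x - ψ y| ≤ (L : ℝ) * ‖x - y‖ := fun x y => by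
    have := hL.dist_le_mul x y
    rwa [Real.dist_eq, dist_eq_norm] at this
  set G : V n → ℝ := (closedBall (0 : V n) R).indicator (fun _ => (L : ℝ)) with hG
  have hG0 : ∀ y, 0 ≤ G y := fun y => indicator_nonneg (fun _ _ => L.coe_nonneg) _
  have hGm : Measurable G := measurable_const.indicator isClosed_closedBall.measurableSet
  have hfin : ν (closedBall (0 : V n) R) < ∞ :=
    lt_of_le_of_lt (hν.closedBall_le 0 hR1) ENNReal.ofReal_lt_top
  have hGi : Integrable G ν := by
    apply IntegrableOn.integrable_indicator _ isClosed_closedBall.measurableSet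
    exact integrableOn_const hfin.ne
  have hGint0 : 0 ≤ ∫ x, G x ∂ν := integral_nonneg hG0
  have hC20 := C2_nonneg (n := n) hC
  refine ⟨C2 n C * ‖e‖ * ∫ x, G x ∂ν, by positivity, fun t ht => ?_⟩
  have hbound : ∀ N : ℝ, 0 < N → |∫ x, ψ x * (FtN n ν t N e x - FtN n ν t N e 0) ∂ν|
      ≤ |Bf n ν N (lin e) ψ| + C2 n C * ‖e‖ * t * ∫ x, G x ∂ν := by
    intro N hN
    have h1 := abs_Bf_sub_le hn hν hC ht hN e hcont hψc hG0 hGm hGi
      (abs_sub_le_indicator L.coe_nonneg hlip hz)
    have hcF := continuous_FtN hν hC ht hN e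
    have hi : Integrable (fun y => ψ y * FtN n ν t N e y) ν :=
      (hcont.mul hcF).integrable_of_hasCompactSupport hψc.mul_right
    have hi2 : Integrable ψ ν := hcont.integrable_of_hasCompactSupport hψc
    have e1 : ∫ x, ψ x * (FtN n ν t N e x - FtN n ν t N e 0) ∂ν
        = ∫ x, ψ x * FtN n ν t N e x ∂ν := by
      simp only [mul_sub]
      rw [integral_sub hi (hi2.mul_const _), integral_mul_const, hψ0, zero_mul, sub_zero]
    rw [e1]
    rw [abs_le] at h1 ⊢
    have h7 := neg_abs_le (Bf n ν N (lin e) ψ)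
    have h8 := le_abs_self (Bf n ν N (lin e) ψ)
    constructor <;> linarith [h1.1, h1.2]
  have hT : Tendsto (fun N : ℝ => ∫ x, ψ x * (FtN n ν t N e x - FtN n ν t N e 0) ∂ν) atTop
      (𝓝 (∫ x, ψ x * Ft n ν t e x ∂ν)) := by
    set B : ℝ := (n + 4) * ‖e‖ * R * (2 * (C * 2 ^ (n + 2) / t)) with hB
    apply tendsto_integral_filter_of_dominated_convergence (fun x => |ψ x| * B)
    · filter_upwards [eventually_gt_atTop 0] with N hN
      have hcF := continuous_FtN hν hC ht hN e
      exact (hcont.mul (hcF.sub continuous_const)).aestronglyMeasurable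
    · filter_upwards [eventually_gt_atTop 0] with N hN
      refine Eventually.of_forall fun x => ?_
      rw [norm_mul, Real.norm_eq_abs, Real.norm_eq_abs]
      by_cases hx : x ∈ closedBall (0 : V n) R
      · gcongr
        refine (abs_FtN_sub_le hν hC ht hN e x 0).trans ?_
        rw [mem_closedBall, dist_eq_norm] at hx
        rw [hB]
        gcongr
      · rw [hz x hx, abs_zero, zero_mul, zero_mul]
    · exact ((hcont.abs).integrable_of_hasCompactSupport hψc.abs).mul_const B
    · exact Eventually.of_forall fun x => (tendsto_FtN hν hC ht e x).const_mul _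
  have hlim := hR e ψ hψ hψ0
  have hT2 : Tendsto (fun N : ℝ => |Bf n ν N (lin e) ψ| + C2 n C * ‖e‖ * t * ∫ x, G x ∂ν) atTop
      (𝓝 (|(0:ℝ)| + C2 n C * ‖e‖ * t * ∫ x, G x ∂ν)) :=
    (hlim.abs).add tendsto_const_nhds
  rw [abs_zero, zero_add] at hT2
  have := le_of_tendsto_of_tendsto hT.abs hT2 (by
    filter_upwards [eventually_gt_atTop 0] with N hN
    exact hbound N hN)
  refine this.trans (le_of_eq (by ring))

end Crest.Agent.R085.Flat
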