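import Crest.Agent.R085.Targets
import Crest.Agent.R085.Resc

/-!
R085, module M8, piece P1: it is enough to prove the propagation of flatness in normalised
position (centre `0`, scale `1`, the plane parallel to the standard `n`-plane).
Owner: helper237.
-/

set_option autoImplicit false

namespace Crest.Agent.R085.M8

open MeasureTheory Metric Set Filter
open scoped ENNReal NNReal Topology

variable {d : ℕ}

theorem map_iso_apply (g : V d ≃ₗᵢ[ℝ] V d) (μ : Measure (V d)) (s : Set (V d)) :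
    (μ.map g) s = μ (g ⁻¹' s) :=
  g.toHomeomorph.toMeasurableEquiv.map_apply s

theorem preimage_iso_ball (g : V d ≃ₗᵢ[ℝ] V d) (x : V d) (r : ℝ) :
    g ⁻¹' ball x r = ball (g.symm x) r := by
  ext y
  rw [mem_preimage, mem_ball, mem_ball, ← g.dist_map y (g.symm x), g.apply_symm_apply]

theorem map_iso_ball (g : V d ≃ₗᵢ[ℝ] V d) (μ : Measure (V d)) (x : V d) (r : ℝ) :
    (μ.map g) (ball x r) = μ (ball (g.symm x) r) := by
  rw [map_iso_apply, preimage_iso_ball]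

theorem mem_support_map_iso (g : V d ≃ₗᵢ[ℝ] V d) (μ : Measure (V d)) (x : V d) :
    x ∈ (μ.map g).support ↔ g.symm x ∈ μ.support := by
  rw [mem_support_iff_forall_ball, mem_support_iff_forall_ball]
  simp only [map_iso_ball]

theorem adr_map_iso {n : ℕ} {C : ℝ} {D : ℝ≥0∞} {μ : Measure (V d)} (h : ADR n C D μ)
    (g : V d ≃ₗᵢ[ℝ] V d) : ADR n C D (μ.map g) := by
  refine ⟨h.one_le, fun x r hr => ?_, fun x hx r hr hrD => ?_⟩
  · rw [map_iso_ball]; exact h.upper _ _ hr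
  · rw [map_iso_ball]
    exact h.lower _ ((mem_support_map_iso g μ x).1 hx) _ hr hrD

theorem integral_map_iso {F : Type*} [NormedAddCommGroup F] [NormedSpace ℝ F]
    (g : V d ≃ₗᵢ[ℝ] V d) (μ : Measure (V d)) (f : V d → F) :
    ∫ z, f z ∂(μ.map g) = ∫ y, f (g y) ∂μ :=
  g.toHomeomorph.measurableEmbedding.integral_map f

theorem setIntegral_map_iso {F : Type*} [NormedAddCommGroup F] [NormedSpace ℝ F]
    (g : V d ≃ₗᵢ[ℝ] V d) (μ : Measure (V d)) (f : V d → F) (x : V d) (r : ℝ) :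
    ∫ z in ball x r, f z ∂(μ.map g) = ∫ y in ball (g.symm x) r, f (g y) ∂μ := by
  rw [← preimage_iso_ball]
  exact g.toHomeomorph.measurableEmbedding.setIntegral_map f _

theorem Bf_map_iso (n : ℕ) (g : V d ≃ₗᵢ[ℝ] V d) (μ : Measure (V d)) [SFinite μ] (N : ℝ)
    (u ψ : V d → ℝ) :
    Bf n (μ.map g) N u ψ = Bf n μ N (fun y => u (g y)) (fun y => ψ (g y)) := by
  have hm : Measurable (g : V d → V d) := g.continuous.measurable
  unfold Bf
  rw [Measure.map_prod_map μ μ hm hm]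
  have he : MeasurableEmbedding (Prod.map (g : V d → V d) (g : V d → V d)) :=
    (g.toHomeomorph.prodCongr g.toHomeomorph).measurableEmbedding
  rw [he.integral_map]
  congr 1
  refine integral_congr_ae (Eventually.of_forall fun p => ?_)
  simp only [Prod.map_fst, Prod.map_snd]
  unfold kN
  rw [← map_sub, g.norm_map]

theorem lin_map_iso (g : V d ≃ₗᵢ[ℝ] V d) (e : V d) :
    (fun y => lin e (g y)) = lin (g.symm e) := by
  ext y
  unfold lin
  rw [← g.symm.inner_map_map (g y) e, g.symm_apply_apply]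

theorem etaS_map_iso {n : ℕ} (g : V d ≃ₗᵢ[ℝ] V d) {μ : Measure (V d)} [SFinite μ] {z : V d}
    {t M δ : ℝ} (h : EtaS n μ z t M δ) : EtaS n (μ.map g) (g z) t M δ := by
  intro e he ψ h1 h2 h3 h4
  have h5 := h (g.symm e) (by rw [g.symm.norm_map]; exact he) (fun y => ψ (g y))
    (fun y y' => by
      have := h1 (g y) (g y')
      rwa [g.dist_map] at this)
    (fun y => h2 _)
    (fun y hy => h3 _ (fun hy' => hy (by
      rw [mem_ball] at hy' ⊢
      rwa [g.dist_map] at hy')))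
    (by rw [← integral_map_iso g μ ψ]; exact h4)
  filter_upwards [h5] with N hN
  rw [Bf_map_iso, lin_map_iso]
  exact hN

theorem flatW_of_map_iso {n : ℕ} (g : V d ≃ₗᵢ[ℝ] V d) {μ : Measure (V d)} {z : V d}
    {ρ ε M : ℝ} (h : FlatW n (μ.map g) (g z) ρ ε M) : FlatW n μ z ρ ε M := by
  obtain ⟨g', b, hg'⟩ := h
  refine ⟨g.trans g', b, fun R hR hR' => ?_⟩
  have h1 := hg' R hR hR'
  rw [setIntegral_map_iso, g.symm_apply_apply] at h1
  exact h1

/-- It is enough to prove the propagation of flatness in normalised position. -/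
theorem propagation_of_normalised (n d : ℕ) (C q : ℝ)
    (h : ∃ ε1 : ℝ, 0 < ε1 ∧ ∀ ε : ℝ, 0 < ε → ε ≤ ε1 → ∀ (μ : Measure (V d)) (D : ℝ≥0∞),
      ADR n C D μ → ENNReal.ofReal ((ε ^ 3)⁻¹) ≤ D → (0 : V d) ∈ μ.support →
      (∃ b : V d, ∀ R : ℝ, 1 ≤ R → R ≤ (ε ^ 3)⁻¹ →
        ∫ y in ball 0 R, nsq n (y - b) ∂μ ≤ ε ^ 2 * R * R ^ (n + 2)) →
      EtaS n μ 0 1 (ε ^ 3)⁻¹ (ε ^ 3) →
      ∀ x' ∈ μ.support, dist x' 0 ≤ 4 → FlatW n μ x' q ε (ε ^ 3)⁻¹) :
    TPropagation n d C q := by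
  obtain ⟨ε1, hε1, h⟩ := h
  refine ⟨ε1, hε1, ?_⟩
  intro ε hε hε1' μ D x ρ hA hρ hD hx hF hE x' hx' hxx'
  have hM : 0 < (ε ^ 3)⁻¹ := by positivity
  have hlf : IsLocallyFiniteMeasure μ := hA.isLocallyFinite
  set μ1 : Measure (V d) := resc n x ρ μ with hμ1
  have hA1 : ADR n C (ENNReal.ofReal ((ε ^ 3)⁻¹)) μ1 := by
    refine hA.resc x hρ ?_
    rw [← ENNReal.ofReal_mul hρ.le, mul_comm]
    exact hD
  have hlf1 : IsLocallyFiniteMeasure μ1 := hA1.isLocallyFinite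
  have hF1 : FlatW n μ1 0 1 ε (ε ^ 3)⁻¹ := by
    rw [hμ1, FlatW_resc x hρ, smul_zero, add_zero, mul_one]
    exact hF
  have hE1 : EtaS n μ1 0 1 (ε ^ 3)⁻¹ (ε ^ 3) := by
    rw [hμ1, EtaS_resc x hρ _ one_pos, smul_zero, add_zero, mul_one]
    exact hE
  obtain ⟨g, b, hgb⟩ := hF1
  have hA2 : ADR n C (ENNReal.ofReal ((ε ^ 3)⁻¹)) (μ1.map g) := adr_map_iso hA1 g
  have h0 : (0 : V d) ∈ (μ1.map g).support := by
    rw [mem_support_map_iso, map_zero, hμ1, mem_support_resc n x hρ, smul_zero, add_zero]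
    exact hx
  have hE2 : EtaS n (μ1.map g) 0 1 (ε ^ 3)⁻¹ (ε ^ 3) := by
    have := etaS_map_iso g hE1
    rwa [map_zero] at this
  set z : V d := ρ⁻¹ • (x' - x) with hz
  have hxz : x + ρ • z = x' := by
    rw [hz, smul_smul, mul_inv_cancel₀ hρ.ne', one_smul]
    abel
  have hz1 : g z ∈ (μ1.map g).support := by
    rw [mem_support_map_iso, g.symm_apply_apply, hμ1, mem_support_resc n x hρ, hxz]
    exact hx'
  have hz2 : dist (g z) 0 ≤ 4 := by
    rw [dist_zero_right, g.norm_map, hz, norm_smul, norm_inv, Real.norm_eq_abs, abs_of_pos hρ,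
      inv_mul_le_iff₀ hρ, ← dist_eq_norm, dist_comm]
    linarith
  have h3 := h ε hε hε1' (μ1.map g) _ hA2 le_rfl h0 ⟨b, fun R hR1 hR2 => ?_⟩ hE2 (g z) hz1 hz2
  · have h4 := flatW_of_map_iso g h3
    rw [hμ1, FlatW_resc x hρ, hxz, mul_comm] at h4
    exact h4
  · have h5 := hgb R hR1 (by rw [mul_one]; exact hR2)
    rw [setIntegral_map_iso, map_zero]
    rw [div_one] at h5
    exact h5

end Crest.Agent.R085.M8
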