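import Crest.Agent.R085.M8b
import Crest.Agent.R085.M8Sim
import Crest.Agent.R085.FlatTransfer

/-!
R085: `TFull` (full support on an `n`-plane) from the full support theorem in dimension `n`.
Owner: helper237.
-/

set_option autoImplicit false

namespace Crest.Agent.R085

open MeasureTheory Metric Set Filter
open scoped ENNReal NNReal Topology

namespace M8

variable {d : ℕ}

theorem refl_map_iso {n : ℕ} (g : V d ≃ₗᵢ[ℝ] V d) {μ : Measure (V d)} [SFinite μ]
    (h : Refl n μ) : Refl n (μ.map g) := by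
  intro e ψ hψ h0
  rw [integral_map_iso] at h0
  have h1 : IsTest (fun y => ψ (g y)) := by
    obtain ⟨K, hK⟩ := hψ.lip
    refine ⟨⟨K * 1, hK.comp g.lipschitz⟩, ?_⟩
    exact hψ.cpt.comp_homeomorph g.toHomeomorph
  have h2 := h (g.symm e) (fun y => ψ (g y)) h1 h0
  refine h2.congr fun N => ?_
  rw [Bf_map_iso, lin_map_iso]

/-- every linear isometric embedding of `V n` in `V d` is a rotation of the standard one. -/
theorem exists_rotation {n : ℕ} (hnd : n ≤ d) (ι : V n →ₗᵢ[ℝ] V d) :
    ∃ g : V d ≃ₗᵢ[ℝ] V d, ∀ z, g (ι z) = inc n d z := by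
  classical
  set S : Submodule ℝ (V d) := LinearMap.range ι.toLinearMap with hS
  set L : S →ₗᵢ[ℝ] V d := (incL hnd).comp ι.equivRange.symm.toLinearIsometry with hL
  refine ⟨L.extend.toLinearIsometryEquiv rfl, fun z => ?_⟩
  have h1 : (⟨ι z, ⟨z, rfl⟩⟩ : S) = ι.equivRange z := rfl
  have h2 := L.extend_apply ⟨ι z, ⟨z, rfl⟩⟩
  rw [LinearIsometry.coe_toLinearIsometryEquiv]
  refine h2.trans ?_
  rw [h1, hL]
  simp

end M8

/-- `TFull` from the full support theorem for reflectionless `n`-regular measures on `V n`. -/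
theorem tFull_of {n d : ℕ} {C : ℝ}
    (hS2 : ∀ ν : Measure (V n), ADR n C ⊤ ν → Refl n ν → ν.support.Nonempty → ν.support = univ) :
    TFull n d C := by
  intro ν hA hR h0 ι hι
  have hnd : n ≤ d := by
    have h := LinearMap.finrank_le_finrank_of_injective (f := ι.toLinearMap) ι.injective
    rwa [finrank_euclideanSpace_fin, finrank_euclideanSpace_fin] at h
  have hlf : IsLocallyFiniteMeasure ν := hA.isLocallyFinite
  obtain ⟨g, hg⟩ := M8.exists_rotation hnd ι
  have hA1 : ADR n C ⊤ (ν.map g) := M8.adr_map_iso hA g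
  have hR1 : Refl n (ν.map g) := M8.refl_map_iso g hR
  have hne : (ν.map g).support.Nonempty := by
    refine ⟨0, ?_⟩
    rw [M8.mem_support_map_iso, map_zero]
    exact h0
  have hfl : ∀ y ∈ (ν.map g).support, nsq n y = 0 := by
    intro y hy
    rw [M8.mem_support_map_iso] at hy
    obtain ⟨z, hz⟩ := hι hy
    have h1 : y = inc n d z := by
      rw [← hg, hz, g.apply_symm_apply]
    rw [← norm_nrm_sq, h1, nrm_inc, norm_zero]
    norm_num
  obtain ⟨hA2, hR2, hne2, hback⟩ := Flat.transfer hnd hA1 hR1 hne hfl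
  have hfull := hS2 _ hA2 hR2 hne2
  rintro _ ⟨z, rfl⟩
  have hz : z ∈ ((ν.map g).map (prj n)).support := by rw [hfull]; exact mem_univ _
  have h3 : inc n d z ∈ (ν.map g).support := by
    rw [mem_support_iff_forall_ball] at hz ⊢
    intro r hr
    have h4 := hz r hr
    rw [← hback, Measure.map_apply (Flat.continuous_inc n d hnd).measurable measurableSet_ball]
    refine h4.trans_le (measure_mono fun w hw => ?_)
    rw [mem_preimage, mem_ball, Flat.dist_inc hnd]
    exact hw
  rw [M8.mem_support_map_iso, ← hg, g.symm_apply_apply] at h3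
  exact h3

end Crest.Agent.R085
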