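import Mathlib
import Crest.Prelude.Def_RieszRectifiability

/-!
R085 (S0113), module M11: interface between the Crest definitions and internal ones.
-/

set_option autoImplicit false

open MeasureTheory Metric Set Filter Topology
open scoped ENNReal NNReal

namespace Crest.Agent.R085.Interface

/-- Upper bound for the measure of every ball (all centres, all radii), with a constant
depending only on `d`, `n` and `C`. -/
theorem exists_upper_const (d n : ℕ) (C : ℝ) :
    ∃ C' : ℝ, 1 ≤ C' ∧ C ≤ C' ∧ ∀ μ : Measure (EuclideanSpace ℝ (Fin d)),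
      Crest.AnalysisR.IsADRegular n C μ → (∃ r, Crest.AnalysisR.IsAdmissibleRadius μ r) →
      ∀ (x : EuclideanSpace ℝ (Fin d)) (r : ℝ), 0 < r →
        μ (ball x r) ≤ ENNReal.ofReal (C' * r ^ n) := by
  classical
  obtain ⟨t, ht, htcov⟩ : ∃ t : Set (EuclideanSpace ℝ (Fin d)), t.Finite ∧
      closedBall (0 : EuclideanSpace ℝ (Fin d)) 1 ⊆ ⋃ z ∈ t, ball z (1 / 4) := by
    have h := (isCompact_closedBall (0 : EuclideanSpace ℝ (Fin d)) 1).totallyBounded
    rw [Metric.totallyBounded_iff] at h
    exact h (1 / 4) (by norm_num)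
  set N : ℝ := (ht.toFinset.card : ℝ) with hN
  have hN0 : 0 ≤ N := by positivity
  refine ⟨(N + 1) * (|C| + 1) * 2 ^ n, ?_, ?_, ?_⟩
  · have h1 : (1 : ℝ) ≤ 2 ^ n := one_le_pow₀ (by norm_num)
    have h2 : (1 : ℝ) ≤ (N + 1) * (|C| + 1) := by nlinarith [abs_nonneg C]
    nlinarith
  · have h1 : (1 : ℝ) ≤ 2 ^ n := one_le_pow₀ (by norm_num)
    have h2 : |C| ≤ (N + 1) * (|C| + 1) := by nlinarith [abs_nonneg C]
    have h3 : 0 ≤ (N + 1) * (|C| + 1) := by positivity
    nlinarith [le_abs_self C]
  intro μ hμ hadm x r hr
  obtain ⟨hC1, hAD⟩ := hμ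
  have hCabs : |C| = C := abs_of_nonneg (by linarith)
  obtain ⟨r0, hr0, hr0adm⟩ := hadm
  have h2n : (0:ℝ) < 2 ^ n := by positivity
  by_cases hne : (ball x r ∩ μ.support).Nonempty
  swap
  · have hsub : ball x r ⊆ μ.supportᶜ := by
      intro z hz hzs
      exact hne ⟨z, hz, hzs⟩
    have h0 : μ (ball x r) = 0 := by
      have := Measure.measure_compl_support (μ := μ)
      exact measure_mono_null hsub this
    rw [h0]; exact zero_le
  obtain ⟨y, hyx, hys⟩ := hne
  have hsub : ball x r ⊆ ball y (2 * r) := by
    intro z hz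
    rw [mem_ball] at *
    calc dist z y ≤ dist z x + dist x y := dist_triangle _ _ _
      _ < r + r := by rw [dist_comm x y]; linarith
      _ = 2 * r := by ring
  -- key bound
  have key : μ (ball y (2 * r)) ≤ ENNReal.ofReal ((N + 1) * C * (2 * r) ^ n) := by
    by_cases hD : ENNReal.ofReal (2 * r) ≤ Metric.ediam μ.support
    · have h := (hAD y hys (2 * r) ⟨by linarith, hD⟩).2
      refine h.trans (ENNReal.ofReal_le_ofReal ?_)
      have : 0 ≤ (2 * r) ^ n := by positivity
      have : 0 ≤ C * (2 * r) ^ n := by positivity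
      nlinarith
    · push Not at hD
      have hDfin : Metric.ediam μ.support ≠ ∞ := ne_top_of_lt hD
      set D : ℝ := (Metric.ediam μ.support).toReal with hDdef
      have hDof : ENNReal.ofReal D = Metric.ediam μ.support := ENNReal.ofReal_toReal hDfin
      have hDpos : 0 < D := by
        have : 0 < Metric.ediam μ.support :=
          lt_of_lt_of_le (ENNReal.ofReal_pos.mpr hr0) hr0adm
        exact ENNReal.toReal_pos this.ne' hDfin
      have hDlt : D < 2 * r := by
        rw [← hDof] at hD
        exact (ENNReal.ofReal_lt_ofReal_iff (by linarith)).1 hD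
      have hSsub : μ.support ⊆ closedBall y D := by
        intro z hz
        rw [mem_closedBall, dist_edist]
        exact ENNReal.toReal_mono hDfin (Metric.edist_le_ediam_of_mem hz hys)
      have hcov : μ.support ⊆ ⋃ z ∈ ht.toFinset, ball (y + D • z) (D / 4) := by
        intro w hw
        have hw' : D⁻¹ • (w - y) ∈ closedBall (0 : EuclideanSpace ℝ (Fin d)) 1 := by
          rw [mem_closedBall, dist_zero_right, norm_smul, Real.norm_eq_abs,
            abs_of_pos (inv_pos.mpr hDpos)]
          have := hSsub hw
          rw [mem_closedBall, dist_eq_norm] at this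
          rw [inv_mul_le_iff₀ hDpos]; linarith
        have := htcov hw'
        simp only [mem_iUnion, exists_prop] at this
        obtain ⟨z, hz, hzw⟩ := this
        simp only [mem_iUnion, exists_prop, Set.Finite.mem_toFinset]
        refine ⟨z, hz, ?_⟩
        rw [mem_ball, dist_eq_norm] at *
        have : w - (y + D • z) = D • (D⁻¹ • (w - y) - z) := by
          rw [smul_sub, smul_smul, mul_inv_cancel₀ hDpos.ne', one_smul]; abel
        rw [this, norm_smul, Real.norm_eq_abs, abs_of_pos hDpos]
        calc D * ‖D⁻¹ • (w - y) - z‖ < D * (1 / 4) := by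
              exact mul_lt_mul_of_pos_left hzw hDpos
          _ = D / 4 := by ring
      have hpiece : ∀ z ∈ ht.toFinset, μ (ball (y + D • z) (D / 4)) ≤
          ENNReal.ofReal (C * (2 * r) ^ n) := by
        intro z _
        by_cases hz : (ball (y + D • z) (D / 4) ∩ μ.support).Nonempty
        · obtain ⟨w, hw1, hw2⟩ := hz
          have hsub2 : ball (y + D • z) (D / 4) ⊆ ball w (D / 2) := by
            intro v hv
            rw [mem_ball] at *
            calc dist v w ≤ dist v (y + D • z) + dist (y + D • z) w := dist_triangle _ _ _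
              _ < D / 4 + D / 4 := by rw [dist_comm (y + D • z) w]; linarith
              _ = D / 2 := by ring
          have hadm2 : Crest.AnalysisR.IsAdmissibleRadius μ (D / 2) := by
            refine ⟨by linarith, ?_⟩
            rw [← hDof]
            exact ENNReal.ofReal_le_ofReal (by linarith)
          refine (measure_mono hsub2).trans (((hAD w hw2 (D / 2) hadm2).2).trans
            (ENNReal.ofReal_le_ofReal ?_))
          have : (D / 2) ^ n ≤ (2 * r) ^ n := pow_le_pow_left₀ (by linarith) (by linarith) n
          exact mul_le_mul_of_nonneg_left this (by linarith)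
        · have hsub2 : ball (y + D • z) (D / 4) ⊆ μ.supportᶜ := by
            intro v hv hvs
            exact hz ⟨v, hv, hvs⟩
          have h0 : μ (ball (y + D • z) (D / 4)) = 0 :=
            measure_mono_null hsub2 (Measure.measure_compl_support (μ := μ))
          rw [h0]; exact zero_le
      have huniv : μ (ball y (2 * r)) ≤ μ (⋃ z ∈ ht.toFinset, ball (y + D • z) (D / 4)) := by
        have h1 : μ (ball y (2 * r)) ≤ μ (μ.support) + μ (μ.supportᶜ) := by
          calc μ (ball y (2 * r)) ≤ μ (μ.support ∪ μ.supportᶜ) :=
                measure_mono (by rw [union_compl_self]; exact subset_univ _)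
            _ ≤ _ := measure_union_le _ _
        rw [Measure.measure_compl_support, add_zero] at h1
        exact h1.trans (measure_mono hcov)
      refine huniv.trans ((measure_biUnion_finset_le _ _).trans ?_)
      refine (Finset.sum_le_sum hpiece).trans ?_
      rw [Finset.sum_const, nsmul_eq_mul]
      have hcast : ((ht.toFinset.card : ℕ) : ℝ≥0∞) = ENNReal.ofReal N := by
        rw [hN, ENNReal.ofReal_natCast]
      rw [hcast, ← ENNReal.ofReal_mul hN0]
      refine ENNReal.ofReal_le_ofReal ?_
      have : 0 ≤ C * (2 * r) ^ n := by positivity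
      nlinarith
  refine (measure_mono hsub).trans (key.trans (ENNReal.ofReal_le_ofReal ?_))
  rw [mul_pow, hCabs]
  have hrn : 0 ≤ r ^ n := by positivity
  have h5 : 0 ≤ (N + 1) * 2 ^ n * r ^ n := by positivity
  nlinarith

end Crest.Agent.R085.Interface
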