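import Crest.Agent.R085.Defs

/-!
R085: the operator `Λ` (half Laplacian up to a constant) in absolutely convergent form.
Shared by M6, M7, M8.
-/

set_option autoImplicit false

namespace Crest.Agent.R085

open MeasureTheory Metric Set Filter
open scoped ENNReal NNReal Topology

/-- `Λψ(x) = ∫ (2ψ(x) - ψ(x+h) - ψ(x-h)) |h|^{-(n+1)} dh`
(absolutely convergent for `ψ` of class `C²` with compact support). -/
noncomputable def Lam (n : ℕ) (ψ : V n → ℝ) (x : V n) : ℝ :=
  ∫ h : V n, (2 * ψ x - ψ (x + h) - ψ (x - h)) * (‖h‖ ^ (n + 1))⁻¹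

end Crest.Agent.R085
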