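import Mathlib

/-!
# R085, module M3: weak limits of measures along an ultrafilter (definitions, existence)

`WLim U m ν` : the locally finite measures `m k` have `U`-eventually bounded mass on every ball,
`ν` is locally finite, and `∫ f dm_k → ∫ f dν` along `U` for every continuous compactly supported
real function `f`.
-/

set_option autoImplicit false

open MeasureTheory Filter Topology Metric Set
open scoped ENNReal NNReal CompactlySupported

namespace Crest.Agent.R085

variable {E : Type*} [NormedAddCommGroup E] [NormedSpace ℝ E] [ProperSpace E]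
  [MeasurableSpace E] [BorelSpace E] {ι : Type*}

/-- weak (vague) convergence of measures along an ultrafilter -/
structure WLim (U : Ultrafilter ι) (m : ι → Measure E) (ν : Measure E) : Prop where
  lfk : ∀ k, IsLocallyFiniteMeasure (m k)
  lf : IsLocallyFiniteMeasure ν
  bdd : ∀ R : ℝ, ∃ C : ℝ, ∀ᶠ k in (U : Filter ι), m k (closedBall 0 R) ≤ ENNReal.ofReal C
  tendsto : ∀ f : E → ℝ, Continuous f → HasCompactSupport f →
    Tendsto (fun k => ∫ x, f x ∂(m k)) (U : Filter ι) (𝓝 (∫ x, f x ∂ν))

omit [NormedSpace ℝ E] in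
/-- existence of weak limits along ultrafilters -/
theorem exists_wLim (U : Ultrafilter ι) (m : ι → Measure E)
    (hlf : ∀ k, IsLocallyFiniteMeasure (m k))
    (hb : ∀ R : ℝ, ∃ C : ℝ, ∀ᶠ k in (U : Filter ι), m k (closedBall 0 R) ≤ ENNReal.ofReal C) :
    ∃ ν : Measure E, WLim U m ν := by
  have L : ∀ g : C_c(E, ℝ), ∃ x : ℝ, Tendsto (fun k => ∫ y, g y ∂(m k)) (U : Filter ι) (𝓝 x) := by
    intro g
    obtain ⟨R, hR⟩ := g.hasCompactSupport.isCompact.isBounded.subset_closedBall 0
    obtain ⟨C, hC⟩ := hb R
    obtain ⟨B, hB⟩ : ∃ B : ℝ, ∀ x, ‖g x‖ ≤ B := by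
      obtain ⟨B, hB⟩ := g.hasCompactSupport.exists_bound_of_continuous g.continuous
      exact ⟨B, hB⟩
    have hB0 : 0 ≤ B := le_trans (norm_nonneg _) (hB 0)
    have key : ∀ᶠ k in (U : Filter ι),
        (∫ y, g y ∂(m k)) ∈ Icc (-(B * max C 0)) (B * max C 0) := by
      filter_upwards [hC] with k hk
      have := hlf k
      rw [mem_Icc, ← abs_le]
      have hs : ∀ y, y ∉ closedBall (0 : E) R → g y = 0 := by
        intro y hy
        exact image_eq_zero_of_notMem_tsupport fun h => hy (hR h)
      rw [← setIntegral_eq_integral_of_forall_compl_eq_zero hs]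
      calc |∫ y in closedBall 0 R, g y ∂(m k)| = ‖∫ y in closedBall 0 R, g y ∂(m k)‖ := rfl
        _ ≤ B * (m k).real (closedBall 0 R) := by
            apply norm_setIntegral_le_of_norm_le_const
            · exact (isCompact_closedBall (0 : E) R).measure_lt_top
            · intro y _; exact hB y
        _ ≤ B * max C 0 := by
            gcongr
            rw [measureReal_def]
            calc (m k (closedBall 0 R)).toReal ≤ (ENNReal.ofReal C).toReal :=
                  ENNReal.toReal_mono ENNReal.ofReal_ne_top hk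
              _ = max C 0 := ENNReal.toReal_ofReal'
    have := IsCompact.ultrafilter_le_nhds' (isCompact_Icc (a := -(B * max C 0))
      (b := B * max C 0)) (U.map fun k => ∫ y, g y ∂(m k)) key
    obtain ⟨x, _, hx⟩ := this
    exact ⟨x, hx⟩
  choose Λ hΛ using L
  let Λ' : C_c(E, ℝ) →ₚ[ℝ] ℝ :=
  { toFun := Λ
    map_add' g g' := by
      have : Tendsto (fun k => ∫ x, (g + g') x ∂(m k)) (U : Filter ι) (𝓝 (Λ g + Λ g')) := by
        refine ((hΛ g).add (hΛ g')).congr fun k => ?_
        have := hlf k
        rw [← integral_add]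
        · rfl
        · exact g.continuous.integrable_of_hasCompactSupport g.hasCompactSupport
        · exact g'.continuous.integrable_of_hasCompactSupport g'.hasCompactSupport
      exact tendsto_nhds_unique (hΛ (g + g')) this
    map_smul' c g := by
      have : Tendsto (fun k => ∫ x, (c • g) x ∂(m k)) (U : Filter ι) (𝓝 (c • Λ g)) := by
        refine ((hΛ g).const_smul c).congr fun k => ?_
        rw [← integral_smul]
        rfl
      exact tendsto_nhds_unique (hΛ (c • g)) this
    monotone' g g' hgg' := by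
      refine le_of_tendsto_of_tendsto' (hΛ g) (hΛ g') fun k => ?_
      have := hlf k
      apply integral_mono _ _ hgg'
      · exact g.continuous.integrable_of_hasCompactSupport g.hasCompactSupport
      · exact g'.continuous.integrable_of_hasCompactSupport g'.hasCompactSupport }
  refine ⟨RealRMK.rieszMeasure Λ', ⟨hlf, inferInstance, hb, fun f hf hfc => ?_⟩⟩
  have h1 := RealRMK.integral_rieszMeasure Λ' ⟨⟨f, hf⟩, hfc⟩
  have h2 := hΛ ⟨⟨f, hf⟩, hfc⟩
  change Tendsto (fun k => ∫ x, f x ∂(m k)) (U : Filter ι) (𝓝 (∫ x, f x ∂(RealRMK.rieszMeasure Λ')))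
  have h3 : ∫ x, f x ∂(RealRMK.rieszMeasure Λ') = Λ ⟨⟨f, hf⟩, hfc⟩ := h1
  rw [h3]
  exact h2

end Crest.Agent.R085
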