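import Crest.Agent.R085.Lim1

/-!
# R085, module M3 / L5: weak limits of L2-bounded densities

If `μ k → ν` vaguely along an ultrafilter and `u k : E → F` is bounded in `L²(μ k)` on balls, then
`(u k) μ k` converges (along the same ultrafilter, against continuous compactly supported test
functions) to `w ν` with `w` locally in `L²(ν)`, with the same bounds.
-/

set_option autoImplicit false
set_option linter.unusedSectionVars false

open MeasureTheory Filter Topology Metric Set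
open scoped ENNReal NNReal

namespace Crest.Agent.R085

/-- Riesz representation of a linear functional controlled by a Hilbert seminorm. -/
theorem hilbert_repr {M : Type*} [AddCommGroup M] [Module ℝ M] {H : Type*}
    [NormedAddCommGroup H] [InnerProductSpace ℝ H] [CompleteSpace H] (e : M →ₗ[ℝ] H)
    (T : M →ₗ[ℝ] ℝ) (C : ℝ) (hC : 0 ≤ C) (h : ∀ m, |T m| ≤ C * ‖e m‖) :
    ∃ w : H, ‖w‖ ≤ C ∧ ∀ m, T m = inner ℝ w (e m) := by
  classical
  have hker : LinearMap.ker e ≤ LinearMap.ker T := by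
    intro m hm
    rw [LinearMap.mem_ker] at hm ⊢
    have := h m
    rw [hm, norm_zero, mul_zero] at this
    exact abs_eq_zero.mp (le_antisymm this (abs_nonneg _))
  let T' : LinearMap.range e →ₗ[ℝ] ℝ :=
    ((LinearMap.ker e).liftQ T hker).comp e.quotKerEquivRange.symm.toLinearMap
  have hT' : ∀ m, T' ⟨e m, LinearMap.mem_range_self e m⟩ = T m := by
    intro m
    simp only [T', LinearMap.comp_apply, LinearEquiv.coe_coe]
    rw [LinearMap.quotKerEquivRange_symm_apply_image]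
    simp
  have hb : ∀ y : LinearMap.range e, ‖T' y‖ ≤ C * ‖y‖ := by
    rintro ⟨y, m, rfl⟩
    rw [hT' m]
    simpa using h m
  let T'' : StrongDual ℝ (LinearMap.range e) := T'.mkContinuous C hb
  obtain ⟨g, hg1, hg2⟩ := exists_extension_norm_eq (LinearMap.range e) T''
  refine ⟨(InnerProductSpace.toDual ℝ H).symm g, ?_, fun m => ?_⟩
  · rw [LinearIsometryEquiv.norm_map, hg2]
    exact T'.mkContinuous_norm_le hC hb
  · rw [InnerProductSpace.toDual_symm_apply]
    have h1 := hg1 ⟨e m, LinearMap.mem_range_self e m⟩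
    rw [h1]
    exact (hT' m).symm

section L2calc

variable {α : Type*} [MeasurableSpace α] {F : Type*} [NormedAddCommGroup F] [InnerProductSpace ℝ F]

theorem inner_toLp_eq {μ : Measure α} {f g : α → F} (hf : MemLp f 2 μ) (hg : MemLp g 2 μ) :
    inner ℝ (hf.toLp f) (hg.toLp g) = ∫ x, inner ℝ (f x) (g x) ∂μ := by
  rw [L2.inner_def]
  refine integral_congr_ae ?_
  filter_upwards [hf.coeFn_toLp, hg.coeFn_toLp] with x h1 h2
  rw [h1, h2]

theorem norm_toLp_sq {μ : Measure α} {f : α → F} (hf : MemLp f 2 μ) :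
    ‖hf.toLp f‖ ^ 2 = ∫ x, ‖f x‖ ^ 2 ∂μ := by
  rw [← real_inner_self_eq_norm_sq, inner_toLp_eq hf hf]
  simp

theorem integrable_inner_of_memLp {μ : Measure α} {f g : α → F} (hf : MemLp f 2 μ)
    (hg : MemLp g 2 μ) : Integrable (fun x => inner ℝ (f x) (g x)) μ := by
  refine (L2.integrable_inner (𝕜 := ℝ) (hf.toLp f) (hg.toLp g)).congr ?_
  filter_upwards [hf.coeFn_toLp, hg.coeFn_toLp] with x h1 h2
  rw [h1, h2]

theorem abs_integral_inner_le_eLp {μ : Measure α} {f g : α → F} (hf : MemLp f 2 μ)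
    (hg : MemLp g 2 μ) : |∫ x, inner ℝ (f x) (g x) ∂μ| ≤
      Real.sqrt (∫ x, ‖f x‖ ^ 2 ∂μ) * Real.sqrt (∫ x, ‖g x‖ ^ 2 ∂μ) := by
  rw [← inner_toLp_eq hf hg, ← norm_toLp_sq hf, ← norm_toLp_sq hg, Real.sqrt_sq (norm_nonneg _),
    Real.sqrt_sq (norm_nonneg _)]
  exact abs_real_inner_le_norm _ _

end L2calc

section dens

variable {E : Type*} [NormedAddCommGroup E] [NormedSpace ℝ E] [FiniteDimensional ℝ E]
  [MeasurableSpace E] [BorelSpace E]
variable {F : Type*} [NormedAddCommGroup F] [InnerProductSpace ℝ F] [FiniteDimensional ℝ F]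
variable {ι : Type*}

/-- continuous compactly supported functions vanishing off `G` -/
def ccOn (G : Set E) (F : Type*) [NormedAddCommGroup F] [InnerProductSpace ℝ F] :
    Submodule ℝ (E → F) where
  carrier := {φ | Continuous φ ∧ HasCompactSupport φ ∧ ∀ x, x ∉ G → φ x = 0}
  add_mem' := by
    rintro a b ⟨h1, h2, h3⟩ ⟨g1, g2, g3⟩
    exact ⟨h1.add g1, h2.add g2, fun x hx => by simp [h3 x hx, g3 x hx]⟩
  zero_mem' := ⟨continuous_const, HasCompactSupport.zero, fun _ _ => rfl⟩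
  smul_mem' := by
    rintro c a ⟨h1, h2, h3⟩
    exact ⟨h1.const_smul c, h2.smul_left (f := fun _ => c), fun x hx => by simp [h3 x hx]⟩

theorem ccOn_memLp {G : Set E} {μ : Measure E} [IsFiniteMeasureOnCompacts μ] (φ : ccOn G F) :
    MemLp (φ : E → F) 2 μ :=
  φ.2.1.memLp_of_hasCompactSupport φ.2.2.1

/-- the embedding of the test functions into `L²(ν|G)` -/
noncomputable def ccToLp (G : Set E) (ν : Measure E) [IsFiniteMeasureOnCompacts ν] :
    ccOn G F →ₗ[ℝ] Lp F 2 (ν.restrict G) where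
  toFun φ := ((ccOn_memLp φ (μ := ν)).restrict G).toLp _
  map_add' a b := by
    rw [← MemLp.toLp_add]
    rfl
  map_smul' c a := by
    rw [RingHom.id_apply, ← MemLp.toLp_const_smul]
    rfl

theorem integral_inner_eq_restrict {G : Set E} {μ : Measure E} (φ : ccOn G F) (u : E → F) :
    ∫ x, inner ℝ ((φ : E → F) x) (u x) ∂μ = ∫ x in G, inner ℝ ((φ : E → F) x) (u x) ∂μ := by
  rw [setIntegral_eq_integral_of_forall_compl_eq_zero]
  intro x hx
  rw [φ.2.2.2 x hx, inner_zero_left]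

/-- Local representation of the limit of `(u k) μ k` on an open set. -/
theorem exists_repr_open (U : Ultrafilter ι) {μ : ι → Measure E} {ν : Measure E}
    [∀ k, IsFiniteMeasureOnCompacts (μ k)] [IsFiniteMeasureOnCompacts ν]
    (h : VagueTendsto (U : Filter ι) μ ν) {G : Set E} (u : ι → E → F) (c : ℝ)
    (hc : ∀ᶠ k in (U : Filter ι), MemLp (u k) 2 ((μ k).restrict G) ∧
      ∫ x in G, ‖u k x‖ ^ 2 ∂(μ k) ≤ c) :
    ∃ w : Lp F 2 (ν.restrict G), ‖w‖ ^ 2 ≤ c ∧ ∀ φ : ccOn G F,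
      Tendsto (fun k => ∫ x, inner ℝ ((φ : E → F) x) (u k x) ∂(μ k)) U
        (𝓝 (∫ x in G, inner ℝ ((φ : E → F) x) (w x) ∂ν)) := by
  classical
  have hc0 : 0 ≤ c := by
    obtain ⟨k, hk⟩ := hc.exists
    exact (integral_nonneg fun x => by positivity).trans hk.2
  -- the basic estimate
  have hest : ∀ φ : ccOn G F, ∀ᶠ k in (U : Filter ι),
      |∫ x, inner ℝ ((φ : E → F) x) (u k x) ∂(μ k)| ≤
        Real.sqrt (∫ x, ‖(φ : E → F) x‖ ^ 2 ∂(μ k)) * Real.sqrt c := by
    intro φ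
    filter_upwards [hc] with k hk
    rw [integral_inner_eq_restrict]
    refine (abs_integral_inner_le_eLp ((ccOn_memLp φ (μ := μ k)).restrict G) hk.1).trans ?_
    refine mul_le_mul (Real.sqrt_le_sqrt ?_) (Real.sqrt_le_sqrt hk.2) (Real.sqrt_nonneg _)
      (Real.sqrt_nonneg _)
    refine setIntegral_le_integral ?_ (ae_of_all _ fun x => by positivity)
    exact (ccOn_memLp φ (μ := μ k)).integrable_norm_pow (by norm_num)
  have hnsq : ∀ φ : ccOn G F, Continuous (fun x => ‖(φ : E → F) x‖ ^ 2) ∧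
      HasCompactSupport (fun x => ‖(φ : E → F) x‖ ^ 2) := by
    intro φ
    refine ⟨φ.2.1.norm.pow 2, ?_⟩
    exact φ.2.2.1.comp_left (g := fun y => ‖y‖ ^ 2) (by simp)
  have hlimsq : ∀ φ : ccOn G F, Tendsto (fun k => Real.sqrt (∫ x, ‖(φ : E → F) x‖ ^ 2 ∂(μ k)) *
      Real.sqrt c) U (𝓝 (Real.sqrt (∫ x, ‖(φ : E → F) x‖ ^ 2 ∂ν) * Real.sqrt c)) := by
    intro φ
    exact ((h _ (hnsq φ).1 (hnsq φ).2).sqrt).mul_const _
  have hex : ∀ φ : ccOn G F, ∃ a : ℝ,
      Tendsto (fun k => ∫ x, inner ℝ ((φ : E → F) x) (u k x) ∂(μ k)) U (𝓝 a) := by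
    intro φ
    refine ultra_exists_lim U _
      (Real.sqrt (∫ x, ‖(φ : E → F) x‖ ^ 2 ∂ν) * Real.sqrt c + 1) ?_
    filter_upwards [hest φ, (hlimsq φ).eventually_lt_const (lt_add_one _)] with k h1 h2
    exact h1.trans h2.le
  choose L hL using hex
  have hint : ∀ φ : ccOn G F, ∀ᶠ k in (U : Filter ι),
      Integrable (fun x => inner ℝ ((φ : E → F) x) (u k x)) (μ k) := by
    intro φ
    filter_upwards [hc] with k hk
    have h1 : IntegrableOn (fun x => inner ℝ ((φ : E → F) x) (u k x)) G (μ k) := by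
      exact integrable_inner_of_memLp ((ccOn_memLp φ (μ := μ k)).restrict G) hk.1
    refine (integrableOn_iff_integrable_of_support_subset ?_).mp h1
    intro x hx
    by_contra hxG
    exact hx (by simp [φ.2.2.2 x hxG])
  let T : ccOn G F →ₗ[ℝ] ℝ :=
    { toFun := L
      map_add' := by
        intro a b
        refine tendsto_nhds_unique (hL (a + b)) ?_
        refine ((hL a).add (hL b)).congr' ?_
        filter_upwards [hint a, hint b] with k ha hb
        rw [← integral_add ha hb]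
        refine integral_congr_ae (ae_of_all _ fun x => ?_)
        simp [inner_add_left]
      map_smul' := by
        intro r a
        refine tendsto_nhds_unique (hL (r • a)) ?_
        refine ((hL a).const_mul r).congr fun k => ?_
        rw [← integral_const_mul]
        refine integral_congr_ae (ae_of_all _ fun x => ?_)
        simp [inner_smul_left] }
  have hT : ∀ φ, |T φ| ≤ Real.sqrt c * ‖ccToLp G ν φ‖ := by
    intro φ
    have h1 : |L φ| ≤ Real.sqrt (∫ x, ‖(φ : E → F) x‖ ^ 2 ∂ν) * Real.sqrt c :=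
      le_of_tendsto_of_tendsto ((hL φ).abs) (hlimsq φ) (hest φ)
    have h2 : ‖ccToLp G ν φ‖ ^ 2 = ∫ x, ‖(φ : E → F) x‖ ^ 2 ∂ν := by
      have h3 := norm_toLp_sq ((ccOn_memLp φ (μ := ν)).restrict G)
      have h4 : ∫ x in G, ‖(φ : E → F) x‖ ^ 2 ∂ν = ∫ x, ‖(φ : E → F) x‖ ^ 2 ∂ν := by
        refine setIntegral_eq_integral_of_forall_compl_eq_zero fun x hx => ?_
        simp [φ.2.2.2 x hx]
      rw [h4] at h3
      exact h3
    rw [← h2, Real.sqrt_sq (norm_nonneg _), mul_comm] at h1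
    exact h1
  obtain ⟨w, hw1, hw2⟩ := hilbert_repr (ccToLp G ν) T (Real.sqrt c) (Real.sqrt_nonneg _) hT
  refine ⟨w, ?_, fun φ => ?_⟩
  · calc ‖w‖ ^ 2 ≤ (Real.sqrt c) ^ 2 := pow_le_pow_left₀ (norm_nonneg _) hw1 2
      _ = c := Real.sq_sqrt hc0
  · have h5 : L φ = ∫ x in G, inner ℝ ((φ : E → F) x) (w x) ∂ν := by
      have h6 : L φ = inner ℝ w (ccToLp G ν φ) := hw2 φ
      rw [h6, real_inner_comm, L2.inner_def]
      refine integral_congr_ae ?_
      have h7 := ((ccOn_memLp φ (μ := ν)).restrict G).coeFn_toLp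
      filter_upwards [h7] with x hx
      have h8 : (ccToLp G ν φ : E → F) x = (φ : E → F) x := hx
      rw [h8]
    rw [← h5]
    exact hL φ

theorem ae_eq_of_forall_ccOn {G : Set E} (hG : IsOpen G) {ν : Measure E}
    [IsFiniteMeasureOnCompacts ν] {w₁ w₂ : E → F} (h1 : MemLp w₁ 2 (ν.restrict G))
    (h2 : MemLp w₂ 2 (ν.restrict G))
    (h : ∀ φ : ccOn G F, ∫ x in G, inner ℝ ((φ : E → F) x) (w₁ x) ∂ν =
      ∫ x in G, inner ℝ ((φ : E → F) x) (w₂ x) ∂ν) :
    ∀ᵐ x ∂ν, x ∈ G → w₁ x = w₂ x := by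
  have h12 : MemLp (fun x => w₁ x - w₂ x) 2 (ν.restrict G) := h1.sub h2
  have hloc : LocallyIntegrableOn (fun x => w₁ x - w₂ x) G ν :=
    locallyIntegrableOn_of_locallyIntegrable_restrict (h12.locallyIntegrable (by norm_num))
  have key := hG.ae_eq_zero_of_integral_contDiff_smul_eq_zero hloc ?_
  · filter_upwards [key] with x hx hxG
    exact sub_eq_zero.mp (hx hxG)
  intro g hg hgc hgG
  have hg0 : ∀ x, x ∉ G → g x = 0 := fun x hx =>
    image_eq_zero_of_notMem_tsupport fun hx' => hx (hgG hx')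
  have hgL : MemLp g 2 (ν.restrict G) :=
    (hg.continuous.memLp_of_hasCompactSupport hgc).restrict G
  have e1 : ∫ x, g x • (w₁ x - w₂ x) ∂ν = ∫ x in G, g x • (w₁ x - w₂ x) ∂ν := by
    rw [setIntegral_eq_integral_of_forall_compl_eq_zero]
    intro x hx
    rw [hg0 x hx, zero_smul]
  rw [e1]
  refine ext_inner_left ℝ fun v => ?_
  rw [inner_zero_right]
  let φ : ccOn G F := ⟨fun x => g x • v, hg.continuous.smul continuous_const,
    hgc.smul_right, fun x hx => by simp [hg0 x hx]⟩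
  have hφ := h φ
  have hφL : MemLp (φ : E → F) 2 (ν.restrict G) := (ccOn_memLp φ).restrict G
  have hi1 := integrable_inner_of_memLp hφL h1
  have hi2 := integrable_inner_of_memLp hφL h2
  have e2 : ∫ x in G, inner ℝ ((φ : E → F) x) (w₁ x - w₂ x) ∂ν = 0 := by
    simp_rw [inner_sub_right]
    rw [integral_sub hi1 hi2, hφ, sub_self]
  have hi3 : Integrable (fun x => g x • (w₁ x - w₂ x)) (ν.restrict G) := by
    exact memLp_one_iff_integrable.mp (h12.smul hgL)
  rw [← integral_inner hi3 v, ← e2]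
  refine integral_congr_ae (ae_of_all _ fun x => ?_)
  change inner ℝ v (g x • (w₁ x - w₂ x)) = inner ℝ (g x • v) (w₁ x - w₂ x)
  rw [inner_smul_left, inner_smul_right]
  simp

/-- **L5**: weak limit of densities, bounded in `L²` on the balls `ball 0 m`. -/
theorem exists_density_limit (U : Ultrafilter ι) {μ : ι → Measure E} {ν : Measure E}
    [∀ k, IsFiniteMeasureOnCompacts (μ k)] [IsFiniteMeasureOnCompacts ν]
    (h : VagueTendsto (U : Filter ι) μ ν) (u : ι → E → F)
    (hc : ∀ m : ℕ, ∃ c : ℝ, ∀ᶠ k in (U : Filter ι), MemLp (u k) 2 ((μ k).restrict (ball 0 m)) ∧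
      ∫ x in ball 0 m, ‖u k x‖ ^ 2 ∂(μ k) ≤ c) :
    ∃ w : E → F, StronglyMeasurable w ∧ (∀ R : ℝ, MemLp w 2 (ν.restrict (ball 0 R))) ∧
      (∀ φ : E → F, Continuous φ → HasCompactSupport φ →
        Tendsto (fun k => ∫ x, inner ℝ (φ x) (u k x) ∂(μ k)) U
          (𝓝 (∫ x, inner ℝ (φ x) (w x) ∂ν))) := by
  classical
  choose c hc using hc
  have hrep := fun m : ℕ => exists_repr_open U h u (c m) (hc m)
  choose w hw1 hw2 using hrep
  -- consistency
  have hcons : ∀ m m' : ℕ, m ≤ m' → ∀ᵐ x ∂ν, x ∈ ball (0 : E) m → w m x = w m' x := by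
    intro m m' hmm
    have hsub : ball (0 : E) m ⊆ ball (0 : E) m' := ball_subset_ball (by exact_mod_cast hmm)
    refine ae_eq_of_forall_ccOn isOpen_ball (Lp.memLp _)
      ((Lp.memLp (w m')).mono_measure (Measure.restrict_mono hsub le_rfl)) fun φ => ?_
    let φ' : ccOn (ball (0 : E) (m' : ℝ)) F := ⟨(φ : E → F), φ.2.1, φ.2.2.1,
      fun x hx => φ.2.2.2 x fun hx' => hx (hsub hx')⟩
    have e1 := hw2 m φ
    have e2 := hw2 m' φ'
    have e3 := tendsto_nhds_unique e1 e2
    rw [e3, ← integral_inner_eq_restrict φ', ← integral_inner_eq_restrict φ]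
  let w₀ : E → F := fun x => w (⌊‖x‖⌋₊ + 1) x
  have hall : ∀ᵐ x ∂ν, ∀ m m' : ℕ, m ≤ m' → x ∈ ball (0 : E) m → w m x = w m' x := by
    rw [ae_all_iff]; intro m
    rw [ae_all_iff]; intro m'
    by_cases hmm : m ≤ m'
    · filter_upwards [hcons m m' hmm] with x hx _ using hx
    · exact ae_of_all _ fun x h' => absurd h' hmm
  have hw₀ : ∀ m : ℕ, ∀ᵐ x ∂ν, x ∈ ball (0 : E) m → w₀ x = w m x := by
    intro m
    filter_upwards [hall] with x hx hxm
    refine hx _ m ?_ ?_
    · rw [mem_ball_zero_iff] at hxm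
      have : ⌊‖x‖⌋₊ < m := (Nat.floor_lt (norm_nonneg _)).mpr hxm
      omega
    · rw [mem_ball_zero_iff]
      exact_mod_cast Nat.lt_floor_add_one ‖x‖
  have hw₀' : ∀ m : ℕ, w₀ =ᵐ[ν.restrict (ball (0 : E) m)] w m := by
    intro m
    rw [Filter.EventuallyEq, ae_restrict_iff' measurableSet_ball]
    exact hw₀ m
  have hun : (⋃ m : ℕ, ball (0 : E) (m : ℝ)) = univ := iUnion_ball_nat 0
  have hmeas : AEStronglyMeasurable w₀ ν := by
    have := (aestronglyMeasurable_iUnion_iff (μ := ν) (f := w₀)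
      (s := fun m : ℕ => ball (0 : E) (m : ℝ))).mpr
      (fun m => (Lp.memLp (w m)).1.congr (hw₀' m).symm)
    rwa [hun, Measure.restrict_univ] at this
  refine ⟨hmeas.mk w₀, hmeas.stronglyMeasurable_mk, fun R => ?_, fun φ hφ hφc => ?_⟩
  · obtain ⟨m, hm⟩ := exists_nat_ge R
    have h1 : MemLp w₀ 2 (ν.restrict (ball (0 : E) m)) := (memLp_congr_ae (hw₀' m)).mpr (Lp.memLp _)
    have h2 : MemLp w₀ 2 (ν.restrict (ball (0 : E) R)) :=
      h1.mono_measure (Measure.restrict_mono (ball_subset_ball hm) le_rfl)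
    exact (memLp_congr_ae (ae_restrict_of_ae hmeas.ae_eq_mk)).mp h2
  · obtain ⟨R, hR⟩ := hφc.isBounded.subset_closedBall (0 : E)
    obtain ⟨m, hm⟩ := exists_nat_gt R
    have hsub : ∀ x, x ∉ ball (0 : E) m → φ x = 0 := by
      intro x hx
      refine image_eq_zero_of_notMem_tsupport fun hx' => hx ?_
      exact closedBall_subset_ball hm (hR hx')
    let φ' : ccOn (ball (0 : E) (m : ℝ)) F := ⟨φ, hφ, hφc, hsub⟩
    have h3 := hw2 m φ'
    have h4 : ∫ x, inner ℝ (φ x) (hmeas.mk w₀ x) ∂ν =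
        ∫ x in ball (0 : E) m, inner ℝ ((φ' : E → F) x) (w m x) ∂ν := by
      rw [show ∫ x, inner ℝ (φ x) (hmeas.mk w₀ x) ∂ν = ∫ x, inner ℝ ((φ' : E → F) x)
        (hmeas.mk w₀ x) ∂ν from rfl, integral_inner_eq_restrict]
      refine integral_congr_ae ?_
      filter_upwards [hw₀' m, ae_restrict_of_ae hmeas.ae_eq_mk] with x h5 h6
      rw [← h6, h5]
    rw [h4]
    exact h3

/-- Lower semicontinuity of the `L²` norm on open sets. -/
theorem density_limit_le (U : Ultrafilter ι) {μ : ι → Measure E} {ν : Measure E}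
    [∀ k, IsFiniteMeasureOnCompacts (μ k)] [IsFiniteMeasureOnCompacts ν]
    (h : VagueTendsto (U : Filter ι) μ ν) (u : ι → E → F) {w : E → F} {G : Set E} (hG : IsOpen G)
    (hw : MemLp w 2 (ν.restrict G))
    (hlim : ∀ φ : E → F, Continuous φ → HasCompactSupport φ →
        Tendsto (fun k => ∫ x, inner ℝ (φ x) (u k x) ∂(μ k)) U
          (𝓝 (∫ x, inner ℝ (φ x) (w x) ∂ν))) {c : ℝ}
    (hc : ∀ᶠ k in (U : Filter ι), MemLp (u k) 2 ((μ k).restrict G) ∧
      ∫ x in G, ‖u k x‖ ^ 2 ∂(μ k) ≤ c) : ∫ x in G, ‖w x‖ ^ 2 ∂ν ≤ c := by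
  obtain ⟨w', hw'1, hw'2⟩ := exists_repr_open U h u c hc
  have h1 : ∀ᵐ x ∂ν, x ∈ G → w x = w' x := by
    refine ae_eq_of_forall_ccOn hG hw (Lp.memLp _) fun φ => ?_
    have e1 := hlim φ φ.2.1 φ.2.2.1
    rw [integral_inner_eq_restrict φ] at e1
    exact tendsto_nhds_unique e1 (hw'2 φ)
  have h2 : ∫ x in G, ‖w x‖ ^ 2 ∂ν = ‖w'‖ ^ 2 := by
    have e2 := norm_toLp_sq (Lp.memLp w')
    rw [Lp.toLp_coeFn] at e2
    rw [e2]
    refine integral_congr_ae ?_
    rw [Filter.EventuallyEq, ae_restrict_iff' hG.measurableSet]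
    filter_upwards [h1] with x hx hxG
    rw [hx hxG]
  rw [h2]
  exact hw'1

/-- scalar test functions: `∫ f • u k dμ k → ∫ f • w dν`. -/
theorem density_limit_smul (U : Ultrafilter ι) {μ : ι → Measure E} {ν : Measure E}
    [∀ k, IsFiniteMeasureOnCompacts (μ k)] [IsFiniteMeasureOnCompacts ν]
    (u : ι → E → F) {w : E → F}
    (hu : ∀ m : ℕ, ∀ᶠ k in (U : Filter ι), MemLp (u k) 2 ((μ k).restrict (ball 0 m)))
    (hw : ∀ R : ℝ, MemLp w 2 (ν.restrict (ball 0 R)))
    (hlim : ∀ φ : E → F, Continuous φ → HasCompactSupport φ →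
        Tendsto (fun k => ∫ x, inner ℝ (φ x) (u k x) ∂(μ k)) U
          (𝓝 (∫ x, inner ℝ (φ x) (w x) ∂ν)))
    {f : E → ℝ} (hf : Continuous f) (hfc : HasCompactSupport f) :
    Tendsto (fun k => ∫ x, f x • u k x ∂(μ k)) U (𝓝 (∫ x, f x • w x ∂ν)) := by
  obtain ⟨R, hR⟩ := hfc.isBounded.subset_closedBall (0 : E)
  obtain ⟨m, hm⟩ := exists_nat_gt R
  have hsub : ∀ x, x ∉ ball (0 : E) m → f x = 0 := by
    intro x hx
    refine image_eq_zero_of_notMem_tsupport fun hx' => hx ?_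
    exact closedBall_subset_ball hm (hR hx')
  have hint : ∀ (μ' : Measure E) [IsFiniteMeasureOnCompacts μ'] (g : E → F),
      MemLp g 2 (μ'.restrict (ball 0 m)) → Integrable (fun x => f x • g x) μ' := by
    intro μ' _ g hg
    have h1 : IntegrableOn (fun x => f x • g x) (ball 0 m) μ' := by
      have hfL : MemLp f 2 (μ'.restrict (ball 0 m)) :=
        (hf.memLp_of_hasCompactSupport hfc).restrict _
      exact memLp_one_iff_integrable.mp (hg.smul hfL)
    refine (integrableOn_iff_integrable_of_support_subset ?_).mp h1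
    intro x hx
    by_contra hxG
    exact hx (by simp [hsub x hxG])
  -- test against an orthonormal basis
  let b := stdOrthonormalBasis ℝ F
  have hcoord : ∀ i, Tendsto (fun k => inner ℝ (b i) (∫ x, f x • u k x ∂(μ k))) U
      (𝓝 (inner ℝ (b i) (∫ x, f x • w x ∂ν))) := by
    intro i
    have e1 := hlim (fun x => f x • b i) (hf.smul continuous_const) hfc.smul_right
    have e2 : ∫ x, inner ℝ (f x • b i) (w x) ∂ν = inner ℝ (b i) (∫ x, f x • w x ∂ν) := by
      rw [← integral_inner (hint ν w (hw m)) (b i)]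
      refine integral_congr_ae (ae_of_all _ fun x => ?_)
      simp [inner_smul_left, inner_smul_right]
    rw [e2] at e1
    refine e1.congr' ?_
    filter_upwards [hu m] with k hk
    rw [← integral_inner (hint (μ k) (u k) hk) (b i)]
    refine integral_congr_ae (ae_of_all _ fun x => ?_)
    simp [inner_smul_left, inner_smul_right]
  have hsum : Tendsto (fun k => ∑ i, (inner ℝ (b i) (∫ x, f x • u k x ∂(μ k))) • b i) U
      (𝓝 (∑ i, (inner ℝ (b i) (∫ x, f x • w x ∂ν)) • b i)) :=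
    tendsto_finsetSum _ fun i _ => (hcoord i).smul_const _
  simpa [b.sum_repr'] using hsum

end dens

end Crest.Agent.R085
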