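import Mathlib
import Crest.Agent.R085.LimBf
import Crest.Agent.R085.WeakRiesz

/-!
# R085, module M3 (weak compactness), part 6: `Wf` and the weak Riesz bound pass to the limit
-/

set_option autoImplicit false

open MeasureTheory Filter Topology Metric Set
open scoped ENNReal NNReal

namespace Crest.Agent.R085

variable {d n : ℕ} {ι : Type*} {l : Filter ι}

theorem continuousOn_wker {f : V d → ℝ} {X : V d → V d} (hf : Continuous f) (hX : Continuous X) :
    ContinuousOn (wker n f X) {p | p.1 ≠ p.2} := by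
  unfold wker
  refine ContinuousOn.mul ?_ ?_
  · refine Continuous.continuousOn ?_
    fun_prop
  · refine ContinuousOn.inv₀ (by fun_prop) ?_
    intro p hp
    exact pow_ne_zero _ (norm_ne_zero_iff.2 (sub_ne_zero.2 hp))

theorem wker_diag (f : V d → ℝ) (X : V d → V d) (x : V d) : wker n f X (x, x) = 0 := by
  unfold wker; simp

/-- `Wf` passes to vague limits. -/
theorem VagueTendsto.Wf_tendsto [l.NeBot] (hn : 1 ≤ n) {C : ℝ} (hC : 0 ≤ C)
    {μ : ι → Measure (V d)} {ν : Measure (V d)}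
    [∀ k, IsFiniteMeasureOnCompacts (μ k)] [IsFiniteMeasureOnCompacts ν]
    (h : VagueTendsto l μ ν) (hμ : ∀ᶠ k in l, UpperReg n C (μ k))
    {f : V d → ℝ} {X : V d → V d} (hf : IsTest f) (hX : IsTestV X) :
    Tendsto (fun k => Wf n (μ k) f X) l (𝓝 (Wf n ν f X)) := by
  obtain ⟨R, hR, hfR, hXR⟩ := exists_radius hf.cpt hX.cpt
  obtain ⟨Kf, hKf⟩ := hf.lip
  obtain ⟨KX, hKX⟩ := hX.lip
  obtain ⟨Bf, hBf⟩ := hKf.continuous.bounded_above_of_compact_support hf.cpt
  obtain ⟨BX, hBX⟩ := hKX.continuous.bounded_above_of_compact_support hX.cpt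
  have hBf0 : 0 ≤ Bf := (norm_nonneg _).trans (hBf 0)
  have hBX0 : 0 ≤ BX := (norm_nonneg _).trans (hBX 0)
  have hb := wker_bound (n := n) (Kf := Kf) (KX := KX) hfR hXR
    (fun x y => by
      have := hKf.dist_le_mul x y
      rwa [Real.dist_eq, dist_eq_norm] at this)
    (fun x y => by
      have := hKX.dist_le_mul x y
      rwa [dist_eq_norm, dist_eq_norm] at this) hBf hBX
  unfold Wf
  refine Tendsto.const_mul _ ?_
  refine h.prod_kernel (n := n) (m := n - 1) (by omega) hC hμ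
    (continuousOn_wker hKf.continuous hKX.continuous) (wker_diag f X)
    (K := closedBall (0 : V d) R ×ˢ closedBall (0 : V d) R)
    ((isCompact_closedBall _ _).prod (isCompact_closedBall _ _)) ?_
    (A := Bf * KX + Kf * BX) ?_
  · intro p hp
    have h1 := hb p
    rw [indicator_of_notMem, mul_zero] at h1
    · exact abs_nonpos_iff.1 h1
    · intro hp'
      exact hp (prod_mono ball_subset_closedBall ball_subset_closedBall hp')
  · intro p
    rw [Real.norm_eq_abs]
    refine (hb p).trans ?_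
    refine mul_le_mul_of_nonneg_left ?_ (by positivity)
    refine (indicator_le_self' (fun _ _ => by positivity) p).trans ?_
    rw [dist_eq_norm]
    rcases eq_or_lt_of_le (norm_nonneg (p.1 - p.2)) with h0 | h0
    · rw [← h0]; simp
    · refine le_of_eq ?_
      obtain ⟨m, rfl⟩ : ∃ m, n = m + 1 := ⟨n - 1, by omega⟩
      rw [Nat.add_sub_cancel, pow_succ]
      field_simp

/-- the weak Riesz bound passes to vague limits. -/
theorem VagueTendsto.weakRiesz [l.NeBot] (hn : 1 ≤ n) {C A : ℝ} (hC : 0 ≤ C)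
    {μ : ι → Measure (V d)} {ν : Measure (V d)}
    [∀ k, IsFiniteMeasureOnCompacts (μ k)] [IsFiniteMeasureOnCompacts ν]
    (h : VagueTendsto l μ ν) (hμ : ∀ᶠ k in l, UpperReg n C (μ k))
    (hW : ∀ᶠ k in l, WeakRiesz n A (μ k)) : WeakRiesz n A ν := by
  intro f X hf hX
  obtain ⟨Kf, hKf⟩ := hf.lip
  obtain ⟨KX, hKX⟩ := hX.lip
  have h1 := (h.Wf_tendsto hn hC hμ hf hX).abs
  have h2 : Tendsto (fun k => ∫ y, f y ^ 2 ∂(μ k)) l (𝓝 (∫ y, f y ^ 2 ∂ν)) := by
    refine h (fun y => f y ^ 2) (hKf.continuous.pow 2) ?_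
    exact HasCompactSupport.intro hf.cpt (fun x hx => by
      simp [image_eq_zero_of_notMem_tsupport hx])
  have h3 : Tendsto (fun k => ∫ y, ‖X y‖ ^ 2 ∂(μ k)) l (𝓝 (∫ y, ‖X y‖ ^ 2 ∂ν)) := by
    refine h (fun y => ‖X y‖ ^ 2) (hKX.continuous.norm.pow 2) ?_
    exact HasCompactSupport.intro hX.cpt (fun x hx => by
      simp [image_eq_zero_of_notMem_tsupport hx])
  have h4 := ((h2.sqrt).const_mul A).mul h3.sqrt
  exact le_of_tendsto_of_tendsto h1 h4 (hW.mono fun k hk => hk f X hf hX)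

section WLimVersions

variable {U : Ultrafilter ι} {μ : ι → Measure (V d)} {ν : Measure (V d)}

theorem WLim.Wf_tendsto (h : WLim U μ ν) (hn : 1 ≤ n) {C : ℝ} (hC : 0 ≤ C)
    (hμ : ∀ᶠ k in (U : Filter ι), UpperReg n C (μ k))
    {f : V d → ℝ} {X : V d → V d} (hf : IsTest f) (hX : IsTestV X) :
    Tendsto (fun k => Wf n (μ k) f X) (U : Filter ι) (𝓝 (Wf n ν f X)) := by
  have := h.lfk
  have := h.lf
  exact VagueTendsto.Wf_tendsto hn hC h.vague hμ hf hX

theorem WLim.weakRiesz (h : WLim U μ ν) (hn : 1 ≤ n) {C A : ℝ} (hC : 0 ≤ C)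
    (hμ : ∀ᶠ k in (U : Filter ι), UpperReg n C (μ k))
    (hW : ∀ᶠ k in (U : Filter ι), WeakRiesz n A (μ k)) : WeakRiesz n A ν := by
  have := h.lfk
  have := h.lf
  exact VagueTendsto.weakRiesz hn hC h.vague hμ hW

end WLimVersions

end Crest.Agent.R085
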