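import Crest.Agent.R085.Defs

/-!
R085 (S0113), module M6 (linear Liouville lemma): definitions.
-/

set_option autoImplicit false

namespace Crest.Agent.R085

open MeasureTheory Metric Set Filter
open scoped ENNReal NNReal Topology ContDiff

/-- `Λ ψ (x) = ∫ (2 ψ(x) - ψ(x+h) - ψ(x-h)) |h|^{-n-1} dh` (absolutely convergent for
`ψ ∈ C_c^∞`). The same as `Lam n ψ x` of `LamDef.lean` (by `rfl`). -/
noncomputable def Liou.Lam {n : ℕ} (ψ : V n → ℝ) (x : V n) : ℝ :=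
  ∫ h : V n, (2 * ψ x - ψ (x + h) - ψ (x - h)) * (‖h‖ ^ (n + 1))⁻¹

/-- the truncated operator, `Λ_N ψ (x) = ∫ (2 ψ(x) - ψ(x+h) - ψ(x-h)) k_N(h) dh`. -/
noncomputable def LamN {n : ℕ} (N : ℝ) (ψ : V n → ℝ) (x : V n) : ℝ :=
  ∫ h : V n, (2 * ψ x - ψ (x + h) - ψ (x - h)) * kN n N h

/-- smooth compactly supported mean-zero test function on `ℝⁿ`. -/
structure SmTest {n : ℕ} (ψ : V n → ℝ) : Prop where
  smooth : ContDiff ℝ ∞ ψ
  cpt : HasCompactSupport ψ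
  mean : ∫ x, ψ x = 0

/-- growth: `∫_{B_R} u² ≤ K R^s` for `R ≥ 1`. -/
def Gr {n : ℕ} (K s : ℝ) (u : V n → ℝ) : Prop :=
  ∀ R : ℝ, 1 ≤ R → ∫ x in ball (0 : V n) R, (u x) ^ 2 ≤ K * R ^ s

/-- the class of (locally Lipschitz) solutions of the weak equation `Λ u = 0`
(tested with Lipschitz functions of mean zero). -/
structure Sol {n : ℕ} (u : V n → ℝ) : Prop where
  lip : ∀ R : ℝ, ∃ L : ℝ≥0, LipschitzOnWith L u (ball 0 R)
  weak : ∀ ψ : V n → ℝ, IsTest ψ → ∫ x, ψ x = 0 →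
    Tendsto (fun N : ℝ => Bf n volume N u ψ) atTop (𝓝 0)

end Crest.Agent.R085
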