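import Crest.Agent.R085.LiouEnergy

/-!
R085 (S0113), module M6 (linear Liouville lemma), part C: the class `Sol` is closed under
differences, and one difference lowers the growth exponent by one.
-/

set_option autoImplicit false

namespace Crest.Agent.R085

open MeasureTheory Metric Set Filter
open scoped ENNReal NNReal Topology ContDiff

namespace Liou

variable {n : ℕ}

theorem integrableOn_energy (hn : 0 < n) {u : V n → ℝ}
    (hu : ∀ R : ℝ, ∃ L : ℝ≥0, LipschitzOnWith L u (ball (0 : V n) R)) {R : ℝ} (hR : 0 < R) :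
    IntegrableOn (fun p : V n × V n => (u p.1 - u p.2) ^ 2 * (‖p.1 - p.2‖ ^ (n + 1))⁻¹)
      (ball 0 R ×ˢ ball 0 R) (volume.prod volume) := by
  obtain ⟨C, hC, hU⟩ := upperReg_volume hn
  have huc := cont_of_locLip hu
  obtain ⟨L, hL⟩ := hu R
  have hm : MeasurableSet (ball (0 : V n) R ×ˢ ball (0 : V n) R) :=
    measurableSet_ball.prod measurableSet_ball
  rw [← integrable_indicator_iff hm]
  refine integrable_of_near hU hC hn 0 hR ?_ (M := (L:ℝ) ^ 2) (by positivity) ?_ ?_
  · refine Measurable.indicator ?_ hm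
    have h1 : Measurable fun p : V n × V n => (u p.1 - u p.2) ^ 2 :=
      (by fun_prop : Continuous fun p : V n × V n => (u p.1 - u p.2) ^ 2).measurable
    exact h1.mul (((measurable_fst.sub measurable_snd).norm.pow_const _).inv)
  · intro p h1 h2
    rw [indicator_of_mem (show p ∈ ball (0 : V n) R ×ˢ ball (0 : V n) R from ⟨h1, h2⟩)]
    rw [abs_of_nonneg (by positivity)]
    have h3 := hL.dist_le_mul _ h1 _ h2
    rw [Real.dist_eq, dist_eq_norm] at h3
    calc (u p.1 - u p.2) ^ 2 * (‖p.1 - p.2‖ ^ (n + 1))⁻¹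
        ≤ (L * ‖p.1 - p.2‖) ^ 2 * (‖p.1 - p.2‖ ^ (n + 1))⁻¹ := by
          rw [← sq_abs]
          gcongr
      _ = (L:ℝ) ^ 2 * (‖p.1 - p.2‖ ^ 2 * (‖p.1 - p.2‖ ^ (n + 1))⁻¹) := by ring
      _ ≤ (L:ℝ) ^ 2 * (‖p.1 - p.2‖ ^ (n - 1))⁻¹ := by
          gcongr
          exact norm_sq_mul_inv_le n hn _
  · intro p hp
    rw [indicator_of_notMem]
    intro h
    exact hp ⟨h.1, h.2⟩

theorem diff_le_energy (hn : 0 < n) {u : V n → ℝ}
    (hu : ∀ R : ℝ, ∃ L : ℝ≥0, LipschitzOnWith L u (ball (0 : V n) R)) (h : V n) :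
    ∃ c : ℝ, 0 ≤ c ∧ ∀ R : ℝ, 1 ≤ R →
      ∫ x in ball (0 : V n) R, (u (x + h) - u x) ^ 2 ≤ c * En n volume u 0 (R + ‖h‖) := by
  have huc := cont_of_locLip hu
  by_cases hh : h = 0
  · refine ⟨0, le_rfl, fun R _ => ?_⟩
    simp [hh]
  have hδ : 0 < ‖h‖ := norm_pos_iff.2 hh
  set δ : ℝ := ‖h‖ with hδdef
  set v : ℝ := (volume (ball (0 : V n) δ)).toReal with hv
  have hv0 : 0 < v :=
    ENNReal.toReal_pos (measure_ball_pos volume 0 hδ).ne' measure_ball_lt_top.ne
  set D : ℝ := 2 * (2 * δ) ^ (n + 1) with hD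
  have hD0 : 0 < D := by positivity
  refine ⟨2 * D / v, by positivity, fun R hR => ?_⟩
  have hR0 : 0 < R := by linarith
  have hB0 : 0 < R + δ := by linarith
  set B : Set (V n) := ball (0 : V n) (R + δ) with hB
  have hBm : MeasurableSet B := measurableSet_ball
  set e : V n × V n → ℝ≥0∞ := fun p =>
    ENNReal.ofReal ((u p.1 - u p.2) ^ 2 * (‖p.1 - p.2‖ ^ (n + 1))⁻¹) with he
  have hem : Measurable e := by
    have h1 : Measurable fun p : V n × V n => (u p.1 - u p.2) ^ 2 :=
      (by fun_prop : Continuous fun p : V n × V n => (u p.1 - u p.2) ^ 2).measurable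
    exact (h1.mul (((measurable_fst.sub measurable_snd).norm.pow_const _).inv)).ennreal_ofReal
  set G : V n → ℝ≥0∞ := fun x => ∫⁻ z in B, e (x, z) with hG
  have hGm : Measurable G := hem.lintegral_prod_right'
  -- pointwise kernel bound
  have hker : ∀ x z : V n, ‖x - z‖ < 2 * δ →
      ENNReal.ofReal (2 * (u x - u z) ^ 2) ≤ ENNReal.ofReal D * e (x, z) := by
    intro x z hxz
    rw [he, ← ENNReal.ofReal_mul hD0.le]
    refine ENNReal.ofReal_le_ofReal ?_
    simp only
    by_cases h0 : x = z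
    · rw [h0]; simp
    · have hp : 0 < ‖x - z‖ := norm_pos_iff.2 (sub_ne_zero.2 h0)
      have : 1 ≤ (2 * δ) ^ (n + 1) * (‖x - z‖ ^ (n + 1))⁻¹ := by
        rw [← div_eq_mul_inv, one_le_div (by positivity)]
        gcongr
      calc 2 * (u x - u z) ^ 2 = 2 * (u x - u z) ^ 2 * 1 := by ring
        _ ≤ 2 * (u x - u z) ^ 2 * ((2 * δ) ^ (n + 1) * (‖x - z‖ ^ (n + 1))⁻¹) := by gcongr
        _ = _ := by rw [hD]; ring
  have hpt : ∀ x ∈ ball (0 : V n) R,
      ENNReal.ofReal v * ENNReal.ofReal ((u (x + h) - u x) ^ 2)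
        ≤ ENNReal.ofReal D * (G (x + h) + G x) := by
    intro x hx
    have hx' : ‖x‖ < R := by simpa using hx
    have hsub : ball x δ ⊆ B := by
      intro z hz
      rw [mem_ball, dist_eq_norm] at hz
      rw [hB, mem_ball_zero_iff]
      have := norm_add_le (z - x) x
      rw [sub_add_cancel] at this
      linarith
    have hvol : volume (ball x δ) = ENNReal.ofReal v := by
      rw [hv, ENNReal.ofReal_toReal measure_ball_lt_top.ne, Measure.addHaar_ball_center]
    calc ENNReal.ofReal v * ENNReal.ofReal ((u (x + h) - u x) ^ 2)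
        = ∫⁻ _z in ball x δ, ENNReal.ofReal ((u (x + h) - u x) ^ 2) := by
          rw [setLIntegral_const, hvol, mul_comm]
      _ ≤ ∫⁻ z in ball x δ, (ENNReal.ofReal D * e (x + h, z) + ENNReal.ofReal D * e (x, z)) := by
          refine setLIntegral_mono' measurableSet_ball fun z hz => ?_
          rw [mem_ball, dist_eq_norm] at hz
          have h1 : ‖x + h - z‖ < 2 * δ := by
            have : x + h - z = h - (z - x) := by abel
            rw [this]
            refine (norm_sub_le _ _).trans_lt ?_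
            linarith
          have h2 : ‖x - z‖ < 2 * δ := by
            rw [norm_sub_rev]; linarith
          refine le_trans ?_ (add_le_add (hker _ _ h1) (hker _ _ h2))
          rw [← ENNReal.ofReal_add (by positivity) (by positivity)]
          refine ENNReal.ofReal_le_ofReal ?_
          nlinarith [sq_nonneg ((u (x + h) - u z) + (u x - u z))]
      _ ≤ ∫⁻ z in B, (ENNReal.ofReal D * e (x + h, z) + ENNReal.ofReal D * e (x, z)) :=
          lintegral_mono_set hsub
      _ = ENNReal.ofReal D * (G (x + h) + G x) := by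
          have m1 : Measurable fun z => e (x + h, z) := hem.comp measurable_prodMk_left
          have m2 : Measurable fun z => e (x, z) := hem.comp measurable_prodMk_left
          rw [lintegral_add_left (m1.const_mul _), lintegral_const_mul _ m1,
            lintegral_const_mul _ m2, mul_add]
  have hGsum : ∫⁻ x in B, G x = ENNReal.ofReal (En n volume u 0 (R + δ)) := by
    unfold En
    rw [ofReal_integral_eq_lintegral_ofReal (integrableOn_energy hn hu hB0)
      (Filter.Eventually.of_forall fun p => by positivity)]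
    rw [← Measure.prod_restrict, lintegral_prod _ hem.aemeasurable]
  have hshift : ∫⁻ x in ball (0 : V n) R, G (x + h) ≤ ∫⁻ x in B, G x := by
    rw [← lintegral_indicator measurableSet_ball, ← lintegral_indicator hBm]
    rw [← lintegral_add_right_eq_self (fun x => B.indicator G x) h]
    refine lintegral_mono fun x => ?_
    by_cases hx : x ∈ ball (0 : V n) R
    · have hxB : x + h ∈ B := by
        rw [hB, mem_ball_zero_iff]
        rw [mem_ball_zero_iff] at hx
        have := norm_add_le x h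
        linarith
      rw [indicator_of_mem hx, indicator_of_mem hxB]
    · rw [indicator_of_notMem hx]
      exact bot_le
  have hshift2 : ∫⁻ x in ball (0 : V n) R, G x ≤ ∫⁻ x in B, G x :=
    lintegral_mono_set (ball_subset_ball (by linarith))
  have hmain : ENNReal.ofReal v * ENNReal.ofReal (∫ x in ball (0 : V n) R, (u (x + h) - u x) ^ 2)
      ≤ ENNReal.ofReal (2 * D * En n volume u 0 (R + δ)) := by
    have hcont : Continuous fun x => (u (x + h) - u x) ^ 2 := by fun_prop
    rw [ofReal_integral_eq_lintegral_ofReal (intOn_cont hcont R)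
      (Filter.Eventually.of_forall fun p => by positivity),
      ← lintegral_const_mul _ (by fun_prop)]
    calc ∫⁻ x in ball (0 : V n) R, ENNReal.ofReal v * ENNReal.ofReal ((u (x + h) - u x) ^ 2)
        ≤ ∫⁻ x in ball (0 : V n) R, ENNReal.ofReal D * (G (x + h) + G x) :=
          setLIntegral_mono' measurableSet_ball hpt
      _ = ENNReal.ofReal D * ((∫⁻ x in ball (0 : V n) R, G (x + h))
          + ∫⁻ x in ball (0 : V n) R, G x) := by
          have m1 : Measurable fun x => G (x + h) := hGm.comp (measurable_add_const h)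
          have m2 : Measurable fun x => G (x + h) + G x := m1.add hGm
          rw [lintegral_const_mul _ m2, lintegral_add_left m1]
      _ ≤ ENNReal.ofReal D * ((∫⁻ x in B, G x) + ∫⁻ x in B, G x) := by gcongr
      _ = ENNReal.ofReal (2 * D * En n volume u 0 (R + δ)) := by
          rw [hGsum, ← two_mul, mul_comm 2 D, mul_assoc, ENNReal.ofReal_mul hD0.le,
            ENNReal.ofReal_mul (by norm_num : (0:ℝ) ≤ 2)]
          norm_num
  have hEn0 : 0 ≤ En n volume u 0 (R + δ) := integral_nonneg fun p => by positivity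
  rw [← ENNReal.ofReal_mul hv0.le] at hmain
  have := (ENNReal.ofReal_le_ofReal_iff (by positivity)).1 hmain
  rw [div_mul_eq_mul_div, le_div_iff₀ hv0]
  linarith

theorem Sol.gr_diff (hn : 0 < n) {u : V n → ℝ} (hu : Sol u) {K s : ℝ} (hs : s < n + 4)
    (hG : Gr K s u) (h : V n) : ∃ K' : ℝ, Gr K' (s - 1) (fun x => u (x + h) - u x) := by
  obtain ⟨C, hC, hE⟩ := energy_le hn hu hs hG
  obtain ⟨c, hc, hd⟩ := diff_le_energy hn hu.lip h
  refine ⟨c * (C * (1 + ‖h‖) ^ |s - 1|), fun R hR => ?_⟩
  have hR0 : 0 < R := by linarith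
  have hh := norm_nonneg h
  refine (hd R hR).trans ?_
  rw [mul_assoc]
  refine mul_le_mul_of_nonneg_left ((hE (R + ‖h‖) (by linarith)).trans ?_) hc
  rw [mul_assoc]
  refine mul_le_mul_of_nonneg_left ?_ hC
  rcases le_total 0 (s - 1) with h1 | h1
  · rw [abs_of_nonneg h1, ← Real.mul_rpow (by positivity) hR0.le]
    refine Real.rpow_le_rpow (by positivity) ?_ h1
    nlinarith
  · calc (R + ‖h‖) ^ (s - 1) ≤ R ^ (s - 1) :=
          Real.rpow_le_rpow_of_nonpos hR0 (by linarith) h1
      _ = 1 * R ^ (s - 1) := (one_mul _).symm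
      _ ≤ (1 + ‖h‖) ^ |s - 1| * R ^ (s - 1) := by
          gcongr
          exact Real.one_le_rpow (by linarith) (abs_nonneg _)

theorem Bf_eq_shear (N : ℝ) (u ψ : V n → ℝ) :
    Bf n volume N u ψ = (1 / 2 : ℝ) * ∫ p : V n × V n,
      (u p.1 - u (p.1 + p.2)) * (ψ p.1 - ψ (p.1 + p.2)) * kN n N p.2
        ∂((volume : Measure (V n)).prod volume) := by
  unfold Bf
  congr 1
  have hmp : MeasurePreserving (fun z : V n × V n => (z.1, z.1 + z.2))
      ((volume : Measure (V n)).prod volume) ((volume : Measure (V n)).prod volume) :=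
    measurePreserving_prod_add _ _
  rw [← hmp.integral_comp (MeasurableEquiv.shearAddRight (V n)).measurableEmbedding]
  refine integral_congr_ae (Filter.Eventually.of_forall fun p => ?_)
  simp only
  rw [show p.1 - (p.1 + p.2) = -p.2 by abel, kN_neg]

theorem locLip_shift {u : V n → ℝ}
    (hu : ∀ R : ℝ, ∃ L : ℝ≥0, LipschitzOnWith L u (ball (0 : V n) R)) (h : V n) (R : ℝ) :
    ∃ L : ℝ≥0, LipschitzOnWith L (fun x => u (x + h)) (ball (0 : V n) R) := by
  obtain ⟨L, hL⟩ := hu (R + ‖h‖)
  refine ⟨L, LipschitzOnWith.of_dist_le_mul fun x hx y hy => ?_⟩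
  have hmem : ∀ z ∈ ball (0 : V n) R, z + h ∈ ball (0 : V n) (R + ‖h‖) := by
    intro z hz
    rw [mem_ball_zero_iff] at hz ⊢
    exact (norm_add_le _ _).trans_lt (by linarith)
  have := hL.dist_le_mul _ (hmem x hx) _ (hmem y hy)
  rwa [dist_add_right] at this

theorem Bf_sub_left (hn : 0 < n) {u v ψ : V n → ℝ}
    (hu : ∀ R : ℝ, ∃ L : ℝ≥0, LipschitzOnWith L u (ball (0 : V n) R))
    (hv : ∀ R : ℝ, ∃ L : ℝ≥0, LipschitzOnWith L v (ball (0 : V n) R)) (hψ : IsTest ψ)
    {N : ℝ} (hN : 0 < N) :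
    Bf n volume N (fun x => u x - v x) ψ = Bf n volume N u ψ - Bf n volume N v ψ := by
  rw [Bf_eq_shear, Bf_eq_shear, Bf_eq_shear, ← mul_sub,
    ← integral_sub (integrable_shear hn hu hψ hN) (integrable_shear hn hv hψ hN)]
  congr 1
  refine integral_congr_ae (Filter.Eventually.of_forall fun p => ?_)
  simp only
  ring

theorem Bf_shift (hn : 0 < n) {u ψ : V n → ℝ} {h : V n}
    (hu : ∀ R : ℝ, ∃ L : ℝ≥0, LipschitzOnWith L u (ball (0 : V n) R)) (hψ : IsTest ψ)
    (hψ' : IsTest (fun x => ψ (x - h))) {N : ℝ} (hN : 0 < N) :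
    Bf n volume N (fun x => u (x + h)) ψ = Bf n volume N u (fun x => ψ (x - h)) := by
  rw [Bf_eq_h hn (locLip_shift hu h) hψ hN, Bf_eq_h hn hu hψ' hN]
  congr 1
  refine integral_congr_ae (Filter.Eventually.of_forall fun k => ?_)
  simp only
  congr 1
  rw [← integral_add_right_eq_self
    (fun x => u x * (2 * ψ (x - h) - ψ (x + k - h) - ψ (x - k - h))) h]
  refine integral_congr_ae (Filter.Eventually.of_forall fun x => ?_)
  simp only
  rw [show x + h - h = x by abel, show x + h + k - h = x + k by abel,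
    show x + h - k - h = x - k by abel]

theorem isTest_shift {ψ : V n → ℝ} (hψ : IsTest ψ) (h : V n) : IsTest (fun x => ψ (x - h)) := by
  obtain ⟨K, hK⟩ := hψ.lip
  refine ⟨⟨K, ?_⟩, ?_⟩
  · refine LipschitzWith.of_dist_le_mul fun x y => ?_
    have := hK.dist_le_mul (x - h) (y - h)
    rwa [dist_sub_right] at this
  · have := hψ.cpt.comp_homeomorph (Homeomorph.addRight (-h))
    have e : (fun x => ψ (x - h)) = ψ ∘ (Homeomorph.addRight (-h)) := by
      funext x
      simp [sub_eq_add_neg]
    rw [e]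
    exact this

theorem Sol.diff {n : ℕ} (hn : 0 < n) {u : V n → ℝ} (hu : Sol u) (h : V n) :
    Sol (fun x => u (x + h) - u x) := by
  refine ⟨fun R => ?_, fun ψ hψ h0 => ?_⟩
  · obtain ⟨L, hL⟩ := hu.lip R
    obtain ⟨L', hL'⟩ := locLip_shift hu.lip h R
    exact ⟨L' + L, hL'.sub hL⟩
  · have hψ' := isTest_shift hψ h
    have h0' : ∫ x, ψ (x - h) = 0 := by
      rw [integral_sub_right_eq_self (fun x => ψ x) h]
      exact h0
    have h1 := (hu.weak _ hψ' h0').sub (hu.weak ψ hψ h0)
    rw [sub_zero] at h1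
    refine h1.congr' ?_
    filter_upwards [eventually_gt_atTop 0] with N hN
    rw [Bf_sub_left hn (locLip_shift hu.lip h) hu.lip hψ hN, Bf_shift hn hu.lip hψ hψ' hN]

end Liou

end Crest.Agent.R085
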