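import Crest.Agent.R085.LiouDefs

/-!
R085 (S0113), module M6 (LL-A): abstract end of the Liouville theorem: iterated differences.
-/

set_option autoImplicit false

namespace Crest.Agent.R085

open MeasureTheory Metric Set Filter
open scoped ENNReal NNReal Topology

/-- finite difference `x ↦ u (x + h) - u x` -/
def Dif {n : ℕ} (h : V n) (u : V n → ℝ) : V n → ℝ := fun x => u (x + h) - u x

/-- iterated differences along a list -/
def DifL {n : ℕ} : List (V n) → (V n → ℝ) → (V n → ℝ)
  | [], u => u
  | h :: l, u => DifL l (Dif h u)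

section basic

variable {n : ℕ}

theorem continuous_Dif {h : V n} {u : V n → ℝ} (hu : Continuous u) : Continuous (Dif h u) := by
  unfold Dif
  exact (hu.comp (continuous_add_const h)).sub hu

theorem continuous_DifL (l : List (V n)) : ∀ {u : V n → ℝ}, Continuous u → Continuous (DifL l u) := by
  induction l with
  | nil => intro u hu; exact hu
  | cons h l ih => intro u hu; exact ih (continuous_Dif hu)

theorem Dif_comm (h h' : V n) (u : V n → ℝ) : Dif h (Dif h' u) = Dif h' (Dif h u) := by
  funext x
  simp only [Dif]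
  rw [add_right_comm x h h']
  ring

theorem DifL_Dif (l : List (V n)) : ∀ (h : V n) (u : V n → ℝ),
    DifL l (Dif h u) = Dif h (DifL l u) := by
  induction l with
  | nil => intro h u; rfl
  | cons a l ih =>
    intro h u
    simp only [DifL]
    rw [Dif_comm a h, ih]

theorem Dif_add (h h' : V n) (w : V n → ℝ) (hw : Dif h (Dif h' w) = 0) :
    Dif (h + h') w = Dif h w + Dif h' w := by
  funext x
  have := congrFun hw x
  simp only [Dif, Pi.zero_apply, Pi.add_apply] at *
  rw [← add_assoc]
  linarith

theorem Dif_zero (w : V n → ℝ) : Dif (0 : V n) w = 0 := by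
  funext x; simp [Dif]

theorem Dif_nsmul (h : V n) (w : V n → ℝ) (hw : ∀ h1 h2 : V n, Dif h1 (Dif h2 w) = 0) (N : ℕ) :
    Dif (N • h) w = (N : ℝ) • Dif h w := by
  induction N with
  | zero => simp [Dif_zero]
  | succ N ih =>
    rw [succ_nsmul, Dif_add _ _ _ (hw _ _), ih]
    push_cast
    rw [add_smul, one_smul]

theorem Dif_smul (h : V n) (c : ℝ) (w : V n → ℝ) : Dif h (c • w) = c • Dif h w := by
  funext x; simp only [Dif, Pi.smul_apply, smul_eq_mul]; ring

theorem DifL_smul (l : List (V n)) : ∀ (c : ℝ) (w : V n → ℝ), DifL l (c • w) = c • DifL l w := by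
  induction l with
  | nil => intro c w; rfl
  | cons a l ih => intro c w; simp only [DifL]; rw [Dif_smul, ih]

/-- multi-additivity of the `k`-th difference when all `(k+1)`-st differences vanish -/
theorem DifL_map_nsmul (N : ℕ) (l : List (V n)) : ∀ (u : V n → ℝ),
    (∀ l' : List (V n), l'.length = l.length + 1 → DifL l' u = 0) →
    DifL (l.map (fun h => N • h)) u = ((N : ℝ) ^ l.length) • DifL l u := by
  induction l with
  | nil => intro u _; simp [DifL]
  | cons h l ih =>
    intro u hu
    simp only [List.map_cons, DifL, List.length_cons]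
    rw [ih (Dif (N • h) u) (fun l' hl' => hu ((N • h) :: l') (by simp [hl']))]
    have hw : ∀ h1 h2 : V n, Dif h1 (Dif h2 (DifL l u)) = 0 := by
      intro h1 h2
      rw [← DifL_Dif, ← DifL_Dif]
      exact hu (h1 :: h2 :: l) (by simp) |>.symm ▸ by
        rw [Dif_comm]; rfl
    rw [DifL_Dif, Dif_nsmul h (DifL l u) hw N, smul_smul, ← pow_succ, ← DifL_Dif]

theorem intOn_ball {u : V n → ℝ} (hu : Continuous u) (x : V n) (R : ℝ) :
    IntegrableOn (fun y => u y ^ 2) (ball x R) volume :=
  ((hu.pow 2).continuousOn.integrableOn_compact (isCompact_closedBall x R)).mono_set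
    ball_subset_closedBall

theorem int_Dif_sq_le {u : V n → ℝ} (hu : Continuous u) (h : V n) (R : ℝ) :
    ∫ x in ball (0 : V n) R, (Dif h u x) ^ 2 ≤ 4 * ∫ x in ball (0 : V n) (R + ‖h‖), u x ^ 2 := by
  have h1 : ∫ x in ball (0 : V n) R, (Dif h u x) ^ 2 ≤
      ∫ x in ball (0 : V n) R, (2 * u (x + h) ^ 2 + 2 * u x ^ 2) := by
    apply integral_mono_of_nonneg
    · exact Eventually.of_forall fun x => sq_nonneg _
    · exact ((intOn_ball (u := fun x => u (x + h)) (hu.comp (continuous_add_const h)) 0 R).const_mul 2).add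
        ((intOn_ball hu 0 R).const_mul 2)
    · refine Eventually.of_forall fun x => ?_
      simp only [Dif]
      nlinarith [sq_nonneg (u (x + h) + u x)]
  have h2 : ∫ x in ball (0 : V n) R, u x ^ 2 ≤ ∫ x in ball (0 : V n) (R + ‖h‖), u x ^ 2 := by
    apply setIntegral_mono_set (intOn_ball hu 0 _)
    · exact Eventually.of_forall fun x => sq_nonneg _
    · exact (ball_subset_ball (by linarith [norm_nonneg h])).eventuallyLE
  have h3 : ∫ x in ball (0 : V n) R, u (x + h) ^ 2 ≤ ∫ x in ball (0 : V n) (R + ‖h‖), u x ^ 2 := by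
    have e : ∫ x in ball (0 : V n) R, u (x + h) ^ 2 = ∫ x in ball h R, u x ^ 2 := by
      have := (measurePreserving_add_right (volume : Measure (V n)) h).setIntegral_preimage_emb
        (measurableEmbedding_addRight h) (fun x => u x ^ 2) (ball h R)
      rw [← this]
      congr 2
      ext x
      simp [mem_ball, dist_eq_norm]
    rw [e]
    apply setIntegral_mono_set (intOn_ball hu 0 _)
    · exact Eventually.of_forall fun x => sq_nonneg _
    · apply LE.le.eventuallyLE
      intro x hx
      rw [mem_ball, dist_eq_norm] at hx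
      rw [mem_ball, dist_zero_right]
      calc ‖x‖ = ‖(x - h) + h‖ := by simp
        _ ≤ ‖x - h‖ + ‖h‖ := norm_add_le _ _
        _ < R + ‖h‖ := by linarith
  have h4 : ∫ x in ball (0 : V n) R, (2 * u (x + h) ^ 2 + 2 * u x ^ 2) =
      2 * (∫ x in ball (0 : V n) R, u (x + h) ^ 2) + 2 * ∫ x in ball (0 : V n) R, u x ^ 2 := by
    rw [integral_add, integral_const_mul, integral_const_mul]
    · exact ((intOn_ball (u := fun x => u (x + h)) (hu.comp (continuous_add_const h)) 0 R).const_mul 2)
    · exact ((intOn_ball hu 0 R).const_mul 2)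
  linarith

theorem int_DifL_sq_le (l : List (V n)) : ∀ {u : V n → ℝ}, Continuous u → ∀ R : ℝ,
    ∫ x in ball (0 : V n) R, (DifL l u x) ^ 2 ≤
      4 ^ l.length * ∫ x in ball (0 : V n) (R + (l.map (fun h => ‖h‖)).sum), u x ^ 2 := by
  induction l with
  | nil => intro u hu R; simp [DifL]
  | cons h l ih =>
    intro u hu R
    simp only [DifL, List.length_cons, List.map_cons, List.sum_cons]
    refine (ih (continuous_Dif hu) R).trans ?_
    have := int_Dif_sq_le hu h (R + (l.map (fun h => ‖h‖)).sum)
    calc (4:ℝ) ^ l.length * ∫ x in ball (0 : V n) (R + (l.map (fun h => ‖h‖)).sum), (Dif h u x) ^ 2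
        ≤ 4 ^ l.length * (4 * ∫ x in ball (0 : V n) (R + (l.map (fun h => ‖h‖)).sum + ‖h‖), u x ^ 2) := by
          gcongr
      _ = _ := by
          rw [pow_succ, mul_assoc]
          rw [add_assoc, add_comm (List.sum _) ‖h‖]

/-- a continuous function of negative growth vanishes -/
theorem eq_zero_of_Gr_neg {u : V n → ℝ} (hu : Continuous u) {K s : ℝ} (hs : s < 0)
    (hg : Gr K s u) : u = 0 := by
  funext x
  by_contra hx
  simp only [Pi.zero_apply] at hx
  -- `∫_{B(0,R0)} u² > 0`
  obtain ⟨R0, hR0⟩ : ∃ R0 : ℝ, ‖x‖ < R0 := exists_gt _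
  have hpos : 0 < ∫ y in ball (0 : V n) R0, u y ^ 2 := by
    rw [setIntegral_pos_iff_support_of_nonneg_ae]
    · have hopen : IsOpen (Function.support (fun y => u y ^ 2) ∩ ball (0 : V n) R0) :=
        (isOpen_ne_fun (hu.pow 2) continuous_const).inter isOpen_ball
      exact hopen.measure_pos volume ⟨x, by simp [hx], by simpa using hR0⟩
    · exact Eventually.of_forall fun x => sq_nonneg _
    · exact intOn_ball hu 0 _
  have hle : ∀ᶠ R : ℝ in atTop, ∫ y in ball (0 : V n) R0, u y ^ 2 ≤ K * R ^ s := by
    filter_upwards [eventually_ge_atTop 1, eventually_ge_atTop R0] with R h1 h2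
    refine le_trans ?_ (hg R h1)
    apply setIntegral_mono_set (intOn_ball hu 0 _)
    · exact Eventually.of_forall fun x => sq_nonneg _
    · exact (ball_subset_ball h2).eventuallyLE
  have hlim : Tendsto (fun R : ℝ => K * R ^ s) atTop (𝓝 (K * 0)) := by
    apply Tendsto.const_mul
    have := tendsto_rpow_neg_atTop (y := -s) (by linarith)
    simpa using this
  have := ge_of_tendsto hlim hle
  simp only [mul_zero] at this
  linarith

theorem volume_real_ball (x : V n) {R : ℝ} (hR : 0 < R) :
    (volume : Measure (V n)).real (ball x R) = R ^ n * (volume : Measure (V n)).real (ball (0 : V n) 1) := by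
  rw [measureReal_def, Measure.addHaar_ball_of_pos _ x hR, ENNReal.toReal_mul, ← measureReal_def,
    ENNReal.toReal_ofReal (by positivity)]
  simp

/-- descent: if all `(k+1)`-st differences vanish and the growth exponent is `< n + 2k`, then all
`k`-th differences vanish -/
theorem descent {u : V n → ℝ} (hu : Continuous u) {K s : ℝ} {l : List (V n)}
    (hs : s < n + 2 * l.length) (hg : Gr K s u)
    (hall : ∀ l' : List (V n), l'.length = l.length + 1 → DifL l' u = 0) : DifL l u = 0 := by
  set k := l.length with hk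
  set c := DifL l u 0 with hc
  have hconst : ∀ x, DifL l u x = c := by
    intro x
    have h0 : Dif x (DifL l u) = 0 := by
      rw [← DifL_Dif]
      exact hall (x :: l) (by simp [hk])
    have := congrFun h0 0
    simp only [Dif, Pi.zero_apply, zero_add] at this
    linarith
  set H := (l.map (fun h => ‖h‖)).sum with hH
  have hH0 : 0 ≤ H := List.sum_nonneg (by
    intro a ha
    simp only [List.mem_map] at ha
    obtain ⟨b, _, rfl⟩ := ha
    exact norm_nonneg b)
  set v1 := (volume : Measure (V n)).real (ball (0 : V n) 1) with hv1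
  have hv1pos : 0 < v1 := by
    rw [hv1, measureReal_def]
    exact ENNReal.toReal_pos (measure_ball_pos _ _ one_pos).ne' measure_ball_lt_top.ne
  have key : ∀ N : ℕ, 1 ≤ N → c ^ 2 * v1 ≤ 4 ^ k * K * (1 + H) ^ s * (N : ℝ) ^ (s - (n + 2 * k)) := by
    intro N hN
    have hN1 : (1 : ℝ) ≤ N := by exact_mod_cast hN
    have hN0 : (0 : ℝ) < N := by linarith
    have e1 := DifL_map_nsmul N l u hall
    have e2 := int_DifL_sq_le (l.map (fun h => N • h)) hu (N : ℝ)
    rw [e1] at e2
    have e3 : ∫ x in ball (0 : V n) N, (((N : ℝ) ^ l.length) • DifL l u) x ^ 2 =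
        (N : ℝ) ^ (2 * k) * c ^ 2 * ((N : ℝ) ^ n * v1) := by
      have : ∀ x, (((N : ℝ) ^ l.length) • DifL l u) x ^ 2 = (N : ℝ) ^ (2 * k) * c ^ 2 := by
        intro x
        rw [Pi.smul_apply, hconst, smul_eq_mul, mul_pow, ← pow_mul, mul_comm _ 2]
      simp only [this]
      rw [setIntegral_const, volume_real_ball _ hN0, smul_eq_mul]
      ring
    have e4 : ((l.map (fun h => N • h)).map (fun h => ‖h‖)).sum = N * H := by
      rw [List.map_map, hH, ← List.sum_map_mul_left]
      congr 1
      apply List.map_congr_left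
      intro a _
      simp only [Function.comp]
      rw [← Nat.cast_smul_eq_nsmul ℝ, norm_smul]
      simp
    rw [e3, e4, List.length_map] at e2
    have e5 := hg (N + N * H) (by nlinarith)
    have e6 : (N : ℝ) ^ (2 * k) * c ^ 2 * ((N : ℝ) ^ n * v1) ≤ 4 ^ k * (K * (N + N * H) ^ s) :=
      e2.trans (by gcongr)
    have e7 : ((N : ℝ) + N * H) ^ s = (1 + H) ^ s * (N : ℝ) ^ s := by
      rw [show (N : ℝ) + N * H = (1 + H) * N by ring, Real.mul_rpow (by linarith) hN0.le]
    rw [e7] at e6
    have e8 : (N : ℝ) ^ (s - (n + 2 * k)) = (N : ℝ) ^ s / ((N : ℝ) ^ (2 * k) * (N : ℝ) ^ n) := by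
      rw [Real.rpow_sub hN0, ← pow_add]
      congr 1
      rw [← Real.rpow_natCast]
      congr 1
      push_cast
      ring
    rw [e8]
    have hpos : 0 < (N : ℝ) ^ (2 * k) * (N : ℝ) ^ n := by positivity
    rw [← mul_div_assoc, le_div_iff₀ hpos]
    nlinarith [e6]
  have hlim : Tendsto (fun N : ℕ => 4 ^ k * K * (1 + H) ^ s * (N : ℝ) ^ (s - (n + 2 * k))) atTop
      (𝓝 (4 ^ k * K * (1 + H) ^ s * 0)) := by
    apply Tendsto.const_mul
    have h1 := tendsto_rpow_neg_atTop (y := -(s - (n + 2 * k))) (by linarith)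
    have h2 := h1.comp (tendsto_natCast_atTop_atTop (R := ℝ))
    rw [neg_neg] at h2
    exact h2
  have h0 := ge_of_tendsto hlim ((eventually_ge_atTop 1).mono key)
  rw [mul_zero] at h0
  have hc0 : c = 0 := by
    have : c ^ 2 = 0 := by nlinarith [sq_nonneg c]
    simpa using this
  funext x
  rw [hconst, hc0]; rfl

/-- iterated differences of members of a class `P` with the one step gain -/
theorem Gr_DifL (P : (V n → ℝ) → Prop) (hdiff : ∀ u h, P u → P (Dif h u))
    (hgrow : ∀ u, P u → ∀ K s : ℝ, s < n + 4 → Gr K s u → ∀ h, ∃ K', Gr K' (s - 1) (Dif h u))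
    (l : List (V n)) : ∀ u, P u → ∀ K s : ℝ, s < n + 4 → Gr K s u →
      ∃ K', Gr K' (s - l.length) (DifL l u) := by
  induction l with
  | nil => intro u _ K s _ hg; exact ⟨K, by simpa [DifL] using hg⟩
  | cons h l ih =>
    intro u hu K s hs hg
    obtain ⟨K1, hK1⟩ := hgrow u hu K s hs hg h
    obtain ⟨K2, hK2⟩ := ih (Dif h u) (hdiff u h hu) K1 (s - 1) (by linarith) hK1
    refine ⟨K2, ?_⟩
    simp only [DifL, List.length_cons]
    push_cast
    convert hK2 using 1
    ring

theorem vanish_of_class (P : (V n → ℝ) → Prop) (hcont : ∀ u, P u → Continuous u)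
    (hdiff : ∀ u h, P u → P (Dif h u))
    (hgrow : ∀ u, P u → ∀ K s : ℝ, s < n + 4 → Gr K s u → ∀ h, ∃ K', Gr K' (s - 1) (Dif h u))
    {u : V n → ℝ} (hu : P u) {K s : ℝ} (hs : s < n + 4) (hg : Gr K s u) (k : ℕ)
    (hk : s < n + 2 * k) : ∀ l : List (V n), l.length = k → DifL l u = 0 := by
  have top : ∀ l : List (V n), s < l.length → DifL l u = 0 := by
    intro l hl
    obtain ⟨K', hK'⟩ := Gr_DifL P hdiff hgrow l u hu K s hs hg
    exact eq_zero_of_Gr_neg (continuous_DifL l (hcont u hu)) (by linarith) hK'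
  obtain ⟨m, hm⟩ : ∃ m : ℕ, s < m := exists_nat_gt s
  have down : ∀ j : ℕ, ∀ i : ℕ, k ≤ i → i + j = max m k →
      ∀ l : List (V n), l.length = i → DifL l u = 0 := by
    intro j
    induction j with
    | zero =>
      intro i hi hij l hl
      apply top
      have : m ≤ l.length := by rw [hl]; omega
      have : (m : ℝ) ≤ l.length := by exact_mod_cast this
      linarith
    | succ j ih =>
      intro i hi hij l hl
      apply descent (hcont u hu) (K := K) (s := s) _ hg
      · intro l' hl'
        exact ih (i + 1) (by omega) (by omega) l' (by rw [hl', hl])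
      · have : (k : ℝ) ≤ l.length := by rw [hl]; exact_mod_cast hi
        linarith
  intro l hl
  exact down (max m k - k) k le_rfl (by omega) l hl

/-- LL-A: functions of a difference-improving class of growth `s < n + 4` are affine. -/
theorem affine_of_class (P : (V n → ℝ) → Prop) (hcont : ∀ u, P u → Continuous u)
    (hdiff : ∀ u h, P u → P (Dif h u))
    (hgrow : ∀ u, P u → ∀ K s : ℝ, s < n + 4 → Gr K s u → ∀ h, ∃ K', Gr K' (s - 1) (Dif h u))
    {u : V n → ℝ} (hu : P u) {K s : ℝ} (hs : s < n + 4) (hg : Gr K s u) :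
    ∃ (a : ℝ) (L : V n →L[ℝ] ℝ), ∀ x, u x = a + L x := by
  have h2 := vanish_of_class P hcont hdiff hgrow hu hs hg 2 (by push_cast; linarith)
  have hadd : ∀ x y : V n, u (x + y) - u 0 = (u x - u 0) + (u y - u 0) := by
    intro x y
    have := congrFun (h2 [x, y] rfl) 0
    simp only [DifL, Dif, Pi.zero_apply, zero_add] at this
    rw [add_comm y x] at this
    linarith
  let f : V n →+ ℝ :=
    { toFun := fun x => u x - u 0
      map_zero' := by simp
      map_add' := hadd }
  have hf : Continuous f := (hcont u hu).sub continuous_const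
  refine ⟨u 0, f.toRealLinearMap hf, fun x => ?_⟩
  simp [f]

/-- LL-A, constant version: growth `s < n + 2`. -/
theorem const_of_class (P : (V n → ℝ) → Prop) (hcont : ∀ u, P u → Continuous u)
    (hdiff : ∀ u h, P u → P (Dif h u))
    (hgrow : ∀ u, P u → ∀ K s : ℝ, s < n + 4 → Gr K s u → ∀ h, ∃ K', Gr K' (s - 1) (Dif h u))
    {u : V n → ℝ} (hu : P u) {K s : ℝ} (hs : s < n + 2) (hg : Gr K s u) :
    ∀ x, u x = u 0 := by
  have h1 := vanish_of_class P hcont hdiff hgrow hu (by linarith) hg 1 (by push_cast; linarith)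
  intro x
  have := congrFun (h1 [x] rfl) 0
  simp only [DifL, Dif, Pi.zero_apply, zero_add] at this
  linarith

end basic

end Crest.Agent.R085
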