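import Crest.Agent.R085.LiouGr

/-!
R085 (S0113), module M6 (linear Liouville lemma): growth of the energy.
-/

set_option autoImplicit false

namespace Crest.Agent.R085

open MeasureTheory Metric Set Filter
open scoped ENNReal NNReal Topology ContDiff

namespace Liou

variable {n : ℕ}

/-- locally Lipschitz times cutoff is a test function -/
theorem isTest_cutoff {u : V n → ℝ}
    (hu : ∀ R : ℝ, ∃ L : ℝ≥0, LipschitzOnWith L u (ball (0 : V n) R)) (a : ℝ) {R : ℝ}
    (hR : 0 < R) : IsTest (fun y => (u y - a) * cut (dist y 0 / R) ^ 2) := by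
  have huc := cont_of_locLip hu
  obtain ⟨L, hL⟩ := hu (3 * R)
  obtain ⟨M, hM⟩ := (isCompact_closedBall (0 : V n) (3 * R)).exists_bound_of_continuousOn
    ((huc.sub continuous_const).continuousOn (f := fun y => u y - a))
  have hM0 : 0 ≤ M := (norm_nonneg _).trans (hM 0 (by simp; linarith))
  have hzero : ∀ y : V n, 2 * R ≤ ‖y‖ → (u y - a) * cut (dist y 0 / R) ^ 2 = 0 := by
    intro y hy
    rw [cut_eq_zero]
    · ring
    · rw [le_div_iff₀ hR, dist_zero_right]; exact hy
  refine ⟨⟨Real.toNNReal (L + 3 * M / R), LipschitzWith.of_dist_le' ?_⟩, ?_⟩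
  · have key : ∀ x y : V n, ‖x‖ ≤ ‖y‖ →
        dist ((u x - a) * cut (dist x 0 / R) ^ 2) ((u y - a) * cut (dist y 0 / R) ^ 2)
          ≤ (L + 3 * M / R) * dist x y := by
      intro x y hxy
      rcases lt_or_ge ‖y‖ (3 * R) with h | h
      · have hx : x ∈ ball (0 : V n) (3 * R) := by simpa using lt_of_le_of_lt hxy h
        have hy : y ∈ ball (0 : V n) (3 * R) := by simpa using h
        have h1 := hL.dist_le_mul x hx y hy
        have h2 := hM y (ball_subset_closedBall hy)
        have h3 : |cut (dist x 0 / R) - cut (dist y 0 / R)| ≤ dist x y / R := by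
          refine (cut_lip _ _).trans ?_
          rw [← sub_div, abs_div, abs_of_pos hR]
          gcongr
          exact abs_dist_sub_le x y 0
        have c1 := cut_nonneg (dist x 0 / R)
        have c2 := cut_le_one (dist x 0 / R)
        have c3 := cut_nonneg (dist y 0 / R)
        have c4 := cut_le_one (dist y 0 / R)
        rw [Real.dist_eq] at h1 ⊢
        rw [Real.norm_eq_abs] at h2
        have e : (u x - a) * cut (dist x 0 / R) ^ 2 - (u y - a) * cut (dist y 0 / R) ^ 2
          = (u x - u y) * cut (dist x 0 / R) ^ 2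
            + (u y - a) * ((cut (dist x 0 / R) + cut (dist y 0 / R))
              * (cut (dist x 0 / R) - cut (dist y 0 / R))) := by ring
        rw [e]
        refine (abs_add_le _ _).trans ?_
        rw [abs_mul, abs_mul, abs_mul, abs_of_nonneg (by positivity : (0:ℝ) ≤ cut (dist x 0 / R) ^ 2),
          abs_of_nonneg (by positivity : (0:ℝ) ≤ cut (dist x 0 / R) + cut (dist y 0 / R))]
        have hd := dist_nonneg (x := x) (y := y)
        calc |u x - u y| * cut (dist x 0 / R) ^ 2
            + |u y - a| * ((cut (dist x 0 / R) + cut (dist y 0 / R))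
              * |cut (dist x 0 / R) - cut (dist y 0 / R)|)
            ≤ (L * dist x y) * 1 + M * ((1 + 1) * (dist x y / R)) := by
              gcongr
              exact pow_le_one₀ c1 c2
          _ ≤ (L + 3 * M / R) * dist x y := by
              have : 0 ≤ M * (dist x y / R) := by positivity
              have e2 : (L + 3 * M / R) * dist x y = L * dist x y + 3 * (M * (dist x y / R)) := by
                ring
              rw [e2]
              linarith
      · rw [hzero y (by linarith)]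
        rcases lt_or_ge ‖x‖ (2 * R) with h' | h'
        · have hx : x ∈ closedBall (0 : V n) (3 * R) := by simp; linarith
          have h2 := hM x hx
          have c1 := cut_nonneg (dist x 0 / R)
          have c2 := cut_le_one (dist x 0 / R)
          have hd : R ≤ dist x y := by
            have := norm_sub_norm_le y x
            rw [dist_comm, dist_eq_norm]
            linarith
          rw [Real.dist_eq, sub_zero, abs_mul, abs_of_nonneg (by positivity : (0:ℝ) ≤ cut (dist x 0 / R) ^ 2)]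
          rw [Real.norm_eq_abs] at h2
          calc |u x - a| * cut (dist x 0 / R) ^ 2 ≤ M * 1 := by
                gcongr
                exact pow_le_one₀ c1 c2
            _ = (M / R) * R := by field_simp
            _ ≤ (L + 3 * M / R) * dist x y := by
                have : M / R ≤ L + 3 * M / R := by
                  have h3 : 0 ≤ M / R := by positivity
                  have h4 : 3 * M / R = 3 * (M / R) := by ring
                  have h5 : (0:ℝ) ≤ L := L.2
                  rw [h4]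
                  linarith
                gcongr
        · rw [hzero x h', dist_self]
          positivity
    intro x y
    rcases le_total ‖x‖ ‖y‖ with h | h
    · exact key x y h
    · rw [dist_comm, dist_comm x y]
      exact key y x h
  · refine HasCompactSupport.intro (isCompact_closedBall (0 : V n) (2 * R)) fun y hy => ?_
    apply hzero
    rw [mem_closedBall_zero_iff, not_le] at hy
    exact hy.le

theorem volume_ball_eq (hn : 0 < n) {R : ℝ} (hR : 0 ≤ R) :
    (volume (ball (0 : V n) R)).toReal = (volume (ball (0 : V n) 1)).toReal * R ^ n := by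
  have : Nonempty (Fin n) := ⟨⟨0, hn⟩⟩
  rw [Measure.addHaar_ball volume _ hR, finrank_euclideanSpace_fin, ENNReal.toReal_mul,
    ENNReal.toReal_ofReal (by positivity)]
  ring

theorem volume_ball_pos : 0 < (volume (ball (0 : V n) 1)).toReal :=
  ENNReal.toReal_pos (measure_ball_pos volume 0 one_pos).ne' measure_ball_lt_top.ne

theorem memLp_of_cont {u : V n → ℝ} (huc : Continuous u) (R : ℝ) :
    MemLp u 2 (volume.restrict (ball (0 : V n) R)) := by
  have : IsFiniteMeasure (volume.restrict (ball (0 : V n) R)) :=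
    ⟨by rw [Measure.restrict_apply_univ]; exact measure_ball_lt_top⟩
  obtain ⟨M, hM⟩ := (isCompact_closedBall (0 : V n) R).exists_bound_of_continuousOn huc.continuousOn
  refine MemLp.of_bound huc.aestronglyMeasurable M ?_
  filter_upwards [ae_restrict_mem measurableSet_ball] with x hx
  exact hM x (ball_subset_closedBall hx)

theorem intOn_cont {f : V n → ℝ} (hf : Continuous f) (R : ℝ) :
    IntegrableOn f (ball (0 : V n) R) :=
  (hf.continuousOn.integrableOn_compact (isCompact_closedBall 0 R)).mono_set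
      ball_subset_closedBall

theorem setIntegral_const_ball (hn : 0 < n) (c : ℝ) {R : ℝ} (hR : 0 ≤ R) :
    ∫ _y in ball (0 : V n) R, c = (volume (ball (0 : V n) 1)).toReal * R ^ n * c := by
  rw [setIntegral_const, smul_eq_mul, Measure.real, volume_ball_eq hn hR]

/-- `L¹` bound on a ball -/
theorem abs_int_sq_le (hn : 0 < n) {v : V n → ℝ} (hv : Continuous v) {R : ℝ} (hR : 0 ≤ R) :
    (∫ y in ball (0 : V n) R, |v y|) ^ 2
      ≤ (∫ y in ball (0 : V n) R, v y ^ 2) * ((volume (ball (0 : V n) 1)).toReal * R ^ n) := by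
  have h1 := cs (μ := volume.restrict (ball (0 : V n) R)) (f := v)
      (g := fun _ => (1:ℝ)) (intOn_cont (by fun_prop) _) (intOn_cont (by fun_prop) _)
      (intOn_cont (by fun_prop) _)
  simp only [abs_one, mul_one, one_pow] at h1
  rw [setIntegral_const_ball hn _ hR, mul_one] at h1
  exact h1

/-- the mean and its bound -/
theorem mean_bound (hn : 0 < n) {u : V n → ℝ} (huc : Continuous u) {K s : ℝ}
    (hG : Gr K s u) : ∃ ca : ℝ, 0 ≤ ca ∧ ∀ R : ℝ, 1 ≤ R → ∃ a : ℝ,
      ∫ y : V n, (u y - a) * cut (dist y 0 / R) ^ 2 = 0 ∧ a ^ 2 ≤ ca * (R ^ s / R ^ n) := by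
  have hK := gr_nonneg hG
  set om : ℝ := (volume (ball (0 : V n) 1)).toReal with hom
  have hom0 : 0 < om := volume_ball_pos
  refine ⟨2 ^ s * 2 ^ n / om * K, by positivity, fun R hR => ?_⟩
  have hR0 : 0 < R := by linarith
  set φ : V n → ℝ := fun y => cut (dist y 0 / R) with hφ
  have hφc : Continuous φ := continuous_cut.comp (by fun_prop)
  have hφ0 : ∀ y, 0 ≤ φ y := fun y => cut_nonneg _
  have hφ1 : ∀ y, φ y ≤ 1 := fun y => cut_le_one _
  have hφs : ∀ y, y ∉ ball (0 : V n) (2 * R) → φ y = 0 := by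
    intro y hy
    refine cut_eq_zero ?_
    rw [le_div_iff₀ hR0]
    rw [mem_ball, not_lt] at hy
    exact hy
  have hφcpt : HasCompactSupport (fun y => φ y ^ 2) := by
    refine HasCompactSupport.intro (isCompact_closedBall (0 : V n) (2 * R)) fun y hy => ?_
    rw [hφs y fun h => hy (ball_subset_closedBall h)]
    norm_num
  have hφ2c : Continuous (fun y => φ y ^ 2) := hφc.pow 2
  have hφ2i : Integrable (fun y => φ y ^ 2) := hφ2c.integrable_of_hasCompactSupport hφcpt
  have huφi : Integrable (fun y => u y * φ y ^ 2) :=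
    (huc.mul hφ2c).integrable_of_hasCompactSupport hφcpt.mul_left
  -- denominator
  have hden : om * R ^ n ≤ ∫ y, φ y ^ 2 := by
    calc om * R ^ n = ∫ _y in ball (0 : V n) R, (1:ℝ) := by
          rw [setIntegral_const_ball hn _ hR0.le, mul_one]
      _ ≤ ∫ y in ball (0 : V n) R, φ y ^ 2 := by
          refine setIntegral_mono_on (integrableOn_const measure_ball_lt_top.ne)
            hφ2i.integrableOn measurableSet_ball fun y hy => ?_
          have : φ y = 1 := by
            refine cut_eq_one ?_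
            rw [div_le_iff₀ hR0, one_mul]
            exact (mem_ball.1 hy).le
          rw [this]; norm_num
      _ ≤ ∫ y, φ y ^ 2 := setIntegral_le_integral hφ2i
          (Filter.Eventually.of_forall fun y => by positivity)
  have hdpos : 0 < ∫ y, φ y ^ 2 := lt_of_lt_of_le (by positivity) hden
  refine ⟨(∫ y, u y * φ y ^ 2) / ∫ y, φ y ^ 2, ?_, ?_⟩
  · have : ∀ y : V n, (u y - (∫ y, u y * φ y ^ 2) / ∫ y, φ y ^ 2) * cut (dist y 0 / R) ^ 2
        = u y * φ y ^ 2 - ((∫ y, u y * φ y ^ 2) / ∫ y, φ y ^ 2) * φ y ^ 2 := by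
      intro y; rw [hφ]; ring
    simp_rw [this]
    rw [integral_sub huφi (hφ2i.const_mul _), integral_const_mul,
      div_mul_cancel₀ _ hdpos.ne', sub_self]
  · have hA1 : (∫ y in ball (0 : V n) (2 * R), |u y|) ^ 2
        ≤ (K * (2 * R) ^ s) * (om * (2 * R) ^ n) := by
      refine (abs_int_sq_le hn huc (by positivity)).trans ?_
      gcongr
      exact hG (2 * R) (by linarith)
    have hA2 : |∫ y, u y * φ y ^ 2| ≤ ∫ y in ball (0 : V n) (2 * R), |u y| := by
      have e : ∫ y, u y * φ y ^ 2 = ∫ y in ball (0 : V n) (2 * R), u y * φ y ^ 2 := by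
        rw [setIntegral_eq_integral_of_forall_compl_eq_zero]
        intro y hy
        rw [hφs y hy]; ring
      rw [e, ← Real.norm_eq_abs]
      refine (norm_integral_le_integral_norm _).trans ?_
      refine setIntegral_mono_on huφi.norm.integrableOn (intOn_cont (by fun_prop) _)
        measurableSet_ball fun y _ => ?_
      rw [norm_mul, Real.norm_eq_abs, Real.norm_of_nonneg (by positivity)]
      calc |u y| * φ y ^ 2 ≤ |u y| * 1 := by
            gcongr
            exact pow_le_one₀ (hφ0 y) (hφ1 y)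
        _ = _ := mul_one _
    have h1 : (∫ y, u y * φ y ^ 2) ^ 2 ≤ (K * (2 * R) ^ s) * (om * (2 * R) ^ n) := by
      rw [← sq_abs]
      exact (pow_le_pow_left₀ (abs_nonneg _) hA2 2).trans hA1
    rw [div_pow]
    calc (∫ y, u y * φ y ^ 2) ^ 2 / (∫ y, φ y ^ 2) ^ 2
        ≤ ((K * (2 * R) ^ s) * (om * (2 * R) ^ n)) / (om * R ^ n) ^ 2 := by gcongr
      _ = 2 ^ s * 2 ^ n / om * K * (R ^ s / R ^ n) := by
          rw [Real.mul_rpow (by norm_num) hR0.le, mul_pow, mul_pow]
          field_simp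

/-- local `L²` bound -/
theorem sq_sub_bound (hn : 0 < n) {u : V n → ℝ} (huc : Continuous u) {K s : ℝ}
    (hG : Gr K s u) {ca : ℝ} (hca : 0 ≤ ca) : ∃ c1 : ℝ, 0 ≤ c1 ∧ ∀ R : ℝ, 1 ≤ R → ∀ a : ℝ,
      a ^ 2 ≤ ca * (R ^ s / R ^ n) → ∫ y in ball (0 : V n) (4 * R), (u y - a) ^ 2 ≤ c1 * R ^ s := by
  have hK := gr_nonneg hG
  set om : ℝ := (volume (ball (0 : V n) 1)).toReal with hom
  have hom0 : 0 < om := volume_ball_pos
  refine ⟨2 * (K * 4 ^ s) + 2 * ca * om * 4 ^ n, by positivity, fun R hR a ha => ?_⟩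
  have hR0 : 0 < R := by linarith
  calc ∫ y in ball (0 : V n) (4 * R), (u y - a) ^ 2
      ≤ ∫ y in ball (0 : V n) (4 * R), (2 * u y ^ 2 + 2 * a ^ 2) := by
        refine setIntegral_mono_on (intOn_cont (by fun_prop) _) (intOn_cont (by fun_prop) _)
          measurableSet_ball fun y _ => ?_
        nlinarith [sq_nonneg (u y + a)]
    _ = 2 * (∫ y in ball (0 : V n) (4 * R), u y ^ 2) + om * (4 * R) ^ n * (2 * a ^ 2) := by
        rw [integral_add (intOn_cont (by fun_prop) _) (intOn_cont (by fun_prop) _),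
          integral_const_mul, setIntegral_const_ball hn _ (by positivity)]
    _ ≤ 2 * (K * (4 * R) ^ s) + om * (4 * R) ^ n * (2 * (ca * (R ^ s / R ^ n))) := by
        gcongr
        exact hG (4 * R) (by linarith)
    _ = _ := by
        rw [Real.mul_rpow (by norm_num) hR0.le, mul_pow]
        field_simp

/-- far integral -/
theorem far_bound (hn : 0 < n) {u : V n → ℝ} (huc : Continuous u) {K s : ℝ} (hs : s < n + 4)
    (hG : Gr K s u) {ca : ℝ} (hca : 0 ≤ ca) : ∃ c3 : ℝ, 0 ≤ c3 ∧ ∀ R : ℝ, 1 ≤ R → ∀ a : ℝ,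
      a ^ 2 ≤ ca * (R ^ s / R ^ n) → ∃ F : ℝ, 0 ≤ F ∧ F ^ 2 ≤ c3 * (R ^ s / R ^ (n + 4)) ∧
        ∀ N : ℝ, farI n volume (fun y => u y - a) 0 (4 * R) (4 * N) ≤ F := by
  obtain ⟨C, hC, hU⟩ := upperReg_volume hn
  obtain ⟨cF, hcF, hF⟩ := tail_sq_le hn hs (memLp_of_cont huc) hG
  have hK := gr_nonneg hG
  set cT : ℝ := C * 2 ^ (n + 1) with hcT
  have hcT0 : 0 ≤ cT := by positivity
  set c3 : ℝ := 2 * cF * 4 ^ s + 2 * ca * cT ^ 2 with hc3
  have hc30 : 0 ≤ c3 := by positivity
  refine ⟨c3, hc30, fun R hR a ha2 => ?_⟩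
  have hR0 : 0 < R := by linarith
  set S : ℝ := R ^ s with hS
  have hS0 : 0 < S := by positivity
  have hmset : MeasurableSet {y : V n | 4 * R ≤ ‖y‖} :=
    measurableSet_le measurable_const measurable_norm
  obtain ⟨hFi, hFb⟩ := hF (4 * R) (by linarith)
  have hset : {y : V n | 4 * R ≤ dist 0 y} = {y : V n | 4 * R ≤ ‖y‖} := by
    ext y; simp
  have ht := integrableOn_tail hU hC (m := 2) (by norm_num) (0 : V n) (r := 4 * R) (by positivity)
  rw [hset] at ht
  simp only [dist_zero_left] at ht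
  set F1 : ℝ := ∫ y in {y : V n | 4 * R ≤ ‖y‖}, |u y| * (‖y‖ ^ (n + 2))⁻¹ with hF1def
  set F2 : ℝ := ∫ y in {y : V n | 4 * R ≤ ‖y‖}, (‖y‖ ^ (n + 2))⁻¹ with hF2def
  have hF10 : 0 ≤ F1 := integral_nonneg fun _ => by positivity
  have hF20 : 0 ≤ F2 := integral_nonneg fun _ => by positivity
  have hF2 : F2 ≤ cT / R ^ 2 := by
    refine ht.2.trans ?_
    rw [hcT]
    gcongr
    linarith
  refine ⟨F1 + |a| * F2, by positivity, ?_, ?_⟩
  · have h1 : (F1 + |a| * F2) ^ 2 ≤ 2 * F1 ^ 2 + 2 * (|a| * F2) ^ 2 := by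
      nlinarith [sq_nonneg (F1 - |a| * F2)]
    have h2 : F1 ^ 2 ≤ cF * 4 ^ s * (S / R ^ (n + 4)) := by
      refine hFb.trans ?_
      rw [Real.mul_rpow (by norm_num) hR0.le, ← hS]
      calc cF * (4 ^ s * S * ((4 * R) ^ (n + 4))⁻¹) ≤ cF * (4 ^ s * S * (R ^ (n + 4))⁻¹) := by
            gcongr
            linarith
        _ = _ := by ring
    have h3 : (|a| * F2) ^ 2 ≤ ca * cT ^ 2 * (S / R ^ (n + 4)) := by
      rw [mul_pow, sq_abs]
      calc a ^ 2 * F2 ^ 2 ≤ (ca * (S / R ^ n)) * (cT / R ^ 2) ^ 2 := by gcongr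
        _ = ca * cT ^ 2 * (S / R ^ (n + 4)) := by
            rw [pow_add, div_pow]
            field_simp
    have e : c3 * (S / R ^ (n + 4)) = 2 * (cF * 4 ^ s * (S / R ^ (n + 4)))
        + 2 * (ca * cT ^ 2 * (S / R ^ (n + 4))) := by
      rw [hc3]; ring
    rw [e]
    linarith
  · intro N
    have hi1 : IntegrableOn (fun y : V n => |a| * (‖y‖ ^ (n + 2))⁻¹) {y : V n | 4 * R ≤ ‖y‖} :=
      ht.1.const_mul _
    have hi : IntegrableOn (fun y => |u y| * (‖y‖ ^ (n + 2))⁻¹ + |a| * (‖y‖ ^ (n + 2))⁻¹)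
        {y : V n | 4 * R ≤ ‖y‖} := hFi.add hi1
    have e : F1 + |a| * F2 = ∫ y in {y : V n | 4 * R ≤ ‖y‖},
        (|u y| * (‖y‖ ^ (n + 2))⁻¹ + |a| * (‖y‖ ^ (n + 2))⁻¹) := by
      rw [integral_add hFi hi1, integral_const_mul]
    have hsub : ball (0 : V n) (4 * N) \ ball 0 (4 * R) ⊆ {y : V n | 4 * R ≤ ‖y‖} := by
      intro y hy
      have := hy.2
      rw [mem_ball_zero_iff, not_lt] at this
      exact this
    unfold farI
    rw [e]
    calc ∫ y in ball (0 : V n) (4 * N) \ ball 0 (4 * R), |u y - a| * (dist y 0 ^ (n + 2))⁻¹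
        ≤ ∫ y in ball (0 : V n) (4 * N) \ ball 0 (4 * R),
          (|u y| * (‖y‖ ^ (n + 2))⁻¹ + |a| * (‖y‖ ^ (n + 2))⁻¹) := by
          have hpt : ∀ y : V n, |u y - a| * (dist y 0 ^ (n + 2))⁻¹
              ≤ |u y| * (‖y‖ ^ (n + 2))⁻¹ + |a| * (‖y‖ ^ (n + 2))⁻¹ := by
            intro y
            rw [dist_zero_right, ← add_mul]
            have := abs_sub (u y) a
            gcongr
          refine setIntegral_mono_on ?_ (hi.mono_set hsub)
            (measurableSet_ball.diff measurableSet_ball) fun y _ => hpt y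
          refine (hi.mono_set hsub).mono' ?_ (Filter.Eventually.of_forall fun y => ?_)
          · refine AEStronglyMeasurable.mul ?_ ?_
            · exact Continuous.aestronglyMeasurable (by fun_prop)
            · exact (((continuous_id.dist continuous_const).measurable.pow_const _).inv).aestronglyMeasurable
          · rw [Real.norm_of_nonneg (by positivity)]
            exact hpt y
      _ ≤ _ := setIntegral_mono_set hi (Filter.Eventually.of_forall fun y => by positivity)
          hsub.eventuallyLE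

/-- growth of the energy -/
theorem energy_le (hn : 0 < n) {u : V n → ℝ} (hu : Sol u) {K s : ℝ} (hs : s < n + 4)
    (hG : Gr K s u) : ∃ C : ℝ, 0 ≤ C ∧ ∀ R : ℝ, 1 ≤ R → En n volume u 0 R ≤ C * R ^ (s - 1) := by
  obtain ⟨C, hC, hU⟩ := upperReg_volume hn
  obtain ⟨K1, hK1, hcacc⟩ := cacc n n C hC hn
  have huc := cont_of_locLip hu.lip
  obtain ⟨ca, hca, hmean⟩ := mean_bound hn huc hG
  obtain ⟨c1, hc1, hI1⟩ := sq_sub_bound hn huc hG hca
  obtain ⟨c3, hc3, hF⟩ := far_bound hn huc hs hG hca
  set om : ℝ := (volume (ball (0 : V n) 1)).toReal with hom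
  have hom0 : 0 < om := volume_ball_pos
  refine ⟨K1 * (c1 + (2 ^ n * om * c1 + c3)), by positivity, fun R hR => ?_⟩
  have hR0 : 0 < R := by linarith
  set S : ℝ := R ^ s with hS
  have hS0 : 0 < S := by positivity
  obtain ⟨a, ham, ha2⟩ := hmean R hR
  have h1 := hI1 R hR a ha2
  obtain ⟨F, hF0, hFsq, hfar⟩ := hF R hR a ha2
  -- I₂
  set I2 : ℝ := ∫ y in ball (0 : V n) (2 * R), |u y - a| with hI2
  have hI20 : 0 ≤ I2 := integral_nonneg fun _ => abs_nonneg _
  have hI2' : I2 ^ 2 ≤ 2 ^ n * om * c1 * (S * R ^ n) := by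
    refine (abs_int_sq_le hn (v := fun y => u y - a) (by fun_prop) (by positivity)).trans ?_
    have h2 : ∫ y in ball (0 : V n) (2 * R), (u y - a) ^ 2 ≤ c1 * S := by
      refine le_trans ?_ h1
      refine setIntegral_mono_set (intOn_cont (by fun_prop) _)
        (Filter.Eventually.of_forall fun y => by positivity) ?_
      exact (ball_subset_ball (by linarith)).eventuallyLE
    calc (∫ y in ball (0 : V n) (2 * R), (u y - a) ^ 2) * (om * (2 * R) ^ n)
        ≤ (c1 * S) * (om * (2 * R) ^ n) := by gcongr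
      _ = _ := by rw [mul_pow]; ring
  -- the product term
  have hprod : R * I2 * F ≤ (2 ^ n * om * c1 + c3) * (S / R) := by
    have h1 : I2 * F ≤ (R ^ (n + 2))⁻¹ * I2 ^ 2 + R ^ (n + 2) * F ^ 2 := by
      have hp : 0 < R ^ (n + 2) := by positivity
      have h2 : 0 ≤ ((R ^ (n + 2))⁻¹ * I2 - F) ^ 2 * R ^ (n + 2) := by positivity
      have h3 : ((R ^ (n + 2))⁻¹ * I2 - F) ^ 2 * R ^ (n + 2)
          = (R ^ (n + 2))⁻¹ * I2 ^ 2 - 2 * (I2 * F) + R ^ (n + 2) * F ^ 2 := by
        field_simp
        ring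
      have h4 : 0 ≤ I2 * F := by positivity
      linarith
    calc R * I2 * F = R * (I2 * F) := by ring
      _ ≤ R * ((R ^ (n + 2))⁻¹ * I2 ^ 2 + R ^ (n + 2) * F ^ 2) := by gcongr
      _ ≤ R * ((R ^ (n + 2))⁻¹ * (2 ^ n * om * c1 * (S * R ^ n))
          + R ^ (n + 2) * (c3 * (S / R ^ (n + 4)))) := by gcongr
      _ = (2 ^ n * om * c1 + c3) * (S / R) := by
          rw [pow_add, pow_add]
          field_simp
  -- conclusion
  have hlim : Tendsto (fun N : ℝ => 2 * |Bf n volume N u (fun y => (u y - a) * cut (dist y 0 / R) ^ 2)|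
      + K1 * (R⁻¹ * (c1 * S) + (2 ^ n * om * c1 + c3) * (S / R))) atTop
      (𝓝 (2 * |(0:ℝ)| + K1 * (R⁻¹ * (c1 * S) + (2 ^ n * om * c1 + c3) * (S / R)))) :=
    ((hu.weak _ (isTest_cutoff hu.lip a hR0) ham).abs.const_mul 2).add_const _
  have hle : En n volume u 0 R ≤ 2 * |(0:ℝ)| + K1 * (R⁻¹ * (c1 * S) + (2 ^ n * om * c1 + c3) * (S / R)) := by
    refine ge_of_tendsto hlim ?_
    filter_upwards [eventually_ge_atTop (8 * R)] with N hN
    refine (hcacc volume hU u hu.lip 0 R N a hR0 hN ham).trans ?_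
    have hN' := hfar N
    refine add_le_add le_rfl (mul_le_mul_of_nonneg_left (add_le_add ?_ ?_) hK1.le)
    · gcongr
    · refine le_trans ?_ hprod
      rw [← hI2]
      gcongr
  refine hle.trans (le_of_eq ?_)
  rw [abs_zero, Real.rpow_sub_one hR0.ne', ← hS]
  field_simp
  ring

end Liou

end Crest.Agent.R085
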