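import Crest.Agent.R085.LiouBf
import Crest.Agent.R085.Cacc

/-!
R085 (S0113), module M6 (linear Liouville lemma): growth of the energy and of differences.
-/

set_option autoImplicit false

namespace Crest.Agent.R085

open MeasureTheory Metric Set Filter
open scoped ENNReal NNReal Topology ContDiff

namespace Liou

variable {n : ℕ}

/-- Cauchy–Schwarz -/
theorem cs {α : Type*} [MeasurableSpace α] {μ : Measure α} {f g : α → ℝ}
    (hf : Integrable (fun x => f x ^ 2) μ) (hg : Integrable (fun x => g x ^ 2) μ)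
    (hfg : Integrable (fun x => |f x| * |g x|) μ) :
    (∫ x, |f x| * |g x| ∂μ) ^ 2 ≤ (∫ x, f x ^ 2 ∂μ) * ∫ x, g x ^ 2 ∂μ := by
  have h : ∀ t : ℝ, 0 ≤ (∫ x, f x ^ 2 ∂μ) * (t * t) + (2 * ∫ x, |f x| * |g x| ∂μ) * t
      + ∫ x, g x ^ 2 ∂μ := by
    intro t
    have e : (∫ x, f x ^ 2 ∂μ) * (t * t) + (2 * ∫ x, |f x| * |g x| ∂μ) * t
      + ∫ x, g x ^ 2 ∂μ = ∫ x, (t * |f x| + |g x|) ^ 2 ∂μ := by
      have : ∀ x, (t * |f x| + |g x|) ^ 2
          = (f x ^ 2 * (t * t) + (|f x| * |g x|) * (2 * t)) + g x ^ 2 := by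
        intro x
        rw [← sq_abs (f x), ← sq_abs (g x)]
        ring
      simp_rw [this]
      have i1 := hf.mul_const (t * t)
      have i2 := hfg.mul_const (2 * t)
      have i3 : Integrable (fun x => f x ^ 2 * (t * t) + |f x| * |g x| * (2 * t)) μ := i1.add i2
      rw [integral_add i3 hg, integral_add i1 i2, integral_mul_const, integral_mul_const]
      ring
    rw [e]
    exact integral_nonneg fun x => by positivity
  have := discrim_le_zero h
  unfold discrim at this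
  nlinarith

/-- dyadic bound of a weighted tail. -/
theorem lintegral_tail_weight {f : V n → ℝ≥0∞} {K s a : ℝ} (ha0 : 0 ≤ a) (has : s < a)
    (hK : 0 ≤ K)
    (hf : ∀ R : ℝ, 1 ≤ R → ∫⁻ x in ball (0 : V n) R, f x ≤ ENNReal.ofReal (K * R ^ s))
    {R : ℝ} (hR : 1 ≤ R) :
    ∫⁻ x in {x : V n | R ≤ ‖x‖}, f x * ENNReal.ofReal (‖x‖ ^ (-a)) ≤
      ENNReal.ofReal (K * (2 ^ s / (1 - 2 ^ (s - a))) * R ^ (s - a)) := by
  have hR0 : 0 < R := by linarith
  have hcover : {x : V n | R ≤ ‖x‖} ⊆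
      ⋃ j : ℕ, (ball 0 ((2:ℝ) ^ (j + 1) * R) \ ball 0 ((2:ℝ) ^ j * R)) := by
    intro x hx
    rw [mem_ofPred_eq] at hx
    have h : 1 ≤ ‖x‖ / R := by rwa [le_div_iff₀ hR0, one_mul]
    obtain ⟨j, h1, h2⟩ := exists_nat_pow_near h (one_lt_two)
    rw [le_div_iff₀ hR0] at h1
    rw [div_lt_iff₀ hR0] at h2
    exact mem_iUnion.2 ⟨j, by simpa using h2, by simpa using h1⟩
  have hq0 : (0:ℝ) < 2 ^ (s - a) := by positivity
  have hq1 : (2:ℝ) ^ (s - a) < 1 := Real.rpow_lt_one_of_one_lt_of_neg (by norm_num) (by linarith)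
  have hshell : ∀ j : ℕ, ∫⁻ x in ball (0 : V n) ((2:ℝ) ^ (j + 1) * R) \ ball 0 ((2:ℝ) ^ j * R),
      f x * ENNReal.ofReal (‖x‖ ^ (-a)) ≤
        ENNReal.ofReal (K * 2 ^ s * R ^ (s - a) * ((2:ℝ) ^ (s - a)) ^ j) := by
    intro j
    have h2j : (0:ℝ) < 2 ^ j * R := by positivity
    calc ∫⁻ x in ball (0 : V n) ((2:ℝ) ^ (j + 1) * R) \ ball 0 ((2:ℝ) ^ j * R),
        f x * ENNReal.ofReal (‖x‖ ^ (-a))
        ≤ ∫⁻ x in ball (0 : V n) ((2:ℝ) ^ (j + 1) * R) \ ball 0 ((2:ℝ) ^ j * R),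
          f x * ENNReal.ofReal (((2:ℝ) ^ j * R) ^ (-a)) := by
          refine setLIntegral_mono' (measurableSet_ball.diff measurableSet_ball) fun x hx => ?_
          refine mul_le_mul' le_rfl (ENNReal.ofReal_le_ofReal ?_)
          refine Real.rpow_le_rpow_of_nonpos h2j ?_ (by linarith)
          have : ¬ ‖x‖ < 2 ^ j * R := by simpa using hx.2
          linarith
      _ = (∫⁻ x in ball (0 : V n) ((2:ℝ) ^ (j + 1) * R) \ ball 0 ((2:ℝ) ^ j * R), f x)
          * ENNReal.ofReal (((2:ℝ) ^ j * R) ^ (-a)) := lintegral_mul_const' _ _ ENNReal.ofReal_ne_top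
      _ ≤ (∫⁻ x in ball (0 : V n) ((2:ℝ) ^ (j + 1) * R), f x)
          * ENNReal.ofReal (((2:ℝ) ^ j * R) ^ (-a)) := by
          gcongr
          exact sdiff_subset
      _ ≤ ENNReal.ofReal (K * ((2:ℝ) ^ (j + 1) * R) ^ s)
          * ENNReal.ofReal (((2:ℝ) ^ j * R) ^ (-a)) := by
          gcongr
          refine hf _ ?_
          have : (1:ℝ) ≤ 2 ^ (j + 1) := one_le_pow₀ (by norm_num)
          nlinarith
      _ = ENNReal.ofReal (K * 2 ^ s * R ^ (s - a) * ((2:ℝ) ^ (s - a)) ^ j) := by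
          rw [← ENNReal.ofReal_mul (by positivity)]
          congr 1
          rw [pow_succ, Real.mul_rpow (by positivity) hR0.le, Real.mul_rpow (by positivity) hR0.le,
            Real.mul_rpow (by positivity) (by norm_num), sub_eq_add_neg,
            Real.rpow_add hR0, Real.rpow_add (by norm_num), mul_pow, ← Real.rpow_natCast,
            ← Real.rpow_natCast,
            ← Real.rpow_natCast, ← Real.rpow_mul (by norm_num), ← Real.rpow_mul (by norm_num),
            ← Real.rpow_mul (by norm_num), ← Real.rpow_mul (by norm_num), mul_comm (j : ℝ) s,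
            mul_comm (j : ℝ) (-a)]
          ring
  calc ∫⁻ x in {x : V n | R ≤ ‖x‖}, f x * ENNReal.ofReal (‖x‖ ^ (-a))
      ≤ ∫⁻ x in ⋃ j : ℕ, (ball 0 ((2:ℝ) ^ (j + 1) * R) \ ball 0 ((2:ℝ) ^ j * R)),
        f x * ENNReal.ofReal (‖x‖ ^ (-a)) := lintegral_mono_set hcover
    _ ≤ ∑' j : ℕ, ENNReal.ofReal (K * 2 ^ s * R ^ (s - a) * ((2:ℝ) ^ (s - a)) ^ j) := by
        refine (lintegral_iUnion_le _ _).trans ?_
        exact ENNReal.tsum_le_tsum hshell
    _ = _ := by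
        rw [← ENNReal.ofReal_tsum_of_nonneg]
        · rw [tsum_mul_left, tsum_geometric_of_lt_one hq0.le hq1]
          congr 1
          rw [div_eq_mul_inv]
          ring
        · intro j; positivity
        · exact (summable_geometric_of_lt_one hq0.le hq1).mul_left _

/-- tail bound of a function of growth `s`. -/
theorem tail_sq_le (hn : 0 < n) {T : V n → ℝ} {K s : ℝ} (hs : s < n + 4)
    (hT : ∀ R : ℝ, MemLp T 2 (volume.restrict (ball (0 : V n) R))) (hG : Gr K s T) :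
    ∃ c : ℝ, 0 ≤ c ∧ ∀ R : ℝ, 1 ≤ R →
      IntegrableOn (fun y => |T y| * (‖y‖ ^ (n + 2))⁻¹) {y : V n | R ≤ ‖y‖} ∧
      (∫ y in {y : V n | R ≤ ‖y‖}, |T y| * (‖y‖ ^ (n + 2))⁻¹) ^ 2
        ≤ c * (R ^ s * (R ^ (n + 4))⁻¹) := by
  obtain ⟨C, hC, hU⟩ := upperReg_volume hn
  obtain ⟨a, ha0, has, han⟩ : ∃ a : ℝ, 0 ≤ a ∧ s < a ∧ a < n + 4 := by
    refine ⟨max 0 ((s + n + 4) / 2), le_max_left _ _, lt_max_of_lt_right (by linarith), ?_⟩
    refine max_lt (by positivity) (by linarith)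
  have hK := gr_nonneg hG
  have hTm := aestronglyMeasurable_of_memLp hT
  have hq1 : (2:ℝ) ^ (s - a) < 1 := Real.rpow_lt_one_of_one_lt_of_neg (by norm_num) (by linarith)
  have hb : (n : ℝ) < 2 * n + 4 - a := by linarith
  have hq2 : (2:ℝ) ^ ((n:ℝ) - (2 * n + 4 - a)) < 1 :=
    Real.rpow_lt_one_of_one_lt_of_neg (by norm_num) (by linarith)
  set c1 : ℝ := 2 ^ s / (1 - 2 ^ (s - a)) with hc1
  have hc10 : 0 ≤ c1 := div_nonneg (by positivity) (by linarith)
  set c2 : ℝ := C * 2 ^ n / (1 - 2 ^ ((n:ℝ) - (2 * n + 4 - a))) with hc2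
  have hc20 : 0 ≤ c2 := div_nonneg (by positivity) (by linarith)
  refine ⟨K * c1 * c2, by positivity, fun R hR => ?_⟩
  have hR0 : 0 < R := by linarith
  have hset : {y : V n | R ≤ dist 0 y} = {y : V n | R ≤ ‖y‖} := by
    ext y; simp
  have hmset : MeasurableSet {y : V n | R ≤ ‖y‖} := measurableSet_le measurable_const measurable_norm
  -- the two squares
  have h1 := lintegral_tail_weight ha0 has hK (lintegral_sq_le hT hG) hR
  have hf2 : Integrable (fun y => (|T y| * ‖y‖ ^ (-a / 2)) ^ 2)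
      (volume.restrict {y : V n | R ≤ ‖y‖}) ∧
      ∫ y in {y : V n | R ≤ ‖y‖}, (|T y| * ‖y‖ ^ (-a / 2)) ^ 2 ≤ K * c1 * R ^ (s - a) := by
    refine integrable_and_integral_le_of_lintegral ?_ (fun x => by positivity) (by positivity) ?_
    · refine AEStronglyMeasurable.pow ?_ 2
      refine AEStronglyMeasurable.mul ?_ ?_
      · exact (hTm.restrict.norm).congr (Filter.Eventually.of_forall fun x => Real.norm_eq_abs _)
      · exact (measurable_norm.pow_const _).aestronglyMeasurable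
    · refine le_trans (lintegral_mono_ae ?_) h1
      filter_upwards [ae_restrict_mem hmset] with y hy
      have hy0 : 0 < ‖y‖ := lt_of_lt_of_le hR0 hy
      rw [← ENNReal.ofReal_mul (by positivity)]
      refine ENNReal.ofReal_le_ofReal (le_of_eq ?_)
      rw [mul_pow, sq_abs, ← Real.rpow_natCast (‖y‖ ^ (-a / 2)), ← Real.rpow_mul hy0.le]
      congr 2
      push_cast
      ring
  have hg2 : Integrable (fun y : V n => (‖y‖ ^ (a / 2 - n - 2)) ^ 2)
      (volume.restrict {y : V n | R ≤ ‖y‖}) ∧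
      ∫ y in {y : V n | R ≤ ‖y‖}, (‖y‖ ^ (a / 2 - n - 2)) ^ 2 ≤ c2 * R ^ (a - n - 4) := by
    have h2 := integrableOn_tail_rpow hU hC hb (0 : V n) hR0
    rw [hset] at h2
    have e : ∀ y ∈ {y : V n | R ≤ ‖y‖}, dist (0 : V n) y ^ (-(2 * n + 4 - a))
        = (‖y‖ ^ (a / 2 - n - 2)) ^ 2 := by
      intro y hy
      have hy0 : 0 < ‖y‖ := lt_of_lt_of_le hR0 hy
      rw [dist_zero_left, ← Real.rpow_natCast (‖y‖ ^ (a / 2 - n - 2)), ← Real.rpow_mul hy0.le]
      congr 1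
      push_cast
      ring
    refine ⟨(h2.1.congr_fun e hmset), ?_⟩
    rw [← setIntegral_congr_fun hmset e]
    refine h2.2.trans (le_of_eq ?_)
    rw [hc2]
    congr 2
    ring
  have hprod : ∀ y ∈ {y : V n | R ≤ ‖y‖}, |(|T y| * ‖y‖ ^ (-a / 2))| * |‖y‖ ^ (a / 2 - n - 2)|
      = |T y| * (‖y‖ ^ (n + 2))⁻¹ := by
    intro y hy
    have hy0 : 0 < ‖y‖ := lt_of_lt_of_le hR0 hy
    rw [abs_of_nonneg (by positivity : (0:ℝ) ≤ |T y| * ‖y‖ ^ (-a / 2)),
      abs_of_nonneg (by positivity : (0:ℝ) ≤ ‖y‖ ^ (a / 2 - n - 2)), mul_assoc,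
      ← Real.rpow_add hy0, ← Real.rpow_natCast, ← Real.rpow_neg hy0.le]
    congr 2
    push_cast
    ring
  have hfg : Integrable (fun y : V n => |(|T y| * ‖y‖ ^ (-a / 2))| * |‖y‖ ^ (a / 2 - n - 2)|)
      (volume.restrict {y : V n | R ≤ ‖y‖}) := by
    refine (hf2.1.add hg2.1).mono' ?_ (Filter.Eventually.of_forall fun y => ?_)
    · refine AEStronglyMeasurable.mul ?_ ?_
      · refine continuous_abs.comp_aestronglyMeasurable (AEStronglyMeasurable.mul ?_ ?_)
        · exact (hTm.restrict.norm).congr (Filter.Eventually.of_forall fun x => Real.norm_eq_abs _)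
        · exact (measurable_norm.pow_const _).aestronglyMeasurable
      · exact continuous_abs.comp_aestronglyMeasurable
          (measurable_norm.pow_const _).aestronglyMeasurable
    · simp only [Pi.add_apply]
      rw [Real.norm_of_nonneg (by positivity)]
      have h := two_mul_le_add_sq |(|T y| * ‖y‖ ^ (-a / 2))| |‖y‖ ^ (a / 2 - n - 2)|
      rw [sq_abs, sq_abs] at h
      have h0 : 0 ≤ |(|T y| * ‖y‖ ^ (-a / 2))| * |‖y‖ ^ (a / 2 - n - 2)| := by positivity
      nlinarith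
  refine ⟨?_, ?_⟩
  · exact IntegrableOn.congr_fun hfg hprod hmset
  · rw [← setIntegral_congr_fun hmset hprod]
    refine (cs hf2.1 hg2.1 hfg).trans ?_
    calc (∫ y in {y : V n | R ≤ ‖y‖}, (|T y| * ‖y‖ ^ (-a / 2)) ^ 2)
          * ∫ y in {y : V n | R ≤ ‖y‖}, (‖y‖ ^ (a / 2 - n - 2)) ^ 2
        ≤ (K * c1 * R ^ (s - a)) * (c2 * R ^ (a - n - 4)) := by
          refine mul_le_mul hf2.2 hg2.2 (integral_nonneg fun _ => by positivity) (by positivity)
      _ = K * c1 * c2 * (R ^ s * (R ^ (n + 4))⁻¹) := by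
          have : R ^ (s - a) * R ^ (a - n - 4) = R ^ s * (R ^ (n + 4))⁻¹ := by
            rw [← Real.rpow_add hR0, ← Real.rpow_natCast, ← Real.rpow_neg hR0.le,
              ← Real.rpow_add hR0]
            congr 1
            push_cast
            ring
          rw [← this]
          ring

end Liou

end Crest.Agent.R085
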