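import Crest.Agent.R085.LiouMoll
import Crest.Agent.R085.LamDef

/-!
R085 (S0113), module M6 (linear Liouville lemma): the final statements.
-/

set_option autoImplicit false

namespace Crest.Agent.R085

open MeasureTheory Metric Set Filter
open scoped ENNReal NNReal Topology ContDiff

theorem Liou.Lam_eq {n : ℕ} (ψ : V n → ℝ) (x : V n) :
    Liou.Lam ψ x = Crest.Agent.R085.Lam n ψ x := rfl

/-- **Linear Liouville lemma**, weak form for `T ∈ L²_loc`. -/
theorem liouville_L2 {n : ℕ} (hn : 0 < n) {T : V n → ℝ} {K s : ℝ} (hs : s < n + 4)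
    (hT : ∀ R : ℝ, MemLp T 2 (volume.restrict (ball (0 : V n) R))) (hG : Gr K s T)
    (hw : ∀ ψ : V n → ℝ, SmTest ψ → ∫ x, T x * Lam n ψ x = 0) :
    ∃ (ℓ : V n →L[ℝ] ℝ) (c : ℝ), T =ᵐ[volume] fun x => ℓ x + c :=
  Liou.liouville_L2' hn hs hT hG hw

/-- bounded case: constant. -/
theorem liouville_bdd {n : ℕ} (hn : 0 < n) {T : V n → ℝ} (hTm : AEStronglyMeasurable T volume)
    {M : ℝ} (hM : ∀ x, |T x| ≤ M)
    (hw : ∀ ψ : V n → ℝ, SmTest ψ → ∫ x, T x * Lam n ψ x = 0) :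
    ∃ c : ℝ, T =ᵐ[volume] fun _ => c := by
  have hM0 : 0 ≤ M := (abs_nonneg _).trans (hM 0)
  have hT : ∀ R : ℝ, MemLp T 2 (volume.restrict (ball (0 : V n) R)) := by
    intro R
    have : IsFiniteMeasure (volume.restrict (ball (0 : V n) R)) :=
      ⟨by rw [Measure.restrict_apply_univ]; exact measure_ball_lt_top⟩
    exact MemLp.of_bound hTm.restrict M (Filter.Eventually.of_forall fun x => hM x)
  have hG : Gr (M ^ 2 * (volume (ball (0 : V n) 1)).toReal) n T := by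
    intro R hR
    have : Nonempty (Fin n) := ⟨⟨0, hn⟩⟩
    calc ∫ x in ball (0 : V n) R, (T x) ^ 2 ≤ ∫ _x in ball (0 : V n) R, M ^ 2 := by
          refine setIntegral_mono_on (hT R).integrable_sq
            (integrableOn_const measure_ball_lt_top.ne) measurableSet_ball fun x _ => ?_
          rw [← sq_abs]
          gcongr
          exact hM x
      _ = M ^ 2 * (volume (ball (0 : V n) 1)).toReal * R ^ (n : ℝ) := by
          rw [setIntegral_const, Measure.real, Measure.addHaar_ball volume _ (by linarith),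
            finrank_euclideanSpace_fin, ENNReal.toReal_mul,
            ENNReal.toReal_ofReal (by positivity), Real.rpow_natCast, smul_eq_mul]
          ring
  exact Liou.liouville_L2_const hn (s := n) (by linarith) hT hG hw

theorem Liou.memLp_of_continuous {n : ℕ} {u : V n → ℝ} (hu : Continuous u) (R : ℝ) :
    MemLp u 2 (volume.restrict (ball (0 : V n) R)) := by
  have : IsFiniteMeasure (volume.restrict (ball (0 : V n) R)) :=
    ⟨by rw [Measure.restrict_apply_univ]; exact measure_ball_lt_top⟩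
  obtain ⟨M, hM⟩ := (isCompact_closedBall (0 : V n) R).exists_bound_of_continuousOn hu.continuousOn
  refine MemLp.of_bound hu.aestronglyMeasurable M ?_
  filter_upwards [ae_restrict_mem measurableSet_ball] with x hx
  exact hM x (ball_subset_closedBall hx)

theorem Liou.weak_of_Bf {n : ℕ} (hn : 0 < n) {u : V n → ℝ} {K s : ℝ} (hs : s < n + 4)
    (hu : ∀ R : ℝ, ∃ L : ℝ≥0, LipschitzOnWith L u (ball (0 : V n) R)) (hG : Gr K s u)
    {ψ : V n → ℝ} (hψ : SmTest ψ)
    (hw : Tendsto (fun N : ℝ => Bf n volume N u ψ) atTop (𝓝 0)) :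
    ∫ x, u x * Crest.Agent.R085.Lam n ψ x = 0 := by
  have hT := Liou.memLp_of_continuous (Liou.cont_of_locLip hu)
  have h1 := (Liou.tendsto_integral_LamN hn hs hT hG hψ).const_mul (1 / 2 : ℝ)
  have h2 : Tendsto (fun N : ℝ => (1 / 2 : ℝ) * ∫ x, u x * LamN N ψ x) atTop (𝓝 0) := by
    refine hw.congr' ?_
    filter_upwards [eventually_gt_atTop 0] with N hN
    exact Liou.Bf_eq_LamN hn hu hψ.smooth hψ.cpt hN
  have h3 := tendsto_nhds_unique h1 h2
  have h4 : ∫ x, u x * Liou.Lam ψ x = 0 := by linarith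
  exact h4

/-- **Linear Liouville lemma**, bilinear form with cutoffs, for locally Lipschitz `u`. -/
theorem liouville_Bf {n : ℕ} (hn : 0 < n) {u : V n → ℝ} {K s : ℝ} (hs : s < n + 4)
    (hu : ∀ R : ℝ, ∃ L : ℝ≥0, LipschitzOnWith L u (ball (0 : V n) R)) (hG : Gr K s u)
    (hw : ∀ ψ : V n → ℝ, SmTest ψ → Tendsto (fun N : ℝ => Bf n volume N u ψ) atTop (𝓝 0)) :
    ∃ (ℓ : V n →L[ℝ] ℝ) (c : ℝ), ∀ x, u x = ℓ x + c := by
  have huc := Liou.cont_of_locLip hu
  obtain ⟨ℓ, c, h⟩ := liouville_L2 hn hs (Liou.memLp_of_continuous huc) hG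
    (fun ψ hψ => Liou.weak_of_Bf hn hs hu hG hψ (hw ψ hψ))
  refine ⟨ℓ, c, fun x => ?_⟩
  have := (Continuous.ae_eq_iff_eq volume huc (by fun_prop)).1 h
  exact congrFun this x

/-- if moreover the growth exponent is `< n + 2` then `u` is constant. -/
theorem liouville_Bf_const {n : ℕ} (hn : 0 < n) {u : V n → ℝ} {K s : ℝ} (hs : s < n + 2)
    (hu : ∀ R : ℝ, ∃ L : ℝ≥0, LipschitzOnWith L u (ball (0 : V n) R)) (hG : Gr K s u)
    (hw : ∀ ψ : V n → ℝ, SmTest ψ → Tendsto (fun N : ℝ => Bf n volume N u ψ) atTop (𝓝 0)) :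
    ∃ c : ℝ, ∀ x, u x = c := by
  have huc := Liou.cont_of_locLip hu
  have hs' : s < n + 4 := by linarith
  obtain ⟨c, h⟩ := Liou.liouville_L2_const hn hs (Liou.memLp_of_continuous huc) hG
    (fun ψ hψ => Liou.weak_of_Bf hn hs' hu hG hψ (hw ψ hψ))
  refine ⟨c, fun x => ?_⟩
  have := (Continuous.ae_eq_iff_eq volume huc continuous_const).1 h
  exact congrFun this x

/-- form of helper617: Lipschitz tests. -/
theorem LL {n : ℕ} (hn : 1 ≤ n) (u : V n → ℝ) (hu : LocLip u) (K s : ℝ) (hs : s < n + 4)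
    (hgrow : ∀ R : ℝ, 1 ≤ R → ∫ y in ball (0 : V n) R, (u y) ^ 2 ≤ K * R ^ s)
    (heq : ∀ ψ : V n → ℝ, IsTest ψ → ∫ y, ψ y = 0 →
      Tendsto (fun N : ℝ => Bf n volume N u ψ) atTop (𝓝 0)) :
    ∃ (ℓ : V n →ₗ[ℝ] ℝ) (c : ℝ), ∀ x, u x = ℓ x + c := by
  obtain ⟨ℓ, c, h⟩ := Liou.Sol.affine hn (u := u) ⟨hu, heq⟩ hs hgrow
  exact ⟨ℓ.toLinearMap, c, h⟩

end Crest.Agent.R085
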