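import Crest.Agent.R085.LiouEnd
import Crest.Agent.R085.LiouDiff

/-!
R085 (S0113), module M6 (LL-A): locally Lipschitz solutions of growth `s < n + 4` are affine.
-/

set_option autoImplicit false

namespace Crest.Agent.R085

open MeasureTheory Metric Set Filter
open scoped ENNReal NNReal Topology

namespace Liou

theorem continuous_of_locLip {n : ℕ} {u : V n → ℝ}
    (hu : ∀ R : ℝ, ∃ L : ℝ≥0, LipschitzOnWith L u (ball (0 : V n) R)) : Continuous u := by
  rw [continuous_iff_continuousAt]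
  intro x
  obtain ⟨R, hR⟩ : ∃ R : ℝ, ‖x‖ < R := exists_gt _
  obtain ⟨L, hL⟩ := hu R
  exact hL.continuousOn.continuousAt (isOpen_ball.mem_nhds (by simpa using hR))

theorem Sol.affine {n : ℕ} (hn : 0 < n) {u : V n → ℝ} (hu : Sol u) {K s : ℝ} (hs : s < n + 4)
    (hG : Gr K s u) : ∃ (ℓ : V n →L[ℝ] ℝ) (c : ℝ), ∀ x, u x = ℓ x + c := by
  obtain ⟨a, L, h⟩ := affine_of_class (fun u : V n → ℝ => Sol u)
    (fun u hu => continuous_of_locLip hu.lip)
    (fun u h hu => Liou.Sol.diff hn hu h)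
    (fun u hu K s hs hG h => Liou.Sol.gr_diff hn hu hs hG h) hu hs hG
  exact ⟨L, a, fun x => by rw [h x, add_comm]⟩

theorem Sol.const {n : ℕ} (hn : 0 < n) {u : V n → ℝ} (hu : Sol u) {K s : ℝ} (hs : s < n + 2)
    (hG : Gr K s u) : ∀ x, u x = u 0 :=
  const_of_class (fun u : V n → ℝ => Sol u)
    (fun u hu => continuous_of_locLip hu.lip)
    (fun u h hu => Liou.Sol.diff hn hu h)
    (fun u hu K s hs hG h => Liou.Sol.gr_diff hn hu hs hG h) hu hs hG

end Liou

end Crest.Agent.R085
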