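import Mathlib
import Crest.Agent.R085.Defs

/-!
R085, M8 (propagation), part (b): weak convergence + uniform `H^{1/2}` energy bound
implies strong `L²` convergence.
-/

set_option autoImplicit false

namespace Crest.Agent.R085.M8

open MeasureTheory Metric Set Filter
open scoped ENNReal NNReal Topology

section bumps

variable {d : ℕ}

theorem cut_nonneg (t : ℝ) : 0 ≤ cut t := le_max_left _ _

theorem cut_le_one (t : ℝ) : cut t ≤ 1 := max_le zero_le_one (min_le_left _ _)

theorem cut_eq_one {t : ℝ} (h : t ≤ 1) : cut t = 1 := by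
  unfold cut
  rw [min_eq_left (by linarith), max_eq_right zero_le_one]

theorem cut_eq_zero {t : ℝ} (h : 2 ≤ t) : cut t = 0 := by
  unfold cut
  exact max_eq_left ((min_le_right _ _).trans (by linarith))

theorem continuous_cut : Continuous cut := by
  unfold cut
  fun_prop

/-- the bump of radius `t` at `z`: `1` on `closedBall z (t/2)`, `0` off `ball z t`. -/
noncomputable def sbump (z : V d) (t : ℝ) (x : V d) : ℝ := cut (‖x - z‖ / (t / 2))

theorem sbump_nonneg (z : V d) (t : ℝ) (x : V d) : 0 ≤ sbump z t x := cut_nonneg _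

theorem sbump_le_one (z : V d) (t : ℝ) (x : V d) : sbump z t x ≤ 1 := cut_le_one _

theorem sbump_eq_one {z : V d} {t : ℝ} (ht : 0 < t) {x : V d} (h : dist x z ≤ t / 2) :
    sbump z t x = 1 := by
  apply cut_eq_one
  rw [div_le_one (by positivity), ← dist_eq_norm]
  exact h

theorem sbump_eq_zero {z : V d} {t : ℝ} (ht : 0 < t) {x : V d} (h : t ≤ dist x z) :
    sbump z t x = 0 := by
  apply cut_eq_zero
  rw [le_div_iff₀ (by positivity), ← dist_eq_norm]
  linarith

theorem continuous_sbump (z : V d) (t : ℝ) : Continuous (sbump z t) := by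
  unfold sbump
  exact continuous_cut.comp (by fun_prop)

theorem hasCompactSupport_sbump {z : V d} {t : ℝ} (ht : 0 < t) : HasCompactSupport (sbump z t) := by
  apply HasCompactSupport.of_support_subset_isCompact (isCompact_closedBall z t)
  intro x hx
  by_contra hx'
  apply hx
  apply sbump_eq_zero ht
  rw [mem_closedBall, not_le] at hx'
  exact hx'.le

end bumps

section pointwise

variable {d : ℕ}

theorem integrable_sbump_mul {μ : Measure (V d)} [IsFiniteMeasureOnCompacts μ] {f : V d → ℝ}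
    (hf : Continuous f) (z : V d) {t : ℝ} (ht : 0 < t) :
    Integrable (fun x => sbump z t x * f x) μ := by
  apply Continuous.integrable_of_hasCompactSupport
  · exact (continuous_sbump z t).mul hf
  · exact (hasCompactSupport_sbump ht).mul_right

theorem integrable_sbump {μ : Measure (V d)} [IsFiniteMeasureOnCompacts μ] (z : V d) {t : ℝ}
    (ht : 0 < t) : Integrable (sbump z t) μ :=
  (continuous_sbump z t).integrable_of_hasCompactSupport (hasCompactSupport_sbump ht)

theorem integrableOn_ball_of_continuous {μ : Measure (V d)} [IsFiniteMeasureOnCompacts μ]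
    {f : V d → ℝ} (hf : Continuous f) (z : V d) (r : ℝ) : IntegrableOn f (ball z r) μ :=
  (hf.continuousOn.integrableOn_compact (isCompact_closedBall z r)).mono_set ball_subset_closedBall

theorem measureReal_ball_le_integral_sbump {μ : Measure (V d)} [IsFiniteMeasureOnCompacts μ]
    {z y : V d} {t : ℝ} (ht : 0 < t) (hyz : dist y z ≤ t / 4) :
    μ.real (ball y (t / 4)) ≤ ∫ x, sbump z t x ∂μ := by
  have h1 : μ.real (ball y (t / 4)) = ∫ x, (ball y (t / 4)).indicator (fun _ => (1 : ℝ)) x ∂μ := by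
    rw [integral_indicator measurableSet_ball, setIntegral_const, smul_eq_mul, mul_one]
  rw [h1]
  apply integral_mono
  · rw [integrable_indicator_iff measurableSet_ball]
    exact integrableOn_ball_of_continuous continuous_const _ _
  · exact integrable_sbump z ht
  · intro x
    by_cases hx : x ∈ ball y (t / 4)
    · simp only [indicator_of_mem hx]
      rw [sbump_eq_one ht]
      rw [mem_ball] at hx
      linarith [dist_triangle x y z]
    · simp only [indicator_of_notMem hx]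
      exact sbump_nonneg _ _ _

theorem sl2_pointwise {μ : Measure (V d)} [IsFiniteMeasureOnCompacts μ] {w : V d → ℝ}
    (hw : Continuous w) {m0 t : ℝ} (ht : 0 < t) (hm0 : 0 < m0) {z y : V d}
    (hyz : dist y z ≤ t / 4) (hlow : m0 ≤ μ.real (ball y (t / 4))) :
    (w y) ^ 2 ≤ 2 / m0 * (∫ x in ball y (2 * t), (w y - w x) ^ 2 ∂μ)
      + 2 / m0 ^ 2 * (∫ x, sbump z t x * w x ∂μ) ^ 2 := by
  set m : ℝ := ∫ x, sbump z t x ∂μ with hm
  have hmm : m0 ≤ m := hlow.trans (measureReal_ball_le_integral_sbump ht hyz)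
  have hmpos : 0 < m := hm0.trans_le hmm
  set W : ℝ := ∫ x, sbump z t x * w x ∂μ with hW
  set A : ℝ := ∫ x, sbump z t x * (w y - w x) ^ 2 ∂μ with hA
  set B : ℝ := ∫ x, sbump z t x * (w y - w x) ∂μ with hB
  have iA : Integrable (fun x => sbump z t x * (w y - w x) ^ 2) μ :=
    integrable_sbump_mul (by fun_prop) z ht
  have iB : Integrable (fun x => sbump z t x * (w y - w x)) μ :=
    integrable_sbump_mul (by fun_prop) z ht
  have iW : Integrable (fun x => sbump z t x * w x) μ := integrable_sbump_mul hw z ht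
  have i1 : Integrable (sbump z t) μ := integrable_sbump z ht
  have eB : B = m * w y - W := by
    have : B = ∫ x, (sbump z t x * w y - sbump z t x * w x) ∂μ := by
      rw [hB]; congr 1; ext x; ring
    rw [this, integral_sub (i1.mul_const _) iW, integral_mul_const]
  have hvar : B ^ 2 ≤ m * A := by
    have h0 : 0 ≤ ∫ x, sbump z t x * ((w y - w x) - B / m) ^ 2 ∂μ :=
      integral_nonneg fun x => mul_nonneg (sbump_nonneg _ _ _) (sq_nonneg _)
    have e : (fun x => sbump z t x * ((w y - w x) - B / m) ^ 2)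
        = fun x => (sbump z t x * (w y - w x) ^ 2 - (2 * (B / m)) * (sbump z t x * (w y - w x)))
          + (B / m) ^ 2 * sbump z t x := by
      ext x; ring
    have i2 : Integrable (fun x => sbump z t x * (w y - w x) ^ 2
        - (2 * (B / m)) * (sbump z t x * (w y - w x))) μ := iA.sub (iB.const_mul _)
    rw [e, integral_add i2 (i1.const_mul _),
      integral_sub iA (iB.const_mul _), integral_const_mul, integral_const_mul] at h0
    rw [← hA, ← hB, ← hm] at h0
    have h2 : A - 2 * (B / m) * B + (B / m) ^ 2 * m = A - B ^ 2 / m := by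
      field_simp
      ring
    rw [h2, sub_nonneg, div_le_iff₀ hmpos] at h0
    linarith
  have hA0 : 0 ≤ A := integral_nonneg fun x => mul_nonneg (sbump_nonneg _ _ _) (sq_nonneg _)
  have hAle : A ≤ ∫ x in ball y (2 * t), (w y - w x) ^ 2 ∂μ := by
    rw [← integral_indicator measurableSet_ball]
    apply integral_mono iA
    · rw [integrable_indicator_iff measurableSet_ball]
      exact integrableOn_ball_of_continuous (by fun_prop) _ _
    · intro x
      by_cases hx : x ∈ ball y (2 * t)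
      · simp only [indicator_of_mem hx]
        calc sbump z t x * (w y - w x) ^ 2 ≤ 1 * (w y - w x) ^ 2 := by
              gcongr; exact sbump_le_one _ _ _
          _ = _ := one_mul _
      · simp only [indicator_of_notMem hx]
        rw [sbump_eq_zero ht, zero_mul]
        rw [mem_ball, not_lt] at hx
        have := dist_triangle x z y
        rw [dist_comm z y] at this
        linarith
  have hwy : w y = (B + W) / m := by
    rw [eB]; field_simp; ring
  have key : (w y) ^ 2 ≤ 2 / m * A + 2 / m ^ 2 * W ^ 2 := by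
    rw [hwy, div_pow]
    rw [div_le_iff₀ (by positivity)]
    have : (2 / m * A + 2 / m ^ 2 * W ^ 2) * m ^ 2 = 2 * (m * A) + 2 * W ^ 2 := by
      field_simp
    rw [this]
    nlinarith [sq_nonneg (B - W)]
  calc (w y) ^ 2 ≤ 2 / m * A + 2 / m ^ 2 * W ^ 2 := key
    _ ≤ 2 / m0 * A + 2 / m0 ^ 2 * W ^ 2 := by gcongr
    _ ≤ _ := by gcongr

end pointwise

section single

variable {d : ℕ}

/-- local `H^{1/2}`-energy (squared, in `ℝ≥0∞`) of `u` on `ball 0 R`. -/
noncomputable def enr (n : ℕ) (μ : Measure (V d)) (u : V d → ℝ) (R : ℝ) : ℝ≥0∞ :=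
  ∫⁻ p in ball (0 : V d) R ×ˢ ball (0 : V d) R,
    ENNReal.ofReal ((u p.1 - u p.2) ^ 2 * (‖p.1 - p.2‖ ^ (n + 1))⁻¹) ∂(μ.prod μ)

theorem measurable_enr_integrand (n : ℕ) {u : V d → ℝ} (hu : Continuous u) :
    Measurable (fun p : V d × V d =>
      ENNReal.ofReal ((u p.1 - u p.2) ^ 2 * (‖p.1 - p.2‖ ^ (n + 1))⁻¹)) := by
  have h1 : Measurable (fun p : V d × V d => (u p.1 - u p.2) ^ 2) := by
    exact (by fun_prop : Continuous (fun p : V d × V d => (u p.1 - u p.2) ^ 2)).measurable
  have h2 : Measurable (fun p : V d × V d => (‖p.1 - p.2‖ ^ (n + 1))⁻¹) := by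
    exact (by fun_prop : Continuous (fun p : V d × V d => ‖p.1 - p.2‖ ^ (n + 1))).measurable.inv
  exact (h1.mul h2).ennreal_ofReal

theorem enr_eq (n : ℕ) (μ : Measure (V d)) [SFinite μ] {u : V d → ℝ} (hu : Continuous u) (R : ℝ) :
    enr n μ u R = ∫⁻ y in ball (0 : V d) R, ∫⁻ x in ball (0 : V d) R,
      ENNReal.ofReal ((u y - u x) ^ 2 * (‖y - x‖ ^ (n + 1))⁻¹) ∂μ ∂μ := by
  unfold enr
  rw [setLIntegral_prod _ (measurable_enr_integrand n hu).aemeasurable]

/-- local oscillation is controlled by the energy density -/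
theorem local_osc_le {n : ℕ} {μ : Measure (V d)} [IsFiniteMeasureOnCompacts μ] {u : V d → ℝ}
    (hu : Continuous u) {R t : ℝ} (ht : 0 < t) (ht1 : t ≤ 1) {y : V d} (hy : y ∈ ball (0 : V d) R) :
    ENNReal.ofReal (∫ x in ball y (2 * t), (u y - u x) ^ 2 ∂μ) ≤
      ENNReal.ofReal ((2 * t) ^ (n + 1)) *
        ∫⁻ x in ball (0 : V d) (R + 2), ENNReal.ofReal ((u y - u x) ^ 2 * (‖y - x‖ ^ (n + 1))⁻¹) ∂μ := by
  rw [ofReal_integral_eq_lintegral_ofReal
    (integrableOn_ball_of_continuous (by fun_prop) _ _)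
    (Eventually.of_forall fun x => sq_nonneg _)]
  rw [← lintegral_const_mul' _ _ ENNReal.ofReal_ne_top]
  have hsub : ball y (2 * t) ⊆ ball (0 : V d) (R + 2) := by
    apply ball_subset_ball'
    rw [mem_ball] at hy
    linarith
  refine le_trans ?_ (lintegral_mono_set hsub)
  apply setLIntegral_mono' measurableSet_ball
  intro x hx
  rw [← ENNReal.ofReal_mul (by positivity)]
  apply ENNReal.ofReal_le_ofReal
  by_cases hxy : x = y
  · subst hxy; simp
  · have hpos : 0 < ‖y - x‖ := by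
      rw [norm_pos_iff, sub_ne_zero]; exact fun h => hxy h.symm
    have hle : ‖y - x‖ ≤ 2 * t := by
      rw [mem_ball, dist_comm, dist_eq_norm] at hx
      exact hx.le
    have : 1 ≤ (2 * t) ^ (n + 1) * (‖y - x‖ ^ (n + 1))⁻¹ := by
      rw [← div_eq_mul_inv, le_div_iff₀ (by positivity), one_mul]
      gcongr
    calc (u y - u x) ^ 2 = (u y - u x) ^ 2 * 1 := (mul_one _).symm
      _ ≤ (u y - u x) ^ 2 * ((2 * t) ^ (n + 1) * (‖y - x‖ ^ (n + 1))⁻¹) := by gcongr
      _ = _ := by ring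

theorem sl2_single {n : ℕ} {μ : Measure (V d)} [IsFiniteMeasureOnCompacts μ] [SFinite μ]
    {C0 : ℝ} {D : ℝ≥0∞} (hμ : ADR n C0 D μ) {u T : V d → ℝ} (hu : Continuous u)
    (hTc : Continuous T) {L : ℝ} (hL : 0 ≤ L) (hT : ∀ x y, |T x - T y| ≤ L * dist x y)
    {R t : ℝ} (hR : 0 < R) (ht : 0 < t) (ht1 : t ≤ 1) (htD : ENNReal.ofReal t ≤ D)
    {H : ℝ} (hH0 : 0 ≤ H) (hH : enr n μ u (R + 2) ≤ ENNReal.ofReal H)
    (Z : Finset (V d)) (hZ : ball (0 : V d) R ⊆ ⋃ z ∈ Z, closedBall z (t / 4)) :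
    ∫ y in ball (0 : V d) R, (u y - T y) ^ 2 ∂μ ≤
      4 / (C0⁻¹ * (t / 4) ^ n) * (2 * t) ^ (n + 1) * H
      + (2 / (C0⁻¹ * (t / 4) ^ n) * (2 * (L * (2 * t)) ^ 2 * (C0 * (2 * t) ^ n))
        + 2 / (C0⁻¹ * (t / 4) ^ n) ^ 2
            * ∑ z ∈ Z, (∫ x, sbump z t x * (u x - T x) ∂μ) ^ 2) * (C0 * R ^ n) := by
  have hC0 : 0 < C0 := lt_of_lt_of_le one_pos hμ.one_le
  set m0 : ℝ := C0⁻¹ * (t / 4) ^ n with hm0
  have hm0p : 0 < m0 := by positivity
  set S : ℝ := ∑ z ∈ Z, (∫ x, sbump z t x * (u x - T x) ∂μ) ^ 2 with hS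
  have hS0 : 0 ≤ S := Finset.sum_nonneg fun z _ => sq_nonneg _
  set c2 : ℝ := 2 / m0 * (2 * (L * (2 * t)) ^ 2 * (C0 * (2 * t) ^ n)) + 2 / m0 ^ 2 * S with hc2
  have hc20 : 0 ≤ c2 := by positivity
  -- pointwise bound on the support
  have hpt : ∀ y ∈ ball (0 : V d) R, y ∈ μ.support →
      (u y - T y) ^ 2 ≤ 4 / m0 * (∫ x in ball y (2 * t), (u y - u x) ^ 2 ∂μ) + c2 := by
    intro y hy hys
    obtain ⟨z, hz, hyz⟩ : ∃ z ∈ Z, dist y z ≤ t / 4 := by
      have := hZ hy
      simpa only [mem_iUnion, mem_closedBall, exists_prop] using this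
    have hlow : m0 ≤ μ.real (ball y (t / 4)) := by
      have h1 := hμ.lower y hys (t / 4) (by positivity)
        ((ENNReal.ofReal_le_ofReal (by linarith)).trans htD)
      have hfin : μ (ball y (t / 4)) ≠ ⊤ :=
        ((measure_mono ball_subset_closedBall).trans_lt
          (isCompact_closedBall y (t / 4)).measure_lt_top).ne
      rw [← ENNReal.ofReal_le_ofReal_iff measureReal_nonneg, Measure.real, ENNReal.ofReal_toReal hfin]
      exact h1
    have h1 := sl2_pointwise (μ := μ) (w := fun x => u x - T x) (by fun_prop) ht hm0p hyz hlow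
    have h2 : ∫ x in ball y (2 * t), ((u y - T y) - (u x - T x)) ^ 2 ∂μ ≤
        2 * (∫ x in ball y (2 * t), (u y - u x) ^ 2 ∂μ)
          + 2 * (L * (2 * t)) ^ 2 * (C0 * (2 * t) ^ n) := by
      have i1 : IntegrableOn (fun x => (u y - u x) ^ 2) (ball y (2 * t)) μ :=
        integrableOn_ball_of_continuous (by fun_prop) _ _
      have i2 : IntegrableOn (fun _ => 2 * (L * (2 * t)) ^ 2) (ball y (2 * t)) μ :=
        integrableOn_ball_of_continuous (by fun_prop) _ _
      have hμb : μ.real (ball y (2 * t)) ≤ C0 * (2 * t) ^ n := by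
        apply ENNReal.toReal_le_of_le_ofReal (by positivity)
        exact hμ.upper y (2 * t) (by positivity)
      calc ∫ x in ball y (2 * t), ((u y - T y) - (u x - T x)) ^ 2 ∂μ
          ≤ ∫ x in ball y (2 * t), (2 * (u y - u x) ^ 2 + 2 * (L * (2 * t)) ^ 2) ∂μ := by
            apply setIntegral_mono_on
            · exact integrableOn_ball_of_continuous (by fun_prop) _ _
            · exact (i1.const_mul 2).add i2
            · exact measurableSet_ball
            · intro x hx
              have hTT : (T y - T x) ^ 2 ≤ (L * (2 * t)) ^ 2 := by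
                rw [← sq_abs (T y - T x)]
                have h4 : |T y - T x| ≤ L * (2 * t) := by
                  refine (hT y x).trans ?_
                  rw [mem_ball, dist_comm] at hx
                  gcongr
                gcongr
              nlinarith [sq_nonneg ((u y - u x) + (T y - T x))]
        _ = 2 * (∫ x in ball y (2 * t), (u y - u x) ^ 2 ∂μ)
              + 2 * (L * (2 * t)) ^ 2 * μ.real (ball y (2 * t)) := by
            rw [integral_add (i1.const_mul 2) i2, integral_const_mul, setIntegral_const, smul_eq_mul,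
              mul_comm (μ.real _)]
        _ ≤ _ := by gcongr
    have h3 : (∫ x, sbump z t x * (u x - T x) ∂μ) ^ 2 ≤ S :=
      Finset.single_le_sum (f := fun z => (∫ x, sbump z t x * (u x - T x) ∂μ) ^ 2)
        (fun z _ => sq_nonneg _) hz
    calc (u y - T y) ^ 2 ≤ 2 / m0 * (∫ x in ball y (2 * t), ((u y - T y) - (u x - T x)) ^ 2 ∂μ)
          + 2 / m0 ^ 2 * (∫ x, sbump z t x * (u x - T x) ∂μ) ^ 2 := h1
      _ ≤ 2 / m0 * (2 * (∫ x in ball y (2 * t), (u y - u x) ^ 2 ∂μ)
          + 2 * (L * (2 * t)) ^ 2 * (C0 * (2 * t) ^ n)) + 2 / m0 ^ 2 * S := by gcongr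
      _ = _ := by rw [hc2]; ring
  clear_value c2
  have hRHS0 : 0 ≤ 4 / m0 * (2 * t) ^ (n + 1) * H + c2 * (C0 * R ^ n) := by positivity
  rw [← ENNReal.ofReal_le_ofReal_iff hRHS0]
  rw [ofReal_integral_eq_lintegral_ofReal
    (integrableOn_ball_of_continuous (by fun_prop) _ _)
    (Eventually.of_forall fun x => sq_nonneg _)]
  set e : V d → ℝ≥0∞ := fun y => ∫⁻ x in ball (0 : V d) (R + 2),
    ENNReal.ofReal ((u y - u x) ^ 2 * (‖y - x‖ ^ (n + 1))⁻¹) ∂μ with he
  have hstep : ∫⁻ y in ball (0 : V d) R, ENNReal.ofReal ((u y - T y) ^ 2) ∂μ ≤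
      ∫⁻ y in ball (0 : V d) R,
        (ENNReal.ofReal (4 / m0 * (2 * t) ^ (n + 1)) * e y + ENNReal.ofReal c2) ∂μ := by
    apply lintegral_mono_ae
    have hs : ∀ᵐ y ∂(μ.restrict (ball (0 : V d) R)), y ∈ μ.support :=
      ae_restrict_of_ae μ.support_mem_ae
    filter_upwards [hs, ae_restrict_mem measurableSet_ball] with y hys hy
    calc ENNReal.ofReal ((u y - T y) ^ 2)
        ≤ ENNReal.ofReal (4 / m0 * (∫ x in ball y (2 * t), (u y - u x) ^ 2 ∂μ) + c2) :=
          ENNReal.ofReal_le_ofReal (hpt y hy hys)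
      _ = ENNReal.ofReal (4 / m0) * ENNReal.ofReal (∫ x in ball y (2 * t), (u y - u x) ^ 2 ∂μ)
            + ENNReal.ofReal c2 := by
          rw [ENNReal.ofReal_add _ hc20, ENNReal.ofReal_mul (by positivity)]
          exact mul_nonneg (by positivity) (integral_nonneg fun x => sq_nonneg _)
      _ ≤ ENNReal.ofReal (4 / m0) * (ENNReal.ofReal ((2 * t) ^ (n + 1)) * e y)
            + ENNReal.ofReal c2 := by
          gcongr
          exact local_osc_le hu ht ht1 hy
      _ = _ := by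
          rw [ENNReal.ofReal_mul (by positivity), mul_assoc]
  refine hstep.trans ?_
  rw [lintegral_add_right _ measurable_const, lintegral_const_mul' _ _ ENNReal.ofReal_ne_top,
    lintegral_const, Measure.restrict_apply_univ]
  have eR : ENNReal.ofReal (4 / m0 * (2 * t) ^ (n + 1) * H + c2 * (C0 * R ^ n))
      = ENNReal.ofReal (4 / m0 * (2 * t) ^ (n + 1)) * ENNReal.ofReal H
        + ENNReal.ofReal c2 * ENNReal.ofReal (C0 * R ^ n) := by
    rw [ENNReal.ofReal_add (by positivity) (by positivity),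
      ENNReal.ofReal_mul (p := 4 / m0 * (2 * t) ^ (n + 1)) (by positivity),
      ENNReal.ofReal_mul (p := c2) hc20]
  rw [eR]
  gcongr
  · refine le_trans ?_ hH
    rw [enr_eq n μ hu]
    exact lintegral_mono_set (ball_subset_ball (by linarith))
  · exact hμ.upper 0 R hR

theorem adr_finiteOnCompacts {n : ℕ} {C0 : ℝ} {D : ℝ≥0∞} {μ : Measure (V d)}
    (hμ : ADR n C0 D μ) : IsFiniteMeasureOnCompacts μ := by
  constructor
  intro K hK
  obtain ⟨r, hr, hKr⟩ : ∃ r, 0 < r ∧ K ⊆ ball (0 : V d) r := by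
    obtain ⟨r, hr⟩ := hK.isBounded.subset_ball (0 : V d)
    exact ⟨max r 1, by positivity, hr.trans (ball_subset_ball (le_max_left _ _))⟩
  exact ((measure_mono hKr).trans (hμ.upper 0 r hr)).trans_lt ENNReal.ofReal_lt_top

/-- **Strong `L²` convergence.** Weak convergence `(u k - T) μ_k → 0` plus a uniform local
`H^{1/2}`-energy bound give `∫_{B(0,R)} |u k - T|² dμ_k → 0`. -/
theorem sl2_tendsto {n : ℕ} {ι : Type*} {l : Filter ι} {μs : ι → Measure (V d)}
    {C0 : ℝ} {Ds : ι → ℝ≥0∞} (hμ : ∀ᶠ k in l, ADR n C0 (Ds k) (μs k))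
    (hD : ∀ᶠ k in l, 1 ≤ Ds k)
    {u : ι → V d → ℝ} (hu : ∀ᶠ k in l, Continuous (u k)) {T : V d → ℝ}
    {L : ℝ} (hL : 0 ≤ L) (hT : ∀ x y, |T x - T y| ≤ L * dist x y)
    (hw : ∀ f : V d → ℝ, Continuous f → HasCompactSupport f →
      Tendsto (fun k => ∫ x, f x * (u k x - T x) ∂(μs k)) l (𝓝 0))
    {R H : ℝ} (hR : 0 < R) (hH : ∀ᶠ k in l, enr n (μs k) (u k) (R + 2) ≤ ENNReal.ofReal H) :
    Tendsto (fun k => ∫ y in ball (0 : V d) R, (u k y - T y) ^ 2 ∂(μs k)) l (𝓝 0) := by
  rcases l.eq_or_neBot with hl | hl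
  · rw [hl]; exact tendsto_bot
  have hTc : Continuous T := by
    refine LipschitzWith.continuous (K := L.toNNReal) ?_
    apply LipschitzWith.of_dist_le_mul
    intro x y
    rw [Real.dist_eq, Real.coe_toNNReal _ hL]
    exact hT x y
  have hC0 : 0 < C0 := by
    obtain ⟨k, hk⟩ := hμ.exists
    exact lt_of_lt_of_le one_pos hk.one_le
  -- enlarge `H`
  set H' : ℝ := max H 0 with hH'
  have hH'0 : 0 ≤ H' := le_max_right _ _
  rw [tendsto_order]
  refine ⟨fun a ha => Eventually.of_forall fun k =>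
    ha.trans_le (integral_nonneg fun x => sq_nonneg _), fun ε hε => ?_⟩
  set a : ℝ := 8 * 8 ^ n * C0 * H' with ha
  set b : ℝ := 16 * 8 ^ n * C0 ^ 2 * L ^ 2 * (C0 * R ^ n) with hb
  have ha0 : 0 ≤ a := by positivity
  have hb0 : 0 ≤ b := by positivity
  obtain ⟨t, ht, ht1, hte⟩ : ∃ t : ℝ, 0 < t ∧ t ≤ 1 ∧ (a + b) * t < ε / 2 := by
    refine ⟨min 1 (ε / (4 * (a + b + 1))), by positivity, min_le_left _ _, ?_⟩
    calc (a + b) * min 1 (ε / (4 * (a + b + 1)))
        ≤ (a + b) * (ε / (4 * (a + b + 1))) := by gcongr; exact min_le_right _ _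
      _ ≤ (a + b + 1) * (ε / (4 * (a + b + 1))) :=
          mul_le_mul_of_nonneg_right (by linarith) (by positivity)
      _ = ε / 4 := by field_simp
      _ < ε / 2 := by linarith
  obtain ⟨Z0, -, hZ0f, hZ0⟩ :=
    (isCompact_closedBall (0 : V d) R).finite_cover_balls (e := t / 4) (by positivity)
  set Z : Finset (V d) := hZ0f.toFinset with hZ
  have hcov : ball (0 : V d) R ⊆ ⋃ z ∈ Z, closedBall z (t / 4) := by
    intro y hy
    have := hZ0 (ball_subset_closedBall hy)
    simp only [mem_iUnion, exists_prop] at this ⊢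
    obtain ⟨z, hz, hyz⟩ := this
    exact ⟨z, by rw [hZ]; simpa using hz, ball_subset_closedBall hyz⟩
  have hsum : Tendsto (fun k => 2 / (C0⁻¹ * (t / 4) ^ n) ^ 2
      * ∑ z ∈ Z, (∫ x, sbump z t x * (u k x - T x) ∂(μs k)) ^ 2 * (C0 * R ^ n)) l (𝓝 0) := by
    have h0 : (0 : ℝ) = 2 / (C0⁻¹ * (t / 4) ^ n) ^ 2 * ∑ z ∈ Z, (0 : ℝ) ^ 2 * (C0 * R ^ n) := by
      simp
    rw [h0]
    apply Tendsto.const_mul
    apply tendsto_finsetSum
    intro z _
    exact ((hw (sbump z t) (continuous_sbump z t) (hasCompactSupport_sbump ht)).pow 2).mul_const _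
  have hev := (tendsto_order.1 hsum).2 (ε / 2) (by positivity)
  filter_upwards [hμ, hD, hu, hH, hev] with k hμk hDk huk hHk hevk
  have := adr_finiteOnCompacts hμk
  have hHk' : enr n (μs k) (u k) (R + 2) ≤ ENNReal.ofReal H' :=
    hHk.trans (ENNReal.ofReal_le_ofReal (le_max_left _ _))
  have htD : ENNReal.ofReal t ≤ Ds k := by
    refine le_trans ?_ hDk
    rw [← ENNReal.ofReal_one]
    exact ENNReal.ofReal_le_ofReal ht1
  have hmain := sl2_single hμk huk hTc hL hT hR ht ht1 htD hH'0 hHk' Z hcov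
  refine hmain.trans_lt ?_
  have e1 : 4 / (C0⁻¹ * (t / 4) ^ n) * (2 * t) ^ (n + 1) * H' = a * t := by
    rw [ha, div_pow, mul_pow, pow_succ t n, pow_succ (2:ℝ) n]
    have : (8 : ℝ) ^ n = 2 ^ n * 4 ^ n := by rw [← mul_pow]; norm_num
    rw [this]
    field_simp
    ring
  have e2 : 2 / (C0⁻¹ * (t / 4) ^ n) * (2 * (L * (2 * t)) ^ 2 * (C0 * (2 * t) ^ n)) * (C0 * R ^ n)
      = b * t ^ 2 := by
    rw [hb, div_pow, mul_pow 2 t n]
    have : (8 : ℝ) ^ n = 2 ^ n * 4 ^ n := by rw [← mul_pow]; norm_num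
    rw [this]
    field_simp
    ring
  have e3 : b * t ^ 2 ≤ b * t := by
    apply mul_le_mul_of_nonneg_left _ hb0
    nlinarith
  rw [add_mul, e1, e2]
  rw [← Finset.sum_mul, ← mul_assoc] at hevk
  nlinarith

/-- Version with a limit measure: `μ_k → ν` vaguely and `u_k μ_k → T ν` weakly. -/
theorem sl2_tendsto_of_vague {n : ℕ} {l : Filter ℕ} {μs : ℕ → Measure (V d)} {ν : Measure (V d)}
    (hν : VagueLim l μs ν)
    {C0 : ℝ} {Ds : ℕ → ℝ≥0∞} (hμ : ∀ᶠ k in l, ADR n C0 (Ds k) (μs k))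
    (hD : ∀ᶠ k in l, 1 ≤ Ds k)
    {u : ℕ → V d → ℝ} (hu : ∀ᶠ k in l, Continuous (u k)) {T : V d → ℝ}
    {L : ℝ} (hL : 0 ≤ L) (hT : ∀ x y, |T x - T y| ≤ L * dist x y)
    (hw : ∀ f : V d → ℝ, Continuous f → HasCompactSupport f →
      Tendsto (fun k => ∫ x, f x * u k x ∂(μs k)) l (𝓝 (∫ x, f x * T x ∂ν)))
    {R H : ℝ} (hR : 0 < R) (hH : ∀ᶠ k in l, enr n (μs k) (u k) (R + 2) ≤ ENNReal.ofReal H) :
    Tendsto (fun k => ∫ y in ball (0 : V d) R, (u k y - T y) ^ 2 ∂(μs k)) l (𝓝 0) := by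
  have hTc : Continuous T := by
    refine LipschitzWith.continuous (K := L.toNNReal) ?_
    apply LipschitzWith.of_dist_le_mul
    intro x y
    rw [Real.dist_eq, Real.coe_toNNReal _ hL]
    exact hT x y
  refine sl2_tendsto hμ hD hu hL hT ?_ hR hH
  intro f hf hfc
  have h1 := hw f hf hfc
  have h2 := hν (fun x => f x * T x) (hf.mul hTc) hfc.mul_right
  have h3 := h1.sub h2
  rw [sub_self] at h3
  refine h3.congr' ?_
  filter_upwards [hμ, hu] with k hk huk
  have := adr_finiteOnCompacts hk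
  rw [← integral_sub]
  · congr 1; ext x; ring
  · exact (hf.mul huk).integrable_of_hasCompactSupport hfc.mul_right
  · exact (hf.mul hTc).integrable_of_hasCompactSupport hfc.mul_right

end single

end Crest.Agent.R085.M8
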