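import Mathlib
import Crest.Agent.R085.Defs
import Crest.Agent.R085.M8SL2

/-!
R085, M8 (propagation), parts (c),(d): the tilted plane and the growing window.
-/

set_option autoImplicit false

namespace Crest.Agent.R085.M8

open MeasureTheory Metric Set Filter
open scoped ENNReal NNReal Topology

section nsq

variable {n d : ℕ}

theorem nsq_nonneg (z : V d) : 0 ≤ nsq n z := by
  unfold nsq
  apply Finset.sum_nonneg
  intro i _
  split_ifs
  · positivity
  · exact le_rfl

theorem nsq_le_norm_sq (z : V d) : nsq n z ≤ ‖z‖ ^ 2 := by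
  unfold nsq
  rw [EuclideanSpace.real_norm_sq_eq]
  apply Finset.sum_le_sum
  intro i _
  split_ifs
  · exact le_rfl
  · positivity

theorem continuous_nsq : Continuous (nsq n : V d → ℝ) := by
  unfold nsq
  apply continuous_finsetSum
  intro i _
  split_ifs
  · fun_prop
  · fun_prop

/-- `nsq` only sees the coordinates `i ≥ n`. -/
theorem nsq_congr {z w : V d} (h : ∀ i : Fin d, n ≤ (i : ℕ) → z i = w i) : nsq n z = nsq n w := by
  unfold nsq
  apply Finset.sum_congr rfl
  intro i _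
  split_ifs with hi
  · rw [h i hi]
  · rfl

end nsq

section incprj

variable {n d : ℕ}

theorem inc_apply_lt (z : V n) (i : Fin d) (h : (i : ℕ) < n) : inc n d z i = z ⟨i, h⟩ := by
  unfold inc
  simp [h]

theorem inc_apply_ge (z : V n) (i : Fin d) (h : n ≤ (i : ℕ)) : inc n d z i = 0 := by
  unfold inc
  simp [not_lt.2 h]

theorem prj_apply (y : V d) (hnd : n ≤ d) (j : Fin n) :
    prj n y j = y ⟨j, j.2.trans_le hnd⟩ := by
  unfold prj
  simp [j.2.trans_le hnd]

theorem inc_apply_castLE (hnd : n ≤ d) (z : V n) (j : Fin n) :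
    inc n d z (Fin.castLE hnd j) = z j := by
  rw [inc_apply_lt z (Fin.castLE hnd j) j.2]
  rfl

theorem prj_inc (hnd : n ≤ d) (z : V n) : prj n (inc n d z) = z := by
  ext j
  rw [prj_apply _ hnd]
  exact inc_apply_castLE hnd z j

/-- sums over `Fin d` of functions vanishing for `i ≥ n` -/
theorem sum_eq_sum_castLE (hnd : n ≤ d) (f : Fin d → ℝ) (hf : ∀ i : Fin d, n ≤ (i : ℕ) → f i = 0) :
    ∑ i, f i = ∑ j : Fin n, f (Fin.castLE hnd j) := by
  symm
  apply Finset.sum_of_injOn (Fin.castLE hnd)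
  · intro a _ b _ h
    exact Fin.castLE_injective hnd h
  · intro a _
    simp
  · intro i _ hi
    apply hf
    by_contra hlt
    apply hi
    rw [not_le] at hlt
    exact ⟨⟨i, hlt⟩, by simp, by ext; rfl⟩
  · intro j _
    rfl

theorem norm_inc (hnd : n ≤ d) (z : V n) : ‖inc n d z‖ = ‖z‖ := by
  have h : ‖inc n d z‖ ^ 2 = ‖z‖ ^ 2 := by
    rw [EuclideanSpace.real_norm_sq_eq, EuclideanSpace.real_norm_sq_eq]
    rw [sum_eq_sum_castLE hnd]
    · apply Finset.sum_congr rfl
      intro j _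
      rw [inc_apply_castLE]
    · intro i hi
      rw [inc_apply_ge _ _ hi]
      simp
  exact (pow_left_inj₀ (norm_nonneg _) (norm_nonneg _) two_ne_zero).1 h

/-- `inc` as a linear isometry. -/
noncomputable def incL (hnd : n ≤ d) : V n →ₗᵢ[ℝ] V d where
  toFun := inc n d
  map_add' := by
    intro x y
    ext i
    unfold inc
    by_cases h : (i : ℕ) < n <;> simp [h]
  map_smul' := by
    intro c x
    ext i
    unfold inc
    by_cases h : (i : ℕ) < n <;> simp [h]
  norm_map' := norm_inc hnd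

theorem incL_apply (hnd : n ≤ d) (z : V n) : incL hnd z = inc n d z := rfl

theorem norm_prj_le (y : V d) (hnd : n ≤ d) : ‖prj n y‖ ≤ ‖y‖ := by
  have h : ‖prj n y‖ ^ 2 ≤ ‖y‖ ^ 2 := by
    rw [EuclideanSpace.real_norm_sq_eq, EuclideanSpace.real_norm_sq_eq]
    calc ∑ j : Fin n, (prj n y j) ^ 2 = ∑ j : Fin n, (y (Fin.castLE hnd j)) ^ 2 := by
          apply Finset.sum_congr rfl
          intro j _
          rw [prj_apply _ hnd]
          rfl
      _ = ∑ i : Fin d, if (i : ℕ) < n then (y i) ^ 2 else 0 := by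
          rw [sum_eq_sum_castLE hnd (fun i : Fin d => if (i : ℕ) < n then (y i) ^ 2 else 0)]
          · apply Finset.sum_congr rfl
            intro j _
            simp
          · intro i hi
            simp [not_lt.2 hi]
      _ ≤ ∑ i : Fin d, (y i) ^ 2 := by
          apply Finset.sum_le_sum
          intro i _
          split_ifs
          · exact le_rfl
          · positivity
  exact (pow_le_pow_iff_left₀ (norm_nonneg _) (norm_nonneg _) two_ne_zero).1 h

theorem continuous_prj : Continuous (prj n : V d → V n) := by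
  unfold prj
  apply (PiLp.continuous_toLp 2 _).comp
  apply continuous_pi
  intro j
  by_cases h : (j : ℕ) < d
  · simp only [h, dite_true]
    fun_prop
  · simp only [h, dite_false]
    fun_prop

end incprj

section plane

variable {n d : ℕ}

/-- Every injective affine parametrisation `x ↦ p + a x` of an `n`-plane can be straightened:
`nsq n (g y - b)` is at most the squared distance from `y` to any point of the plane. -/
theorem exists_plane (hnd : n ≤ d) (p : V d) (a : V n →ₗ[ℝ] V d) (ha : Function.Injective a) :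
    ∃ (g : V d ≃ₗᵢ[ℝ] V d) (b : V d), ∀ (y : V d) (x : V n),
      nsq n (g y - b) ≤ ‖y - (p + a x)‖ ^ 2 := by
  have hrank : Module.finrank ℝ (LinearMap.range a) = n := by
    rw [LinearMap.finrank_range_of_inj ha]
    simp
  let e : LinearMap.range a ≃ₗᵢ[ℝ] V n :=
    ((stdOrthonormalBasis ℝ (LinearMap.range a)).reindex (finCongr hrank)).repr
  let f : LinearMap.range a →ₗᵢ[ℝ] V d := (incL hnd).comp e.toLinearIsometry
  let F : V d →ₗᵢ[ℝ] V d := f.extend
  let g : V d ≃ₗᵢ[ℝ] V d := F.toLinearIsometryEquiv rfl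
  refine ⟨g, g p, fun y x => ?_⟩
  have hga : g (a x) = inc n d (e ⟨a x, LinearMap.mem_range_self a x⟩) := by
    have h1 : g (a x) = F (a x) := rfl
    rw [h1]
    have h2 : F ((⟨a x, LinearMap.mem_range_self a x⟩ : LinearMap.range a) : V d)
        = f ⟨a x, LinearMap.mem_range_self a x⟩ := f.extend_apply _
    exact h2
  have h3 : nsq n (g y - g p) = nsq n (g (y - (p + a x))) := by
    apply nsq_congr
    intro i hi
    rw [map_sub, map_add, hga]
    simp only [PiLp.sub_apply, PiLp.add_apply, inc_apply_ge _ i hi]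
    ring
  rw [h3]
  refine (nsq_le_norm_sq _).trans ?_
  rw [g.norm_map]

/-- the affine function `t + ⟨B, prj y⟩`. -/
noncomputable def aff (t : ℝ) (B : V n) (y : V d) : ℝ := t + inner ℝ B (prj n y)

theorem exists_tilted (hnd : n ≤ d) (b : V d) (t : Fin d → ℝ) (B : Fin d → V n) (ε : ℝ) :
    ∃ (g : V d ≃ₗᵢ[ℝ] V d) (b' : V d), ∀ y : V d,
      nsq n (g y - b') ≤ ∑ i : Fin d, if n ≤ (i : ℕ) then
        (y i - b i - ε * aff (t i) (B i) y) ^ 2 else 0 := by
  let p : V d := WithLp.toLp 2 fun i : Fin d => if (i : ℕ) < n then 0 else b i + ε * t i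
  let a : V n →ₗ[ℝ] V d :=
    { toFun := fun x => WithLp.toLp 2 fun i : Fin d =>
        if h : (i : ℕ) < n then x ⟨i, h⟩ else ε * inner ℝ (B i) x
      map_add' := by
        intro x y
        ext i
        by_cases h : (i : ℕ) < n
        · simp [h]
        · simp [h, inner_add_right, mul_add]
      map_smul' := by
        intro c x
        ext i
        by_cases h : (i : ℕ) < n
        · simp [h]
        · simp only [h, dite_false, PiLp.smul_apply, RingHom.id_apply, smul_eq_mul, inner_smul_right]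
          ring }
  have hax : ∀ (x : V n) (i : Fin d), a x i = if h : (i : ℕ) < n then x ⟨i, h⟩ else ε * inner ℝ (B i) x :=
    fun x i => rfl
  have hpx : ∀ (i : Fin d), p i = if (i : ℕ) < n then 0 else b i + ε * t i := fun i => rfl
  have ha : Function.Injective a := by
    intro x x' h
    ext j
    have h1 : a x (Fin.castLE hnd j) = a x' (Fin.castLE hnd j) := by rw [h]
    rw [hax, hax] at h1
    simpa using h1
  obtain ⟨g, b', hg⟩ := exists_plane hnd p a ha
  refine ⟨g, b', fun y => ?_⟩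
  refine (hg y (prj n y)).trans ?_
  rw [EuclideanSpace.real_norm_sq_eq]
  apply Finset.sum_le_sum
  intro i _
  simp only [PiLp.sub_apply, PiLp.add_apply, hax, hpx]
  by_cases h : (i : ℕ) < n
  · have h' : ¬ n ≤ (i : ℕ) := not_le.2 h
    simp only [h, if_true, dite_true, h', if_false]
    rw [prj_apply _ hnd]
    simp
  · have h' : n ≤ (i : ℕ) := not_lt.1 h
    simp only [h, if_false, dite_false, h', if_true]
    apply le_of_eq
    unfold aff
    ring

theorem continuous_aff (t : ℝ) (B : V n) : Continuous (aff t B : V d → ℝ) := by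
  unfold aff
  exact continuous_const.add (continuous_const.inner continuous_prj)

theorem aff_sq_le (hnd : n ≤ d) {CT : ℝ} {t : ℝ} {B : V n} (ht : |t| ≤ CT) (hB : ‖B‖ ≤ CT)
    (y : V d) : (aff t B y) ^ 2 ≤ CT ^ 2 * (1 + ‖y‖) ^ 2 := by
  have hCT : 0 ≤ CT := (abs_nonneg _).trans ht
  have h1 : |aff t B y| ≤ CT * (1 + ‖y‖) := by
    unfold aff
    calc |t + inner ℝ B (prj n y)| ≤ |t| + |inner ℝ B (prj n y)| := abs_add_le _ _
      _ ≤ CT + ‖B‖ * ‖prj n y‖ := add_le_add ht (abs_real_inner_le_norm _ _)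
      _ ≤ CT + CT * ‖y‖ := by
          gcongr
          exact norm_prj_le y hnd
      _ = _ := by ring
  rw [← mul_pow, ← sq_abs]
  gcongr

/-- the squared distance to the tilted plane -/
noncomputable def dsq (n : ℕ) (b : V d) (t : Fin d → ℝ) (B : Fin d → V n) (ε : ℝ) (y : V d) : ℝ :=
  ∑ i : Fin d, if n ≤ (i : ℕ) then (y i - b i - ε * aff (t i) (B i) y) ^ 2 else 0

theorem dsq_nonneg (b : V d) (t : Fin d → ℝ) (B : Fin d → V n) (ε : ℝ) (y : V d) :
    0 ≤ dsq n b t B ε y := by
  unfold dsq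
  apply Finset.sum_nonneg
  intro i _
  split_ifs
  · positivity
  · exact le_rfl

theorem continuous_dsq (b : V d) (t : Fin d → ℝ) (B : Fin d → V n) (ε : ℝ) :
    Continuous (dsq n b t B ε) := by
  unfold dsq
  apply continuous_finsetSum
  intro i _
  split_ifs
  · have := continuous_aff (d := d) (t i) (B i)
    fun_prop
  · fun_prop

theorem dsq_le (hnd : n ≤ d) {CT : ℝ} (b : V d) {t : Fin d → ℝ} {B : Fin d → V n}
    (ht : ∀ i, |t i| ≤ CT) (hB : ∀ i, ‖B i‖ ≤ CT) (ε : ℝ) (y : V d) :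
    dsq n b t B ε y ≤ 2 * nsq n (y - b) + 2 * ε ^ 2 * (d * (CT ^ 2 * (1 + ‖y‖) ^ 2)) := by
  unfold dsq nsq
  calc ∑ i : Fin d, (if n ≤ (i : ℕ) then (y i - b i - ε * aff (t i) (B i) y) ^ 2 else 0)
      ≤ ∑ i : Fin d, (2 * (if n ≤ (i : ℕ) then ((y - b) i) ^ 2 else 0)
          + 2 * ε ^ 2 * (CT ^ 2 * (1 + ‖y‖) ^ 2)) := by
        apply Finset.sum_le_sum
        intro i _
        have h1 := aff_sq_le hnd (ht i) (hB i) y
        split_ifs
        · simp only [PiLp.sub_apply]
          have h2 : ε ^ 2 * (aff (t i) (B i) y) ^ 2 ≤ ε ^ 2 * (CT ^ 2 * (1 + ‖y‖) ^ 2) := by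
            gcongr
          nlinarith [sq_nonneg ((y i - b i) + ε * aff (t i) (B i) y)]
        · positivity
    _ = _ := by
        rw [Finset.sum_add_distrib, ← Finset.mul_sum]
        simp
        ring

theorem tilt_single (hnd : n ≤ d) {μ : Measure (V d)} {C0 : ℝ} {D : ℝ≥0∞} (hμ : ADR n C0 D μ)
    {b : V d} {ε M q R0 CT : ℝ} (hq : 0 < q) (hq5 : q ≤ 1 / 5)
    (hqM : q * M + 4 ≤ M) (hR0 : 1 ≤ R0) (hR0a : (1 + 5 / R0) ^ (n + 3) ≤ 2)
    (hR0b : 4 * d * CT ^ 2 * C0 ≤ R0)
    {t : Fin d → ℝ} {B : Fin d → V n} (ht : ∀ i, |t i| ≤ CT) (hB : ∀ i, ‖B i‖ ≤ CT)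
    (hF : ∀ R, 1 ≤ R → R ≤ M → ∫ y in ball (0 : V d) R, nsq n (y - b) ∂μ ≤ ε ^ 2 * R * R ^ (n + 2))
    (hSL : ∫ y in ball (0 : V d) (R0 + 4), dsq n b t B ε y ∂μ ≤ ε ^ 2 * q ^ (n + 2))
    (x' : V d) (hx' : dist x' 0 ≤ 4) : FlatW n μ x' q ε M := by
  have := adr_finiteOnCompacts hμ
  have hC0 : 0 < C0 := lt_of_lt_of_le one_pos hμ.one_le
  obtain ⟨g, b', hg⟩ := exists_tilted hnd b t B ε
  refine ⟨g, b', fun R hqR hRM => ?_⟩
  have hR : 0 < R := hq.trans_le hqR
  have cg : Continuous fun y : V d => nsq n (g y - b') :=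
    continuous_nsq.comp (by fun_prop)
  have cd := continuous_dsq (n := n) b t B ε
  have h1 : ∫ y in ball x' R, nsq n (g y - b') ∂μ ≤ ∫ y in ball (0 : V d) (R + 4), dsq n b t B ε y ∂μ := by
    have hsub : ball x' R ⊆ ball (0 : V d) (R + 4) := by
      apply ball_subset_ball'
      linarith
    calc ∫ y in ball x' R, nsq n (g y - b') ∂μ ≤ ∫ y in ball x' R, dsq n b t B ε y ∂μ := by
          apply setIntegral_mono (integrableOn_ball_of_continuous cg _ _)
            (integrableOn_ball_of_continuous cd _ _)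
          intro y
          exact hg y
      _ ≤ _ := by
          apply setIntegral_mono_set (integrableOn_ball_of_continuous cd _ _)
          · exact Eventually.of_forall fun y => dsq_nonneg _ _ _ _ _
          · exact hsub.eventuallyLE
  refine h1.trans ?_
  rcases le_or_gt R R0 with hRR | hRR
  · have h2 : ∫ y in ball (0 : V d) (R + 4), dsq n b t B ε y ∂μ ≤
        ∫ y in ball (0 : V d) (R0 + 4), dsq n b t B ε y ∂μ := by
      apply setIntegral_mono_set (integrableOn_ball_of_continuous cd _ _)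
      · exact Eventually.of_forall fun y => dsq_nonneg _ _ _ _ _
      · exact (ball_subset_ball (by linarith)).eventuallyLE
    refine h2.trans (hSL.trans ?_)
    have h3 : 1 ≤ R / q := by rwa [le_div_iff₀ hq, one_mul]
    calc ε ^ 2 * q ^ (n + 2) = ε ^ 2 * 1 * q ^ (n + 2) := by ring
      _ ≤ ε ^ 2 * (R / q) * R ^ (n + 2) := by gcongr
  · have hR0' : 0 < R0 := lt_of_lt_of_le one_pos hR0
    have hRM4 : R + 4 ≤ M := by
      have : R ≤ q * M := by rw [mul_comm]; exact hRM
      linarith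
    have h2 : ∫ y in ball (0 : V d) (R + 4), dsq n b t B ε y ∂μ ≤
        ∫ y in ball (0 : V d) (R + 4),
          (2 * nsq n (y - b) + 2 * ε ^ 2 * (d * (CT ^ 2 * (R + 5) ^ 2))) ∂μ := by
      have cn : Continuous fun y : V d => nsq n (y - b) := continuous_nsq.comp (by fun_prop)
      apply setIntegral_mono_on (integrableOn_ball_of_continuous cd _ _)
        (integrableOn_ball_of_continuous (by fun_prop) _ _) measurableSet_ball
      intro y hy
      refine (dsq_le hnd b ht hB ε y).trans ?_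
      have hy' : 1 + ‖y‖ ≤ R + 5 := by
        rw [mem_ball, dist_zero_right] at hy
        linarith
      gcongr
    refine h2.trans ?_
    have cn : Continuous fun y : V d => nsq n (y - b) := continuous_nsq.comp (by fun_prop)
    rw [integral_add ((integrableOn_ball_of_continuous cn _ _).const_mul 2)
      (integrableOn_ball_of_continuous continuous_const _ _), integral_const_mul,
      setIntegral_const, smul_eq_mul]
    have h3 := hF (R + 4) (by linarith) hRM4
    have h4 : μ.real (ball (0 : V d) (R + 4)) ≤ C0 * (R + 4) ^ n := by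
      apply ENNReal.toReal_le_of_le_ofReal (by positivity)
      exact hμ.upper 0 (R + 4) (by positivity)
    have hk1 : R + 4 ≤ R * (1 + 5 / R0) := by
      have : 1 ≤ R / R0 := by rw [le_div_iff₀ hR0']; linarith
      have h5 : R * (1 + 5 / R0) = R + 5 * (R / R0) := by ring
      rw [h5]; linarith
    have hk2 : R + 5 ≤ R * (1 + 5 / R0) := by
      have : 1 ≤ R / R0 := by rw [le_div_iff₀ hR0']; linarith
      have h5 : R * (1 + 5 / R0) = R + 5 * (R / R0) := by ring
      rw [h5]; linarith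
    have hone : 1 ≤ 1 + 5 / R0 := by
      have : 0 ≤ 5 / R0 := by positivity
      linarith
    have h5 : (R + 4) ^ (n + 3) ≤ 2 * R ^ (n + 3) := by
      calc (R + 4) ^ (n + 3) ≤ (R * (1 + 5 / R0)) ^ (n + 3) := by gcongr
        _ = R ^ (n + 3) * (1 + 5 / R0) ^ (n + 3) := mul_pow _ _ _
        _ ≤ R ^ (n + 3) * 2 := by gcongr
        _ = _ := by ring
    have h6 : (R + 5) ^ (n + 2) ≤ 2 * R ^ (n + 2) := by
      calc (R + 5) ^ (n + 2) ≤ (R * (1 + 5 / R0)) ^ (n + 2) := by gcongr
        _ = R ^ (n + 2) * (1 + 5 / R0) ^ (n + 2) := mul_pow _ _ _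
        _ ≤ R ^ (n + 2) * (1 + 5 / R0) ^ (n + 3) := by
            apply mul_le_mul_of_nonneg_left _ (by positivity)
            exact pow_le_pow_right₀ hone (by omega)
        _ ≤ R ^ (n + 2) * 2 := by gcongr
        _ = _ := by ring
    have h7 : μ.real (ball (0 : V d) (R + 4)) * (2 * ε ^ 2 * (d * (CT ^ 2 * (R + 5) ^ 2)))
        ≤ ε ^ 2 * R ^ (n + 3) := by
      calc μ.real (ball (0 : V d) (R + 4)) * (2 * ε ^ 2 * (d * (CT ^ 2 * (R + 5) ^ 2)))
          ≤ (C0 * (R + 5) ^ n) * (2 * ε ^ 2 * (d * (CT ^ 2 * (R + 5) ^ 2))) := by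
            gcongr
            refine h4.trans ?_
            gcongr
            linarith
        _ = (2 * d * CT ^ 2 * C0) * ε ^ 2 * (R + 5) ^ (n + 2) := by ring
        _ ≤ (2 * d * CT ^ 2 * C0) * ε ^ 2 * (2 * R ^ (n + 2)) := by gcongr
        _ = (4 * d * CT ^ 2 * C0) * (ε ^ 2 * R ^ (n + 2)) := by ring
        _ ≤ R * (ε ^ 2 * R ^ (n + 2)) := by
            gcongr
            linarith
        _ = _ := by ring
    have h8 : 2 * ∫ y in ball (0 : V d) (R + 4), nsq n (y - b) ∂μ ≤ 4 * (ε ^ 2 * R ^ (n + 3)) := by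
      calc 2 * ∫ y in ball (0 : V d) (R + 4), nsq n (y - b) ∂μ
          ≤ 2 * (ε ^ 2 * (R + 4) * (R + 4) ^ (n + 2)) := by gcongr
        _ = 2 * (ε ^ 2 * (R + 4) ^ (n + 3)) := by ring
        _ ≤ 2 * (ε ^ 2 * (2 * R ^ (n + 3))) := by gcongr
        _ = _ := by ring
    have h9 : 5 ≤ 1 / q := by
      rw [le_div_iff₀ hq]; linarith
    calc 2 * ∫ y in ball (0 : V d) (R + 4), nsq n (y - b) ∂μ
          + μ.real (ball (0 : V d) (R + 4)) * (2 * ε ^ 2 * (d * (CT ^ 2 * (R + 5) ^ 2)))
        ≤ 4 * (ε ^ 2 * R ^ (n + 3)) + ε ^ 2 * R ^ (n + 3) := add_le_add h8 h7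
      _ = 5 * (ε ^ 2 * R ^ (n + 3)) := by ring
      _ ≤ 1 / q * (ε ^ 2 * R ^ (n + 3)) := by gcongr
      _ = _ := by ring

theorem exists_R0 (n : ℕ) (K : ℝ) : ∃ R0 : ℝ, 1 ≤ R0 ∧ K ≤ R0 ∧ (1 + 5 / R0) ^ (n + 3) ≤ 2 := by
  have h1 : Tendsto (fun x : ℝ => (1 + 5 / x) ^ (n + 3)) atTop (𝓝 ((1 + 0) ^ (n + 3))) := by
    apply Tendsto.pow
    exact tendsto_const_nhds.add (tendsto_const_nhds.div_atTop tendsto_id)
  have h2 : ∀ᶠ x : ℝ in atTop, (1 + 5 / x) ^ (n + 3) < 2 := by
    apply h1.eventually_lt_const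
    norm_num
  obtain ⟨x, hx1, hx2, hx3⟩ := (h2.and ((eventually_ge_atTop 1).and (eventually_ge_atTop K))).exists
  exact ⟨x, hx2, hx3, hx1.le⟩

theorem dsq_eq_sum (b : V d) (t : Fin d → ℝ) (B : Fin d → V n) {ε : ℝ} (hε : 0 < ε) (y : V d) :
    dsq n b t B ε y = ε ^ 2 * ∑ i : Fin d,
      if n ≤ (i : ℕ) then ((y i - b i) / ε - aff (t i) (B i) y) ^ 2 else 0 := by
  unfold dsq
  rw [Finset.mul_sum]
  apply Finset.sum_congr rfl
  intro i _
  split_ifs
  · field_simp
  · simp

/-- **Propagation, final step**: strong `L²` convergence of all normal coordinates to affine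
functions gives the flatness window at smaller scale around all nearby points. -/
theorem tilt_tendsto (hnd : n ≤ d) {ι : Type*} {l : Filter ι} {μs : ι → Measure (V d)}
    {C0 : ℝ} {Ds : ι → ℝ≥0∞} (hμ : ∀ᶠ k in l, ADR n C0 (Ds k) (μs k))
    {b : ι → V d} {ε M : ι → ℝ} (hε : ∀ᶠ k in l, 0 < ε k) (hM : Tendsto M l atTop)
    {q : ℝ} (hq : 0 < q) (hq5 : q ≤ 1 / 5) {t : Fin d → ℝ} {B : Fin d → V n}
    (hF : ∀ᶠ k in l, ∀ R, 1 ≤ R → R ≤ M k →
      ∫ y in ball (0 : V d) R, nsq n (y - b k) ∂(μs k) ≤ (ε k) ^ 2 * R * R ^ (n + 2))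
    (hSL : ∀ i : Fin d, n ≤ (i : ℕ) → ∀ R : ℝ, 0 < R → Tendsto (fun k =>
      ∫ y in ball (0 : V d) R, ((y i - b k i) / ε k - aff (t i) (B i) y) ^ 2 ∂(μs k)) l (𝓝 0)) :
    ∀ᶠ k in l, ∀ x' : V d, dist x' 0 ≤ 4 → FlatW n (μs k) x' q (ε k) (M k) := by
  set CT : ℝ := ∑ i : Fin d, (|t i| + ‖B i‖) with hCT
  have hterm : ∀ i : Fin d, |t i| + ‖B i‖ ≤ CT := fun i =>
    Finset.single_le_sum (f := fun i => |t i| + ‖B i‖) (fun i _ => by positivity)
      (Finset.mem_univ i)
  have ht : ∀ i, |t i| ≤ CT := fun i => by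
    have := hterm i; have := norm_nonneg (B i); linarith
  have hB : ∀ i, ‖B i‖ ≤ CT := fun i => by
    have := hterm i; have := abs_nonneg (t i); linarith
  obtain ⟨R0, hR0, hR0b, hR0a⟩ := exists_R0 n (4 * d * CT ^ 2 * C0)
  have hsum : Tendsto (fun k => ∑ i : Fin d, if n ≤ (i : ℕ) then
      ∫ y in ball (0 : V d) (R0 + 4), ((y i - b k i) / ε k - aff (t i) (B i) y) ^ 2 ∂(μs k) else 0)
      l (𝓝 0) := by
    have h0 : ∑ _i : Fin d, (0 : ℝ) = 0 := by simp
    suffices h : Tendsto (fun k => ∑ i : Fin d, if n ≤ (i : ℕ) then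
      ∫ y in ball (0 : V d) (R0 + 4), ((y i - b k i) / ε k - aff (t i) (B i) y) ^ 2 ∂(μs k) else 0)
      l (𝓝 (∑ _i : Fin d, (0 : ℝ))) by
      rw [h0] at h; exact h
    refine tendsto_finsetSum _ fun i _ => ?_
    by_cases hi : n ≤ (i : ℕ)
    · simp only [hi, if_true]
      exact hSL i hi (R0 + 4) (by linarith)
    · simp only [hi, if_false]
      exact tendsto_const_nhds
  have hev := (tendsto_order.1 hsum).2 (q ^ (n + 2)) (by positivity)
  have hMev : ∀ᶠ k in l, q * M k + 4 ≤ M k := by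
    filter_upwards [hM.eventually_ge_atTop 5] with k hk
    nlinarith
  filter_upwards [hμ, hε, hF, hev, hMev] with k hμk hεk hFk hevk hMk
  have := adr_finiteOnCompacts hμk
  refine tilt_single hnd hμk hq hq5 hMk hR0 hR0a hR0b ht hB hFk ?_
  have e : (fun y => dsq n (b k) t B (ε k) y) = fun y => (ε k) ^ 2 * ∑ i : Fin d,
      if n ≤ (i : ℕ) then ((y i - b k i) / ε k - aff (t i) (B i) y) ^ 2 else 0 := by
    ext y
    exact dsq_eq_sum (b k) t B hεk y
  rw [e, integral_const_mul]
  apply mul_le_mul_of_nonneg_left _ (by positivity)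
  rw [integral_finsetSum]
  · refine le_trans (le_of_eq ?_) hevk.le
    apply Finset.sum_congr rfl
    intro i _
    split_ifs
    · rfl
    · simp
  · intro i _
    split_ifs
    · have hc := continuous_aff (d := d) (t i) (B i)
      have hc2 : Continuous fun y : V d => ((y i - b k i) / ε k - aff (t i) (B i) y) ^ 2 := by
        fun_prop
      exact integrableOn_ball_of_continuous hc2 _ _
    · exact integrableOn_ball_of_continuous (continuous_const (y := (0 : ℝ))) _ _

end plane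

end Crest.Agent.R085.M8
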