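import Mathlib
import Crest.Agent.R085.Defs
import Crest.Agent.R085.CutBasic
import Crest.Agent.R085.Cacc
import Crest.Agent.R085.M8SL2

/-!
R085, M8 (propagation), part (a1): splitting of the form `Bf` into a near part (controlled by the
`H^{1/2}`-energy) and a pairing with a Lipschitz compactly supported function.
-/

set_option autoImplicit false

namespace Crest.Agent.R085.M8

open MeasureTheory Metric Set Filter
open scoped ENNReal NNReal Topology

section kernel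

variable {n d : ℕ}

/-- the kernel `k_N - k_τ`, vanishing near the diagonal. -/
noncomputable def Kt (n : ℕ) (τ N : ℝ) (z : V d) : ℝ := kN n N z - kN n τ z

theorem Kt_eq_zero_near {τ N : ℝ} (hτ : 0 < τ) (hN : τ ≤ N) {z : V d} (h : ‖z‖ ≤ τ) :
    Kt n τ N z = 0 := by
  unfold Kt
  rw [kN_eq hτ h, kN_eq (hτ.trans_le hN) (h.trans hN), sub_self]

theorem Kt_eq_zero_far {τ N : ℝ} (hτ : 0 < τ) (hN : τ ≤ N) {z : V d} (h : 2 * N ≤ ‖z‖) :
    Kt n τ N z = 0 := by
  unfold Kt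
  rw [kN_eq_zero hτ (by linarith), kN_eq_zero (hτ.trans_le hN) h, sub_self]

theorem cut_anti {s t : ℝ} (h : s ≤ t) : cut t ≤ cut s := by
  unfold cut
  apply max_le_max le_rfl
  apply min_le_min le_rfl
  linarith

theorem kN_mono {τ N : ℝ} (hτ : 0 < τ) (hN : τ ≤ N) (z : V d) : kN n τ z ≤ kN n N z := by
  unfold kN
  apply mul_le_mul_of_nonneg_right _ (by positivity)
  apply cut_anti
  gcongr

theorem Kt_nonneg {τ N : ℝ} (hτ : 0 < τ) (hN : τ ≤ N) (z : V d) : 0 ≤ Kt n τ N z :=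
  sub_nonneg.2 (kN_mono hτ hN z)

theorem Kt_le {τ N : ℝ} (hτ : 0 < τ) (hN : τ ≤ N) (z : V d) :
    Kt n τ N z ≤ (τ ^ (n + 1))⁻¹ := by
  rcases le_or_gt ‖z‖ τ with h | h
  · rw [Kt_eq_zero_near hτ hN h]
    positivity
  · calc Kt n τ N z ≤ kN n N z := by
          unfold Kt
          have := Crest.Agent.R085.kN_nonneg n τ z
          linarith
      _ ≤ (‖z‖ ^ (n + 1))⁻¹ := Crest.Agent.R085.kN_le n N z
      _ ≤ (τ ^ (n + 1))⁻¹ := by gcongr

theorem Kt_abs_le {τ N : ℝ} (hτ : 0 < τ) (hN : τ ≤ N) (z : V d) :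
    |Kt n τ N z| ≤ (τ ^ (n + 1))⁻¹ := by
  rw [abs_of_nonneg (Kt_nonneg hτ hN z)]
  exact Kt_le hτ hN z

theorem Kt_neg (τ N : ℝ) (z : V d) : Kt n τ N (-z) = Kt n τ N z := by
  unfold Kt
  rw [Crest.Agent.R085.kN_neg, Crest.Agent.R085.kN_neg]

theorem Kt_sub_comm (τ N : ℝ) (x y : V d) : Kt n τ N (x - y) = Kt n τ N (y - x) := by
  rw [← Kt_neg, neg_sub]

/-- Lipschitz constant of `Kt`. -/
noncomputable def LK (n : ℕ) (τ : ℝ) : ℝ := 2 * (n + 3) * ((τ / 2) ^ (n + 2))⁻¹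

theorem LK_nonneg {τ : ℝ} (hτ : 0 < τ) : 0 ≤ LK n τ := by
  unfold LK
  positivity

theorem Kt_lip {τ N : ℝ} (hτ : 0 < τ) (hN : τ ≤ N) (z w : V d) :
    |Kt n τ N z - Kt n τ N w| ≤ LK n τ * ‖z - w‖ := by
  have hN0 : 0 < N := hτ.trans_le hN
  -- asymmetric case
  have key : ∀ z w : V d, ‖z‖ < τ / 2 → |Kt n τ N z - Kt n τ N w| ≤ LK n τ * ‖z - w‖ := by
    intro z w hz
    rw [Kt_eq_zero_near hτ hN (by linarith), zero_sub, abs_neg]
    rcases le_or_gt ‖w‖ τ with hw | hw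
    · rw [Kt_eq_zero_near hτ hN hw, abs_zero]
      exact mul_nonneg (LK_nonneg hτ) (norm_nonneg _)
    · have h1 : τ / 2 ≤ ‖z - w‖ := by
        have := norm_sub_norm_le w z
        rw [norm_sub_rev] at this
        linarith
      have h2 : LK n τ * (τ / 2) ≤ LK n τ * ‖z - w‖ :=
        mul_le_mul_of_nonneg_left h1 (LK_nonneg hτ)
      refine (Kt_abs_le hτ hN w).trans (le_trans ?_ h2)
      unfold LK
      have h3 : 2 * ((n : ℝ) + 3) * ((τ / 2) ^ (n + 2))⁻¹ * (τ / 2)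
          = 2 * ((n : ℝ) + 3) * ((τ / 2) ^ (n + 1))⁻¹ := by
        rw [pow_succ (τ / 2) (n + 1)]
        field_simp
      rw [h3]
      have h4 : (τ ^ (n + 1))⁻¹ ≤ ((τ / 2) ^ (n + 1))⁻¹ := by
        gcongr
        linarith
      have h5 : (0 : ℝ) ≤ ((τ / 2) ^ (n + 1))⁻¹ := by positivity
      have h6 : (1 : ℝ) ≤ 2 * ((n : ℝ) + 3) := by
        have : (0 : ℝ) ≤ n := Nat.cast_nonneg n
        linarith
      nlinarith
  rcases lt_or_ge ‖z‖ (τ / 2) with hz | hz
  · exact key z w hz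
  rcases lt_or_ge ‖w‖ (τ / 2) with hw | hw
  · rw [abs_sub_comm, norm_sub_rev]
    exact key w z hw
  · have h1 := Crest.Agent.R085.kN_diff (n := n) hN0 (by positivity : 0 < τ / 2) hz hw
    have h2 := Crest.Agent.R085.kN_diff (n := n) hτ (by positivity : 0 < τ / 2) hz hw
    have e : Kt n τ N z - Kt n τ N w = (kN n N z - kN n N w) - (kN n τ z - kN n τ w) := by
      unfold Kt; ring
    rw [e]
    refine (abs_sub _ _).trans ?_
    unfold LK
    linarith

theorem continuous_Kt {τ N : ℝ} (hτ : 0 < τ) (hN : τ ≤ N) :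
    Continuous (Kt n τ N : V d → ℝ) := by
  have : LipschitzWith (LK n τ).toNNReal (Kt n τ N : V d → ℝ) := by
    apply LipschitzWith.of_dist_le_mul
    intro x y
    rw [Real.dist_eq, Real.coe_toNNReal _ (LK_nonneg hτ), dist_eq_norm]
    exact Kt_lip hτ hN x y
  exact this.continuous

end kernel

section split

variable {n d : ℕ} {μ : Measure (V d)} {C : ℝ}

theorem upperReg_finiteOnCompacts (hμ : UpperReg n C μ) : IsFiniteMeasureOnCompacts μ := by
  constructor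
  intro K hK
  obtain ⟨r, hKr⟩ := hK.isBounded.subset_ball (0 : V d)
  exact (measure_mono hKr).trans_lt (hμ.ball_lt_top 0 r)

theorem locLip_continuous {A : V d → ℝ} (hA : LocLip A) : Continuous A := by
  rw [continuous_iff_continuousAt]
  intro x
  obtain ⟨K, hK⟩ := hA (‖x‖ + 1)
  have hx : x ∈ ball (0 : V d) (‖x‖ + 1) := by
    rw [mem_ball, dist_zero_right]; linarith
  exact hK.continuousOn.continuousAt (isOpen_ball.mem_nhds hx)

/-- the integrand of the truncated form -/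
noncomputable def Fk (n : ℕ) (τ N : ℝ) (ψ : V d → ℝ) (x y : V d) : ℝ :=
  (ψ x - ψ y) * Kt n τ N (x - y)

/-- the function paired with `A` -/
noncomputable def Gk (n : ℕ) (μ : Measure (V d)) (τ N : ℝ) (ψ : V d → ℝ) (x : V d) : ℝ :=
  ∫ y, Fk n τ N ψ x y ∂μ

theorem Fk_swap (τ N : ℝ) (ψ : V d → ℝ) (x y : V d) : Fk n τ N ψ y x = - Fk n τ N ψ x y := by
  unfold Fk
  rw [Kt_sub_comm]
  ring

theorem Fk_eq_zero_of_far {τ N : ℝ} (hτ : 0 < τ) (hN : τ ≤ N) {ψ : V d → ℝ} {x y : V d}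
    (h : 2 * N ≤ ‖x - y‖) : Fk n τ N ψ x y = 0 := by
  unfold Fk
  rw [Kt_eq_zero_far hτ hN h, mul_zero]

theorem Fk_eq_zero_left {τ N ρ : ℝ} (hτ : 0 < τ) (hN : τ ≤ N) {ψ : V d → ℝ}
    (hρ : ∀ x, x ∉ ball (0 : V d) ρ → ψ x = 0) {x : V d}
    (hx : x ∉ ball (0 : V d) (ρ + 2 * N)) (y : V d) : Fk n τ N ψ x y = 0 := by
  rw [mem_ball, dist_zero_right, not_lt] at hx
  rcases le_or_gt ρ ‖y‖ with hy | hy
  · have h1 : ψ x = 0 := hρ x (by rw [mem_ball, dist_zero_right, not_lt]; linarith)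
    have h2 : ψ y = 0 := hρ y (by rw [mem_ball, dist_zero_right, not_lt]; exact hy)
    unfold Fk
    rw [h1, h2, sub_self, zero_mul]
  · apply Fk_eq_zero_of_far hτ hN
    have := norm_sub_norm_le x y
    linarith

theorem Fk_eq_zero_right {τ N ρ : ℝ} (hτ : 0 < τ) (hN : τ ≤ N) {ψ : V d → ℝ}
    (hρ : ∀ x, x ∉ ball (0 : V d) ρ → ψ x = 0) (x : V d) {y : V d}
    (hy : y ∉ ball (0 : V d) (ρ + 2 * N)) : Fk n τ N ψ x y = 0 := by
  rw [← neg_eq_zero, ← Fk_swap]
  exact Fk_eq_zero_left hτ hN hρ hy x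

theorem continuous_Fk {τ N : ℝ} (hτ : 0 < τ) (hN : τ ≤ N) {ψ : V d → ℝ} (hψ : Continuous ψ) :
    Continuous (fun p : V d × V d => Fk n τ N ψ p.1 p.2) := by
  unfold Fk
  exact ((hψ.comp continuous_fst).sub (hψ.comp continuous_snd)).mul
    ((continuous_Kt hτ hN).comp (continuous_fst.sub continuous_snd))

theorem hasCompactSupport_Fk {τ N ρ : ℝ} (hτ : 0 < τ) (hN : τ ≤ N) {ψ : V d → ℝ}
    (hρ : ∀ x, x ∉ ball (0 : V d) ρ → ψ x = 0) :
    HasCompactSupport (fun p : V d × V d => Fk n τ N ψ p.1 p.2) := by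
  apply HasCompactSupport.of_support_subset_isCompact
    ((isCompact_closedBall (0 : V d) (ρ + 2 * N)).prod (isCompact_closedBall (0 : V d) (ρ + 2 * N)))
  intro p hp
  rw [mem_prod]
  constructor
  · by_contra h
    apply hp
    exact Fk_eq_zero_left hτ hN hρ (fun h' => h (ball_subset_closedBall h')) _
  · by_contra h
    apply hp
    exact Fk_eq_zero_right hτ hN hρ _ (fun h' => h (ball_subset_closedBall h'))

theorem isTest_ball {ψ : V d → ℝ} (hψ : IsTest ψ) :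
    ∃ ρ : ℝ, 0 < ρ ∧ ∀ x, x ∉ ball (0 : V d) ρ → ψ x = 0 := by
  obtain ⟨r, hr⟩ := hψ.cpt.isCompact.isBounded.subset_ball (0 : V d)
  refine ⟨max r 1, by positivity, fun x hx => ?_⟩
  by_contra h
  apply hx
  exact ball_subset_ball (le_max_left _ _) (hr (subset_tsupport _ h))

theorem isTest_continuous {ψ : V d → ℝ} (hψ : IsTest ψ) : Continuous ψ := by
  obtain ⟨K, hK⟩ := hψ.lip
  exact hK.continuous

theorem integrable_Bf {N ρ : ℝ} (hN : 0 < N) (hμ : UpperReg n C μ) (hC : 0 ≤ C) (hn : 1 ≤ n)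
    {A : V d → ℝ} (hA : LocLip A) {ψ : V d → ℝ} {Kψ : ℝ} (hψc : Continuous ψ) (hK : 0 ≤ Kψ)
    (hψ : ∀ x y, |ψ x - ψ y| ≤ Kψ * ‖x - y‖) (hρ0 : 0 < ρ)
    (hρ : ∀ x, x ∉ ball (0 : V d) ρ → ψ x = 0) :
    Integrable (fun p : V d × V d => (A p.1 - A p.2) * (ψ p.1 - ψ p.2) * kN n N (p.1 - p.2))
      (μ.prod μ) := by
  obtain ⟨KA, hKA⟩ := hA (ρ + 2 * N)
  have hAc := locLip_continuous hA
  refine integrable_of_near hμ hC hn 0 (ρ := ρ + 2 * N) (by positivity)
    (M := KA * Kψ) ?_ (by positivity) ?_ ?_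
  · have h1 : Measurable fun p : V d × V d => A p.1 - A p.2 :=
      (hAc.measurable.comp measurable_fst).sub (hAc.measurable.comp measurable_snd)
    have h2 : Measurable fun p : V d × V d => ψ p.1 - ψ p.2 :=
      (hψc.measurable.comp measurable_fst).sub (hψc.measurable.comp measurable_snd)
    exact (h1.mul h2).mul ((measurable_kN n N).comp (measurable_fst.sub measurable_snd))
  · intro p hp1 hp2
    have h1 : |A p.1 - A p.2| ≤ KA * ‖p.1 - p.2‖ := by
      have := hKA.dist_le_mul _ hp1 _ hp2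
      rwa [Real.dist_eq, dist_eq_norm] at this
    have h2 := hψ p.1 p.2
    have h3 : |kN n N (p.1 - p.2)| ≤ (‖p.1 - p.2‖ ^ (n + 1))⁻¹ := by
      rw [abs_of_nonneg (Crest.Agent.R085.kN_nonneg _ _ _)]
      exact Crest.Agent.R085.kN_le _ _ _
    rw [abs_mul, abs_mul]
    calc |A p.1 - A p.2| * |ψ p.1 - ψ p.2| * |kN n N (p.1 - p.2)|
        ≤ (KA * ‖p.1 - p.2‖) * (Kψ * ‖p.1 - p.2‖) * (‖p.1 - p.2‖ ^ (n + 1))⁻¹ := by gcongr
      _ = KA * Kψ * (‖p.1 - p.2‖ ^ 2 * (‖p.1 - p.2‖ ^ (n + 1))⁻¹) := by ring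
      _ ≤ KA * Kψ * (‖p.1 - p.2‖ ^ (n - 1))⁻¹ := by
          gcongr
          exact norm_sq_mul_inv_le n hn _
  · intro p hp
    -- off the product of balls the integrand vanishes
    have hgen : ∀ x y : V d, x ∉ ball (0 : V d) (ρ + 2 * N) →
        (ψ x - ψ y) * kN n N (x - y) = 0 := by
      intro x y hx
      rw [mem_ball, dist_zero_right, not_lt] at hx
      rcases le_or_gt ρ ‖y‖ with hy | hy
      · have h1 : ψ x = 0 := hρ x (by rw [mem_ball, dist_zero_right, not_lt]; linarith)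
        have h2 : ψ y = 0 := hρ y (by rw [mem_ball, dist_zero_right, not_lt]; exact hy)
        rw [h1, h2, sub_self, zero_mul]
      · rw [kN_eq_zero hN, mul_zero]
        have := norm_sub_norm_le x y
        linarith
    rw [not_and_or] at hp
    rw [mul_assoc]
    rcases hp with hp | hp
    · rw [hgen _ _ hp, mul_zero]
    · have := hgen _ p.1 hp
      rw [Crest.Agent.R085.kN_sub_comm] at this
      have h2 : (ψ p.1 - ψ p.2) * kN n N (p.1 - p.2) = 0 := by linarith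
      rw [h2, mul_zero]

theorem Bf_split {τ N ρ : ℝ} (hτ : 0 < τ) (hN : τ ≤ N) (hμ : UpperReg n C μ) (hC : 0 ≤ C)
    (hn : 1 ≤ n) {A : V d → ℝ} (hA : LocLip A) {ψ : V d → ℝ} {Kψ : ℝ} (hψc : Continuous ψ)
    (hK : 0 ≤ Kψ) (hψ : ∀ x y, |ψ x - ψ y| ≤ Kψ * ‖x - y‖) (hρ0 : 0 < ρ)
    (hρ : ∀ x, x ∉ ball (0 : V d) ρ → ψ x = 0) :
    Bf n μ N A ψ = Bf n μ τ A ψ + ∫ x, A x * Gk n μ τ N ψ x ∂μ := by
  have hN0 : 0 < N := hτ.trans_le hN
  have hsig : SigmaFinite μ := hμ.sigmaFinite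
  have hfin := upperReg_finiteOnCompacts hμ
  have hAc := locLip_continuous hA
  have iN := integrable_Bf hN0 hμ hC hn hA hψc hK hψ hρ0 hρ
  have iτ := integrable_Bf hτ hμ hC hn hA hψc hK hψ hρ0 hρ
  have hAF : Integrable (fun p : V d × V d => A p.1 * Fk n τ N ψ p.1 p.2) (μ.prod μ) := by
    apply Continuous.integrable_of_hasCompactSupport
    · exact (hAc.comp continuous_fst).mul (continuous_Fk hτ hN hψc)
    · exact (hasCompactSupport_Fk hτ hN hρ).mul_left
  have hAF2 : Integrable (fun p : V d × V d => A p.2 * Fk n τ N ψ p.1 p.2) (μ.prod μ) := by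
    apply Continuous.integrable_of_hasCompactSupport
    · exact (hAc.comp continuous_snd).mul (continuous_Fk hτ hN hψc)
    · exact (hasCompactSupport_Fk hτ hN hρ).mul_left
  have e1 : ∫ p : V d × V d, A p.1 * Fk n τ N ψ p.1 p.2 ∂(μ.prod μ) = ∫ x, A x * Gk n μ τ N ψ x ∂μ := by
    rw [integral_prod _ hAF]
    congr 1
    ext x
    unfold Gk
    rw [← integral_const_mul]
  have e2 : ∫ p : V d × V d, A p.2 * Fk n τ N ψ p.1 p.2 ∂(μ.prod μ) = - ∫ x, A x * Gk n μ τ N ψ x ∂μ := by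
    rw [← e1, ← integral_neg, ← integral_prod_swap]
    congr 1
    ext p
    simp only [Prod.fst_swap, Prod.snd_swap]
    rw [Fk_swap]
    ring
  have e3 : Bf n μ N A ψ - Bf n μ τ A ψ = ∫ x, A x * Gk n μ τ N ψ x ∂μ := by
    unfold Bf
    rw [← mul_sub, ← integral_sub iN iτ]
    have : (fun p : V d × V d => (A p.1 - A p.2) * (ψ p.1 - ψ p.2) * kN n N (p.1 - p.2)
        - (A p.1 - A p.2) * (ψ p.1 - ψ p.2) * kN n τ (p.1 - p.2))
        = fun p => A p.1 * Fk n τ N ψ p.1 p.2 - A p.2 * Fk n τ N ψ p.1 p.2 := by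
      ext p
      unfold Fk Kt
      ring
    rw [this, integral_sub hAF hAF2, e1, e2]
    ring
  linarith

theorem lintegral_diag_strip (hμ : UpperReg n C μ) (hC : 0 ≤ C) (hn : 1 ≤ n) {r τ : ℝ}
    (hτ : 0 < τ) (hr : 0 < r) :
    ∫⁻ p in ball (0 : V d) r ×ˢ ball (0 : V d) r,
      ({p : V d × V d | dist p.1 p.2 ≤ τ}.indicator
        (fun p => ENNReal.ofReal ((‖p.1 - p.2‖ ^ (n - 1))⁻¹)) p) ∂(μ.prod μ)
      ≤ ENNReal.ofReal (C * r ^ n) * ENNReal.ofReal (C * 4 ^ n * τ) := by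
  have hsig : SigmaFinite μ := hμ.sigmaFinite
  have hm1 : Measurable fun p : V d × V d => ENNReal.ofReal ((‖p.1 - p.2‖ ^ (n - 1))⁻¹) :=
    (((measurable_fst.sub measurable_snd).norm.pow_const _).inv).ennreal_ofReal
  have hset : MeasurableSet {p : V d × V d | dist p.1 p.2 ≤ τ} :=
    (isClosed_le (continuous_fst.dist continuous_snd) continuous_const).measurableSet
  rw [setLIntegral_prod _ (hm1.indicator hset).aemeasurable]
  calc ∫⁻ x in ball (0 : V d) r, ∫⁻ y in ball (0 : V d) r,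
        ({p : V d × V d | dist p.1 p.2 ≤ τ}.indicator
        (fun p => ENNReal.ofReal ((‖p.1 - p.2‖ ^ (n - 1))⁻¹)) (x, y)) ∂μ ∂μ
      ≤ ∫⁻ _x in ball (0 : V d) r, ENNReal.ofReal (C * 4 ^ n * τ) ∂μ := by
        apply lintegral_mono
        intro x
        have h1 := lintegral_near hμ hC (k := n - 1) (by omega) x (r := τ) hτ
        have h2 : n - (n - 1) = 1 := by omega
        rw [h2, pow_one] at h1
        refine le_trans ?_ h1
        rw [← lintegral_indicator isClosed_closedBall.measurableSet]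
        refine (setLIntegral_le_lintegral _ _).trans ?_
        apply lintegral_mono
        intro y
        by_cases hy : y ∈ closedBall x τ
        · have hy' : (x, y) ∈ {p : V d × V d | dist p.1 p.2 ≤ τ} := by
            rw [mem_closedBall, dist_comm] at hy
            exact hy
          rw [indicator_of_mem hy]
          simp only
          rw [indicator_of_mem hy', dist_eq_norm]
        · have hy' : (x, y) ∉ {p : V d × V d | dist p.1 p.2 ≤ τ} := by
            intro h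
            apply hy
            rw [mem_closedBall, dist_comm]
            exact h
          rw [indicator_of_notMem hy]
          simp only
          rw [indicator_of_notMem hy']
    _ = ENNReal.ofReal (C * 4 ^ n * τ) * μ (ball (0 : V d) r) := by
        rw [lintegral_const, Measure.restrict_apply_univ]
    _ ≤ _ := by
        rw [mul_comm]
        gcongr
        exact hμ 0 r hr

theorem Bf_near_le {τ ρ : ℝ} (hτ : 0 < τ) (hτ2 : 2 * τ ≤ 1) (hμ : UpperReg n C μ) (hC : 0 ≤ C)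
    (hn : 1 ≤ n) {A : V d → ℝ} (hA : Continuous A) {ψ : V d → ℝ} {Kψ : ℝ}
    (hψ : ∀ x y, |ψ x - ψ y| ≤ Kψ * ‖x - y‖) (hρ0 : 0 < ρ)
    (hρ : ∀ x, x ∉ ball (0 : V d) ρ → ψ x = 0) {H : ℝ} (hH0 : 0 ≤ H)
    (hH : enr n μ A (ρ + 1) ≤ ENNReal.ofReal H) :
    |Bf n μ τ A ψ| ≤ Real.sqrt τ * (H + Kψ ^ 2 * (C * (ρ + 1) ^ n) * (C * 4 ^ n)) := by
  have hsig : SigmaFinite μ := hμ.sigmaFinite
  set s : ℝ := Real.sqrt τ with hs
  have hs0 : 0 < s := Real.sqrt_pos.2 hτ
  have hss : s * s = τ := Real.mul_self_sqrt hτ.le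
  set B : Set (V d) := ball (0 : V d) (ρ + 1) with hB
  set F : V d × V d → ℝ := fun p => (A p.1 - A p.2) * (ψ p.1 - ψ p.2) * kN n τ (p.1 - p.2) with hF
  have hFzero : ∀ p, p ∉ B ×ˢ B → F p = 0 := by
    intro p hp
    have hgen : ∀ x y : V d, x ∉ B → (ψ x - ψ y) * kN n τ (x - y) = 0 := by
      intro x y hx
      rw [hB, mem_ball, dist_zero_right, not_lt] at hx
      rcases le_or_gt ρ ‖y‖ with hy | hy
      · have h1 : ψ x = 0 := hρ x (by rw [mem_ball, dist_zero_right, not_lt]; linarith)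
        have h2 : ψ y = 0 := hρ y (by rw [mem_ball, dist_zero_right, not_lt]; exact hy)
        rw [h1, h2, sub_self, zero_mul]
      · rw [kN_eq_zero hτ, mul_zero]
        have := norm_sub_norm_le x y
        linarith
    rw [mem_prod, not_and_or] at hp
    rw [hF]
    simp only
    rw [mul_assoc]
    rcases hp with hp | hp
    · rw [hgen _ _ hp, mul_zero]
    · have := hgen _ p.1 hp
      rw [Crest.Agent.R085.kN_sub_comm] at this
      have h2 : (ψ p.1 - ψ p.2) * kN n τ (p.1 - p.2) = 0 := by linarith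
      rw [h2, mul_zero]
  set g1 : V d × V d → ℝ≥0∞ := fun p =>
    ENNReal.ofReal ((A p.1 - A p.2) ^ 2 * (‖p.1 - p.2‖ ^ (n + 1))⁻¹) with hg1
  set g2 : V d × V d → ℝ≥0∞ := fun p => {p : V d × V d | dist p.1 p.2 ≤ 2 * τ}.indicator
        (fun p => ENNReal.ofReal ((‖p.1 - p.2‖ ^ (n - 1))⁻¹)) p with hg2
  have hmS : MeasurableSet (B ×ˢ B) := measurableSet_ball.prod measurableSet_ball
  have hptw : ∀ p, ‖F p‖ₑ ≤ ENNReal.ofReal (s / 2) * g1 p + ENNReal.ofReal (Kψ ^ 2 / (2 * s)) * g2 p := by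
    intro p
    by_cases hd : dist p.1 p.2 ≤ 2 * τ
    · have e2 : g2 p = ENNReal.ofReal ((‖p.1 - p.2‖ ^ (n - 1))⁻¹) := by
        rw [hg2]
        exact indicator_of_mem (s := {p : V d × V d | dist p.1 p.2 ≤ 2 * τ}) hd _
      rw [e2, hg1, ← ENNReal.ofReal_mul (by positivity), ← ENNReal.ofReal_mul (by positivity),
        ← ENNReal.ofReal_add (by positivity) (by positivity), ← ofReal_norm]
      apply ENNReal.ofReal_le_ofReal
      rw [hF]
      simp only
      rw [Real.norm_eq_abs, abs_mul, abs_mul, abs_of_nonneg (Crest.Agent.R085.kN_nonneg n τ (p.1 - p.2))]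
      set a := |A p.1 - A p.2| with ha
      set b := |ψ p.1 - ψ p.2| with hb
      set k := (‖p.1 - p.2‖ ^ (n + 1))⁻¹ with hk
      have hk0 : 0 ≤ k := by positivity
      have ha0 : 0 ≤ a := abs_nonneg _
      have hb0 : 0 ≤ b := abs_nonneg _
      have h1 : a * b ≤ s / 2 * a ^ 2 + 1 / (2 * s) * b ^ 2 := by
        have : s / 2 * a ^ 2 + 1 / (2 * s) * b ^ 2 - a * b = (s * a - b) ^ 2 / (2 * s) := by
          field_simp
          ring
        have h2 : 0 ≤ (s * a - b) ^ 2 / (2 * s) := by positivity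
        linarith
      have h3 : b ^ 2 * k ≤ Kψ ^ 2 * (‖p.1 - p.2‖ ^ (n - 1))⁻¹ := by
        calc b ^ 2 * k ≤ (Kψ * ‖p.1 - p.2‖) ^ 2 * k := by
              gcongr
              exact hψ p.1 p.2
          _ = Kψ ^ 2 * (‖p.1 - p.2‖ ^ 2 * k) := by ring
          _ ≤ _ := by
              gcongr
              exact norm_sq_mul_inv_le n hn _
      calc a * b * kN n τ (p.1 - p.2) ≤ (s / 2 * a ^ 2 + 1 / (2 * s) * b ^ 2) * k :=
            mul_le_mul h1 (Crest.Agent.R085.kN_le n τ _) (Crest.Agent.R085.kN_nonneg n τ _)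
              (by positivity)
        _ = s / 2 * (a ^ 2 * k) + 1 / (2 * s) * (b ^ 2 * k) := by ring
        _ ≤ s / 2 * (a ^ 2 * k) + 1 / (2 * s) * (Kψ ^ 2 * (‖p.1 - p.2‖ ^ (n - 1))⁻¹) := by gcongr
        _ = s / 2 * ((A p.1 - A p.2) ^ 2 * k) + Kψ ^ 2 / (2 * s) * (‖p.1 - p.2‖ ^ (n - 1))⁻¹ := by
            rw [ha, sq_abs]
            ring
    · have : F p = 0 := by
        rw [hF]
        simp only
        rw [kN_eq_zero hτ, mul_zero]
        rw [not_le, dist_eq_norm] at hd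
        exact hd.le
      rw [this]
      simp
  have hmg1 : Measurable g1 := measurable_enr_integrand n hA
  have hmg2 : Measurable g2 := by
    have hm1 : Measurable fun p : V d × V d => ENNReal.ofReal ((‖p.1 - p.2‖ ^ (n - 1))⁻¹) :=
      (((measurable_fst.sub measurable_snd).norm.pow_const _).inv).ennreal_ofReal
    have hset : MeasurableSet {p : V d × V d | dist p.1 p.2 ≤ 2 * τ} :=
      (isClosed_le (continuous_fst.dist continuous_snd) continuous_const).measurableSet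
    exact hm1.indicator hset
  have hmain : ENNReal.ofReal |∫ p, F p ∂(μ.prod μ)| ≤
      ENNReal.ofReal (s / 2) * ENNReal.ofReal H
        + ENNReal.ofReal (Kψ ^ 2 / (2 * s))
          * (ENNReal.ofReal (C * (ρ + 1) ^ n) * ENNReal.ofReal (C * 4 ^ n * (2 * τ))) := by
    calc ENNReal.ofReal |∫ p, F p ∂(μ.prod μ)| = ‖∫ p, F p ∂(μ.prod μ)‖ₑ := by
          rw [← ofReal_norm, Real.norm_eq_abs]
      _ ≤ ∫⁻ p, ‖F p‖ₑ ∂(μ.prod μ) := enorm_integral_le_lintegral_enorm _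
      _ = ∫⁻ p in B ×ˢ B, ‖F p‖ₑ ∂(μ.prod μ) := by
          rw [← lintegral_indicator hmS]
          congr 1
          ext p
          by_cases hp : p ∈ B ×ˢ B
          · rw [indicator_of_mem hp]
          · rw [indicator_of_notMem hp, hFzero p hp, enorm_zero]
      _ ≤ ∫⁻ p in B ×ˢ B, (ENNReal.ofReal (s / 2) * g1 p + ENNReal.ofReal (Kψ ^ 2 / (2 * s)) * g2 p)
            ∂(μ.prod μ) := lintegral_mono hptw
      _ = ENNReal.ofReal (s / 2) * ∫⁻ p in B ×ˢ B, g1 p ∂(μ.prod μ)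
            + ENNReal.ofReal (Kψ ^ 2 / (2 * s)) * ∫⁻ p in B ×ˢ B, g2 p ∂(μ.prod μ) := by
          rw [lintegral_add_left (hmg1.const_mul _), lintegral_const_mul _ hmg1,
            lintegral_const_mul _ hmg2]
      _ ≤ _ := by
          gcongr
          · exact hH
          · exact lintegral_diag_strip hμ hC hn (by positivity) (by positivity)
  have h2 : |∫ p, F p ∂(μ.prod μ)| ≤
      s / 2 * H + Kψ ^ 2 / (2 * s) * ((C * (ρ + 1) ^ n) * (C * 4 ^ n * (2 * τ))) := by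
    rw [← ENNReal.ofReal_le_ofReal_iff (by positivity)]
    refine hmain.trans (le_of_eq ?_)
    rw [← ENNReal.ofReal_mul (by positivity), ← ENNReal.ofReal_mul (by positivity),
      ← ENNReal.ofReal_mul (by positivity), ← ENNReal.ofReal_add (by positivity) (by positivity)]
  have h3 : s / 2 * H + Kψ ^ 2 / (2 * s) * ((C * (ρ + 1) ^ n) * (C * 4 ^ n * (2 * τ)))
      = s * (H / 2 + Kψ ^ 2 * (C * (ρ + 1) ^ n) * (C * 4 ^ n)) := by
    rw [← hss]
    field_simp
  have h4 : |Bf n μ τ A ψ| = 1 / 2 * |∫ p, F p ∂(μ.prod μ)| := by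
    unfold Bf
    rw [abs_mul, abs_of_pos (by norm_num : (0 : ℝ) < 1 / 2)]
  rw [h4]
  have h5 : 0 ≤ s * (Kψ ^ 2 * (C * (ρ + 1) ^ n) * (C * 4 ^ n)) := by positivity
  have h6 : 0 ≤ s * H := by positivity
  nlinarith

end split

end Crest.Agent.R085.M8
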