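import Mathlib
import Crest.Agent.R085.Defs
import Crest.Agent.R085.CutBasic
import Crest.Agent.R085.M8Weq1
import Crest.Agent.R085.M8Tilt
import Crest.Agent.R085.LiouLam

/-!
R085, M8 (propagation), part (a2): passage to the limit in the far part.
-/

set_option autoImplicit false

namespace Crest.Agent.R085.M8

open MeasureTheory Metric Set Filter
open scoped ENNReal NNReal Topology

section pairing

variable {d : ℕ}

/-- equi-Lipschitz, commonly supported, pointwise convergent functions converge uniformly -/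
theorem unif_of_pointwise {ι : Type*} {l : Filter ι} [l.NeBot] {g : ι → V d → ℝ} {g0 : V d → ℝ}
    {R L : ℝ} (hL : 0 ≤ L)
    (hsupp : ∀ᶠ k in l, ∀ x, x ∉ ball (0 : V d) R → g k x = 0)
    (hlip : ∀ᶠ k in l, ∀ x y, |g k x - g k y| ≤ L * ‖x - y‖)
    (hpt : ∀ x, Tendsto (fun k => g k x) l (𝓝 (g0 x))) {η : ℝ} (hη : 0 < η) :
    ∀ᶠ k in l, ∀ x, |g k x - g0 x| ≤ η := by
  have h0supp : ∀ x, x ∉ ball (0 : V d) R → g0 x = 0 := by
    intro x hx
    refine tendsto_nhds_unique (hpt x) ?_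
    refine tendsto_const_nhds.congr' ?_
    filter_upwards [hsupp] with k hk
    rw [hk x hx]
  have h0lip : ∀ x y, |g0 x - g0 y| ≤ L * ‖x - y‖ := by
    intro x y
    have h1 : Tendsto (fun k => |g k x - g k y|) l (𝓝 |g0 x - g0 y|) :=
      ((hpt x).sub (hpt y)).abs
    refine le_of_tendsto h1 ?_
    filter_upwards [hlip] with k hk
    exact hk x y
  set s : ℝ := η / (4 * (L + 1)) with hs
  have hs0 : 0 < s := by positivity
  have hLs : L * s ≤ η / 4 := by
    calc L * s ≤ (L + 1) * s := by gcongr; linarith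
      _ = η / 4 := by rw [hs]; field_simp
  obtain ⟨Z, -, hZf, hZ⟩ :=
    (isCompact_closedBall (0 : V d) R).finite_cover_balls (e := s) hs0
  have hfin : ∀ᶠ k in l, ∀ z ∈ Z, |g k z - g0 z| ≤ η / 2 := by
    rw [eventually_all_finite hZf]
    intro z _
    have h1 : Tendsto (fun k => |g k z - g0 z|) l (𝓝 0) := by
      have := ((hpt z).sub (tendsto_const_nhds (x := g0 z))).abs
      simpa using this
    filter_upwards [(tendsto_order.1 h1).2 (η / 2) (by positivity)] with k hk
    exact hk.le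
  filter_upwards [hsupp, hlip, hfin] with k hk1 hk2 hk3 x
  by_cases hx : x ∈ ball (0 : V d) R
  · have := hZ (ball_subset_closedBall hx)
    simp only [mem_iUnion, exists_prop, mem_ball] at this
    obtain ⟨z, hz, hxz⟩ := this
    rw [dist_eq_norm] at hxz
    have e1 := hk2 x z
    have e2 := hk3 z hz
    have e3 := h0lip z x
    have e4 : L * ‖x - z‖ ≤ η / 4 := (mul_le_mul_of_nonneg_left hxz.le hL).trans hLs
    rw [norm_sub_rev] at e3
    have e5 : g k x - g0 x = (g k x - g k z) + (g k z - g0 z) + (g0 z - g0 x) := by ring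
    rw [e5]
    calc |(g k x - g k z) + (g k z - g0 z) + (g0 z - g0 x)|
        ≤ |g k x - g k z| + |g k z - g0 z| + |g0 z - g0 x| := abs_add_three _ _ _
      _ ≤ η := by linarith
  · rw [hk1 x hx, h0supp x hx]
    simp
    exact hη.le

theorem pairing_tendsto {ι : Type*} {l : Filter ι} [l.NeBot] {μs : ι → Measure (V d)}
    (hfin : ∀ᶠ k in l, IsFiniteMeasureOnCompacts (μs k))
    {A : ι → V d → ℝ} (hA : ∀ᶠ k in l, Continuous (A k))
    {g : ι → V d → ℝ} {g0 : V d → ℝ} {R L H : ℝ} (hL : 0 ≤ L)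
    (hA1 : ∀ᶠ k in l, ∫ y in ball (0 : V d) R, |A k y| ∂(μs k) ≤ H)
    (hsupp : ∀ᶠ k in l, ∀ x, x ∉ ball (0 : V d) R → g k x = 0)
    (hlip : ∀ᶠ k in l, ∀ x y, |g k x - g k y| ≤ L * ‖x - y‖)
    (hpt : ∀ x, Tendsto (fun k => g k x) l (𝓝 (g0 x)))
    {a : ℝ} (hw : Continuous g0 → HasCompactSupport g0 →
      Tendsto (fun k => ∫ y, g0 y * A k y ∂(μs k)) l (𝓝 a)) :
    Tendsto (fun k => ∫ y, g k y * A k y ∂(μs k)) l (𝓝 a) := by
  have h0supp : ∀ x, x ∉ ball (0 : V d) R → g0 x = 0 := by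
    intro x hx
    refine tendsto_nhds_unique (hpt x) ?_
    refine tendsto_const_nhds.congr' ?_
    filter_upwards [hsupp] with k hk
    rw [hk x hx]
  have h0lip : ∀ x y, |g0 x - g0 y| ≤ L * ‖x - y‖ := by
    intro x y
    have h1 : Tendsto (fun k => |g k x - g k y|) l (𝓝 |g0 x - g0 y|) :=
      ((hpt x).sub (hpt y)).abs
    refine le_of_tendsto h1 ?_
    filter_upwards [hlip] with k hk
    exact hk x y
  have cont_of : ∀ f : V d → ℝ, (∀ x y, |f x - f y| ≤ L * ‖x - y‖) → Continuous f := by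
    intro f hf
    refine LipschitzWith.continuous (K := L.toNNReal) (LipschitzWith.of_dist_le_mul ?_)
    intro x y
    rw [Real.dist_eq, Real.coe_toNNReal _ hL, dist_eq_norm]
    exact hf x y
  have cpt_of : ∀ f : V d → ℝ, (∀ x, x ∉ ball (0 : V d) R → f x = 0) → HasCompactSupport f := by
    intro f hf
    apply HasCompactSupport.of_support_subset_isCompact (isCompact_closedBall (0 : V d) R)
    intro x hx
    by_contra h
    exact hx (hf x fun h' => h (ball_subset_closedBall h'))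
  have hg0c := cont_of g0 h0lip
  have hg0s := cpt_of g0 h0supp
  have h1 := hw hg0c hg0s
  suffices h2 : Tendsto (fun k => ∫ y, g k y * A k y ∂(μs k) - ∫ y, g0 y * A k y ∂(μs k)) l (𝓝 0) by
    have h3 := h2.add h1
    simpa using h3
  rw [Metric.tendsto_nhds]
  intro ε hε
  set H' : ℝ := max H 0 with hH'
  have hH'0 : 0 ≤ H' := le_max_right _ _
  set η : ℝ := ε / (2 * (H' + 1)) with hη
  have hη0 : 0 < η := by positivity
  have hu := unif_of_pointwise hL hsupp hlip hpt hη0
  filter_upwards [hfin, hA, hA1, hsupp, hlip, hu] with k hk1 hk2 hk3 hk4 hk5 hk6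
  have := hk1
  rw [Real.dist_eq, sub_zero]
  have ig : Integrable (fun y => g k y * A k y) (μs k) :=
    ((cont_of _ hk5).mul hk2).integrable_of_hasCompactSupport (cpt_of _ hk4).mul_right
  have ig0 : Integrable (fun y => g0 y * A k y) (μs k) :=
    (hg0c.mul hk2).integrable_of_hasCompactSupport hg0s.mul_right
  rw [← integral_sub ig ig0]
  have hb : ∀ y, ‖g k y * A k y - g0 y * A k y‖ ≤
      (ball (0 : V d) R).indicator (fun y => η * |A k y|) y := by
    intro y
    by_cases hy : y ∈ ball (0 : V d) R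
    · rw [indicator_of_mem hy, ← sub_mul, norm_mul, Real.norm_eq_abs, Real.norm_eq_abs]
      exact mul_le_mul_of_nonneg_right (hk6 y) (abs_nonneg _)
    · rw [indicator_of_notMem hy, hk4 y hy, h0supp y hy]
      simp
  have hi : Integrable ((ball (0 : V d) R).indicator (fun y => η * |A k y|)) (μs k) := by
    rw [integrable_indicator_iff measurableSet_ball]
    exact integrableOn_ball_of_continuous (by fun_prop) _ _
  calc |∫ y, (g k y * A k y - g0 y * A k y) ∂(μs k)|
      ≤ ∫ y, (ball (0 : V d) R).indicator (fun y => η * |A k y|) y ∂(μs k) := by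
        rw [← Real.norm_eq_abs]
        exact norm_integral_le_of_norm_le hi (Eventually.of_forall hb)
    _ = η * ∫ y in ball (0 : V d) R, |A k y| ∂(μs k) := by
        rw [integral_indicator measurableSet_ball, integral_const_mul]
    _ ≤ η * H' := by
        gcongr
        exact hk3.trans (le_max_left _ _)
    _ < ε := by
        rw [hη]
        calc ε / (2 * (H' + 1)) * H' ≤ ε / (2 * (H' + 1)) * (H' + 1) := by
              gcongr; linarith
          _ = ε / 2 := by field_simp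
          _ < ε := by linarith

end pairing

section Gk

variable {n d : ℕ} {μ : Measure (V d)} {C : ℝ}

theorem Gk_eq_zero {τ N ρ : ℝ} (hτ : 0 < τ) (hN : τ ≤ N) {ψ : V d → ℝ}
    (hρ : ∀ x, x ∉ ball (0 : V d) ρ → ψ x = 0) {x : V d}
    (hx : x ∉ ball (0 : V d) (ρ + 2 * N)) : Gk n μ τ N ψ x = 0 := by
  unfold Gk
  simp only [Fk_eq_zero_left hτ hN hρ hx, integral_zero]

theorem continuous_Fk_right {τ N : ℝ} (hτ : 0 < τ) (hN : τ ≤ N) {ψ : V d → ℝ}
    (hψ : Continuous ψ) (x : V d) : Continuous (Fk n τ N ψ x) :=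
  (continuous_Fk hτ hN hψ).comp (by fun_prop : Continuous fun y : V d => (x, y))

theorem hasCompactSupport_Fk_right {τ N ρ : ℝ} (hτ : 0 < τ) (hN : τ ≤ N) {ψ : V d → ℝ}
    (hρ : ∀ x, x ∉ ball (0 : V d) ρ → ψ x = 0) (x : V d) :
    HasCompactSupport (Fk n τ N ψ x) := by
  apply HasCompactSupport.of_support_subset_isCompact
    (isCompact_closedBall (0 : V d) (ρ + 2 * N))
  intro y hy
  by_contra h
  apply hy
  exact Fk_eq_zero_right hτ hN hρ x (fun h' => h (ball_subset_closedBall h'))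

theorem Gk_lip {τ N ρ K S : ℝ} (hτ : 0 < τ) (hN : τ ≤ N) (hμ : UpperReg n C μ) (hC : 0 ≤ C)
    {ψ : V d → ℝ} (hψc : Continuous ψ) (hK : 0 ≤ K)
    (hψ : ∀ x y, |ψ x - ψ y| ≤ K * ‖x - y‖) (hS : ∀ x, |ψ x| ≤ S)
    (hρ : ∀ x, x ∉ ball (0 : V d) ρ → ψ x = 0) (x x' : V d) :
    |Gk n μ τ N ψ x - Gk n μ τ N ψ x'| ≤
      ((K * (τ ^ (n + 1))⁻¹ + 2 * S * LK n τ) * (2 * (C * (2 * N) ^ n))) * ‖x - x'‖ := by
  have hfin := upperReg_finiteOnCompacts hμ
  have hN0 : 0 < N := hτ.trans_le hN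
  have hS0 : 0 ≤ S := (abs_nonneg _).trans (hS 0)
  have i1 : ∀ x : V d, Integrable (Fk n τ N ψ x) μ := fun x =>
    (continuous_Fk_right hτ hN hψc x).integrable_of_hasCompactSupport
      (hasCompactSupport_Fk_right hτ hN hρ x)
  unfold Gk
  rw [← integral_sub (i1 x) (i1 x')]
  set LF : ℝ := K * (τ ^ (n + 1))⁻¹ + 2 * S * LK n τ with hLF
  have hLF0 : 0 ≤ LF := by
    have := LK_nonneg (n := n) hτ
    positivity
  set U : Set (V d) := ball x (2 * N) ∪ ball x' (2 * N) with hU
  have hUm : MeasurableSet U := measurableSet_ball.union measurableSet_ball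
  have hUfin : μ U < ⊤ := (measure_union_le _ _).trans_lt
    (ENNReal.add_lt_top.2 ⟨hμ.ball_lt_top _ _, hμ.ball_lt_top _ _⟩)
  have hUreal : μ.real U ≤ 2 * (C * (2 * N) ^ n) := by
    apply ENNReal.toReal_le_of_le_ofReal (by positivity)
    calc μ U ≤ μ (ball x (2 * N)) + μ (ball x' (2 * N)) := measure_union_le _ _
      _ ≤ ENNReal.ofReal (C * (2 * N) ^ n) + ENNReal.ofReal (C * (2 * N) ^ n) :=
          add_le_add (hμ _ _ (by positivity)) (hμ _ _ (by positivity))
      _ = ENNReal.ofReal (2 * (C * (2 * N) ^ n)) := by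
          rw [← ENNReal.ofReal_add (by positivity) (by positivity)]
          congr 1; ring
  have hptw : ∀ y, ‖Fk n τ N ψ x y - Fk n τ N ψ x' y‖ ≤ U.indicator (fun _ => LF * ‖x - x'‖) y := by
    intro y
    by_cases hy : y ∈ U
    · rw [indicator_of_mem hy]
      have e : Fk n τ N ψ x y - Fk n τ N ψ x' y = (ψ x - ψ x') * Kt n τ N (x - y)
          + (ψ x' - ψ y) * (Kt n τ N (x - y) - Kt n τ N (x' - y)) := by
        unfold Fk; ring
      rw [e, Real.norm_eq_abs]
      have e1 : |(ψ x - ψ x') * Kt n τ N (x - y)| ≤ (K * ‖x - x'‖) * (τ ^ (n + 1))⁻¹ := by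
        rw [abs_mul]
        exact mul_le_mul (hψ _ _) (Kt_abs_le hτ hN _) (abs_nonneg _) (by positivity)
      have e2 : |(ψ x' - ψ y) * (Kt n τ N (x - y) - Kt n τ N (x' - y))| ≤
          (2 * S) * (LK n τ * ‖x - x'‖) := by
        rw [abs_mul]
        have e3 : |ψ x' - ψ y| ≤ 2 * S := by
          refine (abs_sub _ _).trans ?_
          linarith [hS x', hS y]
        have e4 := Kt_lip (n := n) hτ hN (x - y) (x' - y)
        rw [sub_sub_sub_cancel_right] at e4
        exact mul_le_mul e3 e4 (abs_nonneg _) (by positivity)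
      calc |(ψ x - ψ x') * Kt n τ N (x - y)
          + (ψ x' - ψ y) * (Kt n τ N (x - y) - Kt n τ N (x' - y))|
          ≤ _ := abs_add_le _ _
        _ ≤ (K * ‖x - x'‖) * (τ ^ (n + 1))⁻¹ + (2 * S) * (LK n τ * ‖x - x'‖) := add_le_add e1 e2
        _ = LF * ‖x - x'‖ := by rw [hLF]; ring
    · rw [indicator_of_notMem hy]
      rw [hU, mem_union, not_or, mem_ball, mem_ball, not_lt, not_lt, dist_comm, dist_comm y x',
        dist_eq_norm, dist_eq_norm] at hy
      rw [Fk_eq_zero_of_far hτ hN hy.1, Fk_eq_zero_of_far hτ hN hy.2]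
      simp
  have hi : Integrable (U.indicator (fun _ : V d => LF * ‖x - x'‖)) μ := by
    rw [integrable_indicator_iff hUm]
    exact integrableOn_const hUfin.ne
  calc |∫ y, (Fk n τ N ψ x y - Fk n τ N ψ x' y) ∂μ|
      ≤ ∫ y, U.indicator (fun _ => LF * ‖x - x'‖) y ∂μ := by
        rw [← Real.norm_eq_abs]
        exact norm_integral_le_of_norm_le hi (Eventually.of_forall hptw)
    _ = μ.real U * (LF * ‖x - x'‖) := by
        rw [integral_indicator hUm, setIntegral_const, smul_eq_mul]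
    _ ≤ (2 * (C * (2 * N) ^ n)) * (LF * ‖x - x'‖) := by gcongr
    _ = _ := by ring

theorem Fk_sub_mul (τ N : ℝ) (ψ η : V d → ℝ) (m : ℝ) (x y : V d) :
    Fk n τ N (fun y => ψ y - m * η y) x y = Fk n τ N ψ x y - m * Fk n τ N η x y := by
  unfold Fk
  ring

theorem Gk_sub_mul {τ N ρ : ℝ} (hτ : 0 < τ) (hN : τ ≤ N) [IsFiniteMeasureOnCompacts μ]
    {ψ η : V d → ℝ} (hψc : Continuous ψ) (hρ : ∀ x, x ∉ ball (0 : V d) ρ → ψ x = 0)
    (hηc : Continuous η) (hρη : ∀ x, x ∉ ball (0 : V d) ρ → η x = 0) (m : ℝ) (x : V d) :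
    Gk n μ τ N (fun y => ψ y - m * η y) x = Gk n μ τ N ψ x - m * Gk n μ τ N η x := by
  have i1 : Integrable (Fk n τ N ψ x) μ :=
    (continuous_Fk_right hτ hN hψc x).integrable_of_hasCompactSupport
      (hasCompactSupport_Fk_right hτ hN hρ x)
  have i2 : Integrable (Fk n τ N η x) μ :=
    (continuous_Fk_right hτ hN hηc x).integrable_of_hasCompactSupport
      (hasCompactSupport_Fk_right hτ hN hρη x)
  unfold Gk
  simp only [Fk_sub_mul]
  rw [integral_sub i1 (i2.const_mul m), integral_const_mul]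

end Gk

section onplane

variable {n d : ℕ}

theorem Kt_inc (hnd : n ≤ d) (τ N : ℝ) (z z' : V n) :
    Kt n τ N (inc n d z - inc n d z') = Kt n τ N (z - z') := by
  have h : ‖inc n d z - inc n d z'‖ = ‖z - z'‖ := by
    rw [← incL_apply hnd, ← incL_apply hnd, ← map_sub, LinearIsometry.norm_map]
  unfold Kt kN
  rw [h]

theorem continuous_inc (hnd : n ≤ d) : Continuous (inc n d) := (incL hnd).continuous

/-- on the plane the truncated form gives the truncated operators `LamN`. -/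
theorem integral_Fk_plane (hn : 0 < n) {τ N : ℝ} (hτ : 0 < τ) (hN : τ ≤ N) {ψ : V n → ℝ}
    (h1 : ContDiff ℝ (⊤ : ℕ∞) ψ) (h2 : HasCompactSupport ψ) (z : V n) :
    ∫ z' : V n, (ψ z - ψ z') * Kt n τ N (z - z') = 1 / 2 * (LamN N ψ z - LamN τ ψ z) := by
  have hψc : Continuous ψ := h1.continuous
  obtain ⟨ρ, hρ⟩ := h2.isCompact.isBounded.subset_ball (0 : V n)
  have hρ' : ∀ x, x ∉ ball (0 : V n) ρ → ψ x = 0 := by
    intro x hx
    by_contra h
    exact hx (hρ (subset_tsupport _ h))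
  have i0 : Integrable (fun z' => (ψ z - ψ z') * Kt n τ N (z - z')) :=
    (continuous_Fk_right hτ hN hψc z).integrable_of_hasCompactSupport
      (hasCompactSupport_Fk_right hτ hN hρ' z)
  have e1 : ∫ z' : V n, (ψ z - ψ z') * Kt n τ N (z - z')
      = ∫ h : V n, (ψ z - ψ (z + h)) * Kt n τ N h := by
    rw [← integral_add_left_eq_self (fun z' => (ψ z - ψ z') * Kt n τ N (z - z')) z]
    congr 1
    ext h
    rw [sub_add_cancel_left, Kt_neg]
  have e2 : ∫ z' : V n, (ψ z - ψ z') * Kt n τ N (z - z')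
      = ∫ h : V n, (ψ z - ψ (z - h)) * Kt n τ N h := by
    rw [← integral_sub_left_eq_self (fun z' => (ψ z - ψ z') * Kt n τ N (z - z')) volume z]
    congr 1
    ext h
    rw [sub_sub_cancel]
  have i1 : Integrable (fun h : V n => (ψ z - ψ (z + h)) * Kt n τ N h) := by
    have := i0.comp_add_left z
    refine this.congr (Eventually.of_forall fun h => ?_)
    simp only
    rw [sub_add_cancel_left, Kt_neg]
  have i2 : Integrable (fun h : V n => (ψ z - ψ (z - h)) * Kt n τ N h) := by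
    have := i0.comp_sub_left z
    refine this.congr (Eventually.of_forall fun h => ?_)
    simp only
    rw [sub_sub_cancel]
  have e3 : LamN N ψ z - LamN τ ψ z = ∫ h : V n, (2 * ψ z - ψ (z + h) - ψ (z - h)) * Kt n τ N h := by
    unfold LamN
    have iN := Liou.integrable_LamN hn h1 h2 N z
    have iτ := Liou.integrable_LamN hn h1 h2 τ z
    unfold Liou.sd at iN iτ
    rw [← integral_sub iN iτ]
    congr 1
    ext h
    unfold Kt
    ring
  have e4 : ∫ h : V n, (2 * ψ z - ψ (z + h) - ψ (z - h)) * Kt n τ N h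
      = (∫ h : V n, (ψ z - ψ (z + h)) * Kt n τ N h) + ∫ h : V n, (ψ z - ψ (z - h)) * Kt n τ N h := by
    rw [← integral_add i1 i2]
    congr 1
    ext h
    ring
  rw [e3, e4, ← e1, ← e2]
  ring

end onplane

end Crest.Agent.R085.M8
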