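import Mathlib
import Crest.Agent.R085.Defs
import Crest.Agent.R085.CutBasic
import Crest.Agent.R085.M8Weq2

/-!
R085, M8 (propagation), part (a): the weak equation `∫ w Λψ = 0` of the limit of the rescaled
normal coordinates.
-/

set_option autoImplicit false

namespace Crest.Agent.R085.M8

open MeasureTheory Metric Set Filter
open scoped ENNReal NNReal Topology ContDiff

section ext

variable {n d : ℕ}

theorem prj_sub (x y : V d) : prj n (x - y) = prj n x - prj n y := by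
  ext j
  unfold prj
  by_cases h : (j : ℕ) < d <;> simp [h]

/-- extension of a test function on the plane to the ambient space -/
noncomputable def ext (ρ : ℝ) (ψ : V n → ℝ) (y : V d) : ℝ := ψ (prj n y) * cut (‖y‖ / ρ)

theorem ext_inc (hnd : n ≤ d) {ρ : ℝ} (hρ : 0 < ρ) {ψ : V n → ℝ}
    (hψ : ∀ x, x ∉ ball (0 : V n) ρ → ψ x = 0) (z : V n) :
    ext ρ ψ (inc n d z) = ψ z := by
  unfold ext
  rw [prj_inc hnd, norm_inc hnd]
  by_cases hz : z ∈ ball (0 : V n) ρ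
  · rw [mem_ball, dist_zero_right] at hz
    rw [cut_of_le ((div_le_one hρ).2 hz.le), mul_one]
  · rw [hψ z hz, zero_mul]

theorem ext_eq_zero {ρ : ℝ} (hρ : 0 < ρ) {ψ : V n → ℝ} {y : V d}
    (hy : y ∉ ball (0 : V d) (2 * ρ)) : ext ρ ψ y = 0 := by
  unfold ext
  rw [mem_ball, dist_zero_right, not_lt] at hy
  rw [cut_of_ge ((le_div_iff₀ hρ).2 hy), mul_zero]

theorem ext_abs_le {ρ S : ℝ} {ψ : V n → ℝ} (hS : ∀ x, |ψ x| ≤ S) (y : V d) :
    |ext ρ ψ y| ≤ S := by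
  unfold ext
  rw [abs_mul, abs_of_nonneg (Crest.Agent.R085.cut_nonneg _)]
  calc |ψ (prj n y)| * cut (‖y‖ / ρ) ≤ S * 1 :=
        mul_le_mul (hS _) (Crest.Agent.R085.cut_le_one _) (Crest.Agent.R085.cut_nonneg _)
          ((abs_nonneg _).trans (hS 0))
    _ = S := mul_one _

theorem ext_lip (hnd : n ≤ d) {ρ S K : ℝ} (hρ : 0 < ρ) {ψ : V n → ℝ} (hS : ∀ x, |ψ x| ≤ S)
    (hK0 : 0 ≤ K) (hK : ∀ x y, |ψ x - ψ y| ≤ K * ‖x - y‖) (x y : V d) :
    |ext ρ ψ x - ext ρ ψ y| ≤ (K + S / ρ) * ‖x - y‖ := by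
  have hS0 : 0 ≤ S := (abs_nonneg _).trans (hS 0)
  have e : ext ρ ψ x - ext ρ ψ y = (ψ (prj n x) - ψ (prj n y)) * cut (‖x‖ / ρ)
      + ψ (prj n y) * (cut (‖x‖ / ρ) - cut (‖y‖ / ρ)) := by
    unfold ext; ring
  have e1 : |(ψ (prj n x) - ψ (prj n y)) * cut (‖x‖ / ρ)| ≤ (K * ‖x - y‖) * 1 := by
    rw [abs_mul, abs_of_nonneg (Crest.Agent.R085.cut_nonneg _)]
    refine mul_le_mul ?_ (Crest.Agent.R085.cut_le_one _) (Crest.Agent.R085.cut_nonneg _)
      (by positivity)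
    refine (hK _ _).trans ?_
    rw [← prj_sub]
    exact mul_le_mul_of_nonneg_left (norm_prj_le _ hnd) hK0
  have e2 : |ψ (prj n y) * (cut (‖x‖ / ρ) - cut (‖y‖ / ρ))| ≤ S * (‖x - y‖ / ρ) := by
    rw [abs_mul]
    refine mul_le_mul (hS _) ?_ (abs_nonneg _) hS0
    refine (cut_lip _ _).trans ?_
    rw [← sub_div, abs_div, abs_of_pos hρ]
    gcongr
    exact abs_norm_sub_norm_le x y
  rw [e]
  refine (abs_add_le _ _).trans ((add_le_add e1 e2).trans (le_of_eq ?_))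
  ring

theorem continuous_of_lip {f : V d → ℝ} {K : ℝ} (hK : ∀ x y, |f x - f y| ≤ K * ‖x - y‖) :
    Continuous f := by
  refine LipschitzWith.continuous (K := K.toNNReal) (LipschitzWith.of_dist_le_mul ?_)
  intro x y
  rw [Real.dist_eq, dist_eq_norm]
  refine (hK x y).trans ?_
  gcongr
  exact Real.le_coe_toNNReal K

theorem hasCompactSupport_of_ball {f : V d → ℝ} {R : ℝ}
    (hf : ∀ x, x ∉ ball (0 : V d) R → f x = 0) : HasCompactSupport f := by
  apply HasCompactSupport.of_support_subset_isCompact (isCompact_closedBall (0 : V d) R)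
  intro x hx
  by_contra h
  exact hx (hf x fun h' => h (ball_subset_closedBall h'))

/-- the correction bump -/
noncomputable def bmp (y : V d) : ℝ := cut ‖y‖

theorem bmp_lip (x y : V d) : |bmp x - bmp y| ≤ 1 * ‖x - y‖ := by
  unfold bmp
  rw [one_mul]
  exact (cut_lip _ _).trans (abs_norm_sub_norm_le x y)

theorem bmp_eq_zero {y : V d} (hy : y ∉ ball (0 : V d) 2) : bmp y = 0 := by
  unfold bmp
  rw [mem_ball, dist_zero_right, not_lt] at hy
  exact cut_of_ge hy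

theorem bmp_inc (hnd : n ≤ d) (z : V n) : bmp (inc n d z) = cut ‖z‖ := by
  unfold bmp
  rw [norm_inc hnd]

theorem integral_bmp_pos : 0 < ∫ z : V n, cut ‖z‖ := by
  have hc : Continuous fun z : V n => cut ‖z‖ :=
    Crest.Agent.R085.continuous_cut.comp continuous_norm
  have hs : HasCompactSupport fun z : V n => cut ‖z‖ :=
    hasCompactSupport_of_ball (R := 2) fun x hx => bmp_eq_zero hx
  apply hc.integral_pos_of_hasCompactSupport_nonneg_nonzero hs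
    (fun z => Crest.Agent.R085.cut_nonneg _) (x := 0)
  rw [norm_zero, cut_of_le (by norm_num)]
  norm_num

end ext

section smalltau

variable {n : ℕ}

theorem LamN_tendsto_zero (hn : 0 < n) {ψ : V n → ℝ} (h1 : ContDiff ℝ ∞ ψ)
    (h2 : HasCompactSupport ψ) (x : V n) :
    Tendsto (fun τ : ℝ => LamN τ ψ x) (𝓝[>] 0) (𝓝 0) := by
  obtain ⟨M, hM0, hM⟩ := Liou.sd_bound h1 h2
  have h0 : ∫ _h : V n, (0 : ℝ) = 0 := by simp
  suffices h : Tendsto (fun τ : ℝ => LamN τ ψ x) (𝓝[>] 0) (𝓝 (∫ _h : V n, (0 : ℝ))) by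
    rwa [h0] at h
  refine tendsto_integral_filter_of_dominated_convergence (fun h => M * Liou.wt n h) ?_ ?_ ?_ ?_
  · exact Filter.Eventually.of_forall fun N =>
      (Liou.integrable_LamN hn h1 h2 N x).aestronglyMeasurable
  · exact Filter.Eventually.of_forall fun N => Filter.Eventually.of_forall fun h =>
      Liou.sd_bound_wt hM0 hM N x h
  · exact (Liou.integrable_wt hn).const_mul M
  · refine Filter.Eventually.of_forall fun h => ?_
    refine tendsto_const_nhds.congr' ?_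
    by_cases hh : h = 0
    · refine Filter.Eventually.of_forall fun τ => ?_
      rw [hh]
      simp
      ring_nf
      simp
    · have hpos : 0 < ‖h‖ := norm_pos_iff.2 hh
      have : Ioo (0 : ℝ) (‖h‖ / 2) ∈ 𝓝[>] (0 : ℝ) := Ioo_mem_nhdsGT (by positivity)
      filter_upwards [this] with τ hτ
      rw [Crest.Agent.R085.kN_eq_zero hτ.1 (by linarith [hτ.2]), mul_zero]

theorem integrable_mul_LamN (hn : 0 < n) {w : V n → ℝ} {K s : ℝ} (hs : s < n + 4)
    (hw : ∀ R : ℝ, MemLp w 2 (volume.restrict (ball (0 : V n) R))) (hG : Gr K s w)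
    {ψ : V n → ℝ} (hψ : SmTest ψ) {N : ℝ} (hN : 0 < N) :
    Integrable (fun z => w z * LamN N ψ z) := by
  obtain ⟨C, hC0, hC⟩ := Liou.LamN_bound hn hψ
  have hwm := Liou.aestronglyMeasurable_of_memLp hw
  refine ((Liou.integrable_weight hs hw hG).norm.const_mul C).mono'
    (hwm.mul (Liou.measurable_LamN hψ.smooth.continuous N).aestronglyMeasurable)
    (Filter.Eventually.of_forall fun x => ?_)
  rw [norm_mul, norm_mul, Real.norm_eq_abs (LamN N ψ x),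
    Real.norm_of_nonneg (by positivity : (0:ℝ) ≤ ((1 + ‖x‖) ^ (n + 2))⁻¹)]
  calc ‖w x‖ * |LamN N ψ x| ≤ ‖w x‖ * (C * ((1 + ‖x‖) ^ (n + 2))⁻¹) := by
        gcongr
        exact hC N hN x
    _ = _ := by ring

theorem tendsto_integral_LamN_zero (hn : 0 < n) {w : V n → ℝ} {K s : ℝ} (hs : s < n + 4)
    (hw : ∀ R : ℝ, MemLp w 2 (volume.restrict (ball (0 : V n) R))) (hG : Gr K s w)
    {ψ : V n → ℝ} (hψ : SmTest ψ) :
    Tendsto (fun τ : ℝ => ∫ z, w z * LamN τ ψ z) (𝓝[>] 0) (𝓝 0) := by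
  obtain ⟨C, hC0, hC⟩ := Liou.LamN_bound hn hψ
  have hwm := Liou.aestronglyMeasurable_of_memLp hw
  have h0 : ∫ z : V n, w z * 0 = 0 := by simp
  suffices h : Tendsto (fun τ : ℝ => ∫ z, w z * LamN τ ψ z) (𝓝[>] 0) (𝓝 (∫ z : V n, w z * 0)) by
    rwa [h0] at h
  refine tendsto_integral_filter_of_dominated_convergence
    (fun x => C * ‖w x * ((1 + ‖x‖) ^ (n + 2))⁻¹‖) ?_ ?_ ?_ ?_
  · exact Filter.Eventually.of_forall fun N =>
      hwm.mul (Liou.measurable_LamN hψ.smooth.continuous N).aestronglyMeasurable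
  · filter_upwards [self_mem_nhdsWithin] with N hN
    refine Filter.Eventually.of_forall fun x => ?_
    rw [norm_mul, norm_mul, Real.norm_eq_abs (LamN N ψ x),
      Real.norm_of_nonneg (by positivity : (0:ℝ) ≤ ((1 + ‖x‖) ^ (n + 2))⁻¹)]
    calc ‖w x‖ * |LamN N ψ x| ≤ ‖w x‖ * (C * ((1 + ‖x‖) ^ (n + 2))⁻¹) := by
          gcongr
          exact hC N hN x
      _ = _ := by ring
  · exact (Liou.integrable_weight hs hw hG).norm.const_mul C
  · exact Filter.Eventually.of_forall fun x =>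
      (LamN_tendsto_zero hn hψ.smooth hψ.cpt x).const_mul (w x)

end smalltau

section main

variable {n d : ℕ}

/-- quantitative step: for fixed `0 < τ ≤ 1/2` and `N`, the truncated weak equation. -/
theorem weq_step (hn : 1 ≤ n) (hnd : n ≤ d) {ι : Type*} {l : Filter ι} [l.NeBot]
    {μs : ι → Measure (V d)} {C : ℝ} (hC : 0 ≤ C) (hμ : ∀ᶠ k in l, UpperReg n C (μs k))
    {c : ℝ} (hc : 0 < c)
    (hν : ∀ f : V d → ℝ, Continuous f → HasCompactSupport f →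
      Tendsto (fun k => ∫ y, f y ∂(μs k)) l (𝓝 (c * ∫ z : V n, f (inc n d z))))
    {A : ι → V d → ℝ} (hA : ∀ᶠ k in l, LocLip (A k))
    (hA1 : ∀ R : ℝ, ∃ H : ℝ, ∀ᶠ k in l, ∫ y in ball (0 : V d) R, |A k y| ∂(μs k) ≤ H)
    {w : V n → ℝ}
    (hw : ∀ f : V d → ℝ, Continuous f → HasCompactSupport f →
      Tendsto (fun k => ∫ y, f y * A k y ∂(μs k)) l (𝓝 (c * ∫ z : V n, f (inc n d z) * w z)))
    (hE : ∀ R : ℝ, ∃ H : ℝ, ∀ᶠ k in l, enr n (μs k) (A k) R ≤ ENNReal.ofReal H)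
    (hS : ∀ K0 ρ η : ℝ, 0 < η → ∀ᶠ N : ℝ in atTop, ∀ᶠ k in l, ∀ ψ : V d → ℝ,
      (∀ x y, |ψ x - ψ y| ≤ K0 * ‖x - y‖) → (∀ x, x ∉ ball (0 : V d) ρ → ψ x = 0) →
      ∫ y, ψ y ∂(μs k) = 0 → |Bf n (μs k) N (A k) ψ| ≤ η)
    {ψ : V n → ℝ} (hψ : SmTest ψ) :
    ∃ D : ℝ, 0 ≤ D ∧ ∀ η : ℝ, 0 < η → ∀ᶠ N : ℝ in atTop, ∀ τ : ℝ, 0 < τ → 2 * τ ≤ 1 →
      |c * ∫ z : V n, (c * (1 / 2 * (LamN N ψ z - LamN τ ψ z))) * w z| ≤ η + Real.sqrt τ * D := by
  have hn0 : 0 < n := hn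
  -- data of `ψ`
  have hψc : Continuous ψ := hψ.smooth.continuous
  obtain ⟨S, hS1⟩ := hψ.cpt.exists_bound_of_continuous hψc
  have hSb : ∀ x, |ψ x| ≤ S := fun x => by rw [← Real.norm_eq_abs]; exact hS1 x
  have hS0 : 0 ≤ S := (abs_nonneg _).trans (hSb 0)
  obtain ⟨L, hL⟩ := hψ.smooth.lipschitzWith_of_hasCompactSupport hψ.cpt (by norm_num)
  have hLip : ∀ x y, |ψ x - ψ y| ≤ L * ‖x - y‖ := by
    intro x y
    have := hL.dist_le_mul x y
    rwa [Real.dist_eq, dist_eq_norm] at this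
  obtain ⟨ρ, hρ1, hρ⟩ : ∃ ρ : ℝ, 1 ≤ ρ ∧ ∀ x, x ∉ ball (0 : V n) ρ → ψ x = 0 := by
    obtain ⟨r, hr⟩ := hψ.cpt.isCompact.isBounded.subset_ball (0 : V n)
    refine ⟨max r 1, le_max_right _ _, fun x hx => ?_⟩
    by_contra h
    apply hx
    exact ball_subset_ball (le_max_left _ _) (hr (subset_tsupport _ h))
  have hρ0 : 0 < ρ := by linarith
  -- the extension
  set Ψ : V d → ℝ := ext ρ ψ with hΨ
  set K1 : ℝ := L + S / ρ with hK1
  have hK10 : 0 ≤ K1 := by positivity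
  have hΨlip : ∀ x y, |Ψ x - Ψ y| ≤ K1 * ‖x - y‖ := ext_lip hnd hρ0 hSb L.2 hLip
  have hΨc : Continuous Ψ := continuous_of_lip hΨlip
  have hΨ0 : ∀ x, x ∉ ball (0 : V d) (2 * ρ) → Ψ x = 0 := fun x hx => ext_eq_zero hρ0 hx
  have hbc : Continuous (bmp : V d → ℝ) := continuous_of_lip bmp_lip
  have hb0 : ∀ x, x ∉ ball (0 : V d) (2 * ρ) → bmp x = 0 := fun x hx =>
    bmp_eq_zero fun h => hx (ball_subset_ball (by linarith) h)
  -- the corrections
  set m : ι → ℝ := fun k => (∫ y, Ψ y ∂(μs k)) / ∫ y, bmp y ∂(μs k) with hm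
  have hb1 : Tendsto (fun k => ∫ y, bmp y ∂(μs k)) l (𝓝 (c * ∫ z : V n, cut ‖z‖)) := by
    have := hν bmp hbc (hasCompactSupport_of_ball hb0)
    simpa only [bmp_inc hnd] using this
  have hbpos : 0 < c * ∫ z : V n, cut ‖z‖ := mul_pos hc integral_bmp_pos
  have hΨ1 : Tendsto (fun k => ∫ y, Ψ y ∂(μs k)) l (𝓝 0) := by
    have := hν Ψ hΨc (hasCompactSupport_of_ball hΨ0)
    have e : ∫ z : V n, Ψ (inc n d z) = 0 := by
      simp only [hΨ, ext_inc hnd hρ0 hρ]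
      exact hψ.mean
    rwa [e, mul_zero] at this
  have hm0 : Tendsto m l (𝓝 0) := by
    have := hΨ1.div hb1 hbpos.ne'
    rw [zero_div] at this
    exact this
  have hbne : ∀ᶠ k in l, ∫ y, bmp y ∂(μs k) ≠ 0 := by
    filter_upwards [(tendsto_order.1 hb1).1 0 hbpos] with k hk
    exact hk.ne'
  have hm1 : ∀ᶠ k in l, |m k| ≤ 1 := by
    have := hm0.abs
    rw [abs_zero] at this
    filter_upwards [(tendsto_order.1 this).2 1 one_pos] with k hk
    exact hk.le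
  set Ψk : ι → V d → ℝ := fun k y => Ψ y - m k * bmp y with hΨk
  set K0 : ℝ := K1 + 1 with hK0
  have hΨklip : ∀ᶠ k in l, ∀ x y, |Ψk k x - Ψk k y| ≤ K0 * ‖x - y‖ := by
    filter_upwards [hm1] with k hk x y
    have e : Ψk k x - Ψk k y = (Ψ x - Ψ y) - m k * (bmp x - bmp y) := by
      rw [hΨk]; ring
    rw [e]
    calc |(Ψ x - Ψ y) - m k * (bmp x - bmp y)| ≤ |Ψ x - Ψ y| + |m k * (bmp x - bmp y)| := abs_sub _ _
      _ ≤ K1 * ‖x - y‖ + 1 * (1 * ‖x - y‖) := by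
          apply add_le_add (hΨlip x y)
          rw [abs_mul]
          exact mul_le_mul hk (bmp_lip x y) (abs_nonneg _) zero_le_one
      _ = K0 * ‖x - y‖ := by rw [hK0]; ring
  have hΨk0 : ∀ k, ∀ x, x ∉ ball (0 : V d) (2 * ρ) → Ψk k x = 0 := by
    intro k x hx
    rw [hΨk]
    simp only
    rw [hΨ0 x hx, hb0 x hx]
    ring
  have hΨkS : ∀ᶠ k in l, ∀ x, |Ψk k x| ≤ S + 1 := by
    filter_upwards [hm1] with k hk x
    rw [hΨk]
    simp only
    calc |Ψ x - m k * bmp x| ≤ |Ψ x| + |m k * bmp x| := abs_sub _ _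
      _ ≤ S + 1 * 1 := by
          apply add_le_add (ext_abs_le hSb x)
          rw [abs_mul]
          refine mul_le_mul hk ?_ (abs_nonneg _) zero_le_one
          unfold bmp
          rw [abs_of_nonneg (Crest.Agent.R085.cut_nonneg _)]
          exact Crest.Agent.R085.cut_le_one _
      _ = S + 1 := by ring
  have hΨkmean : ∀ᶠ k in l, ∫ y, Ψk k y ∂(μs k) = 0 := by
    filter_upwards [hbne, hμ] with k hk hμk
    have := upperReg_finiteOnCompacts hμk
    have i1 : Integrable Ψ (μs k) :=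
      hΨc.integrable_of_hasCompactSupport (hasCompactSupport_of_ball hΨ0)
    have i2 : Integrable bmp (μs k) :=
      hbc.integrable_of_hasCompactSupport (hasCompactSupport_of_ball hb0)
    rw [hΨk]
    simp only
    rw [integral_sub i1 (i2.const_mul _), integral_const_mul, hm]
    simp only
    rw [div_mul_cancel₀ _ hk, sub_self]
  obtain ⟨H, hH⟩ := hE (2 * ρ + 1)
  set H' : ℝ := max H 0 with hH'
  have hH'0 : 0 ≤ H' := le_max_right _ _
  set D : ℝ := H' + K0 ^ 2 * (C * (2 * ρ + 1) ^ n) * (C * 4 ^ n) with hD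
  have hD0 : 0 ≤ D := by positivity
  refine ⟨D, hD0, fun η hη => ?_⟩
  filter_upwards [hS K0 (2 * ρ) η hη, eventually_ge_atTop 1] with N hN hN1 τ hτ hτ2
  have hτN : τ ≤ N := by linarith
  obtain ⟨H1, hH1⟩ := hA1 (2 * ρ + 2 * N)
  -- limit of the far part
  set LG : ℝ := (K0 * (τ ^ (n + 1))⁻¹ + 2 * (S + 1) * LK n τ) * (2 * (C * (2 * N) ^ n)) with hLG
  have hLG0 : 0 ≤ LG := by
    have := LK_nonneg (n := n) hτ
    positivity
  have hK00 : 0 ≤ K0 := by positivity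
  have hlim : Tendsto (fun k => ∫ y, Gk n (μs k) τ N (Ψk k) y * A k y ∂(μs k)) l
      (𝓝 (c * ∫ z : V n, (c * (1 / 2 * (LamN N ψ z - LamN τ ψ z))) * w z)) := by
    have hAc : ∀ᶠ k in l, Continuous (A k) := by
      filter_upwards [hA] with k hk
      exact locLip_continuous hk
    have hfin : ∀ᶠ k in l, IsFiniteMeasureOnCompacts (μs k) := by
      filter_upwards [hμ] with k hk
      exact upperReg_finiteOnCompacts hk
    refine pairing_tendsto (g0 := fun x => c * ∫ z : V n, Fk n τ N Ψ x (inc n d z))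
      (R := 2 * ρ + 2 * N) (L := LG) hfin hAc hLG0 hH1 ?_ ?_ ?_ ?_
    · exact Eventually.of_forall fun k x hx => Gk_eq_zero hτ hτN (hΨk0 k) hx
    · filter_upwards [hΨklip, hΨkS, hμ] with k hk1 hk2 hk3 x y
      exact Gk_lip hτ hτN hk3 hC (continuous_of_lip hk1) hK00 hk1 hk2 (hΨk0 k) x y
    · intro x
      have h1 := hν (Fk n τ N Ψ x) (continuous_Fk_right hτ hτN hΨc x)
        (hasCompactSupport_Fk_right hτ hτN hΨ0 x)
      have h2 := hν (Fk n τ N bmp x) (continuous_Fk_right hτ hτN hbc x)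
        (hasCompactSupport_Fk_right hτ hτN hb0 x)
      have h3 := h1.sub (hm0.mul h2)
      rw [zero_mul, sub_zero] at h3
      refine h3.congr' ?_
      filter_upwards [hfin] with k hk
      exact (Gk_sub_mul hτ hτN hΨc hΨ0 hbc hb0 (m k) x).symm
    · intro hg1 hg2
      have h1 := hw _ hg1 hg2
      have e : ∀ z : V n, (c * ∫ z' : V n, Fk n τ N Ψ (inc n d z) (inc n d z'))
          = c * (1 / 2 * (LamN N ψ z - LamN τ ψ z)) := by
        intro z
        rw [← integral_Fk_plane hn0 hτ hτN hψ.smooth hψ.cpt z]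
        congr 1
        congr 1
        ext z'
        unfold Fk
        rw [Kt_inc hnd, hΨ, ext_inc hnd hρ0 hρ, ext_inc hnd hρ0 hρ]
      simp only [e] at h1
      exact h1
  refine le_of_tendsto hlim.abs ?_
  filter_upwards [hN, hμ, hA, hΨklip, hΨkmean, hH] with k hk1 hk2 hk3 hk4 hk5 hk6
  have h1 := hk1 (Ψk k) hk4 (hΨk0 k) hk5
  have h2 := Bf_near_le (ρ := 2 * ρ) hτ hτ2 hk2 hC hn (locLip_continuous hk3) hk4
    (by positivity) (hΨk0 k) hH'0 (hk6.trans (ENNReal.ofReal_le_ofReal (le_max_left _ _)))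
  have h3 := Bf_split (ρ := 2 * ρ) hτ hτN hk2 hC hn hk3 (continuous_of_lip hk4) hK00 hk4
    (by positivity) (hΨk0 k)
  have h4 : ∫ y, Gk n (μs k) τ N (Ψk k) y * A k y ∂(μs k)
      = Bf n (μs k) N (A k) (Ψk k) - Bf n (μs k) τ (A k) (Ψk k) := by
    rw [h3]
    simp only [mul_comm (A k _)]
    ring
  rw [h4]
  exact (abs_sub _ _).trans (add_le_add h1 h2)

/-- **Weak equation of the limit.** -/
theorem weq (hn : 1 ≤ n) (hnd : n ≤ d) {ι : Type*} {l : Filter ι} [l.NeBot]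
    {μs : ι → Measure (V d)} {C : ℝ} (hC : 0 ≤ C) (hμ : ∀ᶠ k in l, UpperReg n C (μs k))
    {c : ℝ} (hc : 0 < c)
    (hν : ∀ f : V d → ℝ, Continuous f → HasCompactSupport f →
      Tendsto (fun k => ∫ y, f y ∂(μs k)) l (𝓝 (c * ∫ z : V n, f (inc n d z))))
    {A : ι → V d → ℝ} (hA : ∀ᶠ k in l, LocLip (A k))
    (hA1 : ∀ R : ℝ, ∃ H : ℝ, ∀ᶠ k in l, ∫ y in ball (0 : V d) R, |A k y| ∂(μs k) ≤ H)
    {w : V n → ℝ} (hwL : ∀ R : ℝ, MemLp w 2 (volume.restrict (ball (0 : V n) R)))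
    {K s : ℝ} (hs : s < n + 4) (hG : Gr K s w)
    (hw : ∀ f : V d → ℝ, Continuous f → HasCompactSupport f →
      Tendsto (fun k => ∫ y, f y * A k y ∂(μs k)) l (𝓝 (c * ∫ z : V n, f (inc n d z) * w z)))
    (hE : ∀ R : ℝ, ∃ H : ℝ, ∀ᶠ k in l, enr n (μs k) (A k) R ≤ ENNReal.ofReal H)
    (hS : ∀ K0 ρ η : ℝ, 0 < η → ∀ᶠ N : ℝ in atTop, ∀ᶠ k in l, ∀ ψ : V d → ℝ,
      (∀ x y, |ψ x - ψ y| ≤ K0 * ‖x - y‖) → (∀ x, x ∉ ball (0 : V d) ρ → ψ x = 0) →
      ∫ y, ψ y ∂(μs k) = 0 → |Bf n (μs k) N (A k) ψ| ≤ η)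
    {ψ : V n → ℝ} (hψ : SmTest ψ) : ∫ z, w z * Liou.Lam ψ z = 0 := by
  have hn0 : 0 < n := hn
  obtain ⟨D, hD0, hD⟩ := weq_step hn hnd hC hμ hc hν hA hA1 hw hE hS hψ
  set b : ℝ := c * c / 2 with hb
  have hb0 : 0 < b := by positivity
  -- rewrite the integral
  have e : ∀ N τ : ℝ, 0 < N → 0 < τ →
      c * ∫ z : V n, (c * (1 / 2 * (LamN N ψ z - LamN τ ψ z))) * w z
        = b * ((∫ z, w z * LamN N ψ z) - ∫ z, w z * LamN τ ψ z) := by
    intro N τ hN hτ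
    rw [← integral_sub (integrable_mul_LamN hn0 hs hwL hG hψ hN)
      (integrable_mul_LamN hn0 hs hwL hG hψ hτ), ← integral_const_mul, ← integral_const_mul]
    congr 1
    ext z
    rw [hb]
    ring
  -- let `τ → 0`
  have h1 : ∀ η : ℝ, 0 < η → ∀ᶠ N : ℝ in atTop, |b * ∫ z, w z * LamN N ψ z| ≤ η := by
    intro η hη
    filter_upwards [hD η hη, eventually_gt_atTop 0] with N hN hN0
    have t1 : Tendsto (fun τ : ℝ => |b * ((∫ z, w z * LamN N ψ z) - ∫ z, w z * LamN τ ψ z)|)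
        (𝓝[>] 0) (𝓝 |b * ((∫ z, w z * LamN N ψ z) - 0)|) :=
      ((tendsto_const_nhds.sub (tendsto_integral_LamN_zero hn0 hs hwL hG hψ)).const_mul b).abs
    have t2 : Tendsto (fun τ : ℝ => η + Real.sqrt τ * D) (𝓝[>] 0) (𝓝 (η + Real.sqrt 0 * D)) := by
      apply Tendsto.mono_left _ nhdsWithin_le_nhds
      exact tendsto_const_nhds.add ((Real.continuous_sqrt.tendsto 0).mul_const D)
    rw [Real.sqrt_zero, zero_mul, add_zero] at t2
    rw [sub_zero] at t1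
    refine le_of_tendsto_of_tendsto t1 t2 ?_
    have : Ioo (0 : ℝ) (1 / 2) ∈ 𝓝[>] (0 : ℝ) := Ioo_mem_nhdsGT (by norm_num)
    filter_upwards [this] with τ hτ
    have := hN τ hτ.1 (by linarith [hτ.2])
    rwa [e N τ hN0 hτ.1] at this
  -- let `N → ∞`
  have h2 := Liou.tendsto_integral_LamN hn0 hs hwL hG hψ
  have h3 : ∀ η : ℝ, 0 < η → |b * ∫ z, w z * Liou.Lam ψ z| ≤ η := by
    intro η hη
    exact le_of_tendsto (h2.const_mul b).abs (h1 η hη)
  have h4 : |b * ∫ z, w z * Liou.Lam ψ z| ≤ 0 := le_of_forall_pos_le_add fun η hη => by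
    simpa using h3 η hη
  have h5 : b * ∫ z, w z * Liou.Lam ψ z = 0 := abs_nonpos_iff.1 h4
  rcases mul_eq_zero.1 h5 with h | h
  · exact absurd h hb0.ne'
  · exact h

end main

end Crest.Agent.R085.M8
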