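import Crest.Agent.R085.M8Energy
import Crest.Agent.R085.M8Weq
import Crest.Agent.R085.LimDens
import Crest.Agent.R085.LimW
import Crest.Agent.R085.LiouMain

/-!
R085, M8 (propagation): the normalised coordinates converge weakly to an affine function.
-/

set_option autoImplicit false

open MeasureTheory Metric Set Filter
open scoped ENNReal NNReal Topology

namespace Crest.Agent.R085.M8

/-- a measure which integrates test functions like `c` times Lebesgue measure on the standard
plane is `c` times Lebesgue measure on the standard plane -/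
theorem eq_map_inc {n d : ℕ} (hnd : n ≤ d) {ν : Measure (V d)} [IsLocallyFiniteMeasure ν]
    {c : ℝ} (hc : 0 < c)
    (hc2 : ∀ f : V d → ℝ, Continuous f → HasCompactSupport f →
      ∫ y, f y ∂ν = c * ∫ z : V n, f (inc n d z)) :
    ν = ENNReal.ofReal c • (volume : Measure (V n)).map (inc n d) := by
  have hinc : Topology.IsClosedEmbedding (inc n d) := by
    have h1 := (incL hnd).isometry.isClosedEmbedding
    exact h1
  have hlf : IsLocallyFiniteMeasure ((volume : Measure (V n)).map (inc n d)) := by
    have : IsFiniteMeasureOnCompacts ((volume : Measure (V n)).map (inc n d)) := by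
      constructor
      intro K hK
      rw [Measure.map_apply hinc.continuous.measurable hK.measurableSet]
      exact (hinc.isCompact_preimage hK).measure_lt_top
    infer_instance
  have hlf2 : IsLocallyFiniteMeasure
      (ENNReal.ofReal c • (volume : Measure (V n)).map (inc n d)) := by
    have : IsFiniteMeasureOnCompacts
        (ENNReal.ofReal c • (volume : Measure (V n)).map (inc n d)) := by
      constructor
      intro K hK
      rw [Measure.smul_apply, smul_eq_mul]
      exact ENNReal.mul_lt_top ENNReal.ofReal_lt_top hK.measure_lt_top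
    infer_instance
  apply MeasureTheory.Measure.ext_of_integral_eq_on_compactlySupported
  intro f
  rw [hc2 f f.continuous f.hasCompactSupport, integral_smul_measure,
    hinc.measurableEmbedding.integral_map, ENNReal.toReal_ofReal hc.le, smul_eq_mul]

theorem coord_affine {n d : ℕ} {C : ℝ} (hn : 1 ≤ n) (hnd : n ≤ d) (U : Ultrafilter ℕ)
    {μ : ℕ → Measure (V d)}
    {D : ℕ → ℝ≥0∞} {ε : ℕ → ℝ} {b : ℕ → V d} (hDat : ∀ k, Dat n C (D k) (μ k) (ε k) (b k))
    (hε : Tendsto ε U (𝓝 0)) {ν : Measure (V d)} (hν : WLim U μ ν) {c : ℝ} (hc : 0 < c)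
    (hc2 : ∀ f : V d → ℝ, Continuous f → HasCompactSupport f →
      ∫ y, f y ∂ν = c * ∫ z : V n, f (inc n d z)) (i : Fin d) (hi : n ≤ (i : ℕ)) :
    ∃ (t : ℝ) (B : V n), ∀ f : V d → ℝ, Continuous f → HasCompactSupport f →
      Tendsto (fun k => ∫ y, f y * Ac (ε k) (b k) i y ∂(μ k)) U
        (𝓝 (∫ y, f y * aff t B y ∂ν)) := by
  have hlfν := hν.lf
  have hfk : ∀ k, IsFiniteMeasureOnCompacts (μ k) := fun k => adr_finiteOnCompacts (hDat k).adr
  have hCC : 0 ≤ C := by
    have := (hDat 0).adr.one_le
    linarith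
  have hinc : Topology.IsClosedEmbedding (inc n d) := (incL hnd).isometry.isClosedEmbedding
  have hνeq := eq_map_inc hnd hc hc2
  have hM : Tendsto (fun k => ((ε k) ^ 3)⁻¹) (U : Filter ℕ) atTop := by
    apply Tendsto.inv_tendsto_nhdsGT_zero
    rw [tendsto_nhdsWithin_iff]
    refine ⟨?_, Eventually.of_forall fun k => ?_⟩
    · have := hε.pow 3
      simpa using this
    · have := (hDat k).eps
      show 0 < (ε k) ^ 3
      positivity
  -- local L² bounds
  have hL2 : ∀ k R, MemLp (Ac (ε k) (b k) i) 2 ((μ k).restrict (ball 0 R)) := by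
    intro k R
    have : IsFiniteMeasure ((μ k).restrict (ball (0 : V d) R)) :=
      ⟨by rw [Measure.restrict_apply_univ]; exact (hDat k).adr.ball_lt_top _ _⟩
    obtain ⟨M, hM⟩ := (isCompact_closedBall (0 : V d) R).exists_bound_of_continuousOn
      (Dat.continuous_Ac (ε k) (b k) i).continuousOn
    refine MemLp.of_bound (Dat.continuous_Ac _ _ _).aestronglyMeasurable M ?_
    filter_upwards [ae_restrict_mem measurableSet_ball] with x hx
    exact hM x (ball_subset_closedBall hx)
  have hgr : ∀ R : ℝ, 1 ≤ R → ∀ᶠ k in (U : Filter ℕ),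
      ∫ x in ball (0 : V d) R, ‖Ac (ε k) (b k) i x‖ ^ 2 ∂(μ k) ≤ R ^ (n + 3) := by
    intro R hR
    filter_upwards [hM.eventually_ge_atTop R] with k hk
    have := (hDat k).growth hi hR hk
    simpa only [Real.norm_eq_abs, sq_abs] using this
  obtain ⟨w, hwm, hwL, hwlim⟩ := exists_density_limit U hν.vague
    (fun k => Ac (ε k) (b k) i) (fun m => by
      refine ⟨((m : ℝ) + 1) ^ (n + 3), ?_⟩
      have hm0 : (0 : ℝ) ≤ m := Nat.cast_nonneg m
      filter_upwards [hgr ((m : ℝ) + 1) (by linarith)] with k hk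
      refine ⟨hL2 k m, le_trans ?_ hk⟩
      apply setIntegral_mono_set
      · exact integrableOn_ball_of_continuous ((Dat.continuous_Ac _ _ _).norm.pow 2) _ _
      · exact Eventually.of_forall fun z => by positivity
      · exact (ball_subset_ball (by linarith)).eventuallyLE)
  have hwgr : ∀ R : ℝ, 1 ≤ R → ∫ x in ball (0 : V d) R, ‖w x‖ ^ 2 ∂ν ≤ R ^ (n + 3) := by
    intro R hR
    refine density_limit_le U hν.vague (fun k => Ac (ε k) (b k) i) isOpen_ball (hwL R) hwlim ?_
    filter_upwards [hgr R hR] with k hk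
    exact ⟨hL2 k R, hk⟩
  have hwlim2 : ∀ f : V d → ℝ, Continuous f → HasCompactSupport f →
      Tendsto (fun k => ∫ y, f y * Ac (ε k) (b k) i y ∂(μ k)) U (𝓝 (∫ y, f y * w y ∂ν)) := by
    intro f hf hfc
    have := density_limit_smul U (fun k => Ac (ε k) (b k) i)
      (fun m => Eventually.of_forall fun k => hL2 k m) hwL hwlim hf hfc
    simpa only [smul_eq_mul] using this
  -- the density on the plane
  have hint : ∀ g : V d → ℝ, ∫ y, g y ∂ν = c * ∫ z : V n, g (inc n d z) := by
    intro g
    rw [hνeq, integral_smul_measure, hinc.measurableEmbedding.integral_map,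
      ENNReal.toReal_ofReal hc.le, smul_eq_mul]
  have hpre : ∀ R : ℝ, inc n d ⁻¹' (ball (0 : V d) R) = ball (0 : V n) R := by
    intro R
    ext z
    rw [mem_preimage, mem_ball_zero_iff, mem_ball_zero_iff, norm_inc hnd]
  have hrestr : ∀ R : ℝ, ν.restrict (ball (0 : V d) R)
      = ENNReal.ofReal c • ((volume : Measure (V n)).restrict (ball (0 : V n) R)).map (inc n d) := by
    intro R
    rw [hνeq, Measure.restrict_smul, hinc.measurableEmbedding.restrict_map, hpre]
  set w' : V n → ℝ := fun z => w (inc n d z) with hw'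
  have hw'L : ∀ R : ℝ, MemLp w' 2 (volume.restrict (ball (0 : V n) R)) := by
    intro R
    have h1 := hwL R
    rw [hrestr] at h1
    have h2 : MemLp w 2 (((volume : Measure (V n)).restrict (ball (0 : V n) R)).map (inc n d)) := by
      have h3 := h1.smul_measure (c := (ENNReal.ofReal c)⁻¹)
        (ENNReal.inv_ne_top.2 (ENNReal.ofReal_pos.2 hc).ne')
      rwa [smul_smul, ENNReal.inv_mul_cancel (ENNReal.ofReal_pos.2 hc).ne'
        ENNReal.ofReal_ne_top, one_smul] at h3
    exact (hinc.measurableEmbedding.memLp_map_measure_iff).1 h2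
  have hG : Gr c⁻¹ ((n : ℝ) + 3) w' := by
    intro R hR
    have h1 := hwgr R hR
    rw [hrestr, integral_smul_measure, hinc.measurableEmbedding.integral_map,
      ENNReal.toReal_ofReal hc.le, smul_eq_mul] at h1
    simp only [Real.norm_eq_abs, sq_abs] at h1
    have h2 : R ^ ((n : ℝ) + 3) = R ^ (n + 3) := by
      rw [← Real.rpow_natCast]
      push_cast
      rfl
    rw [h2, inv_mul_eq_div, le_div_iff₀ hc, mul_comm]
    exact h1
  have hw2 : ∀ f : V d → ℝ, Continuous f → HasCompactSupport f →
      Tendsto (fun k => ∫ y, f y * Ac (ε k) (b k) i y ∂(μ k)) U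
        (𝓝 (c * ∫ z : V n, f (inc n d z) * w' z)) := by
    intro f hf hfc
    have := hwlim2 f hf hfc
    rwa [hint] at this
  obtain ⟨KB, hKB, hKB'⟩ := Dat.bf_le n d C hn
  have hweq : ∀ ψ : V n → ℝ, SmTest ψ → ∫ z, w' z * Lam n ψ z = 0 := by
    intro ψ hψ
    refine weq hn hnd (l := (U : Filter ℕ)) hCC
      (Eventually.of_forall fun k => (hDat k).adr.upperReg) hc ?_
      (A := fun k => Ac (ε k) (b k) i) (Eventually.of_forall fun k => (hDat k).locLip_Ac i)
      ?_ hw'L (s := (n : ℝ) + 3) (by linarith) hG hw2 ?_ ?_ hψ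
    · intro f hf hfc
      have := hν.tendsto f hf hfc
      rwa [hc2 f hf hfc] at this
    · intro R
      refine ⟨C * (max R 1) ^ (n + 3), ?_⟩
      filter_upwards [hM.eventually_ge_atTop (max R 1)] with k hk
      refine le_trans ?_ ((hDat k).integral_abs_le hi (le_max_right _ _) hk)
      apply setIntegral_mono_set
      · exact integrableOn_ball_of_continuous (Dat.continuous_Ac _ _ _).abs _ _
      · exact Eventually.of_forall fun z => by positivity
      · exact (ball_subset_ball (le_max_left _ _)).eventuallyLE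
    · intro R
      obtain ⟨H, hH, hH'⟩ := Dat.enr_le n d C hn (max R 1) (le_max_right _ _)
      refine ⟨H, ?_⟩
      filter_upwards [hM.eventually_ge_atTop (4 * max R 1)] with k hk
      refine le_trans ?_ (hH' (D k) (μ k) (ε k) (b k) (hDat k) hk i hi)
      unfold enr
      apply lintegral_mono_set
      exact prod_mono (ball_subset_ball (le_max_left _ _)) (ball_subset_ball (le_max_left _ _))
    · intro K0 ρ η hη
      set K1 : ℝ := max K0 0 with hK1
      set ρ1 : ℝ := max ρ 1 with hρ1
      have hK10 : 0 ≤ K1 := le_max_right _ _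
      have hρ11 : 1 ≤ ρ1 := le_max_right _ _
      have hT : Tendsto (fun N : ℝ => KB * K1 * ρ1 ^ (n + 4) * ((√N)⁻¹ + 0)) atTop
          (𝓝 (KB * K1 * ρ1 ^ (n + 4) * (0 + 0))) :=
        ((tendsto_inv_atTop_zero.comp Real.tendsto_sqrt_atTop).add_const 0).const_mul _
      rw [add_zero, mul_zero] at hT
      filter_upwards [hT.eventually_lt_const hη, eventually_ge_atTop (8 * ρ1)] with N hN1 hN2
      have hT2 : Tendsto (fun k => KB * K1 * ρ1 ^ (n + 4) * ((√N)⁻¹ + (ε k) ^ 2)) (U : Filter ℕ)
          (𝓝 (KB * K1 * ρ1 ^ (n + 4) * ((√N)⁻¹ + 0))) := by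
        have := hε.pow 2
        simp only [ne_eq, OfNat.ofNat_ne_zero, not_false_eq_true, zero_pow] at this
        exact (tendsto_const_nhds.add this).const_mul _
      filter_upwards [hT2.eventually_lt_const hN1, hM.eventually_ge_atTop N] with k hk1 hk2
      intro φ hφl hφs hφz
      refine le_trans ?_ hk1.le
      refine hKB' (D k) (μ k) (ε k) (b k) (hDat k) i hi K1 ρ1 N hK10 hρ11 hN2 hk2 φ ?_ ?_ hφz
      · intro y z
        rw [dist_eq_norm]
        refine (hφl y z).trans ?_
        gcongr
        exact le_max_left _ _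
      · intro y hy
        exact hφs y fun h => hy (ball_subset_ball (le_max_left _ _) h)
  obtain ⟨ℓ, c0, hℓ⟩ := liouville_L2 (by omega : 0 < n) (by linarith : ((n : ℝ) + 3) < n + 4)
    hw'L hG hweq
  refine ⟨c0, (InnerProductSpace.toDual ℝ (V n)).symm ℓ, fun f hf hfc => ?_⟩
  have h1 := hw2 f hf hfc
  have h2 : ∫ y, f y * aff c0 ((InnerProductSpace.toDual ℝ (V n)).symm ℓ) y ∂ν
      = c * ∫ z : V n, f (inc n d z) * w' z := by
    rw [hint]
    congr 1
    apply integral_congr_ae
    filter_upwards [hℓ] with z hz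
    rw [hz]
    unfold aff
    rw [prj_inc hnd, InnerProductSpace.toDual_symm_apply]
    ring
  rw [h2]
  exact h1

end Crest.Agent.R085.M8
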