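import Crest.Agent.R085.Cacc

/-!
R085, M8: estimates for the shell integral `farI`.
-/

set_option autoImplicit false

namespace Crest.Agent.R085.M8

open MeasureTheory Metric Set Filter
open scoped ENNReal NNReal Topology

variable {d : ℕ}

theorem far_bdd {w : V d → ℝ} (hw : Continuous w) (x : V d) (R : ℝ) :
    ∃ M : ℝ, 0 ≤ M ∧ ∀ y ∈ ball x R, |w y| ≤ M := by
  obtain ⟨M, hM⟩ := (isCompact_closedBall x R).exists_bound_of_continuousOn hw.continuousOn
  refine ⟨max M 0, le_max_right _ _, fun y hy => ?_⟩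
  have := hM y (ball_subset_closedBall hy)
  rw [Real.norm_eq_abs] at this
  exact this.trans (le_max_left _ _)

theorem far_measSet (x : V d) (r R : ℝ) : MeasurableSet (ball x R \ ball x r) :=
  measurableSet_ball.diff measurableSet_ball

theorem far_integrand_meas {w : V d → ℝ} (hw : Continuous w) (n : ℕ) (x : V d) :
    Measurable fun y => |w y| * (dist y x ^ (n + 2))⁻¹ :=
  hw.abs.measurable.mul
    (((continuous_id.dist continuous_const).measurable.pow_const (n + 2)).inv)

theorem far_integrableOn {n : ℕ} {C : ℝ} {μ : Measure (V d)} (hμ : UpperReg n C μ) {w : V d → ℝ}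
    (hw : Continuous w) (x : V d) {r : ℝ} (hr : 0 < r) (R : ℝ) :
    IntegrableOn (fun y => |w y| * (dist y x ^ (n + 2))⁻¹) (ball x R \ ball x r) μ := by
  obtain ⟨M, hM0, hM⟩ := far_bdd hw x R
  refine IntegrableOn.of_bound ((measure_mono sdiff_subset).trans_lt (hμ.ball_lt_top x R))
    (far_integrand_meas hw n x).aestronglyMeasurable (M * (r ^ (n + 2))⁻¹) ?_
  rw [ae_restrict_iff' (far_measSet x r R)]
  refine Eventually.of_forall fun y hy => ?_
  have h1 : r ≤ dist y x := by simpa using hy.2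
  rw [Real.norm_eq_abs, abs_of_nonneg (by positivity)]
  gcongr
  exact hM y hy.1

theorem farI_nonneg (n : ℕ) (μ : Measure (V d)) (w : V d → ℝ) (x : V d) (r R : ℝ) :
    0 ≤ farI n μ w x r R := by
  unfold farI
  exact integral_nonneg fun y => by positivity

theorem farI_split {n : ℕ} {C : ℝ} {μ : Measure (V d)} (hμ : UpperReg n C μ) {w : V d → ℝ}
    (hw : Continuous w) (x : V d) {r s : ℝ} (hr : 0 < r) (hrs : r ≤ s) (R : ℝ) :
    farI n μ w x r R ≤ farI n μ w x r s + farI n μ w x s R := by
  unfold farI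
  have h1 := far_integrableOn hμ hw x hr s (n := n)
  have h2 := far_integrableOn hμ hw x (hr.trans_le hrs) R (n := n)
  have hdisj : Disjoint (ball x s \ ball x r) (ball x R \ ball x s) := by
    rw [Set.disjoint_left]
    intro y hy hy'
    exact hy'.2 hy.1
  rw [← setIntegral_union hdisj (far_measSet x s R) h1 h2]
  refine setIntegral_mono_set (h1.union h2) (Eventually.of_forall fun y => by positivity) ?_
  refine LE.le.eventuallyLE ?_
  intro y hy
  by_cases hs : y ∈ ball x s
  · exact Or.inl ⟨hs, hy.2⟩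
  · exact Or.inr ⟨hy.1, hs⟩

theorem farI_eq_zero (n : ℕ) (μ : Measure (V d)) (w : V d → ℝ) (x : V d) {r R : ℝ} (h : R ≤ r) :
    farI n μ w x r R = 0 := by
  unfold farI
  rw [sdiff_eq_empty.2 (ball_subset_ball h), Measure.restrict_empty, integral_zero_measure]

/-- one shell. -/
theorem farI_shell {n : ℕ} {C : ℝ} (hC : 0 ≤ C) {μ : Measure (V d)} (hμ : UpperReg n C μ)
    {w : V d → ℝ} (hw : Continuous w) (x : V d) {G r R : ℝ} (hG : 0 ≤ G) (hr : 0 < r)
    (hR : r ≤ R) (hR2 : R ≤ 2 * r)
    (h : ∫ y in ball x R, (w y) ^ 2 ∂μ ≤ G ^ 2 * R ^ (n + 3)) :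
    farI n μ w x r R ≤ (C + 1) * 2 ^ (n + 3) * G / Real.sqrt r := by
  have hR0 : 0 < R := hr.trans_le hR
  obtain ⟨M, hM0, hM⟩ := far_bdd hw x R
  have hfin : IsFiniteMeasure (μ.restrict (ball x R)) :=
    ⟨by rw [Measure.restrict_apply_univ]; exact hμ.ball_lt_top x R⟩
  have hint1 : IntegrableOn (fun y => |w y|) (ball x R) μ := by
    refine IntegrableOn.of_bound (hμ.ball_lt_top x R) hw.abs.aestronglyMeasurable M ?_
    rw [ae_restrict_iff' measurableSet_ball]
    exact Eventually.of_forall fun y hy => by simpa using hM y hy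
  have hint2 : IntegrableOn (fun y => (w y) ^ 2) (ball x R) μ := by
    refine IntegrableOn.of_bound (hμ.ball_lt_top x R) (hw.pow 2).aestronglyMeasurable (M ^ 2) ?_
    rw [ae_restrict_iff' measurableSet_ball]
    refine Eventually.of_forall fun y hy => ?_
    rw [Real.norm_eq_abs, abs_pow]
    exact pow_le_pow_left₀ (abs_nonneg _) (hM y hy) 2
  -- volume
  have hvol : (μ.restrict (ball x R)).real univ ≤ C * R ^ n := by
    rw [Measure.real, Measure.restrict_apply_univ]
    exact ENNReal.toReal_le_of_le_ofReal (by positivity) (hμ x R hR0)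
  -- first reduction
  have hA : farI n μ w x r R ≤ (r ^ (n + 2))⁻¹ * ∫ y in ball x R, |w y| ∂μ := by
    unfold farI
    rw [← integral_const_mul]
    calc ∫ y in ball x R \ ball x r, |w y| * (dist y x ^ (n + 2))⁻¹ ∂μ
        ≤ ∫ y in ball x R \ ball x r, (r ^ (n + 2))⁻¹ * |w y| ∂μ := by
          apply integral_mono_of_nonneg (Eventually.of_forall fun y => by positivity)
            ((hint1.mono_set sdiff_subset).const_mul _)
          rw [EventuallyLE, ae_restrict_iff' (far_measSet x r R)]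
          refine Eventually.of_forall fun y hy => ?_
          have h1 : r ≤ dist y x := by simpa using hy.2
          show |w y| * (dist y x ^ (n + 2))⁻¹ ≤ (r ^ (n + 2))⁻¹ * |w y|
          rw [mul_comm]
          gcongr
      _ ≤ ∫ y in ball x R, (r ^ (n + 2))⁻¹ * |w y| ∂μ := by
          refine setIntegral_mono_set (hint1.const_mul _)
            (Eventually.of_forall fun y => by positivity) ?_
          exact LE.le.eventuallyLE sdiff_subset
  -- AM-GM for any t > 0
  have hB : ∀ t : ℝ, 0 < t → ∫ y in ball x R, |w y| ∂μ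
      ≤ (t⁻¹ * (G ^ 2 * R ^ (n + 3)) + t * (C * R ^ n)) / 2 := by
    intro t ht
    have h1 : ∫ y in ball x R, |w y| ∂μ
        ≤ ∫ y in ball x R, (t⁻¹ * (w y) ^ 2 + t) / 2 ∂μ := by
      refine integral_mono hint1 (((hint2.const_mul _).add (integrable_const t)).div_const 2) ?_
      intro y
      show |w y| ≤ (t⁻¹ * (w y) ^ 2 + t) / 2
      have h2 : 0 ≤ t⁻¹ * (|w y| - t) ^ 2 := by positivity
      have h3 : t⁻¹ * (|w y| - t) ^ 2 = t⁻¹ * (w y) ^ 2 - 2 * |w y| + t := by
        rw [sub_sq, sq_abs]; field_simp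
      linarith
    refine h1.trans ?_
    rw [integral_div, integral_add (hint2.const_mul _) (integrable_const t), integral_const_mul,
      integral_const, smul_eq_mul, mul_comm _ t]
    gcongr
  have hB' : ∫ y in ball x R, |w y| ∂μ ≤ (C + 1) / 2 * (G * (R ^ (n + 1) * Real.sqrt R)) := by
    rcases hG.eq_or_lt with hG0 | hG0
    · rw [← hG0]
      have h2 : ∀ t : ℝ, 0 < t → ∫ y in ball x R, |w y| ∂μ ≤ t * (C * R ^ n) / 2 := by
        intro t ht
        have := hB t ht
        rw [← hG0] at this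
        simpa using this
      rw [zero_mul, mul_zero]
      refine le_of_forall_pos_le_add fun ε hε => ?_
      have h3 := h2 (ε / (C * R ^ n + 1)) (by positivity)
      refine h3.trans ?_
      rw [zero_add]
      have h4 : C * R ^ n / (C * R ^ n + 1) ≤ 1 := by
        rw [div_le_one (by positivity)]; linarith
      calc ε / (C * R ^ n + 1) * (C * R ^ n) / 2
          = ε * (C * R ^ n / (C * R ^ n + 1)) / 2 := by ring
        _ ≤ ε * 1 / 2 := by gcongr
        _ ≤ ε := by linarith
    · have hs : 0 < Real.sqrt R := Real.sqrt_pos.2 hR0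
      have hss : Real.sqrt R * Real.sqrt R = R := Real.mul_self_sqrt hR0.le
      refine (hB (G * (R * Real.sqrt R)) (by positivity)).trans (le_of_eq ?_)
      have h5 : (G * (R * Real.sqrt R))⁻¹ * (G ^ 2 * R ^ (n + 3))
          = G * (R ^ (n + 1) * Real.sqrt R) := by
        rw [inv_mul_eq_div, div_eq_iff (by positivity)]
        calc G ^ 2 * R ^ (n + 3) = G ^ 2 * (R ^ (n + 2) * R) := by ring
          _ = G ^ 2 * (R ^ (n + 2) * (Real.sqrt R * Real.sqrt R)) := by rw [hss]
          _ = _ := by ring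
      rw [h5]
      ring
  have hsr : 0 < Real.sqrt r := Real.sqrt_pos.2 hr
  have hsrr : Real.sqrt r * Real.sqrt r = r := Real.mul_self_sqrt hr.le
  have hsR : Real.sqrt R ≤ 2 * Real.sqrt r := by
    rw [Real.sqrt_le_left (by positivity)]
    calc R ≤ 2 * r := hR2
      _ ≤ 4 * r := by linarith
      _ = (2 * Real.sqrt r) ^ 2 := by rw [mul_pow, Real.sq_sqrt hr.le]; norm_num
  calc farI n μ w x r R ≤ (r ^ (n + 2))⁻¹ * ∫ y in ball x R, |w y| ∂μ := hA
    _ ≤ (r ^ (n + 2))⁻¹ * ((C + 1) / 2 * (G * (R ^ (n + 1) * Real.sqrt R))) := by gcongr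
    _ ≤ (r ^ (n + 2))⁻¹ * ((C + 1) / 2 * (G * ((2 * r) ^ (n + 1) * (2 * Real.sqrt r)))) := by
        gcongr
    _ = (C + 1) * 2 ^ (n + 1) * G * (Real.sqrt r / r) := by
        rw [mul_pow, pow_succ r (n + 1)]
        field_simp
    _ = (C + 1) * 2 ^ (n + 1) * G / Real.sqrt r := by
        have : Real.sqrt r / r = (Real.sqrt r)⁻¹ := by
          rw [div_eq_iff hr.ne', eq_comm, inv_mul_eq_iff_eq_mul₀ hsr.ne', hsrr]
        rw [this]; rfl
    _ ≤ (C + 1) * 2 ^ (n + 3) * G / Real.sqrt r := by
        gcongr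
        · norm_num
        · omega

theorem farI_growth (n d : ℕ) (C : ℝ) (hC : 0 ≤ C) :
    ∃ K : ℝ, 0 < K ∧ ∀ μ : Measure (V d), UpperReg n C μ → ∀ w : V d → ℝ, Continuous w →
      ∀ (x : V d) (G r R : ℝ), 0 ≤ G → 0 < r →
        (∀ s : ℝ, r ≤ s → s ≤ R → ∫ y in ball x s, (w y) ^ 2 ∂μ ≤ G ^ 2 * s ^ (n + 3)) →
        farI n μ w x r R ≤ K * G / Real.sqrt r := by
  set K0 : ℝ := (C + 1) * 2 ^ (n + 3) with hK0
  have hK0pos : 0 < K0 := by positivity
  set K : ℝ := 4 * K0 with hK
  refine ⟨K, by positivity, fun μ hμ w hw x G r R hG hr => ?_⟩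
  have key : ∀ m : ℕ, ∀ r : ℝ, 0 < r → R ≤ 2 ^ m * r →
      (∀ s : ℝ, r ≤ s → s ≤ R → ∫ y in ball x s, (w y) ^ 2 ∂μ ≤ G ^ 2 * s ^ (n + 3)) →
      farI n μ w x r R ≤ K * G / Real.sqrt r := by
    intro m
    induction m with
    | zero =>
      intro r hr hR _
      rw [pow_zero, one_mul] at hR
      rw [farI_eq_zero n μ w x hR]
      positivity
    | succ m ih =>
      intro r hr hR h
      rcases le_or_gt R r with h0 | h0
      · rw [farI_eq_zero n μ w x h0]
        positivity
      rcases le_or_gt R (2 * r) with h1 | h1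
      · refine (farI_shell hC hμ hw x hG hr h0.le h1 (h R h0.le le_rfl)).trans ?_
        gcongr
        rw [hK]; linarith
      · have h2 := farI_split hμ hw x hr (by linarith : r ≤ 2 * r) R (n := n)
        have h3 := farI_shell hC hμ hw x hG hr (by linarith : r ≤ 2 * r) le_rfl
          (h (2 * r) (by linarith) h1.le)
        have h4 := ih (2 * r) (by positivity) (by rw [pow_succ] at hR; linarith)
          (fun s hs hs' => h s (by linarith) hs')
        have hsr : 0 < Real.sqrt r := Real.sqrt_pos.2 hr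
        have h5 : Real.sqrt (2 * r) = Real.sqrt 2 * Real.sqrt r := Real.sqrt_mul (by norm_num) r
        have h6 : (4 / 3 : ℝ) ≤ Real.sqrt 2 := by
          rw [Real.le_sqrt' (by norm_num)]; norm_num
        have h7 : K * G / Real.sqrt (2 * r) ≤ (3 / 4) * (K * G / Real.sqrt r) := by
          rw [h5, ← div_div]
          have h8 : K * G / Real.sqrt 2 ≤ K * G * (3 / 4) := by
            rw [div_le_iff₀ (by positivity)]
            have : 0 ≤ K * G := by positivity
            nlinarith
          calc K * G / Real.sqrt 2 / Real.sqrt r ≤ K * G * (3 / 4) / Real.sqrt r := by gcongr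
            _ = _ := by ring
        calc farI n μ w x r R ≤ farI n μ w x r (2 * r) + farI n μ w x (2 * r) R := h2
          _ ≤ K0 * G / Real.sqrt r + (3 / 4) * (K * G / Real.sqrt r) := by
              linarith
          _ = K * G / Real.sqrt r := by rw [hK]; ring
  intro h
  obtain ⟨m, hm⟩ := pow_unbounded_of_one_lt (R / r) (by norm_num : (1 : ℝ) < 2)
  refine key m r hr ?_ h
  rw [div_lt_iff₀ hr] at hm
  exact hm.le

theorem farI_lin (n d : ℕ) (C : ℝ) (hC : 0 ≤ C) :
    ∃ K : ℝ, 0 < K ∧ ∀ μ : Measure (V d), UpperReg n C μ → ∀ w : V d → ℝ, Continuous w →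
      ∀ (x : V d) (L r R : ℝ), 0 ≤ L → 0 < r →
        (∀ y, r ≤ dist y x → |w y| ≤ L * dist y x) →
        farI n μ w x r R ≤ K * L / r := by
  refine ⟨(C + 1) * 2 ^ (n + 1), by positivity, fun μ hμ w hw x L r R hL hr h => ?_⟩
  unfold farI
  obtain ⟨ht1, ht2⟩ := integrableOn_tail hμ hC le_rfl x hr (m := 1)
  have hsub : ball x R \ ball x r ⊆ {y | r ≤ dist x y} := by
    intro y hy
    have := hy.2
    rw [mem_ball, not_lt, dist_comm] at this
    exact this
  calc ∫ y in ball x R \ ball x r, |w y| * (dist y x ^ (n + 2))⁻¹ ∂μ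
      ≤ ∫ y in ball x R \ ball x r, L * ((dist x y) ^ (n + 1))⁻¹ ∂μ := by
        apply integral_mono_of_nonneg (Eventually.of_forall fun y => by positivity)
          ((ht1.mono_set hsub).const_mul _)
        rw [EventuallyLE, ae_restrict_iff' (far_measSet x r R)]
        refine Eventually.of_forall fun y hy => ?_
        have hy1 : r ≤ dist x y := hsub hy
        have hy2 : 0 < dist y x := by rw [dist_comm]; linarith
        rw [dist_comm x y] at hy1 ⊢
        calc |w y| * (dist y x ^ (n + 2))⁻¹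
            ≤ (L * dist y x) * (dist y x ^ (n + 2))⁻¹ := by
              gcongr
              exact h y hy1
          _ = L * (dist y x ^ (n + 1))⁻¹ := by
              rw [pow_succ _ (n + 1)]; field_simp
    _ = L * ∫ y in ball x R \ ball x r, ((dist x y) ^ (n + 1))⁻¹ ∂μ :=
        integral_const_mul _ _
    _ ≤ L * ∫ y in {y | r ≤ dist x y}, ((dist x y) ^ (n + 1))⁻¹ ∂μ := by
        refine mul_le_mul_of_nonneg_left (setIntegral_mono_set ht1 ?_ ?_) hL
        · exact Eventually.of_forall fun y => by positivity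
        · exact hsub.eventuallyLE
    _ ≤ L * (C * 2 ^ (n + 1) / r ^ 1) := by gcongr
    _ ≤ (C + 1) * 2 ^ (n + 1) * L / r := by
        rw [pow_one]
        have : C * 2 ^ (n + 1) ≤ (C + 1) * 2 ^ (n + 1) := by gcongr; linarith
        calc L * (C * 2 ^ (n + 1) / r) = (C * 2 ^ (n + 1)) * L / r := by ring
          _ ≤ _ := by gcongr

end Crest.Agent.R085.M8
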