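import Crest.Agent.R085.Tail
import Crest.Agent.R085.Lim2
import Crest.Agent.R085.LimRefl
import Crest.Agent.R085.M8Tilt
import Crest.Agent.R085.M8SL2
import Crest.Agent.R085.M8Far

/-!
R085, M8 (propagation): energy bound and uniform smallness of the form for the normalised
coordinate functions `A = (y_i - b_i) / ε`.
-/

set_option autoImplicit false

open MeasureTheory Metric Set Filter
open scoped ENNReal NNReal Topology

namespace Crest.Agent.R085

/-- normalised datum for one measure -/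
structure Dat (n : ℕ) {d : ℕ} (C : ℝ) (D : ℝ≥0∞) (μ : Measure (V d)) (ε : ℝ) (b : V d) : Prop where
  adr : ADR n C D μ
  eps : 0 < ε
  eps1 : ε ≤ 1
  hD : ENNReal.ofReal (ε ^ 3)⁻¹ ≤ D
  mem : (0 : V d) ∈ μ.support
  flat : ∀ R : ℝ, 1 ≤ R → R ≤ (ε ^ 3)⁻¹ →
    ∫ y in ball (0 : V d) R, nsq n (y - b) ∂μ ≤ ε ^ 2 * R * R ^ (n + 2)
  eta : EtaS n μ 0 1 (ε ^ 3)⁻¹ (ε ^ 3)

/-- the normalised coordinate -/
noncomputable def Ac {d : ℕ} (ε : ℝ) (b : V d) (i : Fin d) (y : V d) : ℝ := (y i - b i) / ε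

namespace Dat

variable {n d : ℕ} {C : ℝ} {D : ℝ≥0∞} {μ : Measure (V d)} {ε : ℝ} {b : V d}

theorem M1 (h : Dat n C D μ ε b) : 1 ≤ (ε ^ 3)⁻¹ := by
  have := h.eps
  rw [one_le_inv₀ (by positivity)]
  exact pow_le_one₀ h.eps.le h.eps1

theorem continuous_Ac (ε : ℝ) (b : V d) (i : Fin d) : Continuous (Ac ε b i) := by
  unfold Ac
  fun_prop

theorem lipschitz_Ac (h : Dat n C D μ ε b) (i : Fin d) :
    LipschitzWith (Real.toNNReal ε⁻¹) (Ac ε b i) := by
  have he := h.eps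
  apply LipschitzWith.of_dist_le_mul
  intro y z
  rw [Real.dist_eq, Real.coe_toNNReal _ (by positivity)]
  unfold Ac
  have h1 : (y i - b i) / ε - (z i - b i) / ε = ε⁻¹ * ((y - z) i) := by
    simp only [PiLp.sub_apply]
    field_simp
    ring
  rw [h1, abs_mul, abs_of_pos (inv_pos.2 he), dist_eq_norm]
  gcongr
  have := PiLp.norm_apply_le (y - z) i
  rwa [Real.norm_eq_abs] at this

theorem locLip_Ac (h : Dat n C D μ ε b) (i : Fin d) : LocLip (Ac ε b i) :=
  fun _ => ⟨_, (h.lipschitz_Ac i).lipschitzOnWith⟩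

theorem sq_le_nsq {n d : ℕ} {i : Fin d} (hi : n ≤ (i : ℕ)) (z : V d) : (z i) ^ 2 ≤ nsq n z := by
  unfold nsq
  have h : ∀ j ∈ Finset.univ, 0 ≤ (if n ≤ ((j : Fin d) : ℕ) then (z j) ^ 2 else 0) := by
    intro j _
    split_ifs <;> positivity
  have := Finset.single_le_sum h (Finset.mem_univ i)
  simpa [hi] using this

/-- `L²` growth of the coordinate -/
theorem growth (h : Dat n C D μ ε b) {i : Fin d} (hi : n ≤ (i : ℕ)) {R : ℝ} (hR : 1 ≤ R)
    (hRM : R ≤ (ε ^ 3)⁻¹) : ∫ y in ball (0 : V d) R, (Ac ε b i y) ^ 2 ∂μ ≤ R ^ (n + 3) := by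
  have he := h.eps
  have : IsFiniteMeasureOnCompacts μ := M8.adr_finiteOnCompacts h.adr
  have h1 : ∫ y in ball (0 : V d) R, (Ac ε b i y) ^ 2 ∂μ
      ≤ ∫ y in ball (0 : V d) R, (ε ^ 2)⁻¹ * nsq n (y - b) ∂μ := by
    apply integral_mono
    · exact M8.integrableOn_ball_of_continuous ((continuous_Ac ε b i).pow 2) _ _
    · refine M8.integrableOn_ball_of_continuous ?_ _ _
      have := M8.continuous_nsq (n := n) (d := d)
      fun_prop
    · intro y
      show (Ac ε b i y) ^ 2 ≤ (ε ^ 2)⁻¹ * nsq n (y - b)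
      have := sq_le_nsq hi (y - b)
      unfold Ac
      rw [div_pow, div_eq_inv_mul]
      gcongr
      simpa using this
  refine h1.trans ?_
  rw [integral_const_mul]
  have h2 := h.flat R hR hRM
  calc (ε ^ 2)⁻¹ * ∫ y in ball (0 : V d) R, nsq n (y - b) ∂μ
      ≤ (ε ^ 2)⁻¹ * (ε ^ 2 * R * R ^ (n + 2)) := by gcongr
    _ = R ^ (n + 3) := by
        field_simp
        ring

theorem abs_b_le (h : Dat n C D μ ε b) {i : Fin d} (hi : n ≤ (i : ℕ)) : |b i| ≤ 2 * C := by
  have he := h.eps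
  have hC := h.adr.one_le
  have hfin : IsFiniteMeasureOnCompacts μ := M8.adr_finiteOnCompacts h.adr
  have hg := h.growth hi le_rfl h.M1
  have hlow : C⁻¹ ≤ μ.real (ball (0 : V d) 1) := by
    have := h.adr.le_real_ball h.mem one_pos
      (le_trans (ENNReal.ofReal_le_ofReal h.M1) h.hD)
    simpa using this
  have hup : μ.real (ball (0 : V d) 1) ≤ C := by
    have := h.adr.real_ball_le (0 : V d) one_pos
    simpa using this
  -- pointwise
  have h1 : (b i) ^ 2 * μ.real (ball (0 : V d) 1) ≤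
      ∫ y in ball (0 : V d) 1, (2 * ε ^ 2 * (Ac ε b i y) ^ 2 + 2) ∂μ := by
    have e1 : (b i) ^ 2 * μ.real (ball (0 : V d) 1) = ∫ _y in ball (0 : V d) 1, (b i) ^ 2 ∂μ := by
      rw [setIntegral_const, smul_eq_mul, mul_comm]
    rw [e1]
    refine setIntegral_mono_on ?_ ?_ measurableSet_ball fun y hy => ?_
    · exact M8.integrableOn_ball_of_continuous continuous_const _ _
    · refine M8.integrableOn_ball_of_continuous ?_ _ _
      have := continuous_Ac ε b i
      fun_prop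
    · have hy1 : |y i| ≤ 1 := by
        have h2 := PiLp.norm_apply_le y i
        rw [Real.norm_eq_abs] at h2
        rw [mem_ball_zero_iff] at hy
        linarith
      have hy2 : (y i) ^ 2 ≤ 1 := by
        rw [← sq_abs]
        exact pow_le_one₀ (abs_nonneg _) hy1
      have e2 : ε ^ 2 * (Ac ε b i y) ^ 2 = (y i - b i) ^ 2 := by
        unfold Ac
        field_simp
      nlinarith [sq_nonneg (2 * y i - b i)]
  have h3 : ∫ y in ball (0 : V d) 1, (2 * ε ^ 2 * (Ac ε b i y) ^ 2 + 2) ∂μ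
      = 2 * ε ^ 2 * (∫ y in ball (0 : V d) 1, (Ac ε b i y) ^ 2 ∂μ) + 2 * μ.real (ball (0 : V d) 1) := by
    rw [integral_add, integral_const_mul, setIntegral_const, smul_eq_mul]
    · ring
    · refine M8.integrableOn_ball_of_continuous ?_ _ _
      have := continuous_Ac ε b i
      fun_prop
    · exact M8.integrableOn_ball_of_continuous continuous_const _ _
  have he2 : ε ^ 2 ≤ 1 := pow_le_one₀ he.le h.eps1
  have h4 : ε ^ 2 * (∫ y in ball (0 : V d) 1, (Ac ε b i y) ^ 2 ∂μ) ≤ 1 := by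
    have h5 : (0 : ℝ) ≤ ∫ y in ball (0 : V d) 1, (Ac ε b i y) ^ 2 ∂μ :=
      integral_nonneg fun y => sq_nonneg _
    rw [one_pow] at hg
    nlinarith
  have hm : 0 < μ.real (ball (0 : V d) 1) := lt_of_lt_of_le (by positivity) hlow
  have hCC : 1 ≤ C * μ.real (ball (0 : V d) 1) := by
    have := mul_le_mul_of_nonneg_left hlow (by linarith : (0 : ℝ) ≤ C)
    rwa [mul_inv_cancel₀ (by linarith)] at this
  have h6 : (b i) ^ 2 * μ.real (ball (0 : V d) 1) ≤ (4 * C) * μ.real (ball (0 : V d) 1) := by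
    nlinarith
  have h7 : (b i) ^ 2 ≤ 4 * C := le_of_mul_le_mul_right h6 hm
  rw [← abs_of_pos (by linarith : (0 : ℝ) < 2 * C)]
  apply sq_le_sq.1
  nlinarith

theorem abs_Ac_le (h : Dat n C D μ ε b) {i : Fin d} (hi : n ≤ (i : ℕ)) {y : V d}
    (hy : 1 ≤ ‖y‖) : |Ac ε b i y| ≤ (1 + 2 * C) / ε * ‖y‖ := by
  have he := h.eps
  have hC := h.adr.one_le
  unfold Ac
  rw [abs_div, abs_of_pos he, div_mul_eq_mul_div]
  gcongr
  have h1 := h.abs_b_le hi
  have h2 := PiLp.norm_apply_le y i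
  rw [Real.norm_eq_abs] at h2
  calc |y i - b i| ≤ |y i| + |b i| := abs_sub _ _
    _ ≤ ‖y‖ + 2 * C * ‖y‖ := by nlinarith
    _ = (1 + 2 * C) * ‖y‖ := by ring

/-- the far integral of `A - a` is small at all large radii -/
theorem farI_le (n d : ℕ) (C : ℝ) : ∃ K : ℝ, 0 < K ∧
    ∀ (D : ℝ≥0∞) (μ : Measure (V d)) (ε : ℝ) (b : V d), Dat n C D μ ε b →
    ∀ (i : Fin d), n ≤ (i : ℕ) → ∀ (a r R : ℝ), 1 ≤ r → r ≤ (ε ^ 3)⁻¹ →
    farI n μ (fun y => Ac ε b i y - a) 0 r R ≤ K * (1 + |a|) * ((√r)⁻¹ + ε ^ 2) := by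
  rcases lt_or_ge C 0 with hC | hC
  · refine ⟨1, one_pos, fun D μ ε b h => ?_⟩
    have := h.adr.one_le
    linarith
  obtain ⟨K1, hK1, hK1'⟩ := M8.farI_growth n d C hC
  obtain ⟨K2, hK2, hK2'⟩ := M8.farI_lin n d C hC
  refine ⟨K1 * (2 + 2 * C) + K2 * (1 + 2 * C), by positivity, ?_⟩
  intro D μ ε b h i hi a r R hr hrM
  have he := h.eps
  have hC1 := h.adr.one_le
  have hfin : IsFiniteMeasureOnCompacts μ := M8.adr_finiteOnCompacts h.adr
  have hwc : Continuous (fun y => Ac ε b i y - a) := (continuous_Ac ε b i).sub continuous_const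
  have hM1 := h.M1
  have hs := M8.farI_split (R := R) (n := n) h.adr.upperReg hwc (0 : V d) (zero_lt_one.trans_le hr) hrM
  have h1 : farI n μ (fun y => Ac ε b i y - a) 0 r (ε ^ 3)⁻¹ ≤ K1 * ((2 + 2 * C) * (1 + |a|)) / √r := by
    refine hK1' μ h.adr.upperReg _ hwc 0 _ r _ (by positivity) (zero_lt_one.trans_le hr) ?_
    intro s hrs hsM
    have hs1 : 1 ≤ s := hr.trans hrs
    have hg := h.growth hi hs1 hsM
    have h2 : ∫ y in ball (0 : V d) s, (Ac ε b i y - a) ^ 2 ∂μ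
        ≤ ∫ y in ball (0 : V d) s, (2 * (Ac ε b i y) ^ 2 + 2 * a ^ 2) ∂μ := by
      apply integral_mono
      · exact M8.integrableOn_ball_of_continuous (hwc.pow 2) _ _
      · refine M8.integrableOn_ball_of_continuous ?_ _ _
        have := continuous_Ac ε b i
        fun_prop
      · intro y
        show (Ac ε b i y - a) ^ 2 ≤ 2 * (Ac ε b i y) ^ 2 + 2 * a ^ 2
        nlinarith [sq_nonneg (Ac ε b i y + a)]
    refine h2.trans ?_
    rw [integral_add, integral_const_mul, setIntegral_const, smul_eq_mul]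
    · have h3 : μ.real (ball (0 : V d) s) ≤ C * s ^ n := h.adr.real_ball_le _ (by linarith)
      have h4 : C * s ^ n ≤ C * s ^ (n + 3) := by
        gcongr
        omega
      have ha : 0 ≤ |a| := abs_nonneg a
      have hsn : 0 < s ^ (n + 3) := by positivity
      calc 2 * (∫ y in ball (0 : V d) s, (Ac ε b i y) ^ 2 ∂μ) + μ.real (ball (0 : V d) s) * (2 * a ^ 2)
          ≤ 2 * s ^ (n + 3) + (C * s ^ (n + 3)) * (2 * a ^ 2) := by
            gcongr
            exact h3.trans h4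
        _ = (2 + 2 * C * |a| ^ 2) * s ^ (n + 3) := by rw [sq_abs]; ring
        _ ≤ ((2 + 2 * C) * (1 + |a|)) ^ 2 * s ^ (n + 3) := by
            gcongr
            nlinarith [mul_nonneg ha ha, mul_nonneg hC ha, mul_nonneg (mul_nonneg hC ha) ha,
              mul_nonneg (mul_nonneg hC hC) (mul_nonneg ha ha), mul_nonneg (mul_nonneg hC hC) ha]
    · refine M8.integrableOn_ball_of_continuous ?_ _ _
      have := continuous_Ac ε b i
      fun_prop
    · exact M8.integrableOn_ball_of_continuous continuous_const _ _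
  have h2 : farI n μ (fun y => Ac ε b i y - a) 0 (ε ^ 3)⁻¹ R
      ≤ K2 * (((1 + 2 * C) * (1 + |a|)) / ε) / (ε ^ 3)⁻¹ := by
    refine hK2' μ h.adr.upperReg _ hwc 0 _ _ R (by positivity) (by positivity) ?_
    intro y hy
    rw [dist_zero_right] at hy ⊢
    have hy1 : 1 ≤ ‖y‖ := hM1.trans hy
    have h3 := h.abs_Ac_le hi hy1
    have h4 : |a| ≤ ((1 + 2 * C) * |a|) / ε * ‖y‖ := by
      have h5 : 1 ≤ (1 + 2 * C) / ε * ‖y‖ := by
        have : 1 ≤ (1 + 2 * C) / ε := by
          rw [le_div_iff₀ he]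
          linarith [h.eps1]
        nlinarith
      calc |a| = |a| * 1 := by ring
        _ ≤ |a| * ((1 + 2 * C) / ε * ‖y‖) := by gcongr
        _ = ((1 + 2 * C) * |a|) / ε * ‖y‖ := by ring
    calc |Ac ε b i y - a| ≤ |Ac ε b i y| + |a| := abs_sub _ _
      _ ≤ (1 + 2 * C) / ε * ‖y‖ + ((1 + 2 * C) * |a|) / ε * ‖y‖ := add_le_add h3 h4
      _ = ((1 + 2 * C) * (1 + |a|)) / ε * ‖y‖ := by ring
  refine (hs.trans (add_le_add h1 h2)).trans ?_
  have e1 : K2 * (((1 + 2 * C) * (1 + |a|)) / ε) / (ε ^ 3)⁻¹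
      = K2 * (1 + 2 * C) * (1 + |a|) * ε ^ 2 := by
    field_simp
  rw [e1, div_eq_mul_inv]
  have hr0 : 0 ≤ (√r)⁻¹ := by positivity
  have ha : 0 ≤ |a| := abs_nonneg a
  have he2 : 0 ≤ ε ^ 2 := by positivity
  have hx : 0 ≤ K1 * (2 + 2 * C) * (1 + |a|) := by positivity
  have hy : 0 ≤ K2 * (1 + 2 * C) * (1 + |a|) := by positivity
  nlinarith [mul_nonneg hx he2, mul_nonneg hy hr0]

/-- `Bf` of the normalised coordinate -/
theorem Bf_Ac (n : ℕ) {d : ℕ} (μ : Measure (V d)) (N ε : ℝ) (b : V d) (i : Fin d)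
    (ψ : V d → ℝ) :
    Bf n μ N (Ac ε b i) ψ = ε⁻¹ * Bf n μ N (lin (EuclideanSpace.single i 1)) ψ := by
  unfold Bf
  rw [mul_left_comm, ← integral_const_mul ε⁻¹]
  congr 1
  refine integral_congr_ae (Eventually.of_forall fun p => ?_)
  simp only [Ac, lin, EuclideanSpace.inner_single_right]
  simp
  ring

/-- sup bound for a compactly supported Lipschitz function -/
theorem abs_le_of_lip {ψ : V d → ℝ} (i : Fin d) {K0 ρ : ℝ} (hρ : 0 ≤ ρ)
    (hl : ∀ y z, |ψ y - ψ z| ≤ K0 * dist y z) (hs : ∀ y, y ∉ ball (0 : V d) ρ → ψ y = 0)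
    (y : V d) (hK0 : 0 ≤ K0) : |ψ y| ≤ 2 * ρ * K0 := by
  by_cases hy : y ∈ ball (0 : V d) ρ
  · rw [mem_ball_zero_iff] at hy
    set z : V d := y + (2 * ρ) • EuclideanSpace.single i (1 : ℝ) with hz
    have h1 : dist y z = 2 * ρ := by
      rw [hz, dist_eq_norm, sub_add_cancel_left, norm_neg, norm_smul]
      simp [abs_of_nonneg hρ]
    have h2 : z ∉ ball (0 : V d) ρ := by
      rw [mem_ball_zero_iff, not_lt]
      have h3 := norm_sub_norm_le ((2 * ρ) • EuclideanSpace.single i (1 : ℝ)) (-y)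
      rw [sub_neg_eq_add, norm_neg, norm_smul] at h3
      simp only [Real.norm_eq_abs, abs_mul, abs_two, abs_of_nonneg hρ, PiLp.norm_single,
        mul_one, norm_one] at h3
      rw [add_comm] at h3
      linarith
    have h4 := hl y z
    rw [hs z h2, sub_zero, h1] at h4
    linarith
  · rw [hs y hy, abs_zero]
    positivity

/-- large `N` bound from the oscillation hypothesis -/
theorem eta_bf (h : Dat n C D μ ε b) (i : Fin d) {ψ : V d → ℝ} {K1 ρ : ℝ} (hK1 : 0 ≤ K1)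
    (hρ : ρ ≤ (ε ^ 3)⁻¹)
    (hl : ∀ y z, |ψ y - ψ z| ≤ K1 * dist y z) (hb : ∀ y, |ψ y| ≤ K1)
    (hs : ∀ y, y ∉ ball (0 : V d) ρ → ψ y = 0) (hz : ∫ y, ψ y ∂μ = 0) :
    ∀ᶠ N : ℝ in atTop, |Bf n μ N (Ac ε b i) ψ| ≤ K1 * ε ^ 2 := by
  have he := h.eps
  rcases hK1.eq_or_lt with hK | hK
  · refine Eventually.of_forall fun N => ?_
    have h0 : ψ = fun _ => 0 := by
      ext y
      have := hb y
      rw [← hK] at this
      exact abs_nonpos_iff.1 this
    have : Bf n μ N (Ac ε b i) ψ = 0 := by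
      unfold Bf
      rw [h0]
      simp
    rw [this, abs_zero]
    positivity
  · have h1 := h.eta (EuclideanSpace.single i (1 : ℝ)) (by simp) (fun y => K1⁻¹ * ψ y)
      (fun y z => by
        rw [← mul_sub, abs_mul, abs_of_pos (inv_pos.2 hK), div_one, inv_mul_le_iff₀ hK]
        exact hl y z)
      (fun y => by
        rw [abs_mul, abs_of_pos (inv_pos.2 hK), inv_mul_le_iff₀ hK, mul_one]
        exact hb y)
      (fun y hy => by
        rw [hs y, mul_zero]
        intro hy'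
        exact hy (ball_subset_ball (by linarith) hy'))
      (by rw [integral_const_mul, hz, mul_zero])
    filter_upwards [h1] with N hN
    rw [LR.bf_smul_right, abs_mul, abs_of_pos (inv_pos.2 hK), inv_mul_le_iff₀ hK, one_pow,
      mul_one] at hN
    rw [Bf_Ac, abs_mul, abs_of_pos (inv_pos.2 he), inv_mul_le_iff₀ he]
    calc _ ≤ K1 * ε ^ 3 := hN
      _ = ε * (K1 * ε ^ 2) := by ring

theorem isTest_of (K0 ρ : ℝ) (hK0 : 0 ≤ K0) {ψ : V d → ℝ}
    (hl : ∀ y z, |ψ y - ψ z| ≤ K0 * dist y z)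
    (hs : ∀ y, y ∉ ball (0 : V d) ρ → ψ y = 0) : IsTest ψ := by
  refine ⟨⟨K0.toNNReal, ?_⟩, ?_⟩
  · apply LipschitzWith.of_dist_le_mul
    intro y z
    rw [Real.dist_eq, Real.coe_toNNReal _ hK0]
    exact hl y z
  · apply HasCompactSupport.of_support_subset_isCompact (isCompact_closedBall (0 : V d) ρ)
    intro y hy
    by_contra hy'
    exact hy (hs y fun h => hy' (ball_subset_closedBall h))

theorem integral_abs_le (h : Dat n C D μ ε b) {i : Fin d} (hi : n ≤ (i : ℕ)) {R : ℝ}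
    (hR : 1 ≤ R) (hRM : R ≤ (ε ^ 3)⁻¹) :
    ∫ y in ball (0 : V d) R, |Ac ε b i y| ∂μ ≤ C * R ^ (n + 3) := by
  have hC := h.adr.one_le
  have hfin : IsFiniteMeasureOnCompacts μ := M8.adr_finiteOnCompacts h.adr
  have hc := continuous_Ac ε b i
  have h1 : ∫ y in ball (0 : V d) R, |Ac ε b i y| ∂μ
      ≤ ∫ y in ball (0 : V d) R, ((1 / 2 : ℝ) * (Ac ε b i y) ^ 2 + 1 / 2) ∂μ := by
    apply integral_mono
    · exact M8.integrableOn_ball_of_continuous hc.abs _ _
    · exact M8.integrableOn_ball_of_continuous (by fun_prop) _ _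
    · intro y
      show |Ac ε b i y| ≤ (1 / 2 : ℝ) * (Ac ε b i y) ^ 2 + 1 / 2
      rw [← sq_abs]
      nlinarith [sq_nonneg (|Ac ε b i y| - 1)]
  refine h1.trans ?_
  rw [integral_add, integral_const_mul, setIntegral_const, smul_eq_mul]
  · have h2 := h.growth hi hR hRM
    have h3 : μ.real (ball (0 : V d) R) ≤ C * R ^ n := h.adr.real_ball_le _ (by linarith)
    have h4 : C * R ^ n ≤ C * R ^ (n + 3) := by
      gcongr
      omega
    have h5 : 0 < R ^ (n + 3) := by positivity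
    nlinarith
  · exact M8.integrableOn_ball_of_continuous (by fun_prop) _ _
  · exact M8.integrableOn_ball_of_continuous continuous_const _ _

/-- **uniform smallness of the form** -/
theorem bf_le (n d : ℕ) (C : ℝ) (hn : 1 ≤ n) : ∃ K : ℝ, 0 < K ∧
    ∀ (D : ℝ≥0∞) (μ : Measure (V d)) (ε : ℝ) (b : V d), Dat n C D μ ε b →
    ∀ (i : Fin d), n ≤ (i : ℕ) → ∀ (K0 ρ N : ℝ), 0 ≤ K0 → 1 ≤ ρ → 8 * ρ ≤ N → N ≤ (ε ^ 3)⁻¹ →
    ∀ ψ : V d → ℝ, (∀ y z, |ψ y - ψ z| ≤ K0 * dist y z) →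
    (∀ y, y ∉ ball (0 : V d) ρ → ψ y = 0) → ∫ y, ψ y ∂μ = 0 →
    |Bf n μ N (Ac ε b i) ψ| ≤ K * K0 * ρ ^ (n + 4) * ((√N)⁻¹ + ε ^ 2) := by
  rcases lt_or_ge C 0 with hC | hC
  · refine ⟨1, one_pos, fun D μ ε b h => ?_⟩
    have := h.adr.one_le
    linarith
  obtain ⟨K1, hK1, hK1'⟩ := tail n d C hC hn
  obtain ⟨K2, hK2, hK2'⟩ := farI_le n d C
  refine ⟨2 + K1 * (2 * C) + K1 * (2 * C) * (2 * K2), by positivity, ?_⟩
  intro D μ ε b h i hi K0 ρ N hK0 hρ hN hNM ψ hl hs hz
  have he := h.eps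
  have hC1 := h.adr.one_le
  have hfin : IsFiniteMeasureOnCompacts μ := M8.adr_finiteOnCompacts h.adr
  have hρ0 : 0 < ρ := by linarith
  have hN0 : 0 < N := by linarith
  have hbd := fun y => abs_le_of_lip i hρ0.le hl hs y hK0
  have htest := isTest_of K0 ρ hK0 hl hs
  have hMψ : 0 ≤ 2 * ρ * K0 := by positivity
  -- choose N'
  have hev := h.eta_bf i (ψ := ψ) (K1 := 2 * ρ * K0) (ρ := ρ) hMψ (by linarith)
    (fun y z => (hl y z).trans (by
      have := dist_nonneg (x := y) (y := z)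
      have : K0 ≤ 2 * ρ * K0 := by nlinarith
      gcongr)) hbd hs hz
  obtain ⟨N', hN'1, hN'2⟩ := (hev.and (eventually_ge_atTop N)).exists
  have ht := hK1' μ h.adr.upperReg (Ac ε b i) (h.locLip_Ac i) ψ htest hz 0 ρ N N' 0 hρ0 hs hN hN'2
  have hf := hK2' D μ ε b h i hi 0 (N / 2) (4 * N') (by linarith) (by linarith)
  simp only [abs_zero, add_zero, mul_one] at hf
  have e0 : farI n μ (fun y => Ac ε b i y - 0) 0 (N / 2) (4 * N')
    = farI n μ (fun y => Ac ε b i y - 0) 0 (N / 2) (4 * N') := rfl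
  -- integrals
  have hψc : Continuous ψ := htest.continuous
  have hsupp : ∀ f : V d → ℝ, ∫ y, |ψ y| * f y ∂μ = ∫ y in ball (0 : V d) ρ, |ψ y| * f y ∂μ := by
    intro f
    rw [← integral_indicator measurableSet_ball]
    congr 1
    ext y
    by_cases hy : y ∈ ball (0 : V d) ρ
    · rw [indicator_of_mem hy]
    · rw [indicator_of_notMem hy, hs y hy, abs_zero, zero_mul]
  have hi1 : ∫ y, |ψ y| * |Ac ε b i y - 0| ∂μ ≤ 2 * ρ * K0 * (C * ρ ^ (n + 3)) := by
    rw [hsupp]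
    calc ∫ y in ball (0 : V d) ρ, |ψ y| * |Ac ε b i y - 0| ∂μ
        ≤ ∫ y in ball (0 : V d) ρ, (2 * ρ * K0) * |Ac ε b i y| ∂μ := by
          have hc := continuous_Ac ε b i
          apply integral_mono
          · exact M8.integrableOn_ball_of_continuous (by fun_prop) _ _
          · exact M8.integrableOn_ball_of_continuous (by fun_prop) _ _
          · intro y
            show |ψ y| * |Ac ε b i y - 0| ≤ (2 * ρ * K0) * |Ac ε b i y|
            rw [sub_zero]
            gcongr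
            exact hbd y
      _ ≤ 2 * ρ * K0 * (C * ρ ^ (n + 3)) := by
          rw [integral_const_mul]
          gcongr
          exact h.integral_abs_le hi hρ (by linarith)
  have hi2 : ∫ y, |ψ y| ∂μ ≤ 2 * ρ * K0 * (C * ρ ^ n) := by
    have e1 : ∫ y, |ψ y| ∂μ = ∫ y, |ψ y| * 1 ∂μ := by simp
    rw [e1, hsupp]
    calc ∫ y in ball (0 : V d) ρ, |ψ y| * 1 ∂μ
        ≤ ∫ y in ball (0 : V d) ρ, (2 * ρ * K0) ∂μ := by
          apply integral_mono
          · exact M8.integrableOn_ball_of_continuous (by fun_prop) _ _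
          · exact M8.integrableOn_ball_of_continuous continuous_const _ _
          · intro y
            show |ψ y| * 1 ≤ 2 * ρ * K0
            rw [mul_one]
            exact hbd y
      _ ≤ 2 * ρ * K0 * (C * ρ ^ n) := by
          rw [setIntegral_const, smul_eq_mul, mul_comm]
          gcongr
          exact h.adr.real_ball_le _ hρ0
  -- square roots
  have hN1 : 1 ≤ N := by linarith
  have hsq1 : 1 ≤ √N := Real.one_le_sqrt.2 hN1
  have hsq : N⁻¹ ≤ (√N)⁻¹ := by
    apply inv_anti₀ (by positivity)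
    nth_rewrite 2 [← Real.mul_self_sqrt hN0.le]
    nlinarith
  have hsq2 : (√(N / 2))⁻¹ ≤ 2 * (√N)⁻¹ := by
    have h3 : √N ≤ 2 * √(N / 2) := by
      rw [Real.sqrt_le_left (by positivity), mul_pow, Real.sq_sqrt (by positivity)]
      linarith
    have h4 : 0 < √(N / 2) := Real.sqrt_pos.2 (by positivity)
    rw [← div_eq_mul_inv, le_div_iff₀ (by positivity), inv_mul_le_iff₀ h4]
    linarith
  set T : ℝ := (√N)⁻¹ + ε ^ 2 with hT
  have hT0 : 0 ≤ (√N)⁻¹ := by positivity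
  have he2 : 0 ≤ ε ^ 2 := by positivity
  have hf' : farI n μ (fun y => Ac ε b i y - 0) 0 (N / 2) (4 * N') ≤ K2 * (2 * T) := by
    refine hf.trans ?_
    gcongr
    rw [hT]
    linarith
  have hfar0 : 0 ≤ farI n μ (fun y => Ac ε b i y - 0) 0 (N / 2) (4 * N') :=
    integral_nonneg fun y => by positivity
  have hρn : 1 ≤ ρ ^ n := one_le_pow₀ hρ
  have hρ4 : ρ ≤ ρ ^ (n + 4) := by
    calc ρ = ρ ^ 1 := (pow_one ρ).symm
      _ ≤ ρ ^ (n + 4) := pow_le_pow_right₀ hρ (by omega)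
  have hstep1 : |Bf n μ N' (Ac ε b i) ψ| ≤ 2 * K0 * ρ ^ (n + 4) * T := by
    refine hN'1.trans ?_
    calc 2 * ρ * K0 * ε ^ 2 = 2 * K0 * ρ * ε ^ 2 := by ring
      _ ≤ 2 * K0 * ρ ^ (n + 4) * T := by
        gcongr
        rw [hT]
        linarith
  have hstep2 : N⁻¹ * (∫ y, |ψ y| * |Ac ε b i y - 0| ∂μ) ≤ 2 * C * K0 * ρ ^ (n + 4) * T := by
    calc N⁻¹ * (∫ y, |ψ y| * |Ac ε b i y - 0| ∂μ)
        ≤ T * (2 * ρ * K0 * (C * ρ ^ (n + 3))) := by
          have : N⁻¹ ≤ T := by rw [hT]; linarith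
          gcongr
      _ = 2 * C * K0 * ρ ^ (n + 4) * T := by ring
  have hstep3 : ρ * (∫ y, |ψ y| ∂μ) * farI n μ (fun y => Ac ε b i y - 0) 0 (N / 2) (4 * N')
      ≤ 2 * C * (2 * K2) * K0 * ρ ^ (n + 4) * T := by
    calc ρ * (∫ y, |ψ y| ∂μ) * farI n μ (fun y => Ac ε b i y - 0) 0 (N / 2) (4 * N')
        ≤ ρ * (2 * ρ * K0 * (C * ρ ^ n)) * (K2 * (2 * T)) := by gcongr
      _ = 2 * C * (2 * K2) * K0 * ρ ^ (n + 2) * T := by ring
      _ ≤ 2 * C * (2 * K2) * K0 * ρ ^ (n + 4) * T := by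
          gcongr
          norm_num
  have habs : |Bf n μ N (Ac ε b i) ψ| ≤ |Bf n μ N' (Ac ε b i) ψ|
      + |Bf n μ N' (Ac ε b i) ψ - Bf n μ N (Ac ε b i) ψ| := by
    have := abs_sub_abs_le_abs_sub (Bf n μ N (Ac ε b i) ψ) (Bf n μ N' (Ac ε b i) ψ)
    rw [abs_sub_comm] at this
    linarith
  calc |Bf n μ N (Ac ε b i) ψ| ≤ 2 * K0 * ρ ^ (n + 4) * T
        + K1 * (2 * C * K0 * ρ ^ (n + 4) * T + 2 * C * (2 * K2) * K0 * ρ ^ (n + 4) * T) := by
        refine habs.trans (add_le_add hstep1 (ht.trans ?_))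
        gcongr
    _ = (2 + K1 * (2 * C) + K1 * (2 * C) * (2 * K2)) * K0 * ρ ^ (n + 4) * T := by ring

/-- **energy bound** -/
theorem energy_le (n d : ℕ) (C : ℝ) (hn : 1 ≤ n) (R : ℝ) (hR : 1 ≤ R) : ∃ H : ℝ, 0 < H ∧
    ∀ (D : ℝ≥0∞) (μ : Measure (V d)) (ε : ℝ) (b : V d), Dat n C D μ ε b → 4 * R ≤ (ε ^ 3)⁻¹ →
    ∀ (i : Fin d), n ≤ (i : ℕ) → En n μ (Ac ε b i) 0 R ≤ H := by
  rcases lt_or_ge C 0 with hC | hC
  · refine ⟨1, one_pos, fun D μ ε b h => ?_⟩
    have := h.adr.one_le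
    linarith
  obtain ⟨K1, hK1, hK1'⟩ := cacc n d C hC hn
  obtain ⟨K2, hK2, hK2'⟩ := farI_le n d C
  set a0 : ℝ := C * (C * (2 * R) ^ (n + 3)) with ha0
  have ha00 : 0 ≤ a0 := by positivity
  set I0 : ℝ := 2 * (4 * R) ^ (n + 3) + 2 * a0 ^ 2 * (C * (4 * R) ^ n) with hI0
  have hI00 : 0 ≤ I0 := by positivity
  set I1 : ℝ := C * (2 * R) ^ (n + 3) + a0 * (C * (2 * R) ^ n) with hI1
  have hI10 : 0 ≤ I1 := by positivity
  set B0 : ℝ := 2 * R + 2 * C + a0 with hB0
  have hB00 : 0 ≤ B0 := by positivity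
  refine ⟨2 * (2 * B0 + 1) + K1 * (I0 + R * I1 * (K2 * (1 + a0) * 2)), by positivity, ?_⟩
  intro D μ ε b h hRM i hi
  have he := h.eps
  have he1 := h.eps1
  have hC1 := h.adr.one_le
  have hfin : IsFiniteMeasureOnCompacts μ := M8.adr_finiteOnCompacts h.adr
  have hR0 : 0 < R := by linarith
  have hAc := continuous_Ac ε b i
  -- the weight
  set q : V d → ℝ := fun y => cut (dist y 0 / R) ^ 2 with hq
  have hqc : Continuous q := by
    have := continuous_cut
    rw [hq]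
    fun_prop
  have hq0 : ∀ y, 0 ≤ q y := fun y => sq_nonneg _
  have hq1 : ∀ y, q y ≤ 1 := fun y => pow_le_one₀ (cut_nonneg _) (cut_le_one _)
  have hqs : ∀ y, y ∉ ball (0 : V d) (2 * R) → q y = 0 := by
    intro y hy
    rw [mem_ball, not_lt] at hy
    show cut (dist y 0 / R) ^ 2 = 0
    rw [cut_of_ge ((le_div_iff₀ hR0).2 hy)]
    norm_num
  have hqone : ∀ y, y ∈ ball (0 : V d) 1 → q y = 1 := by
    intro y hy
    rw [mem_ball] at hy
    show cut (dist y 0 / R) ^ 2 = 1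
    rw [cut_of_le ((div_le_one hR0).2 (by linarith))]
    norm_num
  have hql : ∀ y z, |q y - q z| ≤ 2 * dist y z := by
    intro y z
    have h1 := phi_lip (d := d) 0 hR0 y z
    have h2 : |cut (dist y 0 / R) + cut (dist z 0 / R)| ≤ 2 := by
      rw [abs_of_nonneg (add_nonneg (cut_nonneg _) (cut_nonneg _))]
      linarith [cut_le_one (dist y 0 / R), cut_le_one (dist z 0 / R)]
    have h3 : dist y z / R ≤ dist y z := div_le_self dist_nonneg hR
    calc |q y - q z| = |cut (dist y 0 / R) + cut (dist z 0 / R)|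
          * |cut (dist y 0 / R) - cut (dist z 0 / R)| := by
          rw [← abs_mul]
          congr 1
          show cut (dist y 0 / R) ^ 2 - cut (dist z 0 / R) ^ 2 = _
          ring
      _ ≤ 2 * dist y z := by
          gcongr
          exact h1.trans h3
  have hqsupp : HasCompactSupport q := by
    apply HasCompactSupport.of_support_subset_isCompact (isCompact_closedBall (0 : V d) (2 * R))
    intro y hy
    by_contra hy'
    exact hy (hqs y fun h => hy' (ball_subset_closedBall h))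
  have hqi : Integrable q μ := hqc.integrable_of_hasCompactSupport hqsupp
  have hAqi : Integrable (fun y => Ac ε b i y * q y) μ :=
    (hAc.mul hqc).integrable_of_hasCompactSupport hqsupp.mul_left
  have hQ : C⁻¹ ≤ ∫ y, q y ∂μ := by
    have h1 : C⁻¹ ≤ μ.real (ball (0 : V d) 1) := by
      have := h.adr.le_real_ball h.mem one_pos
        (le_trans (ENNReal.ofReal_le_ofReal h.M1) h.hD)
      simpa using this
    refine h1.trans ?_
    have h2 : μ.real (ball (0 : V d) 1) = ∫ y, (ball (0 : V d) 1).indicator (fun _ => (1 : ℝ)) y ∂μ := by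
      rw [integral_indicator measurableSet_ball, setIntegral_const, smul_eq_mul, mul_one]
    rw [h2]
    apply integral_mono
    · rw [integrable_indicator_iff measurableSet_ball]
      exact M8.integrableOn_ball_of_continuous continuous_const _ _
    · exact hqi
    · intro y
      by_cases hy : y ∈ ball (0 : V d) 1
      · simp only [indicator_of_mem hy]
        rw [hqone y hy]
      · simp only [indicator_of_notMem hy]
        exact hq0 y
  have hC0 : 0 < C := by linarith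
  have hQ0 : 0 < ∫ y, q y ∂μ := lt_of_lt_of_le (by positivity) hQ
  -- the mean
  set a : ℝ := (∫ y, Ac ε b i y * q y ∂μ) / (∫ y, q y ∂μ) with ha
  have hmean : ∫ y, (Ac ε b i y - a) * cut (dist y 0 / R) ^ 2 ∂μ = 0 := by
    have e1 : (fun y => (Ac ε b i y - a) * cut (dist y 0 / R) ^ 2)
        = fun y => Ac ε b i y * q y - a * q y := by
      ext y
      simp only [hq]
      ring
    rw [e1, integral_sub hAqi (hqi.const_mul a), integral_const_mul, ha,
      div_mul_cancel₀ _ hQ0.ne', sub_self]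
  have habs : |∫ y, Ac ε b i y * q y ∂μ| ≤ C * (2 * R) ^ (n + 3) := by
    calc |∫ y, Ac ε b i y * q y ∂μ| ≤ ∫ y, |Ac ε b i y * q y| ∂μ := abs_integral_le_integral_abs
      _ = ∫ y in ball (0 : V d) (2 * R), |Ac ε b i y * q y| ∂μ := by
          rw [← integral_indicator measurableSet_ball]
          congr 1
          ext y
          by_cases hy : y ∈ ball (0 : V d) (2 * R)
          · rw [indicator_of_mem hy]
          · rw [indicator_of_notMem hy, hqs y hy, mul_zero, abs_zero]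
      _ ≤ ∫ y in ball (0 : V d) (2 * R), |Ac ε b i y| ∂μ := by
          apply integral_mono
          · exact M8.integrableOn_ball_of_continuous (by fun_prop) _ _
          · exact M8.integrableOn_ball_of_continuous (by fun_prop) _ _
          · intro y
            show |Ac ε b i y * q y| ≤ |Ac ε b i y|
            rw [abs_mul, abs_of_nonneg (hq0 y)]
            exact mul_le_of_le_one_right (abs_nonneg _) (hq1 y)
      _ ≤ C * (2 * R) ^ (n + 3) := h.integral_abs_le hi (by linarith) (by linarith)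
  have haa : |a| ≤ a0 := by
    rw [ha, abs_div, abs_of_pos hQ0, div_le_iff₀ hQ0, ha0]
    calc |∫ y, Ac ε b i y * q y ∂μ| ≤ C * (2 * R) ^ (n + 3) := habs
      _ = C * (C * (2 * R) ^ (n + 3)) * C⁻¹ := by field_simp
      _ ≤ C * (C * (2 * R) ^ (n + 3)) * ∫ y, q y ∂μ := by gcongr
  -- the test function
  set p : V d → ℝ := fun y => y i - b i - ε * a with hp
  have hpl : ∀ y z, |p y - p z| ≤ dist y z := by
    intro y z
    have h1 : p y - p z = (y - z) i := by
      simp only [hp, PiLp.sub_apply]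
      ring
    rw [h1, dist_eq_norm]
    have := PiLp.norm_apply_le (y - z) i
    rwa [Real.norm_eq_abs] at this
  have hpb : ∀ y ∈ ball (0 : V d) (2 * R), |p y| ≤ B0 := by
    intro y hy
    rw [mem_ball_zero_iff] at hy
    have h1 := PiLp.norm_apply_le y i
    rw [Real.norm_eq_abs] at h1
    have h2 := h.abs_b_le hi
    have h3 : |ε * a| ≤ a0 := by
      rw [abs_mul, abs_of_pos he]
      calc ε * |a| ≤ 1 * a0 := by gcongr
        _ = a0 := one_mul _
    calc |p y| ≤ |y i - b i| + |ε * a| := abs_sub _ _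
      _ ≤ (|y i| + |b i|) + |ε * a| := by gcongr; exact abs_sub _ _
      _ ≤ (2 * R + 2 * C) + a0 := by gcongr; linarith
      _ = B0 := by rw [hB0]
  set ψ2 : V d → ℝ := fun y => p y * q y with hψ2
  have hψ2l : ∀ y z, |ψ2 y - ψ2 z| ≤ (2 * B0 + 1) * dist y z := by
    have key : ∀ y z, y ∈ ball (0 : V d) (2 * R) → |ψ2 y - ψ2 z| ≤ (2 * B0 + 1) * dist y z := by
      intro y z hy
      have h1 : ψ2 y - ψ2 z = p y * (q y - q z) + q z * (p y - p z) := by
        simp only [hψ2]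
        ring
      rw [h1]
      calc |p y * (q y - q z) + q z * (p y - p z)|
          ≤ |p y| * |q y - q z| + |q z| * |p y - p z| := by
            refine (abs_add_le _ _).trans ?_
            rw [abs_mul, abs_mul]
        _ ≤ B0 * (2 * dist y z) + 1 * dist y z := by
            gcongr
            · exact hpb y hy
            · exact hql y z
            · rw [abs_of_nonneg (hq0 z)]
              exact hq1 z
            · exact hpl y z
        _ = (2 * B0 + 1) * dist y z := by ring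
    intro y z
    by_cases hy : y ∈ ball (0 : V d) (2 * R)
    · exact key y z hy
    · by_cases hz : z ∈ ball (0 : V d) (2 * R)
      · rw [abs_sub_comm, dist_comm]
        exact key z y hz
      · simp only [hψ2]
        rw [hqs y hy, hqs z hz]
        simp only [mul_zero, sub_zero, abs_zero]
        positivity
  have hψ2b : ∀ y, |ψ2 y| ≤ 2 * B0 + 1 := by
    intro y
    by_cases hy : y ∈ ball (0 : V d) (2 * R)
    · show |p y * q y| ≤ _
      rw [abs_mul, abs_of_nonneg (hq0 y)]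
      have := hpb y hy
      have h3 := hq0 y
      have h4 := hq1 y
      nlinarith [abs_nonneg (p y)]
    · show |p y * q y| ≤ _
      rw [hqs y hy, mul_zero, abs_zero]
      positivity
  have hψ2s : ∀ y, y ∉ ball (0 : V d) (2 * R) → ψ2 y = 0 := by
    intro y hy
    show p y * q y = 0
    rw [hqs y hy, mul_zero]
  have hψeq : (fun y => (Ac ε b i y - a) * cut (dist y 0 / R) ^ 2) = fun y => ε⁻¹ * ψ2 y := by
    ext y
    simp only [hψ2, hp, hq, Ac]
    field_simp
  have hψ2z : ∫ y, ψ2 y ∂μ = 0 := by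
    rw [hψeq, integral_const_mul] at hmean
    rcases mul_eq_zero.1 hmean with h0 | h0
    · exact absurd h0 (inv_pos.2 he).ne'
    · exact h0
  have hev := h.eta_bf i (ψ := ψ2) (K1 := 2 * B0 + 1) (ρ := 2 * R) (by positivity) (by linarith)
    hψ2l hψ2b hψ2s hψ2z
  obtain ⟨N, hN1, hN2⟩ := (hev.and (eventually_ge_atTop (8 * R))).exists
  have hmain := hK1' μ h.adr.upperReg (Ac ε b i) (h.locLip_Ac i) 0 R N a hR0 hN2 hmean
  have hBf : |Bf n μ N (Ac ε b i) (fun y => (Ac ε b i y - a) * cut (dist y 0 / R) ^ 2)|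
      ≤ 2 * B0 + 1 := by
    rw [hψeq, LR.bf_smul_right, abs_mul, abs_of_pos (inv_pos.2 he), inv_mul_le_iff₀ he]
    refine hN1.trans ?_
    calc (2 * B0 + 1) * ε ^ 2 = (2 * B0 + 1) * ε * ε := by ring
      _ ≤ (2 * B0 + 1) * ε * 1 := by gcongr
      _ = ε * (2 * B0 + 1) := by ring
  have hwc : Continuous (fun y => Ac ε b i y - a) := hAc.sub continuous_const
  have hI : ∫ y in ball (0 : V d) (4 * R), (Ac ε b i y - a) ^ 2 ∂μ ≤ I0 := by
    have h2 : ∫ y in ball (0 : V d) (4 * R), (Ac ε b i y - a) ^ 2 ∂μ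
        ≤ ∫ y in ball (0 : V d) (4 * R), (2 * (Ac ε b i y) ^ 2 + 2 * a ^ 2) ∂μ := by
      apply integral_mono
      · exact M8.integrableOn_ball_of_continuous (hwc.pow 2) _ _
      · exact M8.integrableOn_ball_of_continuous (by fun_prop) _ _
      · intro y
        show (Ac ε b i y - a) ^ 2 ≤ 2 * (Ac ε b i y) ^ 2 + 2 * a ^ 2
        nlinarith [sq_nonneg (Ac ε b i y + a)]
    refine h2.trans ?_
    rw [integral_add, integral_const_mul, setIntegral_const, smul_eq_mul]
    · have h3 : μ.real (ball (0 : V d) (4 * R)) ≤ C * (4 * R) ^ n :=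
        h.adr.real_ball_le _ (by linarith)
      have h4 : a ^ 2 ≤ a0 ^ 2 := by
        rw [← sq_abs]
        gcongr
      have h6 := h.growth hi (R := 4 * R) (by linarith) hRM
      calc 2 * (∫ y in ball (0 : V d) (4 * R), (Ac ε b i y) ^ 2 ∂μ)
            + μ.real (ball (0 : V d) (4 * R)) * (2 * a ^ 2)
          ≤ 2 * (4 * R) ^ (n + 3) + (C * (4 * R) ^ n) * (2 * a0 ^ 2) := by gcongr
        _ = I0 := by rw [hI0]; ring
    · exact M8.integrableOn_ball_of_continuous (by fun_prop) _ _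
    · exact M8.integrableOn_ball_of_continuous continuous_const _ _
  have hJ : ∫ y in ball (0 : V d) (2 * R), |Ac ε b i y - a| ∂μ ≤ I1 := by
    have h2 : ∫ y in ball (0 : V d) (2 * R), |Ac ε b i y - a| ∂μ
        ≤ ∫ y in ball (0 : V d) (2 * R), (|Ac ε b i y| + |a|) ∂μ := by
      apply integral_mono
      · exact M8.integrableOn_ball_of_continuous hwc.abs _ _
      · exact M8.integrableOn_ball_of_continuous (by fun_prop) _ _
      · intro y
        exact abs_sub _ _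
    refine h2.trans ?_
    rw [integral_add, setIntegral_const, smul_eq_mul]
    · have h3 : μ.real (ball (0 : V d) (2 * R)) ≤ C * (2 * R) ^ n :=
        h.adr.real_ball_le _ (by linarith)
      have h6 := h.integral_abs_le hi (R := 2 * R) (by linarith) (by linarith)
      calc (∫ y in ball (0 : V d) (2 * R), |Ac ε b i y| ∂μ)
            + μ.real (ball (0 : V d) (2 * R)) * |a|
          ≤ C * (2 * R) ^ (n + 3) + (C * (2 * R) ^ n) * a0 := by gcongr
        _ = I1 := by rw [hI1]; ring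
    · exact M8.integrableOn_ball_of_continuous (by fun_prop) _ _
    · exact M8.integrableOn_ball_of_continuous continuous_const _ _
  have hF : farI n μ (fun y => Ac ε b i y - a) 0 (4 * R) (4 * N) ≤ K2 * (1 + a0) * 2 := by
    refine (hK2' D μ ε b h i hi a (4 * R) (4 * N) (by linarith) hRM).trans ?_
    have h7 : (√(4 * R))⁻¹ ≤ 1 := inv_le_one_of_one_le₀ (Real.one_le_sqrt.2 (by linarith))
    have h8 : ε ^ 2 ≤ 1 := pow_le_one₀ he.le he1
    gcongr
    linarith
  have hfar0 : 0 ≤ farI n μ (fun y => Ac ε b i y - a) 0 (4 * R) (4 * N) :=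
    integral_nonneg fun y => by positivity
  have hJ0 : 0 ≤ ∫ y in ball (0 : V d) (2 * R), |Ac ε b i y - a| ∂μ :=
    integral_nonneg fun y => abs_nonneg _
  have hII : R⁻¹ * ∫ y in ball (0 : V d) (4 * R), (Ac ε b i y - a) ^ 2 ∂μ ≤ I0 := by
    have h9 : R⁻¹ ≤ 1 := inv_le_one_of_one_le₀ hR
    have h10 : 0 ≤ ∫ y in ball (0 : V d) (4 * R), (Ac ε b i y - a) ^ 2 ∂μ :=
      integral_nonneg fun y => sq_nonneg _
    calc R⁻¹ * ∫ y in ball (0 : V d) (4 * R), (Ac ε b i y - a) ^ 2 ∂μ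
        ≤ 1 * I0 := by gcongr
      _ = I0 := one_mul _
  refine hmain.trans ?_
  gcongr

/-- energy bound in the form of `M8SL2` -/
theorem enr_le (n d : ℕ) (C : ℝ) (hn : 1 ≤ n) (R : ℝ) (hR : 1 ≤ R) : ∃ H : ℝ, 0 < H ∧
    ∀ (D : ℝ≥0∞) (μ : Measure (V d)) (ε : ℝ) (b : V d), Dat n C D μ ε b → 4 * R ≤ (ε ^ 3)⁻¹ →
    ∀ (i : Fin d), n ≤ (i : ℕ) → M8.enr n μ (Ac ε b i) R ≤ ENNReal.ofReal H := by
  obtain ⟨H, hH, hH'⟩ := energy_le n d C hn R hR
  refine ⟨H, hH, fun D μ ε b h hRM i hi => ?_⟩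
  have hC1 := h.adr.one_le
  have hC0 : 0 ≤ C := by linarith
  have hσ : SigmaFinite μ := h.adr.upperReg.sigmaFinite
  have hR0 : 0 < R := by linarith
  have hAc := continuous_Ac ε b i
  have hS : MeasurableSet (ball (0 : V d) R ×ˢ ball (0 : V d) R : Set (V d × V d)) :=
    measurableSet_ball.prod measurableSet_ball
  have hmeas : Measurable fun p : V d × V d =>
      (Ac ε b i p.1 - Ac ε b i p.2) ^ 2 * (‖p.1 - p.2‖ ^ (n + 1))⁻¹ := by
    have h1 : Measurable (fun p : V d × V d => (Ac ε b i p.1 - Ac ε b i p.2) ^ 2) := by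
      exact (by fun_prop : Continuous
        (fun p : V d × V d => (Ac ε b i p.1 - Ac ε b i p.2) ^ 2)).measurable
    have h2 : Measurable (fun p : V d × V d => (‖p.1 - p.2‖ ^ (n + 1))⁻¹) := by
      exact (by fun_prop : Continuous (fun p : V d × V d => ‖p.1 - p.2‖ ^ (n + 1))).measurable.inv
    exact h1.mul h2
  have hint : IntegrableOn (fun p : V d × V d =>
      (Ac ε b i p.1 - Ac ε b i p.2) ^ 2 * (‖p.1 - p.2‖ ^ (n + 1))⁻¹)
      (ball (0 : V d) R ×ˢ ball (0 : V d) R) (μ.prod μ) := by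
    rw [← integrable_indicator_iff hS]
    refine integrable_of_near h.adr.upperReg hC0 hn 0 hR0 (hmeas.indicator hS)
      (M := (ε⁻¹) ^ 2) (by positivity) ?_ ?_
    · intro p hp1 hp2
      rw [indicator_of_mem (mk_mem_prod hp1 hp2), abs_of_nonneg (by positivity)]
      have h3 := (h.lipschitz_Ac i).dist_le_mul p.1 p.2
      rw [Real.dist_eq, Real.coe_toNNReal _ (inv_nonneg.2 h.eps.le), dist_eq_norm] at h3
      have h4 : (Ac ε b i p.1 - Ac ε b i p.2) ^ 2 ≤ (ε⁻¹) ^ 2 * ‖p.1 - p.2‖ ^ 2 := by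
        rw [← sq_abs, ← mul_pow]
        gcongr
      calc (Ac ε b i p.1 - Ac ε b i p.2) ^ 2 * (‖p.1 - p.2‖ ^ (n + 1))⁻¹
          ≤ ((ε⁻¹) ^ 2 * ‖p.1 - p.2‖ ^ 2) * (‖p.1 - p.2‖ ^ (n + 1))⁻¹ := by gcongr
        _ = (ε⁻¹) ^ 2 * (‖p.1 - p.2‖ ^ 2 * (‖p.1 - p.2‖ ^ (n + 1))⁻¹) := by ring
        _ ≤ (ε⁻¹) ^ 2 * (‖p.1 - p.2‖ ^ (n - 1))⁻¹ := by
            gcongr
            exact norm_sq_mul_inv_le n hn _
    · intro p hp
      rw [indicator_of_notMem]
      rw [mem_prod]
      exact hp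
  have hen := hH' D μ ε b h hRM i hi
  unfold M8.enr
  rw [← ofReal_integral_eq_lintegral_ofReal hint]
  · exact ENNReal.ofReal_le_ofReal hen
  · exact Eventually.of_forall fun p => by positivity

end Dat

end Crest.Agent.R085
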