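import Crest.Agent.R085.M8Energy
import Crest.Agent.R085.M8Sim
import Crest.Agent.R085.M8Coord
import Crest.Agent.R085.Targets

/-!
R085, M8 (propagation): the assembly, `TPropagation` from `TConst`.
-/

set_option autoImplicit false

open MeasureTheory Metric Set Filter
open scoped ENNReal NNReal Topology

namespace Crest.Agent.R085

namespace Dat

variable {n d : ℕ} {C : ℝ} {D : ℝ≥0∞} {μ : Measure (V d)} {ε : ℝ} {b : V d}

/-- support points are close to the plane -/
theorem near_plane (h : Dat n C D μ ε b) {i : Fin d} (hi : n ≤ (i : ℕ)) {y : V d}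
    (hy : y ∈ μ.support) {R s : ℝ} (hs : 0 < s) (hs1 : s ≤ 1) (hyR : ‖y‖ + s ≤ R) (hR : 1 ≤ R)
    (hRM : R ≤ (ε ^ 3)⁻¹) (hsm : ε ^ 2 * R ^ (n + 3) < C⁻¹ * s ^ (n + 2)) :
    |y i - b i| < 2 * s := by
  by_contra hcon
  rw [not_lt] at hcon
  have he := h.eps
  have hC := h.adr.one_le
  have hfin : IsFiniteMeasureOnCompacts μ := M8.adr_finiteOnCompacts h.adr
  have hlow : C⁻¹ * s ^ n ≤ μ.real (ball y s) :=
    h.adr.le_real_ball hy hs (le_trans (ENNReal.ofReal_le_ofReal (hs1.trans h.M1)) h.hD)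
  have hsub : ball y s ⊆ ball (0 : V d) R := by
    intro z hz
    rw [mem_ball] at hz
    rw [mem_ball_zero_iff]
    have := norm_sub_norm_le z y
    rw [dist_eq_norm] at hz
    linarith
  have hnc : Continuous fun z : V d => nsq n (z - b) := by
    have := M8.continuous_nsq (n := n) (d := d)
    fun_prop
  have h1 : s ^ 2 * μ.real (ball y s) ≤ ∫ z in ball y s, nsq n (z - b) ∂μ := by
    have e1 : s ^ 2 * μ.real (ball y s) = ∫ _z in ball y s, s ^ 2 ∂μ := by
      rw [setIntegral_const, smul_eq_mul, mul_comm]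
    rw [e1]
    refine setIntegral_mono_on ?_ ?_ measurableSet_ball fun z hz => ?_
    · exact M8.integrableOn_ball_of_continuous continuous_const _ _
    · exact M8.integrableOn_ball_of_continuous hnc _ _
    · refine le_trans ?_ (sq_le_nsq hi (z - b))
      have h2 := PiLp.norm_apply_le (y - z) i
      rw [Real.norm_eq_abs, PiLp.sub_apply] at h2
      rw [mem_ball, dist_comm, dist_eq_norm] at hz
      have h3 : |y i - b i| ≤ |y i - z i| + |z i - b i| := abs_sub_le _ _ _
      have h4 : s ≤ |(z - b) i| := by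
        rw [PiLp.sub_apply]
        linarith
      rw [← sq_abs ((z - b) i)]
      gcongr
  have h2 : ∫ z in ball y s, nsq n (z - b) ∂μ ≤ ∫ z in ball (0 : V d) R, nsq n (z - b) ∂μ := by
    apply setIntegral_mono_set
    · exact M8.integrableOn_ball_of_continuous hnc _ _
    · exact Eventually.of_forall fun z => M8.nsq_nonneg _
    · exact hsub.eventuallyLE
  have h3 := h.flat R hR hRM
  have h4 : s ^ 2 * (C⁻¹ * s ^ n) ≤ s ^ 2 * μ.real (ball y s) := by gcongr
  have e2 : s ^ 2 * (C⁻¹ * s ^ n) = C⁻¹ * s ^ (n + 2) := by ring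
  have e3 : ε ^ 2 * R * R ^ (n + 2) = ε ^ 2 * R ^ (n + 3) := by ring
  linarith

end Dat

/-- limit objects of a sequence of normalised data -/
theorem Dat.limit {n d : ℕ} {C : ℝ} (hn : 1 ≤ n) {U : Ultrafilter ℕ} {μ : ℕ → Measure (V d)}
    {D : ℕ → ℝ≥0∞} {ε : ℕ → ℝ} {b : ℕ → V d} (hDat : ∀ k, Dat n C (D k) (μ k) (ε k) (b k))
    (hε : Tendsto ε U (𝓝 0)) :
    ∃ ν : Measure (V d), WLim U μ ν ∧ ADR n C ⊤ ν ∧ Refl n ν ∧ (0 : V d) ∈ ν.support ∧
      ∀ y ∈ ν.support, nsq n y = 0 := by
  have hM : Tendsto (fun k => ((ε k) ^ 3)⁻¹) (U : Filter ℕ) atTop := by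
    apply Tendsto.inv_tendsto_nhdsGT_zero
    rw [tendsto_nhdsWithin_iff]
    refine ⟨?_, Eventually.of_forall fun k => ?_⟩
    · have := hε.pow 3
      simpa using this
    · have := (hDat k).eps
      show 0 < (ε k) ^ 3
      positivity
  have hD : ∀ s : ℝ, ENNReal.ofReal s < ⊤ → ∀ᶠ k in (U : Filter ℕ), ENNReal.ofReal s ≤ D k := by
    intro s _
    filter_upwards [hM.eventually_ge_atTop s] with k hk
    exact (ENNReal.ofReal_le_ofReal hk).trans (hDat k).hD
  obtain ⟨ν, hν, hνA⟩ := exists_wLim_adr U μ (fun k => (hDat k).adr) hD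
  have h0 : (0 : V d) ∈ ν.support :=
    hν.mem_support_adr (Eventually.of_forall fun k => (hDat k).adr) one_pos
      (hD 1 ENNReal.ofReal_lt_top) (tendsto_const_nhds (x := (0 : V d)))
      (Eventually.of_forall fun k => (hDat k).mem)
  refine ⟨ν, hν, hνA, ?_, h0, ?_⟩
  · refine refl_of_wLim hn hν (C := C) (Eventually.of_forall fun k => (hDat k).adr.upperReg) ?_
    intro M δ hM0 hδ
    have h3 : Tendsto (fun k => (ε k) ^ 3) (U : Filter ℕ) (𝓝 0) := by
      have := hε.pow 3
      simpa using this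
    filter_upwards [hM.eventually_ge_atTop M, h3.eventually_le_const hδ] with k hk1 hk2
    exact (hDat k).eta.mono zero_le_one hk1 hk2
  · intro p hp
    have hCpos : 0 < C := lt_of_lt_of_le one_pos hνA.one_le
    have key : ∀ i : Fin d, n ≤ (i : ℕ) → p i = 0 := by
      intro i hi
      obtain ⟨y, hy1, hy2⟩ := hν.exists_tendsto_support hp
      have hle : ∀ s : ℝ, 0 < s → s ≤ 1 → |p i| ≤ 4 * s := by
        intro s hs hs1
        set R : ℝ := ‖p‖ + 2 with hR
        have hR1 : 1 ≤ R := by have := norm_nonneg p; linarith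
        have hc : 0 < C⁻¹ * s ^ (n + 2) := by positivity
        have h4 : Tendsto (fun k => (ε k) ^ 2 * R ^ (n + 3)) (U : Filter ℕ) (𝓝 0) := by
          have := (hε.pow 2).mul_const (R ^ (n + 3))
          simpa using this
        have h5 : Tendsto (fun k => ‖y k‖ + s) (U : Filter ℕ) (𝓝 (‖p‖ + s)) :=
          hy2.norm.add_const s
        have h6 : Tendsto (fun k => |y k i|) (U : Filter ℕ) (𝓝 |p i|) := by
          have hc : Continuous fun z : V d => |z i| := by fun_prop
          exact (hc.tendsto p).comp hy2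
        refine le_of_tendsto h6 ?_
        filter_upwards [hy1, h4.eventually_lt_const hc, hM.eventually_ge_atTop R,
          h5.eventually_lt_const (show ‖p‖ + s < R by linarith)] with k hk1 hk2 hk3 hk4
        have h7 := (hDat k).near_plane hi hk1 hs hs1 hk4.le hR1 hk3 hk2
        have h8 := (hDat k).near_plane hi (hDat k).mem hs hs1
          (by rw [norm_zero]; linarith [norm_nonneg p]) hR1 hk3 hk2
        rw [PiLp.zero_apply, zero_sub, abs_neg] at h8
        have h9 : |y k i| ≤ |y k i - b k i| + |b k i| := by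
          have := abs_add_le (y k i - b k i) (b k i)
          simpa using this
        linarith
      have h10 : |p i| ≤ 0 := by
        by_contra hcon
        rw [not_le] at hcon
        have h11 := hle (min 1 (|p i| / 8)) (by positivity) (min_le_left _ _)
        have h12 : min 1 (|p i| / 8) ≤ |p i| / 8 := min_le_right _ _
        linarith
      exact abs_nonpos_iff.1 h10
    unfold nsq
    apply Finset.sum_eq_zero
    intro i _
    split_ifs with hi
    · rw [key i hi]
      norm_num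
    · rfl

/-- **M8: propagation of flatness**, from the classification of flat reflectionless measures. -/
theorem propagation {n d : ℕ} (hn : 1 ≤ n) (hnd : n ≤ d) {C q : ℝ} (hT : TConst n d C)
    (hq : 0 < q) (hq5 : q ≤ 1 / 5) : TPropagation n d C q := by
  apply M8.propagation_of_normalised
  by_contra hcon
  push Not at hcon
  have hex : ∀ k : ℕ, ∃ (ε : ℝ) (μ : Measure (V d)) (D : ℝ≥0∞) (b : V d),
      ε ≤ 1 / ((k : ℝ) + 1) ∧ Dat n C D μ ε b ∧
      ∃ x' : V d, dist x' 0 ≤ 4 ∧ ¬ FlatW n μ x' q ε (ε ^ 3)⁻¹ := by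
    intro k
    obtain ⟨ε, hε, hεk, μ, D, hA, hD, h0, ⟨b, hb⟩, hE, x', hx', hx'4, hF⟩ :=
      hcon (1 / ((k : ℝ) + 1)) (by positivity)
    refine ⟨ε, μ, D, b, hεk, ⟨hA, hε, hεk.trans ?_, hD, h0, hb, hE⟩, x', hx'4, hF⟩
    rw [div_le_one (by positivity)]
    have : (0 : ℝ) ≤ k := Nat.cast_nonneg k
    linarith
  choose ε μ D b hεk hDat x' hx'4 hF using hex
  set U : Ultrafilter ℕ := Filter.hyperfilter ℕ with hU
  have hUle : (U : Filter ℕ) ≤ atTop := by
    rw [← Nat.cofinite_eq_atTop]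
    exact Filter.hyperfilter_le_cofinite
  have hε : Tendsto ε U (𝓝 0) := by
    refine Tendsto.mono_left ?_ hUle
    refine squeeze_zero (fun k => (hDat k).eps.le) hεk ?_
    exact tendsto_one_div_add_atTop_nhds_zero_nat
  have hM : Tendsto (fun k => ((ε k) ^ 3)⁻¹) (U : Filter ℕ) atTop := by
    apply Tendsto.inv_tendsto_nhdsGT_zero
    rw [tendsto_nhdsWithin_iff]
    refine ⟨?_, Eventually.of_forall fun k => ?_⟩
    · have := hε.pow 3
      simpa using this
    · have := (hDat k).eps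
      show 0 < (ε k) ^ 3
      positivity
  obtain ⟨ν, hν, hνA, hνR, hν0, hνf⟩ := Dat.limit hn hDat hε
  obtain ⟨c, hc, hc2⟩ := hT ν hνA hνR ⟨0, hν0⟩ hνf
  have hco : ∀ i : Fin d, ∃ (t : ℝ) (B : V n), n ≤ (i : ℕ) →
      ∀ f : V d → ℝ, Continuous f → HasCompactSupport f →
      Tendsto (fun k => ∫ y, f y * Ac (ε k) (b k) i y ∂(μ k)) U
        (𝓝 (∫ y, f y * M8.aff t B y ∂ν)) := by
    intro i
    by_cases hi : n ≤ (i : ℕ)
    · obtain ⟨t, B, h⟩ := M8.coord_affine hn hnd U hDat hε hν hc hc2 i hi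
      exact ⟨t, B, fun _ => h⟩
    · exact ⟨0, 0, fun h => absurd h hi⟩
  choose t B hco using hco
  have hD1 : ∀ᶠ k in (U : Filter ℕ), 1 ≤ D k := by
    refine Eventually.of_forall fun k => ?_
    have h1 := (ENNReal.ofReal_le_ofReal (hDat k).M1).trans (hDat k).hD
    rwa [ENNReal.ofReal_one] at h1
  have hSL : ∀ i : Fin d, n ≤ (i : ℕ) → ∀ R : ℝ, 0 < R → Tendsto (fun k =>
      ∫ y in ball (0 : V d) R, ((y i - b k i) / ε k - M8.aff (t i) (B i) y) ^ 2 ∂(μ k)) U
      (𝓝 0) := by
    intro i hi R hR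
    obtain ⟨H, hH, hH'⟩ := Dat.enr_le n d C hn (R + 2) (by linarith)
    refine M8.sl2_tendsto_of_vague (n := n) (C0 := C) (Ds := D) (u := fun k => Ac (ε k) (b k) i)
      (ν := ν) (L := ‖B i‖) (H := H) hν.tendsto (Eventually.of_forall fun k => (hDat k).adr) hD1
      (Eventually.of_forall fun k => Dat.continuous_Ac _ _ _) (norm_nonneg _) ?_ (hco i hi) hR ?_
    · intro x y
      unfold M8.aff
      rw [add_sub_add_left_eq_sub, ← inner_sub_right]
      refine (abs_real_inner_le_norm _ _).trans ?_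
      gcongr
      have : prj n x - prj n y = prj n (x - y) := by
        ext j
        rw [PiLp.sub_apply, M8.prj_apply _ hnd, M8.prj_apply _ hnd, M8.prj_apply _ hnd,
          PiLp.sub_apply]
      rw [this, dist_eq_norm]
      exact M8.norm_prj_le _ hnd
    · filter_upwards [hM.eventually_ge_atTop (4 * (R + 2))] with k hk
      exact hH' (D k) (μ k) (ε k) (b k) (hDat k) hk i hi
  have hfin := M8.tilt_tendsto (n := n) hnd (l := (U : Filter ℕ)) (μs := μ) (C0 := C) (Ds := D)
    (Eventually.of_forall fun k => (hDat k).adr) (b := b) (ε := ε)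
    (M := fun k => ((ε k) ^ 3)⁻¹) (Eventually.of_forall fun k => (hDat k).eps) hM hq hq5
    (t := t) (B := B) (Eventually.of_forall fun k => (hDat k).flat) hSL
  obtain ⟨k, hk⟩ := hfin.exists
  exact hF k (hk (x' k) (hx'4 k))

end Crest.Agent.R085
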