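import Crest.Agent.R085.Tail
import Crest.Agent.R085.M8Far
import Crest.Agent.R085.Resc
import Crest.Agent.R085.Lim2

/-!
R085, module M8: the input (SM): the weak equation for the rescaled normal coordinates holds up to
a small error, uniformly over the test functions.
Owner: helper237.
-/

set_option autoImplicit false

namespace Crest.Agent.R085.M8

open MeasureTheory Metric Set Filter
open scoped ENNReal NNReal Topology

variable {d : ℕ}

namespace SmallAux

theorem sq_le_nsq {n : ℕ} (z : V d) {i : Fin d} (hi : n ≤ (i : ℕ)) : (z i) ^ 2 ≤ nsq n z := by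
  unfold nsq
  have h1 : (if n ≤ (i : ℕ) then (z i) ^ 2 else 0) = (z i) ^ 2 := if_pos hi
  rw [← h1]
  refine Finset.single_le_sum (f := fun i : Fin d => if n ≤ (i : ℕ) then (z i) ^ 2 else 0)
    (fun j _ => ?_) (Finset.mem_univ i)
  simp only
  split_ifs <;> positivity

/-- the rescaled normal coordinate. -/
noncomputable def nc (e : ℝ) (b : V d) (i : Fin d) : V d → ℝ := fun y => (y i - b i) / e

theorem nc_sub {e : ℝ} (b : V d) (i : Fin d) (y z : V d) :
    nc e b i y - nc e b i z = e⁻¹ * (y i - z i) := by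
  unfold nc; ring

theorem continuous_nc (e : ℝ) (b : V d) (i : Fin d) : Continuous (nc e b i) := by
  unfold nc
  have : Continuous fun y : V d => y i := (EuclideanSpace.proj (𝕜 := ℝ) i).continuous
  fun_prop

theorem abs_coord_le (z : V d) (i : Fin d) : |z i| ≤ ‖z‖ := by
  have := PiLp.norm_apply_le z i
  rwa [Real.norm_eq_abs] at this

theorem locLip_nc {e : ℝ} (he : 0 < e) (b : V d) (i : Fin d) : LocLip (nc e b i) := by
  intro R
  refine ⟨⟨e⁻¹, by positivity⟩, LipschitzOnWith.of_dist_le_mul fun y _ z _ => ?_⟩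
  rw [Real.dist_eq, nc_sub, abs_mul, abs_of_pos (inv_pos.2 he), dist_eq_norm]
  have h := abs_coord_le (y - z) i
  rw [PiLp.sub_apply] at h
  exact mul_le_mul_of_nonneg_left h (inv_pos.2 he).le

theorem integrableOn_ball_of_continuous {μ : Measure (V d)} [IsLocallyFiniteMeasure μ]
    {f : V d → ℝ} (hf : Continuous f) (x : V d) (R : ℝ) : IntegrableOn f (ball x R) μ :=
  (hf.continuousOn.integrableOn_compact (isCompact_closedBall x R)).mono_set
    ball_subset_closedBall

theorem integral_nc_sq_le {n : ℕ} {μ : Measure (V d)} [IsLocallyFiniteMeasure μ] {e : ℝ}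
    (he : 0 < e) {b : V d} {i : Fin d} (hi : n ≤ (i : ℕ)) {s : ℝ}
    (h : ∫ y in ball (0 : V d) s, nsq n (y - b) ∂μ ≤ e ^ 2 * s * s ^ (n + 2)) :
    ∫ y in ball (0 : V d) s, (nc e b i y) ^ 2 ∂μ ≤ 1 ^ 2 * s ^ (n + 3) := by
  have hc : Continuous fun y : V d => nsq n (y - b) :=
    (continuous_nsq n).comp (by fun_prop)
  have h1 : ∫ y in ball (0 : V d) s, (nc e b i y) ^ 2 ∂μ
      ≤ ∫ y in ball (0 : V d) s, (e ^ 2)⁻¹ * nsq n (y - b) ∂μ := by
    refine setIntegral_mono (integrableOn_ball_of_continuous ((continuous_nc e b i).pow 2) _ _)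
      ((integrableOn_ball_of_continuous hc _ _).const_mul _) fun y => ?_
    have h2 := sq_le_nsq (y - b) hi
    rw [PiLp.sub_apply] at h2
    unfold nc
    rw [div_pow, div_eq_inv_mul]
    gcongr
  refine h1.trans ?_
  rw [integral_const_mul]
  calc (e ^ 2)⁻¹ * ∫ y in ball (0 : V d) s, nsq n (y - b) ∂μ
      ≤ (e ^ 2)⁻¹ * (e ^ 2 * s * s ^ (n + 2)) := by gcongr
    _ = 1 ^ 2 * s ^ (n + 3) := by
      field_simp
      ring

theorem abs_b_lt {n : ℕ} {C : ℝ} {D : ℝ≥0∞} {μ : Measure (V d)} (hA : ADR n C D μ)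
    (h1D : ENNReal.ofReal 1 ≤ D) (h0 : (0 : V d) ∈ μ.support) {e : ℝ} {b : V d} {i : Fin d}
    (hi : n ≤ (i : ℕ)) (heC : e ^ 2 < C⁻¹)
    (h : ∫ y in ball (0 : V d) 1, nsq n (y - b) ∂μ ≤ e ^ 2) : |b i| < 2 := by
  by_contra hcon
  push Not at hcon
  have hlf : IsLocallyFiniteMeasure μ := hA.isLocallyFinite
  have hc : Continuous fun y : V d => nsq n (y - b) :=
    (continuous_nsq n).comp (by fun_prop)
  have hlow := hA.lower 0 h0 1 one_pos h1D
  rw [one_pow, mul_one] at hlow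
  have hfin : μ (ball (0 : V d) 1) ≠ ⊤ := (lt_of_le_of_lt (hA.upper 0 1 one_pos)
    ENNReal.ofReal_lt_top).ne
  have h1 : C⁻¹ ≤ μ.real (ball (0 : V d) 1) := by
    rw [Measure.real]
    exact (ENNReal.ofReal_le_iff_le_toReal hfin).1 hlow
  have h2 : μ.real (ball (0 : V d) 1) ≤ ∫ y in ball (0 : V d) 1, nsq n (y - b) ∂μ := by
    have h3 : ∫ y in ball (0 : V d) 1, (1 : ℝ) ∂μ ≤ ∫ y in ball (0 : V d) 1, nsq n (y - b) ∂μ := by
      refine setIntegral_mono_on (integrableOn_ball_of_continuous continuous_const _ _)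
        (integrableOn_ball_of_continuous hc _ _) measurableSet_ball fun y hy => ?_
      have h4 := sq_le_nsq (y - b) hi
      rw [PiLp.sub_apply] at h4
      refine le_trans ?_ h4
      have h5 := abs_coord_le y i
      rw [mem_ball, dist_zero_right] at hy
      have h6 : 1 ≤ |y i - b i| := by
        have := abs_sub_abs_le_abs_sub (b i) (y i)
        rw [abs_sub_comm] at this
        linarith
      rw [← sq_abs]
      nlinarith
    rwa [setIntegral_const, smul_eq_mul, mul_one] at h3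
  linarith

theorem lin_single (i : Fin d) (y : V d) : lin (EuclideanSpace.single i (1 : ℝ)) y = y i := by
  unfold lin
  rw [EuclideanSpace.inner_single_right]
  simp

theorem Bf_nc (n : ℕ) (μ : Measure (V d)) (N : ℝ) (e S : ℝ) (hS : S ≠ 0) (b : V d) (i : Fin d)
    (ψ : V d → ℝ) :
    Bf n μ N (nc e b i) ψ =
      e⁻¹ * S * Bf n μ N (lin (EuclideanSpace.single i (1 : ℝ))) (fun y => S⁻¹ * ψ y) := by
  unfold Bf
  have h : (fun p : V d × V d => (nc e b i p.1 - nc e b i p.2) * (ψ p.1 - ψ p.2) *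
      kN n N (p.1 - p.2)) = fun p : V d × V d => (e⁻¹ * S) *
        ((lin (EuclideanSpace.single i (1 : ℝ)) p.1 - lin (EuclideanSpace.single i (1 : ℝ)) p.2) *
          (S⁻¹ * ψ p.1 - S⁻¹ * ψ p.2) * kN n N (p.1 - p.2)) := by
    funext p
    rw [nc_sub, lin_single, lin_single]
    field_simp
  rw [h, integral_const_mul]
  ring

end SmallAux

open SmallAux in
/-- (SM) -/
theorem small_in (n d : ℕ) (hn : 1 ≤ n) (C : ℝ) (K0 ρ η : ℝ) (hη : 0 < η) :
    ∃ N0 : ℝ, ∀ N : ℝ, N0 ≤ N → ∃ e1 : ℝ, 0 < e1 ∧ ∀ (e : ℝ) (μ : Measure (V d)) (D : ℝ≥0∞)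
      (b : V d), 0 < e → e ≤ e1 → ADR n C D μ → ENNReal.ofReal ((e ^ 3)⁻¹) ≤ D →
      (0 : V d) ∈ μ.support →
      (∀ R : ℝ, 1 ≤ R → R ≤ (e ^ 3)⁻¹ →
        ∫ y in ball (0 : V d) R, nsq n (y - b) ∂μ ≤ e ^ 2 * R * R ^ (n + 2)) →
      EtaS n μ 0 1 (e ^ 3)⁻¹ (e ^ 3) →
      ∀ i : Fin d, n ≤ (i : ℕ) → ∀ ψ : V d → ℝ, (∀ x y, |ψ x - ψ y| ≤ K0 * ‖x - y‖) →
        (∀ x, x ∉ ball (0 : V d) ρ → ψ x = 0) → ∫ y, ψ y ∂μ = 0 →
        |Bf n μ N (fun y => (y i - b i) / e) ψ| ≤ η := by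
  by_cases hC1 : 1 ≤ C
  swap
  · refine ⟨0, fun N _ => ⟨1, one_pos, fun e μ D b _ _ hA => absurd hA.one_le hC1⟩⟩
  have hC0 : 0 < C := by linarith
  obtain ⟨Kt, hKt, htail⟩ := tail n d C hC0.le hn
  obtain ⟨Kg, hKg, hgrow⟩ := farI_growth n d C hC0.le
  obtain ⟨Kl, hKl, hlin⟩ := farI_lin n d C hC0.le
  set K1 : ℝ := max K0 0 with hK1
  have hK10 : 0 ≤ K1 := le_max_right _ _
  set r1 : ℝ := max ρ 1 with hr1
  have hr11 : 1 ≤ r1 := le_max_right _ _
  have hr10 : 0 < r1 := by linarith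
  set S : ℝ := 2 * K1 * r1 + K1 + 1 with hSdef
  have hS0 : 0 < S := by positivity
  set a1 : ℝ := S * (C * r1 ^ n + r1 ^ (n + 3)) with ha1
  have ha10 : 0 < a1 := by positivity
  set a2 : ℝ := r1 * (S * (C * r1 ^ n)) with ha2
  have ha20 : 0 < a2 := by positivity
  set a3 : ℝ := S + Kt * a2 * (3 * Kl) with ha3
  have ha30 : 0 < a3 := by positivity
  -- the threshold `N0`
  have hlim : Tendsto (fun N : ℝ => Kt * (N⁻¹ * a1 + a2 * (Kg * 1 / Real.sqrt (N / 2)))) atTop
      (𝓝 (Kt * (0 * a1 + a2 * 0))) := by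
    refine Tendsto.const_mul _ (Tendsto.add (tendsto_inv_atTop_zero.mul_const _)
      (Tendsto.const_mul _ ?_))
    refine Tendsto.div_atTop tendsto_const_nhds ?_
    exact Real.tendsto_sqrt_atTop.comp (tendsto_id.atTop_div_const (by norm_num))
  rw [zero_mul, mul_zero, add_zero, mul_zero] at hlim
  have hev : ∀ᶠ N : ℝ in atTop, Kt * (N⁻¹ * a1 + a2 * (Kg * 1 / Real.sqrt (N / 2))) < η / 2 ∧
      8 * r1 ≤ N ∧ 2 ≤ N :=
    (hlim.eventually (gt_mem_nhds (by positivity))).and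
      ((eventually_ge_atTop _).and (eventually_ge_atTop _))
  obtain ⟨N0, hN0⟩ := eventually_atTop.1 hev
  refine ⟨N0, fun N hN => ?_⟩
  obtain ⟨hNη, hN8, hN2⟩ := hN0 N hN
  have hNpos : 0 < N := by linarith
  -- the threshold `e1`
  refine ⟨min (min (min 1 (η / (2 * a3))) (1 / (2 * C))) (min (1 / r1) (2 / N)), by positivity, ?_⟩
  intro e μ D b he hee hA hD h0 hflat hE i hi ψ hψL hψ0 hψm
  have he1 : e ≤ 1 := hee.trans ((min_le_left _ _).trans ((min_le_left _ _).trans (min_le_left _ _)))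
  have heη : e ≤ η / (2 * a3) :=
    hee.trans ((min_le_left _ _).trans ((min_le_left _ _).trans (min_le_right _ _)))
  have heC : e ≤ 1 / (2 * C) := hee.trans ((min_le_left _ _).trans (min_le_right _ _))
  have her : e ≤ 1 / r1 := hee.trans ((min_le_right _ _).trans (min_le_left _ _))
  have heN : e ≤ 2 / N := hee.trans ((min_le_right _ _).trans (min_le_right _ _))
  have he2 : e ^ 2 ≤ e := by nlinarith
  have he3 : e ^ 3 ≤ e := by nlinarith [sq_nonneg e]
  have he30 : 0 < e ^ 3 := by positivity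
  set M : ℝ := (e ^ 3)⁻¹ with hMdef
  have hM0 : 0 < M := by positivity
  have heM : e⁻¹ ≤ M := inv_anti₀ he30 he3
  have hM1 : 1 ≤ M := le_trans (by rw [one_le_inv₀ he]; exact he1) heM
  have hMr : r1 ≤ M := by
    refine le_trans ?_ heM
    rw [le_inv_comm₀ hr10 he, ← one_div]
    exact her
  have hMN : N / 2 ≤ M := by
    refine le_trans ?_ heM
    rw [le_inv_comm₀ (by positivity) he, inv_div]
    exact heN
  have hlf : IsLocallyFiniteMeasure μ := hA.isLocallyFinite
  have hU : UpperReg n C μ := fun x r hr => hA.upper x r hr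
  set A : V d → ℝ := nc e b i with hAdef
  have hAeq : (fun y : V d => (y i - b i) / e) = A := rfl
  rw [hAeq]
  have hAc : Continuous A := continuous_nc e b i
  -- bounds for `ψ`
  have hψL1 : ∀ x y, |ψ x - ψ y| ≤ K1 * ‖x - y‖ := fun x y =>
    (hψL x y).trans (mul_le_mul_of_nonneg_right (le_max_left _ _) (norm_nonneg _))
  have hψ1 : ∀ x, x ∉ ball (0 : V d) r1 → ψ x = 0 := fun x hx =>
    hψ0 x (fun h => hx (ball_subset_ball (le_max_left _ _) h))
  have hψS : ∀ x, |ψ x| ≤ S := by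
    intro x
    by_cases hx : x ∈ ball (0 : V d) r1
    · set z : V d := EuclideanSpace.single i r1 with hz
      have hzn : ‖z‖ = r1 := by
        simp [hz, abs_of_pos hr10]
      have hz0 : ψ z = 0 := hψ1 z (by rw [mem_ball, dist_zero_right, hzn]; exact lt_irrefl _)
      have h1 := hψL1 x z
      rw [hz0, sub_zero] at h1
      rw [mem_ball, dist_zero_right] at hx
      have h2 : ‖x - z‖ ≤ 2 * r1 := (norm_sub_le x z).trans (by rw [hzn]; linarith)
      calc |ψ x| ≤ K1 * (2 * r1) := h1.trans (by gcongr)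
        _ ≤ S := by rw [hSdef]; nlinarith
    · rw [hψ1 x hx, abs_zero]; exact hS0.le
  have hψlip : LipschitzWith ⟨K1, hK10⟩ ψ := LipschitzWith.of_dist_le_mul fun x y => by
    rw [Real.dist_eq, dist_eq_norm]
    exact hψL1 x y
  have hψT : IsTest ψ := by
    refine ⟨⟨_, hψlip⟩, HasCompactSupport.intro (isCompact_closedBall (0 : V d) r1) fun x hx => ?_⟩
    exact hψ1 x fun h => hx (ball_subset_closedBall h)
  have hψc : Continuous ψ := hψlip.continuous
  have hmass : μ.real (ball (0 : V d) r1) ≤ C * r1 ^ n := by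
    rw [Measure.real]
    exact ENNReal.toReal_le_of_le_ofReal (by positivity) (hA.upper 0 r1 hr10)
  have hsuppint : ∀ f : V d → ℝ, (∀ x, x ∉ ball (0 : V d) r1 → f x = 0) →
      ∫ y, f y ∂μ = ∫ y in ball (0 : V d) r1, f y ∂μ := fun f hf =>
    (setIntegral_eq_integral_of_forall_compl_eq_zero hf).symm
  have hI1 : ∫ y, |ψ y| ∂μ ≤ S * (C * r1 ^ n) := by
    rw [hsuppint (fun y => |ψ y|) (fun x hx => by rw [hψ1 x hx, abs_zero])]
    calc ∫ y in ball (0 : V d) r1, |ψ y| ∂μ ≤ ∫ y in ball (0 : V d) r1, S ∂μ :=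
          setIntegral_mono (integrableOn_ball_of_continuous hψc.abs _ _)
            (integrableOn_ball_of_continuous continuous_const _ _) fun y => hψS y
      _ = S * μ.real (ball (0 : V d) r1) := by rw [setIntegral_const, smul_eq_mul, mul_comm]
      _ ≤ S * (C * r1 ^ n) := by gcongr
  have hI2 : ∫ y, |ψ y| * |A y - 0| ∂μ ≤ a1 := by
    rw [hsuppint (fun y => |ψ y| * |A y - 0|)
      (fun x hx => by rw [hψ1 x hx, abs_zero, zero_mul])]
    have hA2 := integral_nc_sq_le he hi (hflat r1 hr11 hMr)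
    calc ∫ y in ball (0 : V d) r1, |ψ y| * |A y - 0| ∂μ
        ≤ ∫ y in ball (0 : V d) r1, S * (1 + (A y) ^ 2) ∂μ := by
          refine setIntegral_mono (integrableOn_ball_of_continuous (by fun_prop) _ _)
            (integrableOn_ball_of_continuous (by fun_prop) _ _) fun y => ?_
          have h1 : |A y - 0| ≤ 1 + (A y) ^ 2 := by
            rw [sub_zero]
            nlinarith [sq_nonneg (|A y| - 1), sq_abs (A y), abs_nonneg (A y)]
          exact mul_le_mul (hψS y) h1 (abs_nonneg _) hS0.le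
      _ = S * (μ.real (ball (0 : V d) r1) + ∫ y in ball (0 : V d) r1, (A y) ^ 2 ∂μ) := by
          rw [integral_const_mul]
          congr 1
          have h3 := integral_add (μ := μ.restrict (ball (0 : V d) r1))
            (integrableOn_ball_of_continuous (μ := μ) (continuous_const (y := (1 : ℝ))) 0 r1)
            (integrableOn_ball_of_continuous (μ := μ) (hAc.pow 2) 0 r1)
          rw [setIntegral_const, smul_eq_mul, mul_one] at h3
          exact h3
      _ ≤ a1 := by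
          rw [ha1]
          rw [one_pow, one_mul] at hA2
          gcongr
  -- the oscillation bound
  have hsm : ∀ᶠ N' : ℝ in atTop, |Bf n μ N' A ψ| ≤ S * e ^ 2 := by
    have h1 := hE (EuclideanSpace.single i (1 : ℝ)) (by simp) (fun y => S⁻¹ * ψ y) ?_ ?_ ?_ ?_
    · filter_upwards [h1] with N' hN'
      rw [hAdef, Bf_nc n μ N' e S hS0.ne', abs_mul, abs_of_pos (by positivity : 0 < e⁻¹ * S)]
      rw [one_pow, mul_one] at hN'
      calc e⁻¹ * S * |Bf n μ N' (lin (EuclideanSpace.single i (1 : ℝ))) fun y => S⁻¹ * ψ y|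
          ≤ e⁻¹ * S * e ^ 3 := by gcongr
        _ = S * e ^ 2 := by field_simp
    · intro y z
      rw [← mul_sub, abs_mul, abs_of_pos (inv_pos.2 hS0), div_one, inv_mul_le_iff₀ hS0, dist_eq_norm]
      refine (hψL1 y z).trans (mul_le_mul_of_nonneg_right ?_ (norm_nonneg _))
      rw [hSdef]; nlinarith
    · intro y
      rw [abs_mul, abs_of_pos (inv_pos.2 hS0), inv_mul_le_iff₀ hS0, mul_one]
      exact hψS y
    · intro y hy
      rw [hψ1 y (fun h => hy (ball_subset_ball (by rw [mul_one]; exact hMr) h)), mul_zero]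
    · rw [integral_const_mul, hψm, mul_zero]
  obtain ⟨N', hN'1, hN'2⟩ := (hsm.and (eventually_ge_atTop N)).exists
  -- the tail
  have hT := htail μ hU A (locLip_nc he b i) ψ hψT hψm 0 r1 N N' 0 hr10 hψ1 hN8 hN'2
  have hbi : |b i| < 2 := by
    refine abs_b_lt hA ?_ h0 hi ?_ ?_ (e := e)
    · exact (ENNReal.ofReal_le_ofReal hM1).trans hD
    · calc e ^ 2 ≤ 1 / (2 * C) := he2.trans heC
        _ = C⁻¹ / 2 := by field_simp
        _ < C⁻¹ := half_lt_self (by positivity)
    · have := hflat 1 le_rfl hM1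
      simpa using this
  have hfar : farI n μ (fun y => A y - 0) 0 (N / 2) (4 * N') ≤
      Kg * 1 / Real.sqrt (N / 2) + 3 * Kl * e ^ 2 := by
    have hAc' : Continuous fun y => A y - 0 := by fun_prop
    refine (farI_split hU hAc' 0 (by positivity) hMN (4 * N')).trans (add_le_add ?_ ?_)
    · refine hgrow μ hU _ hAc' 0 1 (N / 2) M zero_le_one (by positivity) fun s hs1 hs2 => ?_
      simp only [sub_zero]
      exact integral_nc_sq_le he hi (hflat s (by linarith) hs2)
    · refine (hlin μ hU _ hAc' 0 (3 / e) M (4 * N') (by positivity) hM0 fun y hy => ?_).trans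
        (le_of_eq ?_)
      · rw [dist_zero_right] at hy ⊢
        have h1 := abs_coord_le y i
        have h2 : |y i - b i| ≤ 3 * ‖y‖ := by
          have := abs_sub (y i) (b i)
          linarith
        rw [sub_zero, hAdef]
        unfold nc
        rw [abs_div, abs_of_pos he, div_mul_eq_mul_div]
        gcongr
      · rw [hMdef]
        field_simp
  have hfar0 : 0 ≤ farI n μ (fun y => A y - 0) 0 (N / 2) (4 * N') := farI_nonneg _ _ _ _ _ _
  have hT2 : |Bf n μ N' A ψ - Bf n μ N A ψ| ≤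
      Kt * (N⁻¹ * a1 + a2 * (Kg * 1 / Real.sqrt (N / 2))) + Kt * a2 * (3 * Kl) * e ^ 2 := by
    refine hT.trans ?_
    have h1 : r1 * (∫ y, |ψ y| ∂μ) * farI n μ (fun y => A y - 0) 0 (N / 2) (4 * N') ≤
        a2 * (Kg * 1 / Real.sqrt (N / 2) + 3 * Kl * e ^ 2) := by
      rw [ha2]
      gcongr
    calc Kt * (N⁻¹ * (∫ y, |ψ y| * |A y - 0| ∂μ) +
          r1 * (∫ y, |ψ y| ∂μ) * farI n μ (fun y => A y - 0) 0 (N / 2) (4 * N'))
        ≤ Kt * (N⁻¹ * a1 + a2 * (Kg * 1 / Real.sqrt (N / 2) + 3 * Kl * e ^ 2)) := by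
          gcongr
      _ = _ := by ring
  have hfin : a3 * e ^ 2 ≤ η / 2 := by
    calc a3 * e ^ 2 ≤ a3 * (η / (2 * a3)) := by
          gcongr
          exact he2.trans heη
      _ = η / 2 := by field_simp
  have h1 : |Bf n μ N A ψ| ≤ |Bf n μ N' A ψ| + |Bf n μ N' A ψ - Bf n μ N A ψ| := by
    have h3 := abs_sub (Bf n μ N' A ψ) (Bf n μ N' A ψ - Bf n μ N A ψ)
    rwa [sub_sub_cancel] at h3
  have h2 : a3 * e ^ 2 = S * e ^ 2 + Kt * a2 * (3 * Kl) * e ^ 2 := by rw [ha3]; ring
  linarith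

end Crest.Agent.R085.M8
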