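import Crest.Agent.R085.Targets
import Crest.Agent.R085.P2Defs
import Crest.Agent.R085.Resc

/-!
R085, module M9 (analytic inputs). Owner: helper237.
-/

set_option autoImplicit false

namespace Crest.Agent.R085.M9

open MeasureTheory Metric Set Filter
open scoped ENNReal NNReal Topology

theorem integrableOn_nsq {d n : ℕ} {μ : Measure (V d)} [IsLocallyFiniteMeasure μ]
    (g : V d ≃ₗᵢ[ℝ] V d) (b y : V d) (s : ℝ) :
    IntegrableOn (fun z => nsq n (g z - b)) (ball y s) μ := by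
  have hc : Continuous (fun z : V d => nsq n (g z - b)) :=
    (continuous_nsq n).comp (by fun_prop)
  exact (hc.continuousOn.integrableOn_compact (isCompact_closedBall y s)).mono_set
    ball_subset_closedBall

/-- moving a flatness window to a nearby centre and a comparable smaller scale. -/
theorem flatW_of_near {d n : ℕ} {μ : Measure (V d)} [IsLocallyFiniteMeasure μ] {y v : V d}
    {s l ε0 M0 εa Ma b : ℝ} (hl : 0 < l) (hls : l ≤ s) (hsb : s ≤ b * l) (hb : 1 ≤ b)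
    (hd : dist v y ≤ 3 * l) (hM : 4 * M0 ≤ Ma) (hMa : 1 ≤ Ma)
    (hε : εa ^ 2 * (4 * b) ^ (n + 3) ≤ ε0 ^ 2) (h : FlatW n μ y s εa Ma) :
    FlatW n μ v l ε0 M0 := by
  obtain ⟨g, c, hg⟩ := h
  refine ⟨g, c, fun R hR1 hR2 => ?_⟩
  have hR0 : 0 < R := lt_of_lt_of_le hl hR1
  have hs0 : 0 < s := lt_of_lt_of_le hl hls
  set R' : ℝ := max s (4 * R) with hR'
  have hsR' : s ≤ R' := le_max_left _ _
  have h4R : 4 * R ≤ R' := le_max_right _ _
  have hR'0 : 0 < R' := lt_of_lt_of_le hs0 hsR'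
  have hR'Ma : R' ≤ Ma * s := by
    refine max_le ?_ ?_
    · nlinarith
    · calc 4 * R ≤ 4 * (M0 * l) := by linarith
        _ = (4 * M0) * l := by ring
        _ ≤ Ma * l := by gcongr
        _ ≤ Ma * s := by gcongr
  have hR'b : R' ≤ 4 * b * R := by
    refine max_le ?_ ?_
    · calc s ≤ b * l := hsb
        _ ≤ b * R := by gcongr
        _ ≤ 4 * b * R := by nlinarith [mul_pos (lt_of_lt_of_le one_pos hb) hR0]
    · nlinarith [mul_le_mul_of_nonneg_right hb hR0.le]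
  have hsub : ball v R ⊆ ball y R' := by
    intro z hz
    rw [mem_ball] at *
    calc dist z y ≤ dist z v + dist v y := dist_triangle _ _ _
      _ < R + 3 * l := by linarith
      _ ≤ 4 * R := by linarith
      _ ≤ R' := h4R
  have h1 : ∫ z in ball v R, nsq n (g z - c) ∂μ ≤ ∫ z in ball y R', nsq n (g z - c) ∂μ :=
    setIntegral_mono_set (integrableOn_nsq g c y R')
      (Filter.Eventually.of_forall fun z => nsq_nonneg n _)
      (Filter.Eventually.of_forall hsub)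
  refine h1.trans ((hg R' hsR' hR'Ma).trans ?_)
  have hb0 : 0 < b := lt_of_lt_of_le one_pos hb
  calc εa ^ 2 * (R' / s) * R' ^ (n + 2)
      ≤ εa ^ 2 * ((4 * b * R) / l) * (4 * b * R) ^ (n + 2) := by
        gcongr
    _ = (εa ^ 2 * (4 * b) ^ (n + 3)) * (R / l) * R ^ (n + 2) := by
        rw [mul_pow (4 * b) R (n + 2), pow_succ (4 * b) (n + 2)]
        ring
    _ ≤ ε0 ^ 2 * (R / l) * R ^ (n + 2) := by gcongr


lemma sc_add {ℓ b : ℝ} (k j : ℕ) : sc ℓ b (k + j) = sc ℓ b k / b ^ j := by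
  unfold sc
  rw [pow_add, div_div]

lemma sc_anti {ℓ b : ℝ} (hℓ : 0 < ℓ) (hb : 1 ≤ b) {i j : ℕ} (h : i ≤ j) :
    sc ℓ b j ≤ sc ℓ b i := by
  unfold sc
  have : 0 < b := lt_of_lt_of_le one_pos hb
  gcongr

theorem dist_c_c {d : ℕ} {S : Set (V d)} {x₀ : V d} {ℓ b : ℝ} {K : ℕ} (L : Lat S x₀ ℓ b K)
    (hℓ : 0 < ℓ) (hb : 16 ≤ b) {k : ℕ} (hk : k < K) {w : V d} (hw : w ∈ L.W) :
    dist (L.c k w) (L.c (k + 1) w) ≤ 4 * sc ℓ b k := by
  have h1 := L.c_dist k hk.le w hw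
  have h2 := L.c_dist (k + 1) hk w hw
  have h3 : sc ℓ b (k + 1) ≤ sc ℓ b k := sc_anti hℓ (by linarith) (Nat.le_succ k)
  calc dist (L.c k w) (L.c (k + 1) w) ≤ dist (L.c k w) w + dist w (L.c (k + 1) w) :=
        dist_triangle _ _ _
    _ ≤ 2 * sc ℓ b k + 2 * sc ℓ b (k + 1) := by rw [dist_comm (L.c k w) w]; linarith
    _ ≤ 4 * sc ℓ b k := by linarith

theorem exists_flat_subcell {d n : ℕ} {μ : Measure (V d)} [IsLocallyFiniteMeasure μ]
    {x₀ : V d} {ℓ b : ℝ} {K : ℕ} (L : Lat μ.support x₀ ℓ b K) (hℓ : 0 < ℓ) (hb : 16 ≤ b)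
    {εa δa ε0 M0 Ma : ℝ} (hδa : 0 < δa) {J : ℕ} (hJ : δa⁻¹ ≤ b ^ J) (hJ1 : 1 ≤ J)
    (hM : 4 * M0 ≤ Ma) (hMa : 1 ≤ Ma) (hε : εa ^ 2 * (4 * b) ^ (n + 3) ≤ ε0 ^ 2)
    {k : ℕ} (hk : k + J ≤ K) {w : V d} (hw : w ∈ L.top) {y : V d} (hy : y ∈ μ.support)
    (hxy : dist (L.c k w) y ≤ sc ℓ b k / 64) {s : ℝ} (hs1 : δa * sc ℓ b k ≤ s)
    (hs2 : s ≤ sc ℓ b k / 64) (hF : FlatW n μ y s εa Ma) :
    ∃ j ≤ J, ∃ w' ∈ L.cell k (L.c k w),
      FlatW n μ (L.c (k + j) w') (sc ℓ b (k + j)) ε0 M0 := by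
  classical
  have hb0 : 0 < b := by linarith
  have hb1 : 1 ≤ b := by linarith
  have hsk : 0 < sc ℓ b k := sc_pos hℓ hb0 k
  have hex : ∃ j, sc ℓ b (k + j) ≤ s := by
    refine ⟨J, ?_⟩
    rw [sc_add]
    refine le_trans ?_ hs1
    rw [div_le_iff₀ (by positivity)]
    have : 1 ≤ δa * b ^ J := by
      rw [inv_le_iff_one_le_mul₀ hδa] at hJ
      linarith
    nlinarith
  set j := Nat.find hex with hj
  have hjs : sc ℓ b (k + j) ≤ s := Nat.find_spec hex
  have hjJ : j ≤ J := by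
    refine Nat.find_min' hex ?_
    rw [sc_add]
    refine le_trans ?_ hs1
    rw [div_le_iff₀ (by positivity)]
    have : 1 ≤ δa * b ^ J := by
      rw [inv_le_iff_one_le_mul₀ hδa] at hJ
      linarith
    nlinarith
  have hj1 : 1 ≤ j := by
    by_contra hcon
    have hj0 : j = 0 := by omega
    rw [hj0] at hjs
    simp only [add_zero] at hjs
    linarith
  have hjs' : s ≤ b * sc ℓ b (k + j) := by
    have hmin := Nat.find_min hex (m := j - 1) (by omega)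
    push Not at hmin
    have h2 : sc ℓ b (k + (j - 1)) = b * sc ℓ b (k + j) := by
      have := sc_succ (ℓ := ℓ) hb0 (k + (j - 1))
      rw [this]
      congr 2
      omega
    rw [← h2]
    exact hmin.le
  have hwW : w ∈ L.W := (L.mem_top.1 hw).1
  have hwc : L.c 0 w = x₀ := (L.mem_top.1 hw).2
  have hkK : k ≤ K := by omega
  have hcw : L.c k w ∈ L.W := L.c_mem k hkK w hwW
  -- the leaf near y
  have hy10 : dist y x₀ ≤ 10 * ℓ := by
    have h1 : dist (L.c k w) x₀ ≤ 2 * ℓ := by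
      have h := L.c_dist 0 (Nat.zero_le K) (L.c k w) hcw
      rw [L.c_comp 0 k (Nat.zero_le k) hkK w hwW, hwc, sc_zero] at h
      exact h
    have h2 : sc ℓ b k ≤ ℓ := by
      have := sc_anti (b := b) hℓ hb1 (Nat.zero_le k)
      rwa [sc_zero] at this
    calc dist y x₀ ≤ dist y (L.c k w) + dist (L.c k w) x₀ := dist_triangle _ _ _
      _ ≤ sc ℓ b k / 64 + 2 * ℓ := by rw [dist_comm y]; linarith
      _ ≤ 10 * ℓ := by linarith
  obtain ⟨w', hw'W, hw'⟩ := L.dense y hy hy10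
  have hlK : sc ℓ b K ≤ sc ℓ b (k + j) := sc_anti hℓ hb1 (by omega)
  have hlK1 : sc ℓ b K ≤ sc ℓ b k / 16 := by
    have h1 : sc ℓ b K ≤ sc ℓ b (k + 1) := sc_anti hℓ hb1 (by omega)
    have h2 : sc ℓ b (k + 1) = sc ℓ b k / b := sc_succ' k
    have h3 : sc ℓ b k / b ≤ sc ℓ b k / 16 := by gcongr
    linarith
  have hcell : L.c k w' = L.c k w := by
    refine L.c_inner k hkK (L.c k w) hcw (L.c_comp k k le_rfl hkK w hwW) w' hw'W ?_
    calc dist w' (L.c k w) ≤ dist w' y + dist y (L.c k w) := dist_triangle _ _ _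
      _ ≤ sc ℓ b k / 16 + sc ℓ b k / 64 := by
          rw [dist_comm w' y, dist_comm y (L.c k w)]; linarith
      _ < sc ℓ b k / 4 := by linarith
  refine ⟨j, hjJ, w', ?_, ?_⟩
  · rw [Lat.mem_cell]; exact ⟨hw'W, hcell⟩
  · have hpos : 0 < sc ℓ b (k + j) := sc_pos hℓ hb0 _
    refine flatW_of_near (y := y) (s := s) (b := b) hpos hjs hjs' hb1 ?_ hM hMa hε hF
    have h1 := L.c_dist (k + j) (by omega) w' hw'W
    calc dist (L.c (k + j) w') y ≤ dist (L.c (k + j) w') w' + dist w' y := dist_triangle _ _ _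
      _ ≤ 2 * sc ℓ b (k + j) + sc ℓ b (k + j) := by
          rw [dist_comm (L.c (k + j) w') w', dist_comm w' y]; linarith
      _ = 3 * sc ℓ b (k + j) := by ring

theorem isBF_of_biFlat {d n : ℕ} {μ : Measure (V d)} {x : V d} {r A ε : ℝ}
    (h : BiFlat n μ x r ε A) : IsBF μ.support n x r A ε := by
  obtain ⟨ι, p, h1, h2⟩ := h
  refine ⟨p, ι, ?_, ?_⟩
  · intro z hz hzx
    exact h1 z hz (by rw [mem_ball]; exact hzx)
  · intro v hv
    obtain ⟨y, hy, hyd⟩ := h2 v (by rw [mem_ball]; exact hv)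
    exact ⟨y, hy, hyd⟩

end Crest.Agent.R085.M9
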