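import Mathlib
import Crest.Agent.R085.P2Defs

/-!
R085 (S0113), module M9, combinatorial core: if flatness (`F`) can only be lost at `H`-cells, if
every cell contains a flat cell of comparable size, and if the `H`-cells are packed, then the
non-flat cells are packed.
-/

set_option autoImplicit false

namespace Crest.Agent.R085

open Finset

/-- geometric decay every `J` steps gives a summable sequence -/
theorem sum_le_of_block_decay (a : ℕ → ℝ) (N J : ℕ) (κ : ℝ) (_hκ : 0 < κ) (hκ1 : κ ≤ 1)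
    (ha : ∀ k, 0 ≤ a k) (hanti : ∀ k, a k ≤ a 0)
    (hdec : ∀ k, k + J < N → a (k + J) ≤ (1 - κ) * a k) :
    κ * ∑ k ∈ range N, a k ≤ J * a 0 := by
  have hT0 : 0 ≤ ∑ k ∈ range N, a k := sum_nonneg fun k _ => ha k
  by_cases hNJ : N ≤ J
  · have h1 : ∑ k ∈ range N, a k ≤ N * a 0 := by
      calc ∑ k ∈ range N, a k ≤ ∑ k ∈ range N, a 0 := sum_le_sum fun k _ => hanti k
        _ = N * a 0 := by simp
    have h2 : (N : ℝ) ≤ J := by exact_mod_cast hNJ
    have h3 := ha 0
    nlinarith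
  · push Not at hNJ
    obtain ⟨M, rfl⟩ := Nat.exists_eq_add_of_lt hNJ
    have hsplit : ∑ k ∈ range (J + M + 1), a k =
        ∑ k ∈ range J, a k + ∑ k ∈ range (M + 1), a (J + k) := by
      rw [add_assoc, Finset.sum_range_add]
    have h1 : ∑ k ∈ range J, a k ≤ J * a 0 := by
      calc ∑ k ∈ range J, a k ≤ ∑ k ∈ range J, a 0 := sum_le_sum fun k _ => hanti k
        _ = J * a 0 := by simp
    have h2 : ∑ k ∈ range (M + 1), a (J + k) ≤ (1 - κ) * ∑ k ∈ range (M + 1), a k := by
      rw [mul_sum]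
      refine sum_le_sum fun k hk => ?_
      rw [mem_range] at hk
      rw [add_comm J k]
      exact hdec k (by omega)
    have h3 : ∑ k ∈ range (M + 1), a k ≤ ∑ k ∈ range (J + M + 1), a k := by
      refine sum_le_sum_of_subset_of_nonneg ?_ (fun k _ _ => ha k)
      intro k hk; rw [mem_range] at *; omega
    have h4 : 0 ≤ 1 - κ := by linarith
    nlinarith [mul_le_mul_of_nonneg_left h3 h4]

section M9

variable {d : ℕ} {S : Set (EuclideanSpace ℝ (Fin d))} {x₀ : EuclideanSpace ℝ (Fin d)}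
  {ℓ b : ℝ} {K : ℕ} (L : Lat S x₀ ℓ b K)
  (F H : ℕ → EuclideanSpace ℝ (Fin d) → Prop)

open Classical in
/-- leaves of the top cell whose ancestors of generations `p, …, k` are all non-flat, those of
generations `p, …, k - 1` are not `H`-cells, and with `p = 0` or the ancestor of generation
`p - 1` being an `H`-cell. -/
noncomputable def chainSet (p k : ℕ) : Finset (EuclideanSpace ℝ (Fin d)) :=
  L.top.filter (fun w => (p = 0 ∨ H (p - 1) (L.c (p - 1) w)) ∧
    (∀ i, p ≤ i → i ≤ k → ¬ F i (L.c i w)) ∧ (∀ i, p ≤ i → i < k → ¬ H i (L.c i w)))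

omit F H in
lemma Lat.c_eq_of_c_eq {i k : ℕ} (hik : i ≤ k) (hk : k ≤ K) {w w' : EuclideanSpace ℝ (Fin d)}
    (hw : w ∈ L.W) (hw' : w' ∈ L.W) (h : L.c k w = L.c k w') : L.c i w = L.c i w' := by
  rw [← L.c_comp i k hik hk w hw, ← L.c_comp i k hik hk w' hw', h]

lemma mem_chainSet {p k : ℕ} {w : EuclideanSpace ℝ (Fin d)} :
    w ∈ chainSet L F H p k ↔ (w ∈ L.W ∧ L.c 0 w = x₀) ∧
      (p = 0 ∨ H (p - 1) (L.c (p - 1) w)) ∧ (∀ i, p ≤ i → i ≤ k → ¬ F i (L.c i w)) ∧
      (∀ i, p ≤ i → i < k → ¬ H i (L.c i w)) := by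
  classical
  simp [chainSet, L.mem_top]

lemma chainSet_of_c_eq {p k : ℕ} (hpk : p ≤ k) (hk : k ≤ K) {w w' : EuclideanSpace ℝ (Fin d)}
    (hw : w ∈ chainSet L F H p k) (hw' : w' ∈ L.W) (h : L.c k w' = L.c k w) :
    w' ∈ chainSet L F H p k := by
  rw [mem_chainSet] at *
  obtain ⟨⟨hw1, hw2⟩, hw3, hw4, hw5⟩ := hw
  have key : ∀ i ≤ k, L.c i w' = L.c i w := fun i hi => L.c_eq_of_c_eq hi hk hw' hw1 h
  refine ⟨⟨hw', by rw [key 0 (Nat.zero_le _), hw2]⟩, ?_, ?_, ?_⟩
  · rcases hw3 with h0 | h1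
    · exact Or.inl h0
    · right; rw [key (p - 1) (by omega)]; exact h1
  · intro i hi1 hi2
    rw [key i hi2]; exact hw4 i hi1 hi2
  · intro i hi1 hi2
    rw [key i hi2.le]; exact hw5 i hi1 hi2

/-- one block of decay -/
lemma card_chainSet_decay (J : ℕ) (hJ : 1 ≤ J) (κ : ℝ) (hκ1 : κ ≤ 1)
    (hab : ∀ k, k + J ≤ K → ∀ w ∈ L.top, ¬ H k (L.c k w) →
      ∃ j ≤ J, ∃ w' ∈ L.cell k (L.c k w), F (k + j) (L.c (k + j) w') ∧
        κ * ((L.cell k (L.c k w)).card : ℝ) ≤ ((L.cell (k + j) (L.c (k + j) w')).card : ℝ))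
    {p k : ℕ} (hpk : p ≤ k) (hk : k + J ≤ K) :
    ((chainSet L F H p (k + J)).card : ℝ) ≤ (1 - κ) * ((chainSet L F H p k).card : ℝ) := by
  classical
  set A := chainSet L F H p k with hA
  set B := chainSet L F H p (k + J) with hB
  have hBA : B ⊆ A := by
    intro w hw
    rw [hB, mem_chainSet] at hw
    rw [hA, mem_chainSet]
    exact ⟨hw.1, hw.2.1, fun i h1 h2 => hw.2.2.1 i h1 (by omega),
      fun i h1 h2 => hw.2.2.2 i h1 (by omega)⟩
  have hmaps : ∀ w ∈ A, L.c k w ∈ A.image (L.c k) := fun w hw => mem_image_of_mem _ hw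
  have hmapsB : ∀ w ∈ B, L.c k w ∈ A.image (L.c k) := fun w hw => hmaps w (hBA hw)
  have hcA : (A.card : ℝ) = ∑ x ∈ A.image (L.c k), ((A.filter fun w => L.c k w = x).card : ℝ) := by
    rw [card_eq_sum_card_fiberwise (f := L.c k) (t := A.image (L.c k)) hmaps]
    push_cast; rfl
  have hcB : (B.card : ℝ) = ∑ x ∈ A.image (L.c k), ((B.filter fun w => L.c k w = x).card : ℝ) := by
    rw [card_eq_sum_card_fiberwise (f := L.c k) (t := A.image (L.c k)) hmapsB]
    push_cast; rfl
  rw [hcA, hcB, mul_sum]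
  refine sum_le_sum fun x hx => ?_
  rw [mem_image] at hx
  obtain ⟨w0, hw0, rfl⟩ := hx
  have hw0W : w0 ∈ L.W := ((mem_chainSet L F H).1 hw0).1.1
  have hfib : A.filter (fun w => L.c k w = L.c k w0) = L.cell k (L.c k w0) := by
    ext w
    rw [mem_filter, L.mem_cell]
    constructor
    · rintro ⟨h1, h2⟩
      exact ⟨((mem_chainSet L F H).1 h1).1.1, h2⟩
    · rintro ⟨h1, h2⟩
      exact ⟨chainSet_of_c_eq L F H hpk (by omega) hw0 h1 h2, h2⟩
  have hw0T : w0 ∈ L.top := L.mem_top.2 ((mem_chainSet L F H).1 hw0).1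
  rw [hfib]
  by_cases hHk : H k (L.c k w0)
  · -- no leaf of an `H`-cell survives
    have hempty : B.filter (fun w => L.c k w = L.c k w0) = ∅ := by
      rw [filter_eq_empty_iff]
      intro w hw hcw
      have := ((mem_chainSet L F H).1 hw).2.2.2 k hpk (by omega)
      rw [hcw] at this
      exact this hHk
    rw [hempty]
    have h4 : 0 ≤ 1 - κ := by linarith
    simp only [card_empty, Nat.cast_zero]
    positivity
  obtain ⟨j, hj, w', hw', hF, hcard⟩ := hab k hk w0 hw0T hHk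
  rw [L.mem_cell] at hw'
  have hsub : L.cell (k + j) (L.c (k + j) w') ⊆ L.cell k (L.c k w0) := by
    intro w hw
    rw [L.mem_cell] at *
    refine ⟨hw.1, ?_⟩
    rw [← hw'.2]
    exact L.c_eq_of_c_eq (by omega) (by omega) hw.1 hw'.1 hw.2
  have hBsub : B.filter (fun w => L.c k w = L.c k w0) ⊆
      L.cell k (L.c k w0) \ L.cell (k + j) (L.c (k + j) w') := by
    intro w hw
    rw [mem_filter] at hw
    have hwB := (mem_chainSet L F H).1 hw.1
    rw [mem_sdiff, L.mem_cell, L.mem_cell]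
    refine ⟨⟨hwB.1.1, hw.2⟩, ?_⟩
    rintro ⟨_, h2⟩
    have := hwB.2.2.1 (k + j) (by omega) (by omega)
    rw [h2] at this
    exact this hF
  have hle : ((B.filter fun w => L.c k w = L.c k w0).card : ℝ) ≤
      ((L.cell k (L.c k w0)).card : ℝ) - ((L.cell (k + j) (L.c (k + j) w')).card : ℝ) := by
    have h1 := card_le_card hBsub
    rw [card_sdiff_of_subset hsub] at h1
    have h2 := card_le_card hsub
    have h3 : (B.filter fun w => L.c k w = L.c k w0).card +
      (L.cell (k + j) (L.c (k + j) w')).card ≤ (L.cell k (L.c k w0)).card := by omega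
    have h4 : ((B.filter fun w => L.c k w = L.c k w0).card : ℝ) +
      ((L.cell (k + j) (L.c (k + j) w')).card : ℝ) ≤ ((L.cell k (L.c k w0)).card : ℝ) := by
      exact_mod_cast h3
    linarith
  linarith

lemma sum_card_chainSet_le (J : ℕ) (hJ : 1 ≤ J) (κ : ℝ) (hκ : 0 < κ) (hκ1 : κ ≤ 1)
    (hab : ∀ k, k + J ≤ K → ∀ w ∈ L.top, ¬ H k (L.c k w) →
      ∃ j ≤ J, ∃ w' ∈ L.cell k (L.c k w), F (k + j) (L.c (k + j) w') ∧
        κ * ((L.cell k (L.c k w)).card : ℝ) ≤ ((L.cell (k + j) (L.c (k + j) w')).card : ℝ))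
    (p : ℕ) :
    κ * ∑ k ∈ range (K + 1 - p), ((chainSet L F H p (p + k)).card : ℝ) ≤
      J * ((chainSet L F H p p).card : ℝ) := by
  classical
  have h := sum_le_of_block_decay (fun k => ((chainSet L F H p (p + k)).card : ℝ)) (K + 1 - p) J κ
    hκ hκ1 (fun k => Nat.cast_nonneg _) ?_ ?_
  · simpa using h
  · intro k
    have : (chainSet L F H p (p + k)) ⊆ chainSet L F H p (p + 0) := by
      intro w hw
      rw [mem_chainSet] at *
      exact ⟨hw.1, hw.2.1, fun i h1 h2 => hw.2.2.1 i h1 (by omega),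
        fun i h1 h2 => hw.2.2.2 i h1 (by omega)⟩
    exact_mod_cast card_le_card this
  · intro k hk
    have := card_chainSet_decay L F H J hJ κ hκ1 hab (p := p) (k := p + k) (by omega) (by omega)
    simpa [add_assoc] using this

open Classical in
/-- Combinatorial core of M9 (abundance only below the cells which are not `H`). -/
theorem nonflat_packing (J : ℕ) (hJ : 1 ≤ J) (κ CH : ℝ) (hκ : 0 < κ) (hκ1 : κ ≤ 1)
    (hprop : ∀ k, k < K → ∀ w ∈ L.top, F k (L.c k w) → ¬ H k (L.c k w) →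
      F (k + 1) (L.c (k + 1) w))
    (hab : ∀ k, k + J ≤ K → ∀ w ∈ L.top, ¬ H k (L.c k w) →
      ∃ j ≤ J, ∃ w' ∈ L.cell k (L.c k w), F (k + j) (L.c (k + j) w') ∧
        κ * ((L.cell k (L.c k w)).card : ℝ) ≤ ((L.cell (k + j) (L.c (k + j) w')).card : ℝ))
    (hH : ∑ w ∈ L.top, (((range (K + 1)).filter fun k => H k (L.c k w)).card : ℝ) ≤
      CH * (L.top.card : ℝ)) :
    ∑ w ∈ L.top, (((range (K + 1)).filter fun k => ¬ F k (L.c k w)).card : ℝ) ≤
      (J / κ) * (1 + CH) * (L.top.card : ℝ) := by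
  -- exchange sums
  have hswap : ∀ P : ℕ → EuclideanSpace ℝ (Fin d) → Prop,
      ∑ w ∈ L.top, (((range (K + 1)).filter fun k => P k (L.c k w)).card : ℝ) =
      ∑ k ∈ range (K + 1), ((L.top.filter fun w => P k (L.c k w)).card : ℝ) := by
    intro P
    have h1 : ∀ w, (((range (K + 1)).filter fun k => P k (L.c k w)).card : ℝ) =
        ∑ k ∈ range (K + 1), if P k (L.c k w) then (1 : ℝ) else 0 := by
      intro w
      rw [sum_boole]
    have h2 : ∀ k, ((L.top.filter fun w => P k (L.c k w)).card : ℝ) =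
        ∑ w ∈ L.top, if P k (L.c k w) then (1 : ℝ) else 0 := by
      intro k
      rw [sum_boole]
    simp_rw [h1, h2]
    exact sum_comm
  rw [hswap] at hH
  have hgoal : ∑ w ∈ L.top, (((range (K + 1)).filter fun k => ¬ F k (L.c k w)).card : ℝ) =
      ∑ k ∈ range (K + 1), ((L.top.filter fun w => ¬ F k (L.c k w)).card : ℝ) := by
    convert hswap (fun k x => ¬ F k x)
  rw [hgoal]
  -- cover by chain sets
  have hcov : ∀ k ∈ range (K + 1), (L.top.filter fun w => ¬ F k (L.c k w)) ⊆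
      (range (k + 1)).biUnion fun p => chainSet L F H p k := by
    intro k hk w hw
    rw [mem_range] at hk
    rw [mem_filter] at hw
    have hwt := L.mem_top.1 hw.1
    have hex : ∃ p, p ≤ k ∧ (∀ i, p ≤ i → i ≤ k → ¬ F i (L.c i w)) ∧
        (∀ i, p ≤ i → i < k → ¬ H i (L.c i w)) :=
      ⟨k, le_rfl, fun i h1 h2 => by
        have : i = k := le_antisymm h2 h1
        rw [this]; exact hw.2, fun i h1 h2 => by omega⟩
    set p := Nat.find hex with hp
    obtain ⟨hp1, hp2, hp3⟩ := Nat.find_spec hex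
    rw [← hp] at hp1 hp2 hp3
    rw [mem_biUnion]
    refine ⟨p, mem_range.2 (by omega), ?_⟩
    rw [mem_chainSet]
    refine ⟨hwt, ?_, hp2, hp3⟩
    by_cases hp0 : p = 0
    · exact Or.inl hp0
    · right
      by_contra hnH
      have hlt : p - 1 < p := by omega
      have hmin := Nat.find_min hex (m := p - 1) (by rw [← hp]; exact hlt)
      apply hmin
      refine ⟨by omega, ?_, ?_⟩
      · intro i hi1 hi2
        rcases Nat.lt_or_ge i p with hip | hip
        · have hi : i = p - 1 := by omega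
          intro hFi
          rw [hi] at hFi
          have := hprop (p - 1) (by omega) w hw.1 hFi hnH
          have hpp : p - 1 + 1 = p := by omega
          rw [hpp] at this
          exact hp2 p le_rfl hp1 this
        · exact hp2 i hip hi2
      · intro i hi1 hi2
        rcases Nat.lt_or_ge i p with hip | hip
        · have hi : i = p - 1 := by omega
          rw [hi]; exact hnH
        · exact hp3 i hip hi2
  have hbound : ∀ k ∈ range (K + 1), ((L.top.filter fun w => ¬ F k (L.c k w)).card : ℝ) ≤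
      ∑ p ∈ range (k + 1), ((chainSet L F H p k).card : ℝ) := by
    intro k hk
    have h1 := (card_le_card (hcov k hk)).trans card_biUnion_le
    exact_mod_cast h1
  have hstep1 : ∑ k ∈ range (K + 1), ((L.top.filter fun w => ¬ F k (L.c k w)).card : ℝ) ≤
      ∑ p ∈ range (K + 1), ∑ k ∈ range (K + 1 - p), ((chainSet L F H p (p + k)).card : ℝ) := by
    refine (sum_le_sum hbound).trans ?_
    rw [Finset.sum_sigma', Finset.sum_sigma']
    refine le_of_eq (Finset.sum_nbij' (fun x => ⟨x.2, x.1 - x.2⟩) (fun x => ⟨x.1 + x.2, x.1⟩)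
      ?_ ?_ ?_ ?_ ?_)
    · rintro ⟨k, p⟩ h
      simp only [mem_sigma, mem_range] at *
      omega
    · rintro ⟨p, k⟩ h
      simp only [mem_sigma, mem_range] at *
      omega
    · rintro ⟨k, p⟩ h
      simp only [mem_sigma, mem_range] at *
      have : p + (k - p) = k := by omega
      rw [this]
    · rintro ⟨p, k⟩ h
      simp only [mem_sigma, mem_range] at *
      have : p + k - p = k := by omega
      rw [this]
    · rintro ⟨k, p⟩ h
      simp only [mem_sigma, mem_range] at *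
      have : p + (k - p) = k := by omega
      rw [this]
  have hstep2 : ∀ p ∈ range (K + 1),
      ∑ k ∈ range (K + 1 - p), ((chainSet L F H p (p + k)).card : ℝ) ≤
      (J / κ) * ((chainSet L F H p p).card : ℝ) := by
    intro p _
    have := sum_card_chainSet_le L F H J hJ κ hκ hκ1 hab p
    rw [div_mul_eq_mul_div, le_div_iff₀ hκ]
    linarith
  have hstep3 : ∑ p ∈ range (K + 1), ((chainSet L F H p p).card : ℝ) ≤
      (L.top.card : ℝ) + ∑ k ∈ range (K + 1), ((L.top.filter fun w => H k (L.c k w)).card : ℝ) := by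
    rw [Finset.sum_range_succ']
    have h0 : ((chainSet L F H 0 0).card : ℝ) ≤ (L.top.card : ℝ) := by
      have : chainSet L F H 0 0 ⊆ L.top := by
        unfold chainSet; exact filter_subset _ _
      exact_mod_cast card_le_card this
    have h1 : ∀ p ∈ range K, ((chainSet L F H (p + 1) (p + 1)).card : ℝ) ≤
        ((L.top.filter fun w => H p (L.c p w)).card : ℝ) := by
      intro p _
      have : chainSet L F H (p + 1) (p + 1) ⊆ L.top.filter fun w => H p (L.c p w) := by
        intro w hw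
        rw [mem_chainSet] at hw
        rw [mem_filter]
        refine ⟨L.mem_top.2 hw.1, ?_⟩
        rcases hw.2.1 with h | h
        · omega
        · simpa using h
      exact_mod_cast card_le_card this
    have h2 : ∑ p ∈ range K, ((L.top.filter fun w => H p (L.c p w)).card : ℝ) ≤
        ∑ p ∈ range (K + 1), ((L.top.filter fun w => H p (L.c p w)).card : ℝ) := by
      refine sum_le_sum_of_subset_of_nonneg ?_ (fun _ _ _ => Nat.cast_nonneg _)
      intro k hk; rw [mem_range] at *; omega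
    linarith [sum_le_sum h1]
  have hJκ : 0 ≤ (J : ℝ) / κ := by positivity
  calc ∑ k ∈ range (K + 1), ((L.top.filter fun w => ¬ F k (L.c k w)).card : ℝ)
      ≤ ∑ p ∈ range (K + 1), ∑ k ∈ range (K + 1 - p), ((chainSet L F H p (p + k)).card : ℝ) :=
        hstep1
    _ ≤ ∑ p ∈ range (K + 1), (J / κ) * ((chainSet L F H p p).card : ℝ) := sum_le_sum hstep2
    _ = (J / κ) * ∑ p ∈ range (K + 1), ((chainSet L F H p p).card : ℝ) := by rw [mul_sum]
    _ ≤ (J / κ) * ((L.top.card : ℝ) + CH * (L.top.card : ℝ)) := by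
        refine mul_le_mul_of_nonneg_left ?_ hJκ
        linarith
    _ = (J / κ) * (1 + CH) * (L.top.card : ℝ) := by ring

open Classical in
/-- Combinatorial core of M9, in the form used by `M9Main`. -/
theorem m9_comb (n J : ℕ) (cL CL CH : ℝ) (hb : 1 ≤ b) (hcL : 0 < cL)
    (hcard : ∀ k ≤ K, ∀ w ∈ L.top,
      cL * (b ^ (K - k)) ^ n ≤ ((L.cell k (L.c k w)).card : ℝ) ∧
        ((L.cell k (L.c k w)).card : ℝ) ≤ CL * (b ^ (K - k)) ^ n)
    (hprop : ∀ k, k < K → ∀ w ∈ L.top, F k (L.c k w) → ¬ H k (L.c k w) →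
      F (k + 1) (L.c (k + 1) w))
    (hab : ∀ k, k + J ≤ K → ∀ w ∈ L.top, ¬ H k (L.c k w) →
      ∃ j ≤ J, ∃ w' ∈ L.cell k (L.c k w), F (k + j) (L.c (k + j) w'))
    (hH : ∑ w ∈ L.top, (((range (K + 1)).filter fun k => H k (L.c k w)).card : ℝ) ≤
      CH * (L.top.card : ℝ)) :
    ∑ w ∈ L.top, (((range (K + 1)).filter fun k => ¬ F k (L.c k w)).card : ℝ) ≤
      ((J + 1) * (CL * (b ^ (J + 1)) ^ n / cL)) * (1 + CH) * (L.top.card : ℝ) := by
  have hb0 : 0 < b := by linarith
  have hx0 : x₀ ∈ L.top := L.mem_top.2 ⟨L.root_mem, L.c_root⟩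
  have hCL : 0 < CL := by
    have h := hcard 0 (Nat.zero_le _) x₀ hx0
    have h1 : 0 < cL * (b ^ (K - 0)) ^ n := by positivity
    have h2 : 0 < CL * (b ^ (K - 0)) ^ n := lt_of_lt_of_le h1 (h.1.trans h.2)
    exact (pos_iff_pos_of_mul_pos h2).2 (by positivity)
  have hcC : cL ≤ CL := by
    have h := hcard 0 (Nat.zero_le _) x₀ hx0
    have h1 : (0:ℝ) < (b ^ (K - 0)) ^ n := by positivity
    exact le_of_mul_le_mul_right (h.1.trans h.2) h1
  set κ : ℝ := cL / (CL * (b ^ (J + 1)) ^ n) with hκdef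
  have hκ : 0 < κ := by positivity
  have hbJ : 1 ≤ (b ^ (J + 1)) ^ n := one_le_pow₀ (one_le_pow₀ hb)
  have hκ1 : κ ≤ 1 := by
    rw [hκdef, div_le_one (by positivity)]
    nlinarith
  have hmain := nonflat_packing L F H (J + 1) (by omega) κ CH hκ hκ1 hprop ?_ hH
  · refine hmain.trans (le_of_eq ?_)
    rw [hκdef]
    push_cast
    field_simp
  · intro k hk w hw hHk
    obtain ⟨j, hj, w', hw', hF⟩ := hab k (by omega) w hw hHk
    refine ⟨j, by omega, w', hw', hF, ?_⟩
    rw [L.mem_cell] at hw'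
    have hwt := L.mem_top.1 hw
    have hw't : w' ∈ L.top := by
      rw [L.mem_top]
      refine ⟨hw'.1, ?_⟩
      rw [L.c_eq_of_c_eq (Nat.zero_le k) (by omega) hw'.1 hwt.1 hw'.2]
      exact hwt.2
    have h1 := (hcard k (by omega) w hw).2
    have h2 := (hcard (k + j) (by omega) w' hw't).1
    refine le_trans ?_ h2
    have hexp : K - k = (K - (k + j)) + j := by omega
    have h3 : (b ^ (K - k)) ^ n = (b ^ (K - (k + j))) ^ n * (b ^ j) ^ n := by
      rw [hexp, pow_add, mul_pow]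
    have h4 : (b ^ j) ^ n ≤ (b ^ (J + 1)) ^ n :=
      pow_le_pow_left₀ (by positivity) (pow_le_pow_right₀ hb (by omega)) n
    calc κ * ((L.cell k (L.c k w)).card : ℝ) ≤ κ * (CL * (b ^ (K - k)) ^ n) := by gcongr
      _ = κ * CL * ((b ^ (K - (k + j))) ^ n * (b ^ j) ^ n) := by rw [h3]; ring
      _ ≤ κ * CL * ((b ^ (K - (k + j))) ^ n * (b ^ (J + 1)) ^ n) := by gcongr
      _ = cL * (b ^ (K - (k + j))) ^ n := by
          rw [hκdef]
          field_simp

end M9

end Crest.Agent.R085
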