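import Crest.Agent.R085.M9Pack
import Crest.Agent.R085.M9Comb
import Crest.Agent.R085.Interface

/-!
R085, module M9: the bilateral weak geometric lemma `BWGL` from the module targets.
Owner: helper237.
-/

set_option autoImplicit false

namespace Crest.Agent.R085

open MeasureTheory Metric Set Filter
open scoped ENNReal NNReal Topology

open Classical in
/-- M9: `BWGL` from the interfaces of the modules M2, M5, M8, M8b. -/
theorem bwgl_of_targets (d n : ℕ) (C_AD C_R : ℝ)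
    (hProp : ∀ C ϱ : ℝ, 1 ≤ C → 0 < ϱ → ϱ ≤ 1 / 16 → TPropagation n d C ϱ)
    (hBi : ∀ C A ε' : ℝ, 1 ≤ C → 1 ≤ A → 0 < ε' → TBiFlat n d C A ε')
    (hAb : ∀ C ε : ℝ, 1 ≤ C → 0 < ε → TAbundance n d C ε)
    (hPk : ∀ C A M δ σ : ℝ, 1 ≤ C → 0 ≤ A → 1 ≤ M → 0 < δ → 0 < σ → σ ≤ 1 →
      TPacking n d C A M δ σ) :
    BWGL d n C_AD C_R := by
  intro b A ε hb hA hε
  have hb0 : 0 < b := by linarith
  have hb1 : 1 ≤ b := by linarith
  have hb1' : 1 < b := by linarith
  obtain ⟨C', hC'1, hC'C, hup⟩ := Interface.exists_upper_const d n C_AD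
  obtain ⟨ε1, hε1, hprop⟩ := hProp C' b⁻¹ hC'1 (by positivity)
    (by rw [one_div]; exact inv_anti₀ (by norm_num) hb)
  obtain ⟨ε2, hε2, hbi⟩ := hBi C' A ε hC'1 hA hε
  set ε0 : ℝ := min (min ε1 ε2) 1 with hε0def
  have hε0 : 0 < ε0 := lt_min (lt_min hε1 hε2) one_pos
  have hε01 : ε0 ≤ ε1 := (min_le_left _ _).trans (min_le_left _ _)
  have hε02 : ε0 ≤ ε2 := (min_le_left _ _).trans (min_le_right _ _)
  have hε0le1 : ε0 ≤ 1 := min_le_right _ _
  have hε0cube : ε0 ^ 3 ≤ ε0 := by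
    calc ε0 ^ 3 = ε0 * ε0 ^ 2 := by ring
      _ ≤ ε0 * 1 := by gcongr; exact pow_le_one₀ hε0.le hε0le1
      _ = ε0 := mul_one _
  have hε0c0 : 0 < ε0 ^ 3 := by positivity
  set εa : ℝ := ε0 / (4 * b) ^ (n + 3) with hεadef
  have h4b : 1 ≤ 4 * b := by linarith
  have h4bp : 1 ≤ (4 * b) ^ (n + 3) := one_le_pow₀ h4b
  have h4b4 : 4 ≤ (4 * b) ^ (n + 3) := by
    calc (4 : ℝ) ≤ 4 * b := by linarith
      _ ≤ (4 * b) ^ (n + 3) := le_self_pow₀ h4b (by omega)
  have hεa : 0 < εa := by positivity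
  have hεasq : εa ^ 2 * (4 * b) ^ (n + 3) ≤ ε0 ^ 2 := by
    have h1 : εa ^ 2 * (4 * b) ^ (n + 3) = ε0 ^ 2 / (4 * b) ^ (n + 3) := by
      rw [hεadef]; field_simp
    rw [h1]
    exact div_le_self (by positivity) h4bp
  have hMa : 4 * (ε0 ^ 3)⁻¹ ≤ (εa ^ 3)⁻¹ := by
    have h1 : (εa ^ 3)⁻¹ = ((4 * b) ^ (n + 3)) ^ 3 * (ε0 ^ 3)⁻¹ := by
      rw [hεadef, div_pow, inv_div]
      field_simp
    rw [h1]
    have h2 : 4 ≤ ((4 * b) ^ (n + 3)) ^ 3 :=
      h4b4.trans (le_self_pow₀ h4bp (by norm_num))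
    gcongr
  have hM0 : 1 ≤ (ε0 ^ 3)⁻¹ := by
    rw [one_le_inv₀ hε0c0]
    linarith
  have hMa1 : 1 ≤ (εa ^ 3)⁻¹ := by linarith
  obtain ⟨δa, hδa, hδa1, hab⟩ := hAb C' εa hC'1 hεa
  obtain ⟨J0, hJ0⟩ := pow_unbounded_of_one_lt δa⁻¹ hb1'
  set J : ℕ := J0 + 1 with hJdef
  have hJ : δa⁻¹ ≤ b ^ J := by
    refine hJ0.le.trans ?_
    exact pow_le_pow_right₀ hb1 (Nat.le_succ J0)
  set M1 : ℝ := max (ε0 ^ 3)⁻¹ δa⁻¹ with hM1def
  set δ1 : ℝ := min (ε0 ^ 3) δa with hδ1def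
  have hM11 : 1 ≤ M1 := hM0.trans (le_max_left _ _)
  have hδ10 : 0 < δ1 := lt_min hε0c0 hδa
  obtain ⟨k1, hk1⟩ := pow_unbounded_of_one_lt M1 hb1'
  set cL : ℝ := (C' ^ 2 * 16 ^ n)⁻¹ with hcLdef
  set CL : ℝ := C' ^ 2 * 24 ^ n with hCLdef
  have hcL : 0 < cL := by positivity
  have hCL : 0 < CL := by positivity
  obtain ⟨CH0, hCH0, hsum⟩ := M9.sum_etaBad (C := C') (A := max C_R 0) (M1 := M1) (δ1 := δ1)
    (n := n) (d := d) hb hcL hCL
    (hPk C' (max C_R 0) M1 δ1 (1 / 4) hC'1 (le_max_right _ _) hM11 hδ10 (by norm_num)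
      (by norm_num))
  set CH : ℝ := k1 + CH0 with hCHdef
  set CF : ℝ := ((J + 1) * (CL * (b ^ (J + 1)) ^ n / cL)) * (1 + CH) with hCFdef
  have hCH00 : 0 ≤ CH := by positivity
  refine ⟨CF + CH, by positivity, ?_⟩
  intro μ hμ hR x₀ hx₀ ℓ hadm K L
  have hℓ : 0 < ℓ := by
    have := hadm.1
    linarith
  have hupper := hup μ hμ ⟨_, hadm⟩
  set D : ℝ≥0∞ := Metric.ediam μ.support with hDdef
  have hADR : ADR n C' D μ := by
    refine ⟨hC'1, hupper, ?_⟩
    intro x hx r hr hrD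
    refine le_trans (ENNReal.ofReal_le_ofReal ?_) (hμ.2 x hx r ⟨hr, hrD⟩).1
    have hC1 := hμ.1
    have : C'⁻¹ ≤ C_AD⁻¹ := inv_anti₀ (by linarith) hC'C
    gcongr
  have : IsLocallyFiniteMeasure μ := hADR.isLocallyFinite
  have hWR : WeakRiesz n (max C_R 0) μ := weakRiesz_of_hasRieszBound (C := C') hupper hR
  have hADat : ADat n C' (100 * ℓ) μ μ.support := by
    intro x hx r hr hr100
    refine ⟨?_, hupper x r hr⟩
    refine hADR.lower x hx r hr ?_
    exact (ENNReal.ofReal_le_ofReal hr100).trans hadm.2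
  have hlow : ∀ k ≤ K, ∀ x ∈ L.W, L.c k x = x → L.c 0 x = x₀ →
      cL * (b ^ (K - k)) ^ n ≤ ((L.cell k x).card : ℝ) := fun k hk x hx hkx h0x =>
    card_cell_lower hC'1 μ μ.support Measure.measure_compl_support hℓ hb hADat L k hk x hx hkx h0x
  have hupp : ∀ k ≤ K, ∀ x ∈ L.W, L.c k x = x → L.c 0 x = x₀ →
      ((L.cell k x).card : ℝ) ≤ CL * (b ^ (K - k)) ^ n := fun k hk x hx hkx h0x =>
    card_cell_upper hC'1 μ μ.support hℓ hb hADat L k hk x hx hkx
  have hℓD : ENNReal.ofReal ℓ ≤ D :=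
    (ENNReal.ofReal_le_ofReal (by linarith)).trans hadm.2
  have hsumE := hsum μ D x₀ ℓ K L hℓ hADR hWR hℓD hlow hupp
  -- the predicates
  set F : ℕ → V d → Prop := fun k x => FlatW n μ x (sc ℓ b k) ε0 (ε0 ^ 3)⁻¹ with hFdef
  set H : ℕ → V d → Prop := fun k x => k < k1 ∨ ¬ EtaS n μ x (sc ℓ b k) M1 δ1 with hHdef
  have hscD : ∀ k, k1 ≤ k → ∀ M' : ℝ, M' ≤ M1 → ENNReal.ofReal (M' * sc ℓ b k) ≤ D := by
    intro k hk M' hM'
    refine (ENNReal.ofReal_le_ofReal ?_).trans hℓD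
    have hs : 0 < sc ℓ b k := sc_pos hℓ hb0 k
    have h1 : M1 ≤ b ^ k := hk1.le.trans (pow_le_pow_right₀ hb1 hk)
    calc M' * sc ℓ b k ≤ b ^ k * sc ℓ b k := by
          have : M' ≤ b ^ k := hM'.trans h1
          gcongr
      _ = ℓ := by unfold sc; field_simp
  have hctop : ∀ k ≤ K, ∀ w ∈ L.top, L.c k w ∈ μ.support := fun k hk w hw =>
    L.W_sub _ (L.c_mem k hk w (L.mem_top.1 hw).1)
  have hcard : ∀ k ≤ K, ∀ w ∈ L.top,
      cL * (b ^ (K - k)) ^ n ≤ ((L.cell k (L.c k w)).card : ℝ) ∧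
        ((L.cell k (L.c k w)).card : ℝ) ≤ CL * (b ^ (K - k)) ^ n := by
    intro k hk w hw
    have hwW := (L.mem_top.1 hw).1
    have hw0 := (L.mem_top.1 hw).2
    have h1 := L.c_mem k hk w hwW
    have h2 := L.c_comp k k le_rfl hk w hwW
    have h3 : L.c 0 (L.c k w) = x₀ := by
      rw [L.c_comp 0 k (Nat.zero_le k) hk w hwW, hw0]
    exact ⟨hlow k hk _ h1 h2 h3, hupp k hk _ h1 h2 h3⟩
  have hHE : ∀ k x, ¬ H k x → k1 ≤ k ∧ EtaS n μ x (sc ℓ b k) M1 δ1 := by
    intro k x h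
    simp only [hHdef, not_or, not_not, not_lt] at h
    exact h
  -- the exceptional cells are few
  have hHsum : ∑ w ∈ L.top, (((Finset.range (K + 1)).filter fun k => H k (L.c k w)).card : ℝ) ≤
      CH * (L.top.card : ℝ) := by
    have hptw : ∀ w ∈ L.top, (((Finset.range (K + 1)).filter fun k => H k (L.c k w)).card : ℝ) ≤
        (k1 : ℝ) + ((((Finset.range (K + 1)).filter
          (fun k => ¬ EtaS n μ (L.c k w) (sc ℓ b k) M1 δ1)).card : ℕ) : ℝ) := by
      intro w _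
      have hsub : (Finset.range (K + 1)).filter (fun k => H k (L.c k w)) ⊆
          Finset.range k1 ∪ (Finset.range (K + 1)).filter
            (fun k => ¬ EtaS n μ (L.c k w) (sc ℓ b k) M1 δ1) := by
        intro k hk
        rw [Finset.mem_filter] at hk
        rw [Finset.mem_union, Finset.mem_filter, Finset.mem_range]
        rcases hk.2 with h | h
        · exact Or.inl h
        · exact Or.inr ⟨hk.1, h⟩
      have h1 := (Finset.card_le_card hsub).trans (Finset.card_union_le _ _)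
      rw [Finset.card_range] at h1
      exact_mod_cast h1
    refine (Finset.sum_le_sum hptw).trans ?_
    rw [Finset.sum_add_distrib, Finset.sum_const, nsmul_eq_mul, hCHdef, add_mul]
    refine add_le_add (le_of_eq (mul_comm _ _)) hsumE
  have hcomb := m9_comb L F H n J cL CL CH hb1 hcL hcard ?_ ?_ (by convert hHsum)
  · -- conclusion
    have hmain : ∀ w ∈ L.top, (nbad L n A ε w : ℝ) ≤
        (((Finset.range (K + 1)).filter fun k => ¬ F k (L.c k w)).card : ℝ) +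
        (((Finset.range (K + 1)).filter fun k => H k (L.c k w)).card : ℝ) := by
      intro w hw
      have hsub : (Finset.range (K + 1)).filter (fun k => ¬ IsBF μ.support n (L.c k w) (sc ℓ b k) A ε)
          ⊆ (Finset.range (K + 1)).filter (fun k => ¬ F k (L.c k w)) ∪
            (Finset.range (K + 1)).filter (fun k => H k (L.c k w)) := by
        intro k hk
        rw [Finset.mem_filter, Finset.mem_range] at hk
        rw [Finset.mem_union, Finset.mem_filter, Finset.mem_filter, Finset.mem_range]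
        by_contra hcon
        push Not at hcon
        obtain ⟨h1, h2⟩ := hcon
        have hF := h1 hk.1
        have hH := h2 hk.1
        obtain ⟨hkk, hE⟩ := hHE k _ hH
        have hkK : k ≤ K := by omega
        have hs : 0 < sc ℓ b k := sc_pos hℓ hb0 k
        refine hk.2 (M9.isBF_of_biFlat ?_)
        refine hbi μ D (L.c k w) (sc ℓ b k) ε0 (ε0 ^ 3)⁻¹ (ε0 ^ 3) hADR (hctop k hkK w hw) hs
          hε0.le hε02 ?_ (hε0cube.trans hε02) (hscD k hkk _ (le_max_left _ _)) hF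
          (hE.mono hs.le (le_max_left _ _) (min_le_left _ _))
        exact inv_anti₀ hε0c0 (hε0cube.trans hε02)
      unfold nbad
      calc (((Finset.range (K + 1)).filter
            (fun k => ¬ IsBF μ.support n (L.c k w) (sc ℓ b k) A ε)).card : ℝ)
          ≤ (((Finset.range (K + 1)).filter (fun k => ¬ F k (L.c k w)) ∪
            (Finset.range (K + 1)).filter (fun k => H k (L.c k w))).card : ℝ) := by
              exact_mod_cast Finset.card_le_card hsub
        _ ≤ _ := by exact_mod_cast Finset.card_union_le _ _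
    refine (Finset.sum_le_sum hmain).trans ?_
    rw [Finset.sum_add_distrib, add_mul]
    exact add_le_add hcomb hHsum
  · -- propagation
    intro k hk w hw hF hH
    obtain ⟨hkk, hE⟩ := hHE k _ hH
    have hs : 0 < sc ℓ b k := sc_pos hℓ hb0 k
    have hs1 : 0 < sc ℓ b (k + 1) := sc_pos hℓ hb0 (k + 1)
    have h1 := hprop ε0 hε0 hε01 μ D (L.c k w) (sc ℓ b k) hADR hs
      (hscD k hkk _ (le_max_left _ _)) (hctop k hk.le w hw) hF
      (hE.mono hs.le (le_max_left _ _) (min_le_left _ _)) (L.c (k + 1) w)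
      (hctop (k + 1) hk w hw) (M9.dist_c_c L hℓ hb hk (L.mem_top.1 hw).1)
    have h2 : b⁻¹ * sc ℓ b k = sc ℓ b (k + 1) := by
      rw [sc_succ']
      field_simp
    rw [h2] at h1
    exact h1
  · -- abundance
    intro k hk w hw hH
    obtain ⟨hkk, hE⟩ := hHE k _ hH
    have hkK : k ≤ K := by omega
    have hs : 0 < sc ℓ b k := sc_pos hℓ hb0 k
    obtain ⟨y, hy, hxy, s, hs1, hs2, hF⟩ := hab μ D (L.c k w) (sc ℓ b k) hADR hs
      (by rw [div_eq_inv_mul]; exact hscD k hkk _ (le_max_right _ _)) (hctop k hkK w hw)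
      (hE.mono hs.le (le_max_right _ _) (min_le_right _ _))
    exact M9.exists_flat_subcell L hℓ hb hδa hJ (by omega) hMa hMa1 hεasq hk hw hy hxy hs1 hs2 hF

end Crest.Agent.R085
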