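import Crest.Agent.R085.M9Ana
import Crest.Agent.R085.P2Card
import Crest.Agent.R085.WeakRiesz

/-!
R085, module M9: packing of the eta-bad cells of a lattice. Owner: helper237.
-/

set_option autoImplicit false

namespace Crest.Agent.R085

open MeasureTheory Metric Set Filter
open scoped ENNReal NNReal Topology

/-- M2 interface: quantitative packing of points/scales with large oscillation. -/
def TPacking (n d : ℕ) (C A M δ σ : ℝ) : Prop :=
  ∃ K : ℝ, 0 < K ∧ ∀ (μ : Measure (V d)) (D : ℝ≥0∞), ADR n C D μ → WeakRiesz n A μ →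
    ∀ (x0 : V d) (R0 b : ℝ), 0 < R0 → 2 ≤ b → ∀ (ι : Type) (s : Finset ι) (x : ι → V d)
      (k : ι → ℕ),
      (∀ i ∈ s, x i ∈ μ.support ∧ dist (x i) x0 ≤ R0 ∧ ENNReal.ofReal (R0 / b ^ k i) ≤ D ∧
        ¬ EtaS n μ (x i) (R0 / b ^ k i) M δ) →
      (∀ i ∈ s, ∀ j ∈ s, i ≠ j → k i = k j → σ * (R0 / b ^ k i) ≤ dist (x i) (x j)) →
      ∑ i ∈ s, (R0 / b ^ k i) ^ n ≤ K * R0 ^ n

namespace M9

theorem sep_centers {d : ℕ} {S : Set (V d)} {x₀ : V d} {ℓ b : ℝ} {K : ℕ} (L : Lat S x₀ ℓ b K)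
    {k : ℕ} (hk : k ≤ K) {w w' : V d} (hw : w ∈ L.W) (hw' : w' ∈ L.W)
    (hne : L.c k w ≠ L.c k w') : sc ℓ b k / 4 ≤ dist (L.c k w) (L.c k w') := by
  by_contra hcon
  push Not at hcon
  have h1 := L.c_inner k hk (L.c k w') (L.c_mem k hk w' hw') (L.c_comp k k le_rfl hk w' hw')
    (L.c k w) (L.c_mem k hk w hw) hcon
  rw [L.c_comp k k le_rfl hk w hw] at h1
  exact hne h1

open Classical in
theorem sum_etaBad {d n : ℕ} {C A M1 δ1 b cL CL : ℝ} (hb : 16 ≤ b) (hcL : 0 < cL)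
    (hCL : 0 < CL) (hP : TPacking n d C A M1 δ1 (1 / 4)) :
    ∃ CH : ℝ, 0 ≤ CH ∧ ∀ (μ : Measure (V d)) (D : ℝ≥0∞) (x₀ : V d) (ℓ : ℝ) (K : ℕ)
      (L : Lat μ.support x₀ ℓ b K), 0 < ℓ → ADR n C D μ → WeakRiesz n A μ →
      ENNReal.ofReal ℓ ≤ D →
      (∀ k ≤ K, ∀ x ∈ L.W, L.c k x = x → L.c 0 x = x₀ →
        cL * (b ^ (K - k)) ^ n ≤ ((L.cell k x).card : ℝ)) →
      (∀ k ≤ K, ∀ x ∈ L.W, L.c k x = x → L.c 0 x = x₀ →
        ((L.cell k x).card : ℝ) ≤ CL * (b ^ (K - k)) ^ n) →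
      ∑ w ∈ L.top, ((((Finset.range (K + 1)).filter
        (fun k => ¬ EtaS n μ (L.c k w) (sc ℓ b k) M1 δ1)).card : ℕ) : ℝ) ≤ CH * (L.top.card : ℝ) := by
  obtain ⟨Kp, hKp, hpack⟩ := hP
  have hb0 : 0 < b := by linarith
  refine ⟨CL * Kp * b ^ n / cL, by positivity, ?_⟩
  intro μ D x₀ ℓ K L hℓ hADR hWR hℓD hlow hupp
  -- the set of pairs (leaf, generation)
  set P : Finset (V d × ℕ) := (L.top ×ˢ Finset.range (K + 1)).filter
    (fun p => ¬ EtaS n μ (L.c p.2 p.1) (sc ℓ b p.2) M1 δ1) with hPdef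
  set f : V d × ℕ → ℕ × V d := fun p => (p.2, L.c p.2 p.1) with hf
  set T : Finset (ℕ × V d) := P.image f with hT
  have hmemP : ∀ p : V d × ℕ, p ∈ P ↔ (p.1 ∈ L.W ∧ L.c 0 p.1 = x₀) ∧ p.2 ≤ K ∧
      ¬ EtaS n μ (L.c p.2 p.1) (sc ℓ b p.2) M1 δ1 := by
    intro p
    rw [hPdef, Finset.mem_filter, Finset.mem_product, L.mem_top, Finset.mem_range]
    constructor
    · rintro ⟨⟨h1, h2⟩, h3⟩; exact ⟨h1, by omega, h3⟩
    · rintro ⟨h1, h2, h3⟩; exact ⟨⟨h1, by omega⟩, h3⟩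
  have hcardP : ∑ w ∈ L.top, ((((Finset.range (K + 1)).filter
        (fun k => ¬ EtaS n μ (L.c k w) (sc ℓ b k) M1 δ1)).card : ℕ) : ℝ) = (P.card : ℝ) := by
    rw [hPdef, Finset.card_filter, Finset.sum_product]
    push_cast
    refine Finset.sum_congr rfl fun w _ => ?_
    rw [Finset.card_filter]
    push_cast
    rfl
  rw [hcardP]
  have hfib : P.card = ∑ t ∈ T, (P.filter (fun p => f p = t)).card :=
    Finset.card_eq_sum_card_image f P
  have hTprop : ∀ t ∈ T, t.1 ≤ K ∧ t.2 ∈ L.W ∧ L.c t.1 t.2 = t.2 ∧ L.c 0 t.2 = x₀ ∧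
      ¬ EtaS n μ t.2 (sc ℓ b t.1) M1 δ1 := by
    intro t ht
    rw [hT, Finset.mem_image] at ht
    obtain ⟨p, hp, rfl⟩ := ht
    rw [hmemP] at hp
    obtain ⟨⟨hW, hc0⟩, hK, hE⟩ := hp
    refine ⟨hK, L.c_mem _ hK _ hW, L.c_comp _ _ le_rfl hK _ hW, ?_, hE⟩
    show L.c 0 (L.c p.2 p.1) = x₀
    rw [L.c_comp 0 p.2 (Nat.zero_le _) hK _ hW, hc0]
  have hfibcard : ∀ t ∈ T, (P.filter (fun p => f p = t)).card ≤ (L.cell t.1 t.2).card := by
    intro t _
    refine Finset.card_le_card_of_injOn (fun p => p.1) ?_ ?_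
    · intro p hp
      rw [Finset.mem_coe, Finset.mem_filter, hmemP] at hp
      obtain ⟨⟨⟨hW, hc0⟩, hK, hE⟩, hpt⟩ := hp
      rw [Finset.mem_coe, L.mem_cell]
      rw [← hpt]
      exact ⟨hW, rfl⟩
    · intro p hp q hq hpq
      rw [Finset.mem_coe, Finset.mem_filter] at hp hq
      have h1 : p.2 = q.2 := by
        have h1 := congrArg Prod.fst hp.2
        have h2 := congrArg Prod.fst hq.2
        simp only [hf] at h1 h2
        rw [h1, h2]
      exact Prod.ext hpq h1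
  -- apply the packing
  have hpk := hpack μ D hADR hWR x₀ (b * ℓ) b (by positivity) (by linarith) (ℕ × V d) T
    (fun t => t.2) (fun t => t.1 + 1) ?_ ?_
  · have hscale : ∀ k : ℕ, b * ℓ / b ^ (k + 1) = sc ℓ b k := by
      intro k
      unfold sc
      rw [pow_succ]
      field_simp
    simp only [hscale] at hpk
    have hscK : 0 < sc ℓ b K := sc_pos hℓ hb0 K
    have hpow : ∀ k ≤ K, (b ^ (K - k)) ^ n = (sc ℓ b k) ^ n / (sc ℓ b K) ^ n := by
      intro k hk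
      rw [← div_pow]
      congr 1
      unfold sc
      rw [div_div_div_cancel_left' _ _ hℓ.ne', eq_div_iff (by positivity), ← pow_add]
      congr 1
      omega
    have h1 : (P.card : ℝ) ≤ ∑ t ∈ T, CL * ((sc ℓ b t.1) ^ n / (sc ℓ b K) ^ n) := by
      rw [hfib]
      push_cast
      refine Finset.sum_le_sum fun t ht => ?_
      obtain ⟨hk, hW, hcc, hc0, _⟩ := hTprop t ht
      calc ((P.filter (fun p => f p = t)).card : ℝ) ≤ ((L.cell t.1 t.2).card : ℝ) := by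
            exact_mod_cast hfibcard t ht
        _ ≤ CL * (b ^ (K - t.1)) ^ n := hupp t.1 hk t.2 hW hcc hc0
        _ = CL * ((sc ℓ b t.1) ^ n / (sc ℓ b K) ^ n) := by rw [hpow t.1 hk]
    have h2 : ∑ t ∈ T, CL * ((sc ℓ b t.1) ^ n / (sc ℓ b K) ^ n)
        = CL / (sc ℓ b K) ^ n * ∑ t ∈ T, (sc ℓ b t.1) ^ n := by
      rw [Finset.mul_sum]
      refine Finset.sum_congr rfl fun t _ => ?_
      ring
    have h3 : (b ^ K) ^ n * (sc ℓ b K) ^ n = ℓ ^ n := by
      rw [← mul_pow]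
      congr 1
      unfold sc
      field_simp
    have h4 : cL * (b ^ K) ^ n ≤ (L.top.card : ℝ) := by
      have := hlow 0 (Nat.zero_le K) x₀ L.root_mem L.c_root L.c_root
      simpa [Lat.top] using this
    calc (P.card : ℝ) ≤ CL / (sc ℓ b K) ^ n * ∑ t ∈ T, (sc ℓ b t.1) ^ n := by
          rw [← h2]; exact h1
      _ ≤ CL / (sc ℓ b K) ^ n * (Kp * (b * ℓ) ^ n) := by gcongr
      _ = CL * Kp * b ^ n / cL * (cL * (b ^ K) ^ n) := by
          rw [mul_pow, ← h3]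
          field_simp
      _ ≤ CL * Kp * b ^ n / cL * (L.top.card : ℝ) := by gcongr
  · intro t ht
    obtain ⟨hk, hW, hcc, hc0, hE⟩ := hTprop t ht
    have hscale : b * ℓ / b ^ (t.1 + 1) = sc ℓ b t.1 := by
      unfold sc
      rw [pow_succ]
      field_simp
    rw [hscale]
    refine ⟨L.W_sub _ hW, ?_, ?_, hE⟩
    · have h := L.c_dist 0 (Nat.zero_le K) t.2 hW
      rw [hc0, sc_zero] at h
      nlinarith
    · refine le_trans (ENNReal.ofReal_le_ofReal ?_) hℓD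
      have := sc_anti (b := b) hℓ (by linarith) (Nat.zero_le t.1)
      rwa [sc_zero] at this
  · intro s hs t ht hst hk
    have hk' : s.1 = t.1 := by simpa using hk
    obtain ⟨hks, hWs, hccs, hc0s, hEs⟩ := hTprop s hs
    obtain ⟨hkt, hWt, hcct, hc0t, hEt⟩ := hTprop t ht
    have hscale : b * ℓ / b ^ (s.1 + 1) = sc ℓ b s.1 := by
      unfold sc
      rw [pow_succ]
      field_simp
    rw [hscale]
    have hne : L.c s.1 s.2 ≠ L.c s.1 t.2 := by
      rw [hccs, hk', hcct]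
      intro h
      exact hst (Prod.ext hk' h)
    have := sep_centers L hks hWs hWt hne
    rw [hccs, hk', hcct] at this
    rw [hk']
    linarith

end M9

end Crest.Agent.R085
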