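/-
R085 (S0113), PART II: BLUEPRINT (statements of the independent lemmas; sorry allowed here).
Owner: helper427.  Each statement is to be proved in its own file (see the docstring), under the
same name in namespace `Crest.Agent.R085`; this file is only a reference and is imported by nobody.
-/
import Crest.Agent.R085.P2Defs

set_option autoImplicit false

namespace Crest.Agent.R085.Blue

open MeasureTheory Set

/-! ## P2Lat.lean : existence of lattices -/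

/-- FILE P2Lat.lean.  Proof: `T = S ∩ closedBall x₀ (10ℓ)` is compact.  Nested finite nets
`{x₀} ⊆ N 0 ⊆ N 1 ⊆ … ⊆ N K = W ⊆ T`, `N k` maximal `sc k`-separated in `T` (points at distance
`≥ sc k`).  `p k x` = nearest point of `N k` to `x`; `c k w = p k (p (k+1) (… p (K-1) w))`. -/
theorem exists_lat {d : ℕ} (S : Set (EuclideanSpace ℝ (Fin d))) (hS : IsClosed S)
    (x₀ : EuclideanSpace ℝ (Fin d)) (hx : x₀ ∈ S) (ℓ b : ℝ) (hℓ : 0 < ℓ) (hb : 16 ≤ b) (K : ℕ) :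
    Nonempty (Lat S x₀ ℓ b K) := by
  sorry

/-! ## P2Card.lean : cardinality of cells -/

/-- FILE P2Card.lean. Volume count: `ball x (sc k/8) ∩ S ⊆ ⋃_{w ∈ cell k x} ball w (2 sc K)`. -/
theorem card_cell_lower {d n : ℕ} {C : ℝ} (hC : 1 ≤ C)
    (μ : Measure (EuclideanSpace ℝ (Fin d))) (S : Set (EuclideanSpace ℝ (Fin d)))
    (hμS : μ Sᶜ = 0) {x₀ : EuclideanSpace ℝ (Fin d)} {ℓ b : ℝ} (hℓ : 0 < ℓ) (hb : 16 ≤ b)
    (hAD : ADat n C (100 * ℓ) μ S) {K : ℕ} (L : Lat S x₀ ℓ b K)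
    (k : ℕ) (hk : k ≤ K) (x : EuclideanSpace ℝ (Fin d)) (hx : x ∈ L.W) (hkx : L.c k x = x)
    (h0x : L.c 0 x = x₀) :
    (C ^ 2 * 16 ^ n)⁻¹ * (b ^ (K - k)) ^ n ≤ ((L.cell k x).card : ℝ) := by
  sorry

/-- FILE P2Card.lean. Disjoint balls `ball w (sc K/8)`, `w ∈ cell k x`, in `ball x (3 sc k)`. -/
theorem card_cell_upper {d n : ℕ} {C : ℝ} (hC : 1 ≤ C)
    (μ : Measure (EuclideanSpace ℝ (Fin d))) (S : Set (EuclideanSpace ℝ (Fin d)))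
    {x₀ : EuclideanSpace ℝ (Fin d)} {ℓ b : ℝ} (hℓ : 0 < ℓ) (hb : 16 ≤ b)
    (hAD : ADat n C (100 * ℓ) μ S) {K : ℕ} (L : Lat S x₀ ℓ b K)
    (k : ℕ) (hk : k ≤ K) (x : EuclideanSpace ℝ (Fin d)) (hx : x ∈ L.W) (hkx : L.c k x = x) :
    ((L.cell k x).card : ℝ) ≤ C ^ 2 * 24 ^ n * (b ^ (K - k)) ^ n := by
  sorry

/-! ## P2Chain.lean : the chain covering -/

/-- FILE P2Chain.lean. Every point `z` of a disc of the plane of a root `(j, x)` is reached (up to a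
small error) by a leaf `w` of the cell `(j, x)` whose branch either stays in the tree up to
generation `K - 1`, or leaves the tree at some generation `k < K`. -/
theorem chain_cover {d n : ℕ} {S : Set (EuclideanSpace ℝ (Fin d))}
    {x₀ : EuclideanSpace ℝ (Fin d)} {ℓ b : ℝ} {K : ℕ} (L : Lat S x₀ ℓ b K) (hℓ : 0 < ℓ)
    {c₁ ε : ℝ} (hc₁ : 0 < c₁) (hc₁' : c₁ ≤ 1) (hb : 1000 ≤ b * c₁) (hε : 0 < ε)
    (hεb : ε ≤ 1 / b ^ 2)
    (good : ℕ → EuclideanSpace ℝ (Fin d) → Prop)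
    (P : ℕ → EuclideanSpace ℝ (Fin d) → EuclideanSpace ℝ (Fin d))
    (I : ℕ → EuclideanSpace ℝ (Fin d) →
      (EuclideanSpace ℝ (Fin n) →ₗᵢ[ℝ] EuclideanSpace ℝ (Fin d)))
    (hgood : ∀ k x, good k x → BF S n x (sc ℓ b k) 100 ε (P k x) (I k x))
    (j : ℕ) (hj : j ≤ K) (x : EuclideanSpace ℝ (Fin d)) (hx : x ∈ L.W) (hjx : L.c j x = x)
    (h0x : L.c 0 x = x₀) (hroot : root L.c good I c₁ j x = some j)
    (z : EuclideanSpace ℝ (Fin n)) (hz : dist z (pr (I j x) x) ≤ sc ℓ b j / 100) :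
    ∃ w ∈ L.cell j x,
      ((∀ i, j ≤ i → i < K → root L.c good I c₁ i (L.c i w) = some j) ∧
        dist z (pr (I j x) w) ≤ 2 * sc ℓ b K) ∨
      ∃ k, j < k ∧ k < K ∧
        (∀ i, j ≤ i → i < k → root L.c good I c₁ i (L.c i w) = some j) ∧
        root L.c good I c₁ k (L.c k w) ≠ some j ∧
        dist z (pr (I j x) w) ≤ 2 / b * sc ℓ b k := by
  sorry

/-! ## P2Slab.lean : slabs and steep planes -/

/-- FILE P2Slab.lean. Lebesgue measure of a slab in a ball. -/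
theorem slab_volume (n : ℕ) (hn : 1 ≤ n) : ∃ C : ℝ, 0 < C ∧
    ∀ (q e : EuclideanSpace ℝ (Fin n)), ‖e‖ = 1 → ∀ ρ t : ℝ, 0 < ρ → 0 ≤ t →
      volume {z : EuclideanSpace ℝ (Fin n) | dist z q ≤ ρ ∧ |inner ℝ e (z - q)| ≤ t * ρ} ≤
        ENNReal.ofReal (C * t * ρ ^ n) := by
  sorry

/-- FILE P2Slab.lean. A steep plane projects in a thin slab. -/
theorem steep_slab {d n : ℕ} {c₁ : ℝ} (hc₁ : 0 < c₁)
    (ι ι' : EuclideanSpace ℝ (Fin n) →ₗᵢ[ℝ] EuclideanSpace ℝ (Fin d))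
    (h : ¬ NonSteep c₁ ι ι') :
    ∃ e : EuclideanSpace ℝ (Fin n), ‖e‖ = 1 ∧ ∀ v, |inner ℝ e (pr ι (ι' v))| ≤ c₁ * ‖v‖ := by
  sorry

/-! ## P2Left.lean : the leftover of a root is large -/

open Classical in
/-- FILE P2Left.lean. (Area argument: chain_cover + slab_volume + steep_slab + cardinalities.) -/
theorem leftover_large (n : ℕ) (hn : 1 ≤ n) (cL CL : ℝ) (hcL : 0 < cL) (hCL : 0 < CL) :
    ∃ c₁ : ℝ, 0 < c₁ ∧ c₁ ≤ 1 ∧ ∃ c₆ : ℝ, 0 < c₆ ∧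
    ∀ {d : ℕ} {S : Set (EuclideanSpace ℝ (Fin d))} {x₀ : EuclideanSpace ℝ (Fin d)}
      {ℓ b : ℝ} {K : ℕ} (L : Lat S x₀ ℓ b K), 0 < ℓ → ∀ {ε : ℝ}, 1000 ≤ b * c₁ → 0 < ε →
      ε ≤ 1 / b ^ 2 →
      (∀ k ≤ K, ∀ x ∈ L.W, L.c k x = x → L.c 0 x = x₀ →
        cL * (b ^ (K - k)) ^ n ≤ ((L.cell k x).card : ℝ)) →
      (∀ k ≤ K, ∀ x ∈ L.W, L.c k x = x → L.c 0 x = x₀ →
        ((L.cell k x).card : ℝ) ≤ CL * (b ^ (K - k)) ^ n) →
      ∀ (good : ℕ → EuclideanSpace ℝ (Fin d) → Prop)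
        (P : ℕ → EuclideanSpace ℝ (Fin d) → EuclideanSpace ℝ (Fin d))
        (I : ℕ → EuclideanSpace ℝ (Fin d) →
          (EuclideanSpace ℝ (Fin n) →ₗᵢ[ℝ] EuclideanSpace ℝ (Fin d))),
        (∀ k x, good k x → BF S n x (sc ℓ b k) 100 ε (P k x) (I k x)) →
        ∀ j ≤ K, ∀ x ∈ L.W, L.c j x = x → L.c 0 x = x₀ → root L.c good I c₁ j x = some j →
          c₆ * ((L.cell j x).card : ℝ) ≤
            (((L.cell j x).filter (fun w => Leftover L good I c₁ j w)).card : ℝ) := by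
  sorry

/-! ## P2Count.lean : packing of roots -/

open Classical in
/-- FILE P2Count.lean. (Pure combinatorics: leftovers of different roots over a leaf end at
different bad generations.) -/
theorem sum_nroot_le {d n : ℕ} {S : Set (EuclideanSpace ℝ (Fin d))}
    {x₀ : EuclideanSpace ℝ (Fin d)} {ℓ b : ℝ} {K : ℕ} (L : Lat S x₀ ℓ b K)
    (good : ℕ → EuclideanSpace ℝ (Fin d) → Prop)
    (I : ℕ → EuclideanSpace ℝ (Fin d) →
      (EuclideanSpace ℝ (Fin n) →ₗᵢ[ℝ] EuclideanSpace ℝ (Fin d)))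
    (c₁ c₆ : ℝ) (hc₆ : 0 < c₆)
    (hleft : ∀ j ≤ K, ∀ x ∈ L.W, L.c j x = x → L.c 0 x = x₀ →
      root L.c good I c₁ j x = some j →
      c₆ * ((L.cell j x).card : ℝ) ≤
        (((L.cell j x).filter (fun w => Leftover L good I c₁ j w)).card : ℝ)) :
    c₆ * (∑ w ∈ L.top, (nroot L good I c₁ w : ℝ)) ≤
      ∑ w ∈ L.top, ((((Finset.range (K + 1)).filter
        (fun k => ¬ good k (L.c k w))).card : ℝ) + 2) := by
  sorry

/-! ## P2Map.lean : the expanding map -/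

open Classical in
/-- FILE P2Map.lean. -/
theorem expanding_map (n : ℕ) (hn : 1 ≤ n) (c₁ b : ℝ) (hc₁ : 0 < c₁) (hc₁' : c₁ ≤ 1)
    (hb : 1000 ≤ b * c₁) (M : ℕ) :
    ∃ κ : ℝ, 0 < κ ∧ κ ≤ 1 ∧ ∃ η₀ : ℝ, 0 < η₀ ∧
    ∀ {d : ℕ} {S : Set (EuclideanSpace ℝ (Fin d))} {x₀ : EuclideanSpace ℝ (Fin d)}
      {ℓ : ℝ} {K : ℕ} (L : Lat S x₀ ℓ b K), 0 < ℓ → ∀ {ε : ℝ}, 0 < ε →
      ε ≤ 1 / b ^ 2 →
      (∀ k < K, ∀ x ∈ L.W, L.c k x = x → L.c 0 x = x₀ →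
        ((L.cell k x).image (L.c (k + 1))).card ≤ M) →
      ∀ (good : ℕ → EuclideanSpace ℝ (Fin d) → Prop)
        (P : ℕ → EuclideanSpace ℝ (Fin d) → EuclideanSpace ℝ (Fin d))
        (I : ℕ → EuclideanSpace ℝ (Fin d) →
          (EuclideanSpace ℝ (Fin n) →ₗᵢ[ℝ] EuclideanSpace ℝ (Fin d))),
        (∀ k x, good k x → BF S n x (sc ℓ b k) 100 ε (P k x) (I k x)) →
        ∃ f : EuclideanSpace ℝ (Fin d) → EuclideanSpace ℝ (Fin n),
          (∀ w ∈ L.top, ‖f w‖ ≤ 10 * ℓ) ∧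
          ∀ w ∈ L.top, ∀ w' ∈ L.top, ∀ N : ℕ,
            ((Finset.range (K + 1)).filter (fun k => ¬ good k (L.c k w))).card +
              nroot L good I c₁ w ≤ N →
            η₀ * κ ^ N * dist w w' ≤ dist (f w) (f w') := by
  sorry

/-! ## P2Core.lean : discrete core -/

/-- FILE P2Core.lean (assembly of the previous ones). -/
theorem discrete_core (n d : ℕ) (hn : 1 ≤ n) (hnd : n ≤ d) (cL CL : ℝ) (hcL : 0 < cL)
    (hCL : 0 < CL) :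
    ∃ b ε : ℝ, 16 ≤ b ∧ 0 < ε ∧ ∀ C_B : ℝ, 0 ≤ C_B → ∃ η : ℝ, 0 < η ∧
      ∀ {S : Set (EuclideanSpace ℝ (Fin d))} {x₀ : EuclideanSpace ℝ (Fin d)}
        {ℓ : ℝ} {K : ℕ} (L : Lat S x₀ ℓ b K), 0 < ℓ →
        (∀ k ≤ K, ∀ x ∈ L.W, L.c k x = x → L.c 0 x = x₀ →
          cL * (b ^ (K - k)) ^ n ≤ ((L.cell k x).card : ℝ)) →
        (∀ k ≤ K, ∀ x ∈ L.W, L.c k x = x → L.c 0 x = x₀ →
          ((L.cell k x).card : ℝ) ≤ CL * (b ^ (K - k)) ^ n) →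
        (∑ w ∈ L.top, (nbad L n 100 ε w : ℝ)) ≤ C_B * (L.top.card : ℝ) →
        ∃ F : Finset (EuclideanSpace ℝ (Fin d)), F ⊆ L.top ∧
          (L.top.card : ℝ) ≤ 2 * F.card ∧
          ∃ f : EuclideanSpace ℝ (Fin d) → EuclideanSpace ℝ (Fin n),
            (∀ w ∈ F, ‖f w‖ ≤ 10 * ℓ) ∧
            ∀ w ∈ F, ∀ w' ∈ F, η * dist w w' ≤ dist (f w) (f w') := by
  sorry

/-! ## P2End.lean : endgame -/

/-- FILE P2End.lean. From finite depth expanding maps to a Lipschitz image (limit `K → ∞`). -/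
theorem endgame (n d : ℕ) (hn : 1 ≤ n) (C η b : ℝ) (hC : 1 ≤ C) (hη : 0 < η) (hb : 16 ≤ b) :
    ∃ θ : ℝ, 0 < θ ∧ ∃ M : NNReal, ∀ (μ : Measure (EuclideanSpace ℝ (Fin d)))
      (x₀ : EuclideanSpace ℝ (Fin d)) (r : ℝ), 0 < r → x₀ ∈ μ.support →
      ADat n C r μ μ.support →
      (∀ K : ℕ, ∃ L : Lat μ.support x₀ (r / 100) b K,
        ∃ F : Finset (EuclideanSpace ℝ (Fin d)), F ⊆ L.top ∧
          (L.top.card : ℝ) ≤ 2 * F.card ∧
          ∃ f : EuclideanSpace ℝ (Fin d) → EuclideanSpace ℝ (Fin n),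
            (∀ w ∈ F, ‖f w‖ ≤ 10 * (r / 100)) ∧
            ∀ w ∈ F, ∀ w' ∈ F, η * dist w w' ≤ dist (f w) (f w')) →
      ∃ g : EuclideanSpace ℝ (Fin n) → EuclideanSpace ℝ (Fin d),
        LipschitzOnWith M g (Metric.ball 0 r) ∧
          ENNReal.ofReal (θ * r ^ n) ≤ μ (Metric.ball x₀ r ∩ g '' Metric.ball 0 r) := by
  sorry

/-! ## P2Main.lean : PART II -/

/-- FILE P2Main.lean. PART II: the bilateral weak geometric lemma implies big pieces of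
Lipschitz images. -/
theorem part_two (d n : ℕ) (hn : 1 ≤ n) (hnd : n ≤ d) (C_AD C_R : ℝ)
    (h : BWGL d n C_AD C_R) :
    ∃ θ : ℝ, 0 < θ ∧ ∃ M : NNReal, ∀ μ : MeasureTheory.Measure (EuclideanSpace ℝ (Fin d)),
      Crest.AnalysisR.IsADRegular n C_AD μ → Crest.AnalysisR.HasRieszBound n C_R μ →
        Crest.AnalysisR.IsUniformlyRectifiable n θ M μ := by
  sorry

end Crest.Agent.R085.Blue
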