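import Crest.Agent.R085.TouchK

/-!
Row 85, module M4, (T1): comparison of the potential at a point `a` off the support with the
form `Bf` tested on a bump at a point of the support.
-/

set_option autoImplicit false

namespace Crest.Agent.R085.Touch

open MeasureTheory Metric Set Filter
open scoped ENNReal NNReal Topology

variable {d n : ℕ}

/-- The `e`-component of the truncated potential at `a`:
`∫ ⟪a - y, e⟫ k_N(a - y) dμ(y)`. -/
noncomputable def Fp (n : ℕ) (μ : Measure (V d)) (N : ℝ) (e a : V d) : ℝ :=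
  ∫ y, inner ℝ (a - y) e * kN n N (a - y) ∂μ

theorem measurable_Fp_integrand (N : ℝ) (e a : V d) :
    Measurable fun y : V d => inner ℝ (a - y) e * kN n N (a - y) := by
  have h1 : Measurable fun y : V d => a - y := measurable_const.sub measurable_id
  have h2 : Measurable fun y : V d => inner ℝ (a - y) e :=
    (by fun_prop : Continuous fun y : V d => inner ℝ (a - y) e).measurable
  exact h2.mul ((measurable_kN n N).comp h1)

/-- integrability of the potential integrand on a set at distance `≥ m` from `a`. -/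
theorem integrableOn_Fp {C : ℝ} {μ : Measure (V d)} (hμ : UpperReg n C μ) {N : ℝ}
    (hN : 0 < N) {e : V d} (he : ‖e‖ ≤ 1) (a : V d) {m : ℝ} (hm : 0 < m) {S : Set (V d)}
    (hS : ∀ᵐ y ∂(μ.restrict S), m ≤ ‖a - y‖) :
    IntegrableOn (fun y => inner ℝ (a - y) e * kN n N (a - y)) S μ := by
  have hB : IntegrableOn (fun _ : V d => (m ^ n)⁻¹) (closedBall a (2 * N)) μ := by
    rw [integrableOn_const_iff]
    right
    exact closedBall_lt_top hμ a (2 * N)
  have hB' : Integrable ((closedBall a (2 * N)).indicator fun _ : V d => (m ^ n)⁻¹)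
      (μ.restrict S) := by
    have := (integrable_indicator_iff measurableSet_closedBall).2 hB
    exact this.mono_measure Measure.restrict_le_self
  refine hB'.mono' (measurable_Fp_integrand N e a).aestronglyMeasurable ?_
  filter_upwards [hS] with y hy
  rw [Real.norm_eq_abs]
  by_cases hyB : y ∈ closedBall a (2 * N)
  · rw [indicator_of_mem hyB]
    refine (abs_inner_mul_kN_le N e (a - y) he).trans ?_
    apply inv_anti₀ (by positivity)
    gcongr
  · rw [indicator_of_notMem hyB]
    have : 2 * N ≤ ‖a - y‖ := by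
      rw [mem_closedBall, not_le, dist_comm, dist_eq_norm] at hyB
      exact hyB.le
    rw [kN_eq_zero hN this, mul_zero, abs_zero]

/-- **(T1)** For a probability bump `ψ` at a point `p` with `Lip ψ ≤ L r^{-(n+1)}` and support in
`ball p r`, and `a` with `|a - p| ≤ r` and `dist(a, supp μ) ≥ r`, the potential at `a` is
`Bf n μ N (lin e) ψ` up to a bounded error. -/
theorem abs_Fp_sub_Bf_le (hn : 1 ≤ n) {C : ℝ} (hC : 0 ≤ C) {μ : Measure (V d)}
    (hμ : UpperReg n C μ) {N : ℝ} (hN : 0 < N) {e : V d} (he : ‖e‖ ≤ 1)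
    {p a : V d} {r : ℝ} (hr : 0 < r) (hap : ‖a - p‖ ≤ r) (ha : ∀ᵐ y ∂μ, r ≤ ‖a - y‖)
    {ψ : V d → ℝ} {L : ℝ} (hL : 0 ≤ L) (hψL : ∀ x y, |ψ x - ψ y| ≤ L / r ^ (n + 1) * dist x y)
    (hψ0 : ∀ y, 0 ≤ ψ y) (hψs : ∀ y, y ∉ closedBall p r → ψ y = 0) (hψ1 : ∫ y, ψ y ∂μ = 1) :
    |Fp n μ N e a - Bf n μ N (lin e) ψ|
      ≤ C * 4 ^ n + 4 * L * C ^ 2 * 32 ^ n + (n + 4) * C * 3 ^ (n + 1) := by
  have hlf := lf_of_upper hμ
  set B : Set (V d) := ball p (4 * r) with hBdef
  have hBm : MeasurableSet B := measurableSet_ball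
  set f : V d × V d → ℝ := bfI n N (lin e) ψ with hf
  set G : V d → V d → ℝ := fun x y => inner ℝ (x - y) e * kN n N (x - y) with hG
  have hψsB : ∀ y, y ∉ B → ψ y = 0 := by
    intro y hy
    apply hψs
    intro h
    apply hy
    rw [hBdef, mem_ball]
    rw [mem_closedBall] at h
    linarith
  have hfG : ∀ x y, f (x, y) = G x y * (ψ x - ψ y) := by
    intro x y
    simp only [hf, hG, bfI, lin]
    rw [inner_sub_left]
    ring
  have hlin : ∀ x y : V d, |lin e x - lin e y| ≤ 1 * dist x y := by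
    intro x y
    unfold lin
    rw [← inner_sub_left, dist_eq_norm]
    calc |inner ℝ (x - y) e| ≤ ‖x - y‖ * ‖e‖ := abs_real_inner_le_norm _ _
      _ ≤ ‖x - y‖ * 1 := by gcongr
      _ = 1 * ‖x - y‖ := by ring
  have hlinm : Measurable (lin e : V d → ℝ) := by
    unfold lin
    exact (by fun_prop : Continuous fun y : V d => inner ℝ y e).measurable
  have hψc : Continuous ψ := by
    have hlip : LipschitzWith (Real.toNNReal (L / r ^ (n + 1))) ψ := by
      apply LipschitzWith.of_dist_le_mul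
      intro x y
      rw [Real.dist_eq, Real.coe_toNNReal _ (by positivity)]
      exact hψL x y
    exact hlip.continuous
  have hfi : Integrable f (μ.prod μ) :=
    integrable_bfI hn hC hμ hN zero_le_one (by positivity : 0 ≤ L / r ^ (n + 1)) hlin hψL hlinm
      hψc.measurable (c := p) (R := r) hψs
  -- the decomposition
  set A : Set (V d × V d) := B ×ˢ B with hA
  set g : V d × V d → ℝ := (B ×ˢ Bᶜ).indicator f with hg
  have hdec : ∀ q : V d × V d, f q = A.indicator f q + g q + g q.swap := by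
    rintro ⟨x, y⟩
    have hsw : f (y, x) = f (x, y) := bfI_swap N (lin e) ψ (x, y)
    by_cases hx : x ∈ B <;> by_cases hy : y ∈ B <;>
      simp [hA, hg, indicator, hx, hy, hsw]
    rw [hfG, hψsB x hx, hψsB y hy]; ring
  have hAi : Integrable (A.indicator f) (μ.prod μ) :=
    hfi.indicator (hBm.prod hBm)
  have hgi : Integrable g (μ.prod μ) := hfi.indicator (hBm.prod hBm.compl)
  have hgsi : Integrable (fun q : V d × V d => g q.swap) (μ.prod μ) := hgi.swap
  have hintf : ∫ q, f q ∂(μ.prod μ) = ∫ q, A.indicator f q ∂(μ.prod μ)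
      + 2 * ∫ q, g q ∂(μ.prod μ) := by
    have h1 : ∫ q, f q ∂(μ.prod μ) = ∫ q, (A.indicator f q + g q + g q.swap) ∂(μ.prod μ) :=
      integral_congr_ae (Eventually.of_forall hdec)
    have h2 : ∫ q : V d × V d, g q.swap ∂(μ.prod μ) = ∫ q, g q ∂(μ.prod μ) :=
      integral_prod_swap (μ := μ) (ν := μ) g
    have hAgi : Integrable (fun q => A.indicator f q + g q) (μ.prod μ) := hAi.add hgi
    rw [h1, integral_add hAgi hgsi, integral_add hAi hgi, h2]
    ring
  set H : V d → ℝ := fun x => ∫ y in Bᶜ, G x y ∂μ with hH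
  have hgH : ∫ q, g q ∂(μ.prod μ) = ∫ x, ψ x * H x ∂μ := by
    rw [integral_prod g hgi]
    congr 1
    ext x
    have : ∀ y, g (x, y) = ψ x * (Bᶜ.indicator (G x) y) := by
      intro y
      by_cases hx : x ∈ B <;> by_cases hy : y ∈ B
      · simp [hg, indicator, hx, hy]
      · simp only [hg, indicator, mem_prod, hx, hy, mem_compl_iff, not_false_eq_true, and_self,
          if_true]
        rw [hfG, hψsB y hy]; ring
      · simp [hg, indicator, hx, hy]
      · simp [hg, indicator, hx, hy, hψsB x hx]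
    simp_rw [this]
    rw [integral_const_mul, integral_indicator hBm.compl]
  -- potential splitting
  have hFi1 : IntegrableOn (G a) B μ :=
    integrableOn_Fp hμ hN he a hr (ae_restrict_of_ae ha)
  have hFi2 : IntegrableOn (G a) Bᶜ μ :=
    integrableOn_Fp hμ hN he a hr (ae_restrict_of_ae ha)
  have hFi : Integrable (G a) μ := by
    rw [← integrableOn_univ, ← union_compl_self B]
    exact hFi1.union hFi2
  have hFsplit : Fp n μ N e a = ∫ y in B, G a y ∂μ + H a := by
    have := integral_add_compl hBm hFi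
    rw [hH]; exact this.symm
  -- (i) near part
  have hI1 : |∫ y in B, G a y ∂μ| ≤ C * 4 ^ n := by
    have h1 : ‖∫ y in B, G a y ∂μ‖ ≤ (r ^ n)⁻¹ * μ.real B := by
      apply norm_setIntegral_le_of_norm_le_const_ae' (hμ.ball_lt_top p (4 * r))
      filter_upwards [ha] with y hy _
      rw [Real.norm_eq_abs]
      refine (abs_inner_mul_kN_le N e (a - y) he).trans ?_
      apply inv_anti₀ (by positivity)
      gcongr
    have h2 : μ.real B ≤ C * (4 * r) ^ n := by
      rw [measureReal_def]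
      exact ENNReal.toReal_le_of_le_ofReal (by positivity) (hμ p (4 * r) (by positivity))
    calc |∫ y in B, G a y ∂μ| ≤ (r ^ n)⁻¹ * μ.real B := h1
      _ ≤ (r ^ n)⁻¹ * (C * (4 * r) ^ n) := by gcongr
      _ = C * 4 ^ n := by rw [mul_pow]; field_simp
  -- (ii) near-near part
  have hI2 : |(1 / 2 : ℝ) * ∫ q, A.indicator f q ∂(μ.prod μ)| ≤ 4 * L * C ^ 2 * 32 ^ n := by
    have hnear := integrable_near_prod hC hμ hn p (4 * r) (S := 8 * r) (by positivity)
    set A' : Set (V d × V d) := {q : V d × V d | q.1 ∈ closedBall p (4 * r) ∧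
      q.2 ∈ closedBall q.1 (8 * r)} with hA'
    have h1 : |∫ q, A.indicator f q ∂(μ.prod μ)| ≤ ∫ q, 1 * (L / r ^ (n + 1)) *
        A'.indicator (fun q : V d × V d => (dist q.1 q.2 ^ (n - 1))⁻¹) q ∂(μ.prod μ) := by
      rw [← Real.norm_eq_abs]
      apply norm_integral_le_of_norm_le (hnear.1.const_mul _)
      filter_upwards with q
      rw [Real.norm_eq_abs]
      by_cases hq : q ∈ A
      · have hq' : q ∈ A' := by
          obtain ⟨h1, h2⟩ := hq
          rw [hBdef, mem_ball] at h1 h2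
          refine ⟨?_, ?_⟩
          · rw [mem_closedBall]; exact h1.le
          · rw [mem_closedBall]
            have := dist_triangle_right q.2 q.1 p
            linarith
        rw [indicator_of_mem hq, indicator_of_mem hq']
        exact abs_bfI_le hn zero_le_one (by positivity : 0 ≤ L / r ^ (n + 1)) hlin hψL q
      · rw [indicator_of_notMem hq, abs_zero]
        apply mul_nonneg (by positivity)
        apply indicator_nonneg
        intro q _
        positivity
    have h2 : μ.real (closedBall p (4 * r)) ≤ C * 2 ^ n * (4 * r) ^ n := by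
      rw [measureReal_def]
      exact ENNReal.toReal_le_of_le_ofReal (by positivity) (hμ.closedBall_le p (by positivity))
    rw [abs_mul, abs_of_pos (by norm_num : (0 : ℝ) < 1 / 2)]
    calc (1 / 2 : ℝ) * |∫ q, A.indicator f q ∂(μ.prod μ)|
        ≤ (1 / 2 : ℝ) * ∫ q, 1 * (L / r ^ (n + 1)) *
          A'.indicator (fun q : V d × V d => (dist q.1 q.2 ^ (n - 1))⁻¹) q ∂(μ.prod μ) := by
          gcongr
      _ = (1 / 2 : ℝ) * (1 * (L / r ^ (n + 1)) * ∫ q,
          A'.indicator (fun q : V d × V d => (dist q.1 q.2 ^ (n - 1))⁻¹) q ∂(μ.prod μ)) := by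
          rw [integral_const_mul]
      _ ≤ (1 / 2 : ℝ) * (1 * (L / r ^ (n + 1)) *
          (C * 4 ^ n * (8 * r) * (C * 2 ^ n * (4 * r) ^ n))) := by
          gcongr
          exact hnear.2.trans (by gcongr)
      _ = 4 * L * C ^ 2 * 32 ^ n := by
          have h32 : (32 : ℝ) ^ n = 4 ^ n * 2 ^ n * 4 ^ n := by
            rw [← mul_pow, ← mul_pow]; norm_num
          rw [h32, mul_pow, pow_succ]
          field_simp
          ring
  -- (iii) far-far part
  have htail := integrableOn_tail hμ hC (m := 1) le_rfl p (r := 4 * r) (by positivity)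
  have hBc : Bᶜ = {y | 4 * r ≤ dist p y} := by
    ext y
    rw [hBdef, mem_compl_iff, mem_ball, not_lt, dist_comm]
    rfl
  have hHx : ∀ x, x ∈ closedBall p r → |H a - H x| ≤ (n + 4) * C * 3 ^ (n + 1) := by
    intro x hx
    have hx' : ‖x - p‖ ≤ r := by rwa [mem_closedBall, dist_eq_norm] at hx
    have hxi : IntegrableOn (G x) Bᶜ μ := by
      apply integrableOn_Fp hμ hN he x (m := 3 * r) (by positivity)
      filter_upwards [ae_restrict_mem hBm.compl] with y hy
      rw [hBc, mem_ofPred_eq, dist_eq_norm, norm_sub_rev] at hy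
      have e1 : y - p = (x - p) - (x - y) := by abel
      have e2 : ‖y - p‖ ≤ ‖x - p‖ + ‖x - y‖ := by rw [e1]; exact norm_sub_le _ _
      linarith
    have hdiff : H a - H x = ∫ y in Bᶜ, (G a y - G x y) ∂μ := by
      rw [hH]; exact (integral_sub hFi2 hxi).symm
    rw [hdiff, ← Real.norm_eq_abs]
    have hbound : ‖∫ y in Bᶜ, (G a y - G x y) ∂μ‖
        ≤ ∫ y in Bᶜ, ((n + 4) * (2 * r) * (4 / 3) ^ (n + 1)) * (dist p y ^ (n + 1))⁻¹ ∂μ := by
      apply norm_integral_le_of_norm_le
      · rw [hBc]; exact htail.1.const_mul _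
      · filter_upwards [ae_restrict_mem hBm.compl] with y hy
        rw [hBc, mem_ofPred_eq, dist_eq_norm, norm_sub_rev] at hy
        have hyp : 0 < ‖y - p‖ := by linarith
        have e2 : ‖y - p‖ ≤ ‖x - p‖ + ‖x - y‖ := by
          have e1 : y - p = (x - p) - (x - y) := by abel
          rw [e1]; exact norm_sub_le _ _
        have e3 : ‖y - p‖ ≤ ‖a - p‖ + ‖a - y‖ := by
          have e1 : y - p = (a - p) - (a - y) := by abel
          rw [e1]; exact norm_sub_le _ _
        have h1 := abs_inner_kN_sub_le (n := n) hN (u := a - y) (v := x - y)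
          (m := 3 / 4 * ‖y - p‖) (by positivity) (by linarith) (by linarith) e he
        rw [Real.norm_eq_abs]
        refine h1.trans ?_
        have e4 : ‖(a - y) - (x - y)‖ ≤ 2 * r := by
          have e1 : (a - y) - (x - y) = (a - p) - (x - p) := by abel
          rw [e1]
          exact (norm_sub_le _ _).trans (by linarith)
        rw [dist_eq_norm, norm_sub_rev p y]
        calc (n + 4) * ‖(a - y) - (x - y)‖ / (3 / 4 * ‖y - p‖) ^ (n + 1)
            ≤ (n + 4) * (2 * r) / (3 / 4 * ‖y - p‖) ^ (n + 1) := by gcongr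
          _ = (n + 4) * (2 * r) * (4 / 3) ^ (n + 1) * (‖y - p‖ ^ (n + 1))⁻¹ := by
            rw [mul_pow, div_pow, div_pow]
            field_simp
    refine hbound.trans ?_
    rw [integral_const_mul]
    rw [hBc]
    calc (n + 4) * (2 * r) * (4 / 3) ^ (n + 1) * ∫ y in {y | 4 * r ≤ dist p y},
          (dist p y ^ (n + 1))⁻¹ ∂μ
        ≤ (n + 4) * (2 * r) * (4 / 3) ^ (n + 1) * (C * 2 ^ (n + 1) / (4 * r) ^ 1) := by
          gcongr
          exact htail.2
      _ = (n + 4) * C * (8 / 3) ^ (n + 1) / 2 := by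
          have h83 : (8 / 3 : ℝ) ^ (n + 1) = (4 / 3) ^ (n + 1) * 2 ^ (n + 1) := by
            rw [← mul_pow]; norm_num
          rw [h83]
          field_simp
          ring
      _ ≤ (n + 4) * C * 3 ^ (n + 1) := by
          have h1 : (8 / 3 : ℝ) ^ (n + 1) ≤ 3 ^ (n + 1) := by gcongr; norm_num
          have h2 : (0 : ℝ) ≤ (n + 4) * C := by positivity
          have h3 : (0 : ℝ) ≤ 3 ^ (n + 1) := by positivity
          have h4 := mul_le_mul_of_nonneg_left h1 h2
          have h5 := mul_nonneg h2 h3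
          linarith
  have hψi : Integrable ψ μ := by
    apply hψc.integrable_of_hasCompactSupport
    apply HasCompactSupport.intro (isCompact_closedBall p r)
    intro x hx
    exact hψs x hx
  have hψHi : Integrable (fun x => ψ x * H x) μ := by
    have := hgi.integral_prod_left
    refine this.congr (Eventually.of_forall fun x => ?_)
    simp only
    have : ∀ y, g (x, y) = ψ x * (Bᶜ.indicator (G x) y) := by
      intro y
      by_cases hx : x ∈ B <;> by_cases hy : y ∈ B
      · simp [hg, indicator, hx, hy]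
      · simp only [hg, indicator, mem_prod, hx, hy, mem_compl_iff, not_false_eq_true, and_self,
          if_true]
        rw [hfG, hψsB y hy]; ring
      · simp [hg, indicator, hx, hy]
      · simp [hg, indicator, hx, hy, hψsB x hx]
    simp_rw [this]
    rw [integral_const_mul, integral_indicator hBm.compl]
  have hI3 : |H a - ∫ x, ψ x * H x ∂μ| ≤ (n + 4) * C * 3 ^ (n + 1) := by
    have e1 : H a = ∫ x, ψ x * H a ∂μ := by
      rw [integral_mul_const, hψ1, one_mul]
    have e2 : H a - ∫ x, ψ x * H x ∂μ = ∫ x, (ψ x * H a - ψ x * H x) ∂μ := by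
      rw [integral_sub (hψi.mul_const _) hψHi, ← e1]
    rw [e2, ← Real.norm_eq_abs]
    calc ‖∫ x, (ψ x * H a - ψ x * H x) ∂μ‖
        ≤ ∫ x, ψ x * ((n + 4) * C * 3 ^ (n + 1)) ∂μ := by
          apply norm_integral_le_of_norm_le (hψi.mul_const _)
          filter_upwards with x
          rw [Real.norm_eq_abs, ← mul_sub, abs_mul, abs_of_nonneg (hψ0 x)]
          by_cases hx : x ∈ closedBall p r
          · exact mul_le_mul_of_nonneg_left (hHx x hx) (hψ0 x)
          · rw [hψs x hx, zero_mul, zero_mul]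
      _ = (n + 4) * C * 3 ^ (n + 1) := by
          rw [integral_mul_const, hψ1, one_mul]
  have hfinal : Fp n μ N e a - Bf n μ N (lin e) ψ
      = (∫ y in B, G a y ∂μ) - (1 / 2 : ℝ) * ∫ q, A.indicator f q ∂(μ.prod μ)
        + (H a - ∫ x, ψ x * H x ∂μ) := by
    rw [hFsplit, Bf_eq, ← hf, hintf, hgH]
    ring
  rw [hfinal]
  calc |(∫ y in B, G a y ∂μ) - (1 / 2 : ℝ) * ∫ q, A.indicator f q ∂(μ.prod μ)
        + (H a - ∫ x, ψ x * H x ∂μ)|
      ≤ |(∫ y in B, G a y ∂μ) - (1 / 2 : ℝ) * ∫ q, A.indicator f q ∂(μ.prod μ)|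
        + |H a - ∫ x, ψ x * H x ∂μ| := abs_add_le _ _
    _ ≤ (|∫ y in B, G a y ∂μ| + |(1 / 2 : ℝ) * ∫ q, A.indicator f q ∂(μ.prod μ)|)
        + |H a - ∫ x, ψ x * H x ∂μ| := by
        gcongr
        exact abs_sub _ _
    _ ≤ _ := by linarith

/-! ### the normalised bump -/

/-- unnormalised bump -/
noncomputable def bump0 {d : ℕ} (p : V d) (r : ℝ) (y : V d) : ℝ := max 0 (1 - ‖y - p‖ / r)

/-- normalised bump at `p` with radius `r` -/
noncomputable def bump {d : ℕ} (μ : Measure (V d)) (p : V d) (r : ℝ) (y : V d) : ℝ :=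
  bump0 p r y / ∫ z, bump0 p r z ∂μ

theorem bump0_nonneg (p : V d) (r : ℝ) (y : V d) : 0 ≤ bump0 p r y := le_max_left _ _

theorem bump0_eq_zero {p : V d} {r : ℝ} (hr : 0 < r) {y : V d} (hy : y ∉ ball p r) :
    bump0 p r y = 0 := by
  unfold bump0
  apply max_eq_left
  rw [mem_ball, not_lt, dist_eq_norm] at hy
  rw [sub_nonpos, le_div_iff₀ hr, one_mul]
  exact hy

theorem bump0_le_one {p : V d} {r : ℝ} (hr : 0 < r) (y : V d) : bump0 p r y ≤ 1 := by
  unfold bump0
  apply max_le zero_le_one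
  have : 0 ≤ ‖y - p‖ / r := by positivity
  linarith

theorem abs_bump0_sub_le {p : V d} {r : ℝ} (hr : 0 < r) (y z : V d) :
    |bump0 p r y - bump0 p r z| ≤ 1 / r * dist y z := by
  unfold bump0
  calc |max 0 (1 - ‖y - p‖ / r) - max 0 (1 - ‖z - p‖ / r)|
      ≤ |(1 - ‖y - p‖ / r) - (1 - ‖z - p‖ / r)| := by
        have := abs_max_sub_max_le_abs (1 - ‖y - p‖ / r) (1 - ‖z - p‖ / r) 0
        rwa [max_comm (1 - ‖y - p‖ / r), max_comm (1 - ‖z - p‖ / r)] at this
    _ = |‖y - p‖ - ‖z - p‖| / r := by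
        rw [← abs_of_pos hr, ← abs_div, abs_of_pos hr, ← abs_neg]
        congr 1
        ring
    _ ≤ ‖(y - p) - (z - p)‖ / r := by
        gcongr
        exact abs_norm_sub_norm_le _ _
    _ = 1 / r * dist y z := by
        rw [dist_eq_norm]
        have : (y - p) - (z - p) = y - z := by abel
        rw [this]; ring

theorem continuous_bump0 (p : V d) (r : ℝ) : Continuous (bump0 p r) := by
  unfold bump0
  fun_prop

theorem hasCompactSupport_bump0 {p : V d} {r : ℝ} (hr : 0 < r) :
    HasCompactSupport (bump0 p r) := by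
  apply HasCompactSupport.intro (isCompact_closedBall p r)
  intro x hx
  exact bump0_eq_zero hr fun h => hx (ball_subset_closedBall h)

theorem integral_bump0_ge {C : ℝ} {D : ℝ≥0∞} {μ : Measure (V d)} (h : ADR n C D μ) {p : V d}
    (hp : p ∈ μ.support) {r : ℝ} (hr : 0 < r) (hrD : ENNReal.ofReal r ≤ D) :
    r ^ n / (2 ^ (n + 1) * C) ≤ ∫ z, bump0 p r z ∂μ := by
  have hC := h.pos
  have hlf := lf_of_upper h.upperReg
  have h1 : C⁻¹ * (r / 2) ^ n ≤ μ.real (ball p (r / 2)) := by
    rw [measureReal_def]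
    have h2 := h.lower p hp (r / 2) (by positivity)
      ((ENNReal.ofReal_le_ofReal (by linarith)).trans hrD)
    exact (ENNReal.ofReal_le_iff_le_toReal (h.upperReg.ball_lt_top _ _).ne).1 h2
  have h2 : 1 / 2 * μ.real (ball p (r / 2)) ≤ ∫ z, bump0 p r z ∂μ := by
    have hint : Integrable (bump0 p r) μ :=
      (continuous_bump0 p r).integrable_of_hasCompactSupport (hasCompactSupport_bump0 hr)
    calc 1 / 2 * μ.real (ball p (r / 2)) = ∫ z in ball p (r / 2), (1 / 2 : ℝ) ∂μ := by
          rw [setIntegral_const, smul_eq_mul, mul_comm]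
      _ ≤ ∫ z in ball p (r / 2), bump0 p r z ∂μ := by
          apply setIntegral_mono_on
          · rw [integrableOn_const_iff]
            right
            exact h.upperReg.ball_lt_top _ _
          · exact hint.integrableOn
          · exact measurableSet_ball
          · intro z hz
            rw [mem_ball, dist_eq_norm] at hz
            unfold bump0
            apply le_max_of_le_right
            have : ‖z - p‖ / r ≤ 1 / 2 := by
              rw [div_le_iff₀ hr]; linarith
            linarith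
      _ ≤ ∫ z, bump0 p r z ∂μ := by
          apply setIntegral_le_integral hint
          exact Eventually.of_forall (bump0_nonneg p r)
  calc r ^ n / (2 ^ (n + 1) * C) = 1 / 2 * (C⁻¹ * (r / 2) ^ n) := by
        rw [div_pow, pow_succ]; field_simp
    _ ≤ 1 / 2 * μ.real (ball p (r / 2)) := by gcongr
    _ ≤ _ := h2

section bump

variable {C : ℝ} {D : ℝ≥0∞} {μ : Measure (V d)}

theorem bump_nonneg (p : V d) (r : ℝ) (y : V d) : 0 ≤ bump μ p r y :=
  div_nonneg (bump0_nonneg _ _ _) (integral_nonneg fun _ => bump0_nonneg _ _ _)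

theorem bump_eq_zero {p : V d} {r : ℝ} (hr : 0 < r) {y : V d} (hy : y ∉ ball p r) :
    bump μ p r y = 0 := by
  unfold bump
  rw [bump0_eq_zero hr hy, zero_div]

theorem abs_bump_sub_le (h : ADR n C D μ) {p : V d}
    (hp : p ∈ μ.support) {r : ℝ} (hr : 0 < r) (hrD : ENNReal.ofReal r ≤ D) (y z : V d) :
    |bump μ p r y - bump μ p r z| ≤ (2 ^ (n + 1) * C) / r ^ (n + 1) * dist y z := by
  have hC := h.pos
  have h1 := integral_bump0_ge h hp hr hrD
  have h0 : 0 < r ^ n / (2 ^ (n + 1) * C) := by positivity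
  have hI : 0 < ∫ z, bump0 p r z ∂μ := h0.trans_le h1
  unfold bump
  rw [← sub_div, abs_div, abs_of_pos hI, div_le_iff₀ hI]
  calc |bump0 p r y - bump0 p r z| ≤ 1 / r * dist y z := abs_bump0_sub_le hr y z
    _ = (2 ^ (n + 1) * C) / r ^ (n + 1) * dist y z * (r ^ n / (2 ^ (n + 1) * C)) := by
        rw [pow_succ r n]; field_simp
    _ ≤ (2 ^ (n + 1) * C) / r ^ (n + 1) * dist y z * ∫ z, bump0 p r z ∂μ := by
        gcongr

theorem integral_bump (h : ADR n C D μ) {p : V d}
    (hp : p ∈ μ.support) {r : ℝ} (hr : 0 < r) (hrD : ENNReal.ofReal r ≤ D) :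
    ∫ y, bump μ p r y ∂μ = 1 := by
  have hC := h.pos
  have h1 := integral_bump0_ge h hp hr hrD
  have h0 : 0 < r ^ n / (2 ^ (n + 1) * C) := by positivity
  have hI : 0 < ∫ z, bump0 p r z ∂μ := h0.trans_le h1
  unfold bump
  rw [integral_div, div_self hI.ne']

theorem isTest_bump (h : ADR n C D μ) {p : V d}
    (hp : p ∈ μ.support) {r : ℝ} (hr : 0 < r) (hrD : ENNReal.ofReal r ≤ D) :
    IsTest (bump μ p r) := by
  have hC := h.pos
  refine ⟨⟨Real.toNNReal ((2 ^ (n + 1) * C) / r ^ (n + 1)), ?_⟩, ?_⟩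
  · apply LipschitzWith.of_dist_le_mul
    intro x y
    rw [Real.dist_eq, Real.coe_toNNReal _ (by positivity)]
    exact abs_bump_sub_le h hp hr hrD x y
  · apply HasCompactSupport.intro (isCompact_closedBall p r)
    intro x hx
    exact bump_eq_zero hr fun h => hx (ball_subset_closedBall h)

/-- constant in the bump comparison -/
noncomputable def T1c (n : ℕ) (C : ℝ) : ℝ :=
  C * 4 ^ n + 4 * (2 ^ (n + 1) * C) * C ^ 2 * 32 ^ n + (n + 4) * C * 3 ^ (n + 1)

/-- **(T1)** bump comparison for the normalised bump. -/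
theorem abs_Fp_sub_Bf_bump_le (hn : 1 ≤ n) (h : ADR n C D μ) {N : ℝ} (hN : 0 < N)
    {e : V d} (he : ‖e‖ ≤ 1) {p a : V d} (hp : p ∈ μ.support) {r : ℝ} (hr : 0 < r)
    (hrD : ENNReal.ofReal r ≤ D) (hap : ‖a - p‖ ≤ r) (ha : ∀ y ∈ μ.support, r ≤ ‖a - y‖) :
    |Fp n μ N e a - Bf n μ N (lin e) (bump μ p r)| ≤ T1c n C := by
  have hC := h.pos
  have hlf := lf_of_upper h.upperReg
  apply abs_Fp_sub_Bf_le hn hC.le h.upperReg hN he hr hap
  · filter_upwards [Measure.support_mem_ae (μ := μ)] with y hy using ha y hy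
  · positivity
  · exact abs_bump_sub_le h hp hr hrD
  · exact bump_nonneg p r
  · intro y hy
    exact bump_eq_zero hr fun h => hy (ball_subset_closedBall h)
  · exact integral_bump h hp hr hrD

end bump

/-! ### linearity of `Bf` in the test function and consequence for reflectionless measures -/

theorem isTest_abs_sub_le {ψ : V d → ℝ} (h : IsTest ψ) :
    ∃ K : ℝ, 0 ≤ K ∧ ∀ x y, |ψ x - ψ y| ≤ K * dist x y := by
  obtain ⟨K, hK⟩ := h.lip
  refine ⟨K, K.2, fun x y => ?_⟩
  rw [← Real.dist_eq]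
  exact hK.dist_le_mul x y

theorem isTest_exists_support {ψ : V d → ℝ} (h : IsTest ψ) (c : V d) :
    ∃ R : ℝ, 0 < R ∧ ∀ y, y ∉ closedBall c R → ψ y = 0 := by
  obtain ⟨R, hR⟩ := h.cpt.isCompact.isBounded.subset_closedBall c
  refine ⟨max R 1, by positivity, fun y hy => ?_⟩
  apply image_eq_zero_of_notMem_tsupport
  intro h'
  exact hy (closedBall_subset_closedBall (le_max_left _ _) (hR h'))

theorem isTest_continuous {ψ : V d → ℝ} (h : IsTest ψ) : Continuous ψ := by
  obtain ⟨K, hK⟩ := h.lip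
  exact hK.continuous

theorem isTest_integrable {ψ : V d → ℝ} (h : IsTest ψ) {C : ℝ} {μ : Measure (V d)}
    (hμ : UpperReg n C μ) : Integrable ψ μ := by
  have := lf_of_upper hμ
  exact (isTest_continuous h).integrable_of_hasCompactSupport h.cpt

theorem isTest_sub {ψ φ : V d → ℝ} (h : IsTest ψ) (h' : IsTest φ) :
    IsTest (fun y => ψ y - φ y) := by
  obtain ⟨K, hK⟩ := h.lip
  obtain ⟨K', hK'⟩ := h'.lip
  exact ⟨⟨K + K', hK.sub hK'⟩, h.cpt.sub h'.cpt⟩

theorem isTest_const_mul {ψ : V d → ℝ} (h : IsTest ψ) (c : ℝ) :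
    IsTest (fun y => c * ψ y) := by
  obtain ⟨K, hK⟩ := h.lip
  refine ⟨⟨‖c‖₊ * K, ?_⟩, ?_⟩
  · apply LipschitzWith.of_dist_le_mul
    intro x y
    rw [Real.dist_eq, ← mul_sub, abs_mul, NNReal.coe_mul, coe_nnnorm, Real.norm_eq_abs, mul_assoc,
      ← Real.dist_eq]
    gcongr
    exact hK.dist_le_mul x y
  · exact h.cpt.mul_left

theorem abs_lin_sub_le (e x y : V d) : |lin e x - lin e y| ≤ ‖e‖ * dist x y := by
  unfold lin
  rw [← inner_sub_left, dist_eq_norm]
  calc |inner ℝ (x - y) e| ≤ ‖x - y‖ * ‖e‖ := abs_real_inner_le_norm _ _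
    _ = ‖e‖ * ‖x - y‖ := by ring

theorem continuous_lin (e : V d) : Continuous (lin e) := by
  unfold lin
  fun_prop

theorem integrable_bfI_lin (hn : 1 ≤ n) {C : ℝ} (hC : 0 ≤ C) {μ : Measure (V d)}
    (hμ : UpperReg n C μ) {N : ℝ} (hN : 0 < N) (e : V d) {ψ : V d → ℝ} (hψ : IsTest ψ) :
    Integrable (bfI n N (lin e) ψ) (μ.prod μ) := by
  obtain ⟨K, hK0, hK⟩ := isTest_abs_sub_le hψ
  obtain ⟨R, hR0, hR⟩ := isTest_exists_support hψ 0
  exact integrable_bfI hn hC hμ hN (norm_nonneg e) hK0 (abs_lin_sub_le e) hK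
    (continuous_lin e).measurable (isTest_continuous hψ).measurable hR

theorem Bf_sub (hn : 1 ≤ n) {C : ℝ} (hC : 0 ≤ C) {μ : Measure (V d)}
    (hμ : UpperReg n C μ) {N : ℝ} (hN : 0 < N) (e : V d) {ψ φ : V d → ℝ} (hψ : IsTest ψ)
    (hφ : IsTest φ) :
    Bf n μ N (lin e) (fun y => ψ y - φ y) = Bf n μ N (lin e) ψ - Bf n μ N (lin e) φ := by
  rw [Bf_eq, Bf_eq, Bf_eq, ← mul_sub, ← integral_sub (integrable_bfI_lin hn hC hμ hN e hψ)
    (integrable_bfI_lin hn hC hμ hN e hφ)]
  congr 2
  ext p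
  unfold bfI
  ring

/-- For a reflectionless measure the potentials at two points off the support differ by a
bounded amount. -/
theorem refl_abs_Fp_sub_le (hn : 1 ≤ n) {C : ℝ} {μ : Measure (V d)} (h : ADR n C ⊤ μ)
    (hR : Refl n μ) {e : V d} (he : ‖e‖ ≤ 1) {p a q b : V d} (hp : p ∈ μ.support)
    (hq : q ∈ μ.support) {r s : ℝ} (hr : 0 < r) (hs : 0 < s)
    (hap : ‖a - p‖ ≤ r) (ha : ∀ y ∈ μ.support, r ≤ ‖a - y‖)
    (hbq : ‖b - q‖ ≤ s) (hb : ∀ y ∈ μ.support, s ≤ ‖b - y‖) :
    ∀ᶠ N : ℝ in atTop, |Fp n μ N e a - Fp n μ N e b| ≤ 2 * T1c n C + 1 := by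
  have hC := h.pos
  have t1 : IsTest (bump μ p r) := isTest_bump h hp hr le_top
  have t2 : IsTest (bump μ q s) := isTest_bump h hq hs le_top
  have hlim := hR e _ (isTest_sub t1 t2) (by
    rw [integral_sub (isTest_integrable t1 h.upperReg) (isTest_integrable t2 h.upperReg),
      integral_bump h hp hr le_top, integral_bump h hq hs le_top, sub_self])
  have hev : ∀ᶠ N : ℝ in atTop,
      |Bf n μ N (lin e) (fun y => bump μ p r y - bump μ q s y)| < 1 := by
    have h1 := hlim.abs
    rw [abs_zero] at h1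
    exact h1.eventually_lt_const one_pos
  filter_upwards [hev, eventually_gt_atTop 0] with N hN hN0
  rw [Bf_sub hn hC.le h.upperReg hN0 e t1 t2] at hN
  have k1 := abs_Fp_sub_Bf_bump_le hn h hN0 he hp hr le_top hap ha
  have k2 := abs_Fp_sub_Bf_bump_le hn h hN0 he hq hs le_top hbq hb
  rw [abs_le] at k1 k2 ⊢
  rw [abs_lt] at hN
  constructor <;> linarith [k1.1, k1.2, k2.1, k2.2, hN.1, hN.2]

end Crest.Agent.R085.Touch
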