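import Crest.Agent.R085.Touch1

/-!
Row 85, module M4, (T2): the half-space lemma.
-/

set_option autoImplicit false

namespace Crest.Agent.R085.Touch

open MeasureTheory Metric Set Filter
open scoped ENNReal NNReal Topology

variable {d n : ℕ}

/-- constant in the half-space lemma -/
noncomputable def halfC (n : ℕ) (C : ℝ) : ℝ :=
  2 * T1c n C + 1 + C * 4 ^ n + (n + 4) * C * 3 ^ (n + 1)

theorem T1c_nonneg (n : ℕ) {C : ℝ} (hC : 0 ≤ C) : 0 ≤ T1c n C := by
  unfold T1c; positivity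

/-- bound for the potential at `- t e`, uniform in `t`. -/
theorem halfspace_bound (hn : 1 ≤ n) {C : ℝ} {μ : Measure (V d)} (h : ADR n C ⊤ μ)
    (hR : Refl n μ) (h0 : (0 : V d) ∈ μ.support) {e : V d} (he : ‖e‖ = 1)
    (hs : ∀ y ∈ μ.support, 0 ≤ inner ℝ y e) {t : ℝ} (ht0 : 0 < t) (ht1 : t ≤ 1) :
    ∫⁻ y in ball (0 : V d) 4, ENNReal.ofReal ((inner ℝ y e + t) * (‖y + t • e‖ ^ (n + 1))⁻¹) ∂μ
      ≤ ENNReal.ofReal (halfC n C) := by
  have hC := h.pos
  have hμ := h.upperReg
  have hlf := lf_of_upper hμ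
  have hae : ∀ᵐ y ∂μ, y ∈ μ.support := Measure.support_mem_ae
  -- distance of `-s e` to the support
  have hdist : ∀ s : ℝ, 0 ≤ s → ∀ y ∈ μ.support, s ≤ ‖y + s • e‖ := by
    intro s hs0 y hy
    have h1 : inner ℝ (y + s • e) e = inner ℝ y e + s := by
      rw [inner_add_left, real_inner_smul_left, real_inner_self_eq_norm_sq, he]; ring
    have h2 : inner ℝ (y + s • e) e ≤ ‖y + s • e‖ := by
      have := real_inner_le_norm (y + s • e) e
      rwa [he, mul_one] at this
    have h3 := hs y hy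
    linarith
  have hneg : ∀ (s : ℝ) (y : V d), -(s • e) - y = -(y + s • e) := by intro s y; abel
  have hdist' : ∀ s : ℝ, 0 ≤ s → ∀ y ∈ μ.support, s ≤ ‖-(s • e) - y‖ := by
    intro s hs0 y hy
    rw [hneg, norm_neg]; exact hdist s hs0 y hy
  have hev := refl_abs_Fp_sub_le hn h hR he.le (p := 0) (q := 0) (a := -(t • e))
    (b := -((1 : ℝ) • e)) h0 h0 ht0 one_pos
    (by rw [sub_zero, norm_neg, norm_smul, he, mul_one, Real.norm_of_nonneg ht0.le])
    (hdist' t ht0.le)
    (by rw [sub_zero, norm_neg, norm_smul, he, mul_one, norm_one]) (hdist' 1 zero_le_one)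
  obtain ⟨N, hN1, hN2⟩ := (hev.and (eventually_ge_atTop 6)).exists
  have hN0 : 0 < N := by linarith
  -- the integrands
  set g : ℝ → V d → ℝ := fun s y => (inner ℝ y e + s) * kN n N (y + s • e) with hg
  have hgF : ∀ s y, inner ℝ (-(s • e) - y) e * kN n N (-(s • e) - y) = - g s y := by
    intro s y
    rw [hneg, kN_neg, inner_neg_left, inner_add_left, real_inner_smul_left,
      real_inner_self_eq_norm_sq, he, hg]
    ring
  have hFp : ∀ s, Fp n μ N e (-(s • e)) = - ∫ y, g s y ∂μ := by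
    intro s
    unfold Fp
    simp_rw [hgF]
    rw [integral_neg]
  have hgi : ∀ s, 0 < s → Integrable (g s) μ := by
    intro s hs0
    have h1 := integrableOn_Fp hμ hN0 he.le (-(s • e)) hs0 (S := univ) (by
      rw [Measure.restrict_univ]
      filter_upwards [hae] with y hy using hdist' s hs0.le y hy)
    rw [integrableOn_univ] at h1
    refine h1.neg.congr (Eventually.of_forall fun y => ?_)
    simp only [Pi.neg_apply]
    rw [hgF]; ring
  set B : Set (V d) := ball 0 4 with hB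
  have hBm : MeasurableSet B := measurableSet_ball
  have hBc : Bᶜ = {y | 4 ≤ dist 0 y} := by
    ext y
    rw [hB, mem_compl_iff, mem_ball, not_lt, dist_comm]
    rfl
  have hti := hgi t ht0
  have h1i := hgi 1 one_pos
  have e1 : ∫ y in B, g t y ∂μ = (∫ y, g t y ∂μ - ∫ y, g 1 y ∂μ) + ∫ y in B, g 1 y ∂μ
      + ∫ y in Bᶜ, (g 1 y - g t y) ∂μ := by
    rw [← integral_add_compl hBm hti, ← integral_add_compl hBm h1i,
      integral_sub h1i.integrableOn hti.integrableOn]
    ring
  have b1 : ∫ y, g t y ∂μ - ∫ y, g 1 y ∂μ ≤ 2 * T1c n C + 1 := by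
    rw [hFp, hFp, abs_le] at hN1
    linarith [hN1.1, hN1.2]
  have b2 : ∫ y in B, g 1 y ∂μ ≤ C * 4 ^ n := by
    have h1 : ‖∫ y in B, g 1 y ∂μ‖ ≤ 1 * μ.real B := by
      apply norm_setIntegral_le_of_norm_le_const_ae' (hμ.ball_lt_top 0 4)
      filter_upwards [hae] with y hy _
      rw [← norm_neg, ← hgF, Real.norm_eq_abs]
      refine (abs_inner_mul_kN_le N e _ he.le).trans ?_
      apply inv_le_one_of_one_le₀
      exact one_le_pow₀ (hdist' 1 zero_le_one y hy)
    have h2 : μ.real B ≤ C * 4 ^ n := by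
      rw [measureReal_def]
      exact ENNReal.toReal_le_of_le_ofReal (by positivity) (hμ 0 4 (by norm_num))
    calc ∫ y in B, g 1 y ∂μ ≤ ‖∫ y in B, g 1 y ∂μ‖ := le_abs_self _
      _ ≤ 1 * μ.real B := h1
      _ ≤ C * 4 ^ n := by rw [one_mul]; exact h2
  have htail := integrableOn_tail hμ hC.le (m := 1) le_rfl (0 : V d) (r := 4) (by norm_num)
  have b3 : ∫ y in Bᶜ, (g 1 y - g t y) ∂μ ≤ (n + 4) * C * 3 ^ (n + 1) := by
    have hbound : ‖∫ y in Bᶜ, (g 1 y - g t y) ∂μ‖
        ≤ ∫ y in Bᶜ, ((n + 4) * 1 * (4 / 3) ^ (n + 1)) * (dist 0 y ^ (n + 1))⁻¹ ∂μ := by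
      apply norm_integral_le_of_norm_le
      · rw [hBc]; exact htail.1.const_mul _
      · filter_upwards [ae_restrict_mem hBm.compl] with y hy
        rw [hBc, mem_ofPred_eq, dist_eq_norm, zero_sub, norm_neg] at hy
        have hyp : 0 < ‖y‖ := by linarith
        have hh : ∀ s : ℝ, 0 ≤ s → s ≤ 1 → 3 / 4 * ‖y‖ ≤ ‖-(s • e) - y‖ := by
          intro s hs0 hs1
          rw [hneg, norm_neg]
          have e1 : y = (y + s • e) - s • e := by abel
          have e2 : ‖y‖ ≤ ‖y + s • e‖ + ‖s • e‖ := by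
            conv_lhs => rw [e1]
            exact norm_sub_le _ _
          rw [norm_smul, he, mul_one, Real.norm_of_nonneg hs0] at e2
          linarith
        have h1 := abs_inner_kN_sub_le (n := n) hN0 (u := -((t : ℝ) • e) - y)
          (v := -((1 : ℝ) • e) - y) (m := 3 / 4 * ‖y‖) (by positivity)
          (hh t ht0.le ht1) (hh 1 zero_le_one le_rfl) e he.le
        rw [hgF, hgF] at h1
        have e0 : g 1 y - g t y = -g t y - -g 1 y := by ring
        rw [e0, Real.norm_eq_abs]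
        refine h1.trans ?_
        have e4 : ‖(-((t : ℝ) • e) - y) - (-((1 : ℝ) • e) - y)‖ ≤ 1 := by
          have e5 : (-((t : ℝ) • e) - y) - (-((1 : ℝ) • e) - y) = (1 - t) • e := by
            rw [sub_smul]; abel
          rw [e5, norm_smul, he, mul_one, Real.norm_of_nonneg (by linarith)]
          linarith
        rw [dist_eq_norm, zero_sub, norm_neg]
        calc (n + 4) * ‖(-((t : ℝ) • e) - y) - (-((1 : ℝ) • e) - y)‖ / (3 / 4 * ‖y‖) ^ (n + 1)
            ≤ (n + 4) * 1 / (3 / 4 * ‖y‖) ^ (n + 1) := by gcongr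
          _ = (n + 4) * 1 * (4 / 3) ^ (n + 1) * (‖y‖ ^ (n + 1))⁻¹ := by
            rw [mul_pow, div_pow, div_pow]
            field_simp
    calc ∫ y in Bᶜ, (g 1 y - g t y) ∂μ ≤ ‖∫ y in Bᶜ, (g 1 y - g t y) ∂μ‖ := le_abs_self _
      _ ≤ _ := hbound
      _ = (n + 4) * 1 * (4 / 3) ^ (n + 1) * ∫ y in {y | 4 ≤ dist 0 y},
          (dist 0 y ^ (n + 1))⁻¹ ∂μ := by rw [integral_const_mul, hBc]
      _ ≤ (n + 4) * 1 * (4 / 3) ^ (n + 1) * (C * 2 ^ (n + 1) / 4 ^ 1) := by
          gcongr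
          exact htail.2
      _ = (n + 4) * C * (8 / 3) ^ (n + 1) / 4 := by
          have h83 : (8 / 3 : ℝ) ^ (n + 1) = (4 / 3) ^ (n + 1) * 2 ^ (n + 1) := by
            rw [← mul_pow]; norm_num
          rw [h83]
          ring
      _ ≤ (n + 4) * C * 3 ^ (n + 1) := by
          have h1 : (8 / 3 : ℝ) ^ (n + 1) ≤ 3 ^ (n + 1) := by gcongr; norm_num
          have h2 : (0 : ℝ) ≤ (n + 4) * C := by positivity
          have h3 : (0 : ℝ) ≤ 3 ^ (n + 1) := by positivity
          have h4 := mul_le_mul_of_nonneg_left h1 h2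
          have h5 := mul_nonneg h2 h3
          linarith
  have btot : ∫ y in B, g t y ∂μ ≤ halfC n C := by
    rw [e1]; unfold halfC; linarith
  -- conversion to a lower integral
  have hg0 : ∀ᵐ y ∂(μ.restrict B), 0 ≤ g t y := by
    filter_upwards [ae_restrict_of_ae hae] with y hy
    exact mul_nonneg (by linarith [hs y hy]) (kN_nonneg _ _ _)
  calc ∫⁻ y in B, ENNReal.ofReal ((inner ℝ y e + t) * (‖y + t • e‖ ^ (n + 1))⁻¹) ∂μ
      = ∫⁻ y in B, ENNReal.ofReal (g t y) ∂μ := by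
        apply setLIntegral_congr_fun hBm
        intro y hy
        rw [hB, mem_ball, dist_zero_right] at hy
        have : ‖y + t • e‖ ≤ N := by
          calc ‖y + t • e‖ ≤ ‖y‖ + ‖t • e‖ := norm_add_le _ _
            _ ≤ N := by rw [norm_smul, he, mul_one, Real.norm_of_nonneg ht0.le]; linarith
        simp only [hg]
        rw [kN_eq hN0 this]
    _ = ENNReal.ofReal (∫ y in B, g t y ∂μ) :=
        (ofReal_integral_eq_lintegral_ofReal hti.integrableOn hg0).symm
    _ ≤ _ := ENNReal.ofReal_le_ofReal btot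

/-- **(T2) Half-space lemma.** If the support of a reflectionless regular measure lies in the
half space `{⟪y, e⟫ ≥ 0}` and contains `0`, then `∫_{|y|<4} ⟪y,e⟫ / |y|^{n+1} dμ < ∞`. -/
theorem halfspace (hn : 1 ≤ n) {C : ℝ} {μ : Measure (V d)} (h : ADR n C ⊤ μ)
    (hR : Refl n μ) (h0 : (0 : V d) ∈ μ.support) {e : V d} (he : ‖e‖ = 1)
    (hs : ∀ y ∈ μ.support, 0 ≤ inner ℝ y e) :
    ∫⁻ y in ball (0 : V d) 4, ENNReal.ofReal (inner ℝ y e * (‖y‖ ^ (n + 1))⁻¹) ∂μ
      ≤ ENNReal.ofReal (halfC n C) := by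
  set t : ℕ → ℝ := fun k => 1 / ((k : ℝ) + 1) with ht
  have ht0 : ∀ k, 0 < t k := fun k => by positivity
  have ht1 : ∀ k, t k ≤ 1 := fun k => by
    rw [ht]
    simp only
    rw [div_le_one (by positivity)]
    have : (0 : ℝ) ≤ k := by positivity
    linarith
  have htl : Tendsto t atTop (𝓝 0) := tendsto_one_div_add_atTop_nhds_zero_nat
  have hmeas : ∀ k, Measurable fun y : V d =>
      ENNReal.ofReal ((inner ℝ y e + t k) * (‖y + t k • e‖ ^ (n + 1))⁻¹) := by
    intro k
    have h1 : Measurable fun y : V d => inner ℝ y e + t k :=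
      (by fun_prop : Continuous fun y : V d => inner ℝ y e + t k).measurable
    have h2 : Measurable fun y : V d => ‖y + t k • e‖ :=
      (by fun_prop : Continuous fun y : V d => ‖y + t k • e‖).measurable
    exact (h1.mul (h2.pow_const _).inv).ennreal_ofReal
  have hpt : ∀ y : V d, ENNReal.ofReal (inner ℝ y e * (‖y‖ ^ (n + 1))⁻¹)
      ≤ liminf (fun k => ENNReal.ofReal ((inner ℝ y e + t k) * (‖y + t k • e‖ ^ (n + 1))⁻¹))
        atTop := by
    intro y
    rcases eq_or_ne y 0 with rfl | hy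
    · simp
    · have hy' : ‖y‖ ^ (n + 1) ≠ 0 := by
        have := norm_pos_iff.2 hy
        positivity
      have hl : Tendsto (fun k => ENNReal.ofReal ((inner ℝ y e + t k) *
          (‖y + t k • e‖ ^ (n + 1))⁻¹)) atTop
          (𝓝 (ENNReal.ofReal (inner ℝ y e * (‖y‖ ^ (n + 1))⁻¹))) := by
        apply (ENNReal.continuous_ofReal.tendsto _).comp
        have l1 : Tendsto (fun k => inner ℝ y e + t k) atTop (𝓝 (inner ℝ y e)) := by
          simpa using (tendsto_const_nhds (x := inner ℝ y e)).add htl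
        have l2 : Tendsto (fun k => y + t k • e) atTop (𝓝 y) := by
          simpa using (tendsto_const_nhds (x := y)).add (htl.smul_const e)
        exact l1.mul ((l2.norm.pow _).inv₀ hy')
      rw [hl.liminf_eq]
  calc ∫⁻ y in ball (0 : V d) 4, ENNReal.ofReal (inner ℝ y e * (‖y‖ ^ (n + 1))⁻¹) ∂μ
      ≤ ∫⁻ y in ball (0 : V d) 4, liminf (fun k =>
          ENNReal.ofReal ((inner ℝ y e + t k) * (‖y + t k • e‖ ^ (n + 1))⁻¹)) atTop ∂μ :=
        lintegral_mono hpt
    _ ≤ liminf (fun k => ∫⁻ y in ball (0 : V d) 4,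
          ENNReal.ofReal ((inner ℝ y e + t k) * (‖y + t k • e‖ ^ (n + 1))⁻¹) ∂μ) atTop :=
        lintegral_liminf_le hmeas
    _ ≤ ENNReal.ofReal (halfC n C) := by
        apply liminf_le_of_le
        · isBoundedDefault
        · intro b hb
          obtain ⟨k, hk⟩ := hb.exists
          exact hk.trans (halfspace_bound hn h hR h0 he hs (ht0 k) (ht1 k))

end Crest.Agent.R085.Touch
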