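import Crest.Agent.R085.Touch2
import Crest.Agent.R085.Resc

/-!
Row 85, module M4, (T3): blow-ups at a touching point.
-/

set_option autoImplicit false

namespace Crest.Agent.R085.Touch

open MeasureTheory Metric Set Filter
open scoped ENNReal NNReal Topology

variable {d n : ℕ}

/-- existence of blow-ups. -/
theorem exists_blowup {C : ℝ} {μ : Measure (V d)} (h : ADR n C ⊤ μ) {x : V d}
    (hx : x ∈ μ.support) {r : ℕ → ℝ} (hr : ∀ k, 0 < r k) (U : Ultrafilter ℕ) :
    ∃ ν : Measure (V d), WLim U (fun k => resc n x (r k) μ) ν ∧ ADR n C ⊤ ν ∧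
      (0 : V d) ∈ ν.support := by
  have hA : ∀ k, ADR n C ⊤ (resc n x (r k) μ) := fun k => h.resc x (hr k) le_top
  obtain ⟨ν, hν, hνA⟩ := exists_wLim_adr (D0 := ⊤) U (fun k => resc n x (r k) μ) hA
    (fun s _ => Eventually.of_forall fun k => le_top)
  refine ⟨ν, hν, hνA, ?_⟩
  apply hν.mem_support_adr (Eventually.of_forall hA) one_pos
    (Eventually.of_forall fun k => le_top) (x := fun _ => (0 : V d)) tendsto_const_nhds
  refine Eventually.of_forall fun k => ?_
  rw [mem_support_resc n x (hr k)]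
  simpa using hx

/-- the support of a blow-up at a point of a subspace stays in the subspace. -/
theorem support_blowup_subset {μ ν : Measure (V d)} {x : V d} {r : ℕ → ℝ} (hr : ∀ k, 0 < r k)
    {U : Ultrafilter ℕ} (hν : WLim U (fun k => resc n x (r k) μ) ν)
    {W : Submodule ℝ (V d)} (hW : μ.support ⊆ W) (hx : x ∈ W) : ν.support ⊆ W := by
  intro w hw
  obtain ⟨y, hy1, hy2⟩ := hν.exists_tendsto_support hw
  have hcl : IsClosed (W : Set (V d)) := W.closed_of_finiteDimensional
  refine hcl.mem_of_tendsto hy2 ?_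
  filter_upwards [hy1] with k hk
  rw [mem_support_resc n x (hr k)] at hk
  have h1 : x + r k • y k ∈ W := hW hk
  have h2 : r k • y k ∈ W := by
    have := W.sub_mem h1 hx
    simpa using this
  have h3 : (r k)⁻¹ • (r k • y k) ∈ W := W.smul_mem _ h2
  rwa [smul_smul, inv_mul_cancel₀ (hr k).ne', one_smul] at h3

/-- (T3a) first blow-up: at a touching point of a ball the blow-up lies in a half space. -/
theorem blowup_halfspace {μ ν : Measure (V d)} {p e : V d} {ρ : ℝ} (hρ : 0 < ρ) (he : ‖e‖ = 1)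
    (htouch : ∀ y ∈ μ.support, ρ ≤ ‖y - (p - ρ • e)‖) {r : ℕ → ℝ} (hr : ∀ k, 0 < r k)
    {U : Ultrafilter ℕ} (hr0 : Tendsto r U (𝓝 0)) (hν : WLim U (fun k => resc n p (r k) μ) ν) :
    ∀ w ∈ ν.support, 0 ≤ inner ℝ w e := by
  intro w hw
  obtain ⟨y, hy1, hy2⟩ := hν.exists_tendsto_support hw
  have h1 : Tendsto (fun k => inner ℝ (y k) e) U (𝓝 (inner ℝ w e)) :=
    hy2.inner tendsto_const_nhds
  have h2 : Tendsto (fun k => - (r k * ‖y k‖ ^ 2 / (2 * ρ))) U (𝓝 0) := by
    have := ((hr0.mul (hy2.norm.pow 2)).div_const (2 * ρ)).neg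
    simpa using this
  refine le_of_tendsto_of_tendsto h2 h1 ?_
  filter_upwards [hy1] with k hk
  rw [mem_support_resc n p (hr k)] at hk
  have h3 := htouch _ hk
  have e1 : p + r k • y k - (p - ρ • e) = r k • y k + ρ • e := by abel
  rw [e1] at h3
  have h4 : ρ ^ 2 ≤ ‖r k • y k + ρ • e‖ ^ 2 := by gcongr
  rw [norm_add_sq_real, norm_smul, norm_smul, he, real_inner_smul_left, real_inner_smul_right,
    Real.norm_of_nonneg (hr k).le, Real.norm_of_nonneg hρ.le] at h4
  have hrk := hr k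
  have h5 : 0 ≤ r k * (r k * ‖y k‖ ^ 2 + 2 * ρ * inner ℝ (y k) e) := by nlinarith
  have h6 : 0 ≤ r k * ‖y k‖ ^ 2 + 2 * ρ * inner ℝ (y k) e := nonneg_of_mul_nonneg_right h5 hrk
  have h7 : inner ℝ (y k) e + r k * ‖y k‖ ^ 2 / (2 * ρ)
      = (r k * ‖y k‖ ^ 2 + 2 * ρ * inner ℝ (y k) e) / (2 * ρ) := by
    field_simp; ring
  have h8 : 0 ≤ (r k * ‖y k‖ ^ 2 + 2 * ρ * inner ℝ (y k) e) / (2 * ρ) := by positivity
  linarith [h7, h8]

/-- (T3b) second blow-up: lies in the hyperplane. -/
theorem blowup_hyperplane (hn : 1 ≤ n) {C : ℝ} {μ ν : Measure (V d)} (h : ADR n C ⊤ μ)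
    (hR : Refl n μ) (h0 : (0 : V d) ∈ μ.support) {e : V d} (he : ‖e‖ = 1)
    (hs : ∀ y ∈ μ.support, 0 ≤ inner ℝ y e) {r : ℕ → ℝ} (hr : ∀ k, 0 < r k)
    {U : Ultrafilter ℕ} (hr0 : Tendsto r U (𝓝 0)) (hν : WLim U (fun k => resc n 0 (r k) μ) ν) :
    ∀ w ∈ ν.support, inner ℝ w e = 0 := by
  intro w hw
  have hC := h.pos
  obtain ⟨y, hy1, hy2⟩ := hν.exists_tendsto_support hw
  have hge : 0 ≤ inner ℝ w e := by
    refine ge_of_tendsto (hy2.inner tendsto_const_nhds) ?_
    filter_upwards [hy1] with k hk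
    rw [mem_support_resc n 0 (hr k), zero_add] at hk
    have h1 := hs _ hk
    rw [real_inner_smul_left] at h1
    exact nonneg_of_mul_nonneg_right h1 (hr k)
  by_contra hne
  set a := inner ℝ w e with ha
  have hapos : 0 < a := lt_of_le_of_ne hge (Ne.symm hne)
  set R : ℝ := ‖w‖ + a with hRdef
  have hRpos : 0 < R := by positivity
  set f : V d → ℝ≥0∞ := fun y => ENNReal.ofReal (inner ℝ y e * (‖y‖ ^ (n + 1))⁻¹) with hf
  -- the small balls have small integral
  have hfin : ∫⁻ y, f y ∂(μ.restrict (ball 0 4)) ≠ ⊤ :=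
    (lt_of_le_of_lt (halfspace hn h hR h0 he hs) ENNReal.ofReal_lt_top).ne
  have hsmall : Tendsto ((μ.restrict (ball (0 : V d) 4)) ∘ fun k => ball (0 : V d) (r k * R)) U
      (𝓝 0) := by
    have h1 : Tendsto (fun k => ENNReal.ofReal (C * (r k * R) ^ n)) U (𝓝 0) := by
      have h2 : Tendsto (fun k => C * (r k * R) ^ n) U (𝓝 (C * (0 * R) ^ n)) :=
        ((hr0.mul_const R).pow n).const_mul C
      rw [zero_mul, zero_pow (by omega), mul_zero] at h2
      have h3 := (ENNReal.continuous_ofReal.tendsto 0).comp h2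
      rw [ENNReal.ofReal_zero] at h3
      exact h3
    refine tendsto_of_tendsto_of_tendsto_of_le_of_le tendsto_const_nhds h1 (fun k => bot_le)
      (fun k => ?_)
    exact (Measure.restrict_apply_le _ _).trans (h.upper 0 _ (mul_pos (hr k) hRpos))
  have hlim := tendsto_setLIntegral_zero hfin hsmall
  -- lower bound
  have hlow : ∀ᶠ k in (U : Filter ℕ),
      ENNReal.ofReal (a / 2 * (R ^ (n + 1))⁻¹ * (C⁻¹ * (a / 4) ^ n))
        ≤ ∫⁻ y in ball (0 : V d) (r k * R), f y ∂(μ.restrict (ball 0 4)) := by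
    have hRr : Tendsto (fun k => r k * R) U (𝓝 0) := by simpa using hr0.mul_const R
    have hyk : ∀ᶠ k in (U : Filter ℕ), dist (y k) w < a / 4 :=
      (tendsto_iff_dist_tendsto_zero.1 hy2).eventually_lt_const (by positivity)
    filter_upwards [hy1, hyk, hRr.eventually_lt_const (show (0 : ℝ) < 4 by norm_num)]
      with k hk1 hk2 hk3
    have hrk := hr k
    have hA : ADR n C ⊤ (resc n 0 (r k) μ) := h.resc 0 hrk le_top
    have hm1 : ENNReal.ofReal (C⁻¹ * (a / 4) ^ n) ≤ resc n 0 (r k) μ (ball w (a / 2)) := by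
      refine (hA.lower _ hk1 (a / 4) (by positivity) le_top).trans (measure_mono ?_)
      apply ball_subset_ball'
      linarith
    rw [resc_ball n 0 hrk, zero_add] at hm1
    -- the set
    set S : Set (V d) := ball (r k • w) (r k * (a / 2)) with hS
    have hS1 : S ⊆ ball (0 : V d) (r k * R) := by
      apply ball_subset_ball'
      rw [dist_zero_right, norm_smul, Real.norm_of_nonneg hrk.le, hRdef]
      nlinarith
    have hS2 : S ⊆ ball (0 : V d) 4 := hS1.trans (ball_subset_ball hk3.le)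
    have hb : ∀ z ∈ S, ENNReal.ofReal (r k * (a / 2) * ((r k * R) ^ (n + 1))⁻¹) ≤ f z := by
      intro z hz
      apply ENNReal.ofReal_le_ofReal
      have hz1 := hS1 hz
      rw [mem_ball, dist_zero_right] at hz1
      rw [hS, mem_ball, dist_eq_norm] at hz
      have hz2 : inner ℝ z e = r k * a + inner ℝ (z - r k • w) e := by
        rw [inner_sub_left, real_inner_smul_left, ← ha]; ring
      have hz3 : -(r k * (a / 2)) ≤ inner ℝ (z - r k • w) e := by
        have h1 := abs_real_inner_le_norm (z - r k • w) e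
        rw [he, mul_one] at h1
        have h2 := neg_abs_le (inner ℝ (z - r k • w) e)
        linarith
      have hz4 : r k * (a / 2) ≤ inner ℝ z e := by
        rw [hz2]; linarith
      have hz0 : 0 < ‖z‖ := by
        rw [norm_pos_iff]
        rintro rfl
        rw [inner_zero_left] at hz4
        have : 0 < r k * (a / 2) := by positivity
        linarith
      have hz5 : 0 ≤ inner ℝ z e := le_trans (by positivity) hz4
      gcongr
    calc ENNReal.ofReal (a / 2 * (R ^ (n + 1))⁻¹ * (C⁻¹ * (a / 4) ^ n))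
        = ENNReal.ofReal (a / 2 * (R ^ (n + 1))⁻¹) * ENNReal.ofReal (C⁻¹ * (a / 4) ^ n) := by
          rw [ENNReal.ofReal_mul (by positivity)]
      _ ≤ ENNReal.ofReal (a / 2 * (R ^ (n + 1))⁻¹) *
          (ENNReal.ofReal ((r k ^ n)⁻¹) * μ S) := by gcongr
      _ = ENNReal.ofReal (r k * (a / 2) * ((r k * R) ^ (n + 1))⁻¹) * μ S := by
          rw [← mul_assoc, ← ENNReal.ofReal_mul (by positivity)]
          congr 2
          rw [mul_pow, pow_succ (r k) n]
          field_simp
      _ = ∫⁻ z in S, ENNReal.ofReal (r k * (a / 2) * ((r k * R) ^ (n + 1))⁻¹) ∂μ := by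
          rw [setLIntegral_const]
      _ ≤ ∫⁻ z in S, f z ∂μ := setLIntegral_mono' measurableSet_ball hb
      _ ≤ ∫⁻ y in ball (0 : V d) (r k * R), f y ∂(μ.restrict (ball 0 4)) := by
          rw [Measure.restrict_restrict measurableSet_ball]
          exact lintegral_mono_set (subset_inter hS1 hS2)
  have hcontra := ge_of_tendsto hlim hlow
  have : 0 < ENNReal.ofReal (a / 2 * (R ^ (n + 1))⁻¹ * (C⁻¹ * (a / 4) ^ n)) :=
    ENNReal.ofReal_pos.2 (by positivity)
  exact absurd hcontra (not_le.2 this)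

end Crest.Agent.R085.Touch
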