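import Crest.Agent.R085.Lim2

/-!
Row 85, module M4, (T4): counting lemmas. The support of an `n`-regular measure cannot contain a
subspace of dimension `> n` and cannot be contained in a subspace of dimension `< n`.
-/

set_option autoImplicit false

namespace Crest.Agent.R085.Touch

open MeasureTheory Metric Set Filter
open scoped ENNReal NNReal Topology

variable {d n : ℕ}

/-- grid point -/
noncomputable def grid (m k : ℕ) (j : Fin m → Fin k) : V m :=
  WithLp.toLp 2 fun i => ((j i : ℕ) : ℝ) / k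

theorem grid_apply (m k : ℕ) (j : Fin m → Fin k) (i : Fin m) :
    grid m k j i = ((j i : ℕ) : ℝ) / k := rfl

theorem norm_grid_le (m : ℕ) {k : ℕ} (j : Fin m → Fin k) : ‖grid m k j‖ ≤ m := by
  rw [EuclideanSpace.norm_eq]
  rw [Real.sqrt_le_left (by positivity)]
  calc ∑ i, ‖grid m k j i‖ ^ 2 ≤ ∑ _i : Fin m, (1 : ℝ) := by
        apply Finset.sum_le_sum
        intro i _
        rw [grid_apply]
        have hk : 0 < k := Fin.pos (j i)
        have hk' : (0 : ℝ) < k := by exact_mod_cast hk
        have h1 : ((j i : ℕ) : ℝ) / k ≤ 1 := by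
          rw [div_le_one hk']
          exact_mod_cast (j i).2.le
        have h0 : 0 ≤ ((j i : ℕ) : ℝ) / k := by positivity
        rw [Real.norm_of_nonneg h0]
        exact pow_le_one₀ h0 h1
    _ = m := by simp
    _ ≤ (m : ℝ) ^ 2 := by
        rcases Nat.eq_zero_or_pos m with rfl | hm
        · simp
        · have : (1 : ℝ) ≤ m := by exact_mod_cast hm
          nlinarith

theorem le_dist_grid (m : ℕ) {k : ℕ} {j j' : Fin m → Fin k} (h : j ≠ j') :
    1 / (k : ℝ) ≤ dist (grid m k j) (grid m k j') := by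
  obtain ⟨i, hi⟩ := Function.ne_iff.1 h
  have hk : 0 < k := Fin.pos (j i)
  have hk' : (0 : ℝ) < k := by exact_mod_cast hk
  have h1 : ‖grid m k j i - grid m k j' i‖ ≤ dist (grid m k j) (grid m k j') := by
    rw [dist_eq_norm]
    exact PiLp.norm_apply_le (grid m k j - grid m k j') i
  refine le_trans ?_ h1
  rw [grid_apply, grid_apply, ← sub_div, Real.norm_eq_abs, abs_div, abs_of_pos hk']
  gcongr
  have hne : ((j i : ℕ) : ℤ) ≠ ((j' i : ℕ) : ℤ) := by
    intro h'
    apply hi
    exact Fin.ext (by exact_mod_cast h')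
  have h2 : (1 : ℤ) ≤ |((j i : ℕ) : ℤ) - ((j' i : ℕ) : ℤ)| :=
    Int.one_le_abs (sub_ne_zero.2 hne)
  have h3 : ((1 : ℤ) : ℝ) ≤ ((|((j i : ℕ) : ℤ) - ((j' i : ℕ) : ℤ)| : ℤ) : ℝ) := by exact_mod_cast h2
  push_cast at h3
  exact h3

/-- (T4a) the support of an `n`-regular measure contains no subspace of dimension `> n`. -/
theorem not_subspace_subset_support {C : ℝ} {μ : Measure (V d)} (h : ADR n C ⊤ μ)
    {W : Submodule ℝ (V d)} (hW : n < Module.finrank ℝ W) : ¬ ((W : Set (V d)) ⊆ μ.support) := by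
  intro hsub
  have hC := h.pos
  -- isometric embedding of `V (n+1)` into `W`
  let b := stdOrthonormalBasis ℝ W
  let v : Fin (n + 1) → V d := fun i => (b ⟨i, by omega⟩ : V d)
  have hv : Orthonormal ℝ v := by
    have h1 : Orthonormal ℝ (fun i : Fin (Module.finrank ℝ W) => ((b i : W) : V d)) :=
      b.orthonormal.comp_linearIsometry W.subtypeₗᵢ
    apply h1.comp (fun i : Fin (n + 1) => (⟨i, by omega⟩ : Fin (Module.finrank ℝ W)))
    intro i j hij
    exact Fin.ext (by simpa using hij)
  let ι : V (n + 1) → V d := fun x => ∑ i, x i • v i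
  have hιdist : ∀ x y, dist (ι x) (ι y) = dist x y := by
    intro x y
    rw [dist_eq_norm, dist_eq_norm]
    have e1 : ι x - ι y = ∑ i, (x - y) i • v i := by
      simp only [ι, ← Finset.sum_sub_distrib, ← sub_smul]
      rfl
    rw [e1, ← sq_eq_sq₀ (norm_nonneg _) (norm_nonneg _), ← real_inner_self_eq_norm_sq,
      EuclideanSpace.norm_sq_eq, hv.inner_sum]
    apply Finset.sum_congr rfl
    intro i _
    simp [pow_two]
  have hι0 : ι 0 = 0 := by simp [ι]
  have hιW : ∀ x, ι x ∈ W := by
    intro x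
    apply W.sum_mem
    intro i _
    exact W.smul_mem _ (b ⟨i, by omega⟩).2
  have key : ∀ k : ℕ, 0 < k → (k : ℝ) ≤ C ^ 2 * (2 * (n + 2)) ^ n := by
    intro k hk
    have hk' : (0 : ℝ) < k := by exact_mod_cast hk
    have hk1 : (1 : ℝ) ≤ k := by exact_mod_cast hk
    set s : ℝ := 1 / (2 * k) with hs
    have hs0 : 0 < s := by positivity
    have hs1 : s ≤ 1 / 2 := by
      rw [hs, div_le_div_iff₀ (by positivity) (by norm_num)]; linarith
    have hdisj : Pairwise (Function.onFun Disjoint
        fun j : Fin (n + 1) → Fin k => ball (ι (grid (n + 1) k j)) s) := by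
      intro j j' hjj'
      apply ball_disjoint_ball
      rw [hιdist]
      refine le_trans (le_of_eq ?_) (le_dist_grid (n + 1) hjj')
      rw [hs]; field_simp; norm_num
    have h1 : ∑ j : Fin (n + 1) → Fin k, μ (ball (ι (grid (n + 1) k j)) s)
        = μ (⋃ j : Fin (n + 1) → Fin k, ball (ι (grid (n + 1) k j)) s) := by
      rw [measure_iUnion hdisj fun _ => measurableSet_ball, tsum_fintype]
    have h2 : (⋃ j : Fin (n + 1) → Fin k, ball (ι (grid (n + 1) k j)) s) ⊆ ball 0 (n + 2) := by
      apply iUnion_subset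
      intro j
      apply ball_subset_ball'
      have h3 : dist (ι (grid (n + 1) k j)) 0 ≤ ((n + 1 : ℕ) : ℝ) := by
        rw [← hι0, hιdist, dist_zero_right]
        exact norm_grid_le (n + 1) j
      push_cast at h3
      linarith
    have h3 : ∀ j : Fin (n + 1) → Fin k,
        ENNReal.ofReal (C⁻¹ * s ^ n) ≤ μ (ball (ι (grid (n + 1) k j)) s) := by
      intro j
      exact h.lower _ (hsub (hιW _)) s hs0 le_top
    have h4 : ((k : ℝ≥0∞) ^ (n + 1)) * ENNReal.ofReal (C⁻¹ * s ^ n)
        ≤ ENNReal.ofReal (C * (n + 2) ^ n) := by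
      calc ((k : ℝ≥0∞) ^ (n + 1)) * ENNReal.ofReal (C⁻¹ * s ^ n)
          = ∑ j : Fin (n + 1) → Fin k, ENNReal.ofReal (C⁻¹ * s ^ n) := by
            rw [Finset.sum_const, Finset.card_univ, Fintype.card_fun, Fintype.card_fin,
              Fintype.card_fin, nsmul_eq_mul]
            push_cast
            rfl
        _ ≤ ∑ j : Fin (n + 1) → Fin k, μ (ball (ι (grid (n + 1) k j)) s) :=
            Finset.sum_le_sum fun j _ => h3 j
        _ = _ := h1
        _ ≤ μ (ball 0 (n + 2)) := measure_mono h2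
        _ ≤ ENNReal.ofReal (C * (n + 2) ^ n) := h.upper 0 _ (by positivity)
    have h5 : (k : ℝ) ^ (n + 1) * (C⁻¹ * s ^ n) ≤ C * (n + 2) ^ n := by
      rw [← ENNReal.ofReal_le_ofReal_iff (by positivity), ENNReal.ofReal_mul (by positivity),
        ENNReal.ofReal_pow (by positivity), ENNReal.ofReal_natCast]
      exact h4
    have h6 : (k : ℝ) ^ (n + 1) * (C⁻¹ * s ^ n) = k * (C⁻¹ * (1 / 2) ^ n) := by
      rw [hs, pow_succ, div_pow, div_pow, mul_pow]
      field_simp
    rw [h6] at h5
    have h7 : (k : ℝ) = (k * (C⁻¹ * (1 / 2) ^ n)) * (C * 2 ^ n) := by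
      rw [div_pow]; field_simp; simp
    rw [h7]
    calc (k * (C⁻¹ * (1 / 2) ^ n)) * (C * 2 ^ n) ≤ (C * (n + 2) ^ n) * (C * 2 ^ n) := by
          gcongr
      _ = C ^ 2 * (2 * (n + 2)) ^ n := by rw [mul_pow]; ring
  obtain ⟨k, hk⟩ := exists_nat_gt (C ^ 2 * (2 * ((n : ℝ) + 2)) ^ n)
  have hk0 : 0 < k := by
    have : (0 : ℝ) < k := lt_of_le_of_lt (by positivity) hk
    exact_mod_cast this
  exact absurd (key k hk0) (not_le.2 hk)

/-- (T4b) an `n`-regular measure has no mass on a subspace of dimension `< n`. -/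
theorem measure_subspace_eq_zero {C : ℝ} {D : ℝ≥0∞} {μ : Measure (V d)} (h : ADR n C D μ)
    {W : Submodule ℝ (V d)} (hW : Module.finrank ℝ W < n) : μ (W : Set (V d)) = 0 := by
  have hC := h.pos
  have hC0 : ENNReal.ofReal C ≠ 0 := by
    rw [Ne, ENNReal.ofReal_eq_zero, not_le]; exact hC
  have hCt : ENNReal.ofReal C ≠ ⊤ := ENNReal.ofReal_ne_top
  have h1 : (ENNReal.ofReal C)⁻¹ • μ ≤ Measure.hausdorffMeasure (n : ℝ) := by
    apply Measure.le_hausdorffMeasure (n : ℝ) _ 1 one_pos
    intro s hs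
    rw [Measure.smul_apply, smul_eq_mul]
    rcases s.eq_empty_or_nonempty with rfl | ⟨x, hx⟩
    · simp
    · have hst : ediam s ≠ ⊤ := (hs.trans_lt ENNReal.one_lt_top).ne
      have hsub : s ⊆ closedBall x (ediam s).toReal := by
        intro y hy
        rw [mem_closedBall, dist_edist]
        exact ENNReal.toReal_mono hst (edist_le_ediam_of_mem hy hx)
      have h2 : μ s ≤ ENNReal.ofReal C * (ediam s) ^ n := by
        calc μ s ≤ μ (closedBall x (ediam s).toReal) := measure_mono hsub
          _ ≤ ENNReal.ofReal (C * (ediam s).toReal ^ n) :=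
              h.upper_closedBall x ENNReal.toReal_nonneg
          _ = ENNReal.ofReal C * (ediam s) ^ n := by
              rw [ENNReal.ofReal_mul hC.le, ENNReal.ofReal_pow ENNReal.toReal_nonneg,
                ENNReal.ofReal_toReal hst]
      calc (ENNReal.ofReal C)⁻¹ * μ s ≤ (ENNReal.ofReal C)⁻¹ * (ENNReal.ofReal C * (ediam s) ^ n) := by
            gcongr
        _ = (ediam s) ^ n := by
            rw [← mul_assoc, ENNReal.inv_mul_cancel hC0 hCt, one_mul]
        _ = (ediam s) ^ (n : ℝ) := by rw [ENNReal.rpow_natCast]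
  have h2 : Measure.hausdorffMeasure (n : ℝ) (W : Set (V d)) = 0 := by
    have h3 : dimH (W : Set (V d)) < ((n : ℝ≥0) : ℝ≥0∞) := by
      have e1 : (W : Set (V d)) = W.subtypeₗᵢ '' univ := by
        rw [image_univ]
        simp
      rw [e1, W.subtypeₗᵢ.isometry.dimH_image, Real.dimH_univ_eq_finrank]
      exact_mod_cast hW
    have h4 := hausdorffMeasure_of_dimH_lt h3
    simpa using h4
  have h3 : ((ENNReal.ofReal C)⁻¹ • μ) (W : Set (V d)) ≤ 0 := (h1 _).trans h2.le
  rw [Measure.smul_apply, smul_eq_mul, nonpos_iff_eq_zero, mul_eq_zero] at h3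
  rcases h3 with h3 | h3
  · exact absurd h3 (ENNReal.inv_ne_zero.2 hCt)
  · exact h3

/-- (T4b) the support of an `n`-regular measure is not contained in a subspace of dimension `< n`. -/
theorem not_support_subset_subspace {C : ℝ} {D : ℝ≥0∞} {μ : Measure (V d)} (h : ADR n C D μ)
    (hne : μ.support.Nonempty) {W : Submodule ℝ (V d)} (hW : Module.finrank ℝ W < n) :
    ¬ (μ.support ⊆ W) := by
  intro hsub
  have h1 := measure_subspace_eq_zero h hW
  have h2 : μ μ.support = 0 := measure_mono_null hsub h1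
  have h3 : μ univ = 0 := by
    rw [← union_compl_self μ.support]
    exact measure_union_null h2 Measure.measure_compl_support
  rw [Measure.measure_univ_eq_zero] at h3
  rw [h3, Measure.support_zero] at hne
  exact not_nonempty_empty hne

end Crest.Agent.R085.Touch
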