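import Crest.Agent.R085.Touch3
import Crest.Agent.R085.Touch4
import Crest.Agent.R085.LimRefl
import Crest.Agent.R085.Lim3
import Crest.Agent.R085.Targets

/-!
Row 85, module M4, (T5): descent. A reflectionless regular measure is flat somewhere.
-/

set_option autoImplicit false

namespace Crest.Agent.R085.Touch

open MeasureTheory Metric Set Filter
open scoped ENNReal NNReal Topology

variable {d n : ℕ}

/-- no flat balls at all -/
def NF (n : ℕ) (ε : ℝ) (ν : Measure (V d)) : Prop :=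
  ∀ w ∈ ν.support, ∀ s : ℝ, 0 < s → ∀ (g : V d ≃ₗᵢ[ℝ] V d) (b : V d),
    ε ^ 2 * s ^ (n + 2) ≤ ∫ z in ball w s, nsq n (g z - b) ∂ν

/-- "no flat ball near `x`" passes to blow-ups at `x`. -/
theorem nf_blowup {ε : ℝ} (hε : 0 < ε) {μ ν : Measure (V d)} {x : V d} {r0 : ℝ} (hr0 : 0 < r0)
    (h : ∀ y ∈ μ.support, y ∈ ball x r0 → ∀ s : ℝ, 0 < s → s < r0 →
      ∀ (g : V d ≃ₗᵢ[ℝ] V d) (b : V d),
        ε ^ 2 * s ^ (n + 2) ≤ ∫ z in ball y s, nsq n (g z - b) ∂μ)
    {r : ℕ → ℝ} (hr : ∀ k, 0 < r k) {U : Ultrafilter ℕ} (hrl : Tendsto r U (𝓝 0))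
    (hν : WLim U (fun k => resc n x (r k) μ) ν) : NF n ε ν := by
  intro w hw s hs g b
  by_contra hcon
  push Not at hcon
  obtain ⟨y, hy1, hy2⟩ := hν.exists_tendsto_support hw
  -- a slightly smaller radius
  have hcont : Tendsto (fun s' : ℝ => ε ^ 2 * s' ^ (n + 2)) (𝓝[<] s)
      (𝓝 (ε ^ 2 * s ^ (n + 2))) := by
    have : Continuous fun s' : ℝ => ε ^ 2 * s' ^ (n + 2) := by fun_prop
    exact (this.tendsto s).mono_left nhdsWithin_le_nhds
  obtain ⟨s', hs'1, hs'2⟩ := ((hcont.eventually_const_lt hcon).and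
    (Ioo_mem_nhdsLT hs)).exists
  have hfc : Continuous fun z : V d => nsq n (g z - b) :=
    (continuous_nsq n).comp (g.continuous.sub continuous_const)
  have hev := hν.eventually_setIntegral_lt hfc (fun z => nsq_nonneg n _) hy2
    (s := s) (s' := s') hs'2.2 hs'1
  have e1 : ∀ᶠ k in (U : Filter ℕ), r k * s' < r0 := by
    have : Tendsto (fun k => r k * s') U (𝓝 0) := by simpa using hrl.mul_const s'
    exact this.eventually_lt_const hr0
  have e2 : ∀ᶠ k in (U : Filter ℕ), x + r k • y k ∈ ball x r0 := by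
    have : Tendsto (fun k => x + r k • y k) U (𝓝 (x + (0 : ℝ) • w)) :=
      tendsto_const_nhds.add (hrl.smul hy2)
    rw [zero_smul, add_zero] at this
    exact this (ball_mem_nhds x hr0)
  obtain ⟨k, hk1, hk2, hk3, hk4⟩ := (hev.and (e1.and (e2.and hy1))).exists
  have hrk := hr k
  rw [mem_support_resc n x hrk] at hk4
  rw [setIntegral_ball_resc n x hrk] at hk1
  have e3 : ∀ z : V d, nsq n (g ((r k)⁻¹ • (z - x)) - b)
      = ((r k)⁻¹) ^ 2 * nsq n (g z - (g x + r k • b)) := by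
    intro z
    rw [← nsq_smul]
    congr 1
    rw [map_smul, map_sub, smul_sub, smul_sub, smul_add, smul_smul, inv_mul_cancel₀ hrk.ne',
      one_smul]
    abel
  simp_rw [e3] at hk1
  rw [integral_const_mul, smul_eq_mul] at hk1
  have h5 := h _ hk4 hk3 (r k * s') (mul_pos hrk hs'2.1) hk2 g (g x + r k • b)
  have h6 : ε ^ 2 * s' ^ (n + 2)
      ≤ ((r k) ^ n)⁻¹ * (((r k)⁻¹) ^ 2 *
        ∫ z in ball (x + r k • y k) (r k * s'), nsq n (g z - (g x + r k • b)) ∂μ) := by
    calc ε ^ 2 * s' ^ (n + 2)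
        = ((r k) ^ n)⁻¹ * (((r k)⁻¹) ^ 2 * (ε ^ 2 * (r k * s') ^ (n + 2))) := by
          rw [mul_pow, pow_add (r k) n 2, inv_pow]
          field_simp
      _ ≤ _ := by gcongr
  exact absurd hk1 (not_lt.2 h6)

/-- for a subspace `W` of dimension `≤ n` there is an isometry mapping it into `{nsq n = 0}`. -/
theorem exists_isometry_nsq_eq_zero {W : Submodule ℝ (V d)} (hW : Module.finrank ℝ W ≤ n) :
    ∃ g : V d ≃ₗᵢ[ℝ] V d, ∀ z ∈ W, nsq n (g z) = 0 := by
  classical
  set m := Module.finrank ℝ W with hm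
  have hmd : m ≤ d := by
    have := Submodule.finrank_le W
    rwa [finrank_euclideanSpace, Fintype.card_fin] at this
  let b := stdOrthonormalBasis ℝ W
  let v : Fin d → V d := fun i => if h : (i : ℕ) < m then ((b ⟨i, h⟩ : W) : V d) else 0
  let s : Set (Fin d) := {i | (i : ℕ) < m}
  have hv : Orthonormal ℝ (s.domRestrict v) := by
    have h1 : Orthonormal ℝ (fun i : Fin (Module.finrank ℝ W) => ((b i : W) : V d)) :=
      b.orthonormal.comp_linearIsometry W.subtypeₗᵢ
    have h2 : Orthonormal ℝ (fun i : s => ((b ⟨(i : Fin d), i.2⟩ : W) : V d)) := by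
      apply h1.comp (fun i : s => (⟨(i : Fin d), i.2⟩ : Fin (Module.finrank ℝ W)))
      intro i j hij
      apply Subtype.ext
      apply Fin.ext
      simpa using hij
    convert h2 using 1
    ext1 i
    have hi : ((i : Fin d) : ℕ) < m := i.2
    change v (i : Fin d) = _
    simp only [v]
    rw [dif_pos hi]
  obtain ⟨B, hB⟩ := hv.exists_orthonormalBasis_extension_of_card_eq (by simp)
  refine ⟨B.repr, fun z hz => ?_⟩
  unfold nsq
  apply Finset.sum_eq_zero
  intro i _
  split_ifs with hi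
  · have hzero : B.repr z i = 0 := by
      rw [B.repr_apply_apply]
      -- `z` is a combination of the `b j`
      have hz' : z = ∑ j, (b.repr ⟨z, hz⟩ j) • ((b j : W) : V d) := by
        have h1 := congrArg (Subtype.val) (b.sum_repr ⟨z, hz⟩)
        simp only [AddSubmonoidClass.coe_finsetSum] at h1
        exact h1.symm
      rw [hz', inner_sum]
      apply Finset.sum_eq_zero
      intro j _
      rw [real_inner_smul_right]
      have hj : (⟨(j : ℕ), by omega⟩ : Fin d) ∈ s := j.2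
      have hbj : B ⟨(j : ℕ), by omega⟩ = ((b j : W) : V d) := by
        rw [hB _ hj]
        simp only [v]
        rw [dif_pos (show ((⟨(j : ℕ), by omega⟩ : Fin d) : ℕ) < m from j.2)]
      rw [← hbj, B.orthonormal.2, mul_zero]
      intro hij
      have : (i : ℕ) = (j : ℕ) := by rw [hij]
      have := j.2
      omega
    rw [hzero]; simp
  · rfl

/-- a touching point: if the support is a proper subset of the subspace `W` -/
theorem exists_touching {μ : Measure (V d)} {W : Submodule ℝ (V d)} (hsub : μ.support ⊆ W)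
    (hne : μ.support.Nonempty) (hW : ¬ ((W : Set (V d)) ⊆ μ.support)) :
    ∃ p ∈ μ.support, ∃ e ∈ W, ‖e‖ = 1 ∧ ∃ ρ : ℝ, 0 < ρ ∧
      ∀ y ∈ μ.support, ρ ≤ ‖y - (p - ρ • e)‖ := by
  obtain ⟨z, hzW, hz⟩ := not_subset.1 hW
  obtain ⟨p, hp, hpd⟩ := Measure.isClosed_support.exists_infDist_eq_dist hne z
  have hpz : p ≠ z := by
    rintro rfl; exact hz hp
  have hρ : 0 < ‖p - z‖ := norm_pos_iff.2 (sub_ne_zero.2 hpz)
  refine ⟨p, hp, (‖p - z‖)⁻¹ • (p - z), W.smul_mem _ (W.sub_mem (hsub hp) hzW), ?_, ‖p - z‖, hρ, ?_⟩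
  · rw [norm_smul, norm_inv, norm_norm, inv_mul_cancel₀ hρ.ne']
  · intro y hy
    rw [smul_smul, mul_inv_cancel₀ hρ.ne', one_smul, sub_sub_cancel]
    have h1 : infDist z μ.support ≤ dist z y := infDist_le_dist_of_mem hy
    rw [hpd, dist_eq_norm, dist_eq_norm, norm_sub_rev z p, norm_sub_rev z y] at h1
    exact h1

/-- the intersection with a hyperplane has smaller dimension -/
theorem finrank_inf_orthogonal_lt {W : Submodule ℝ (V d)} {e : V d} (heW : e ∈ W) (he : ‖e‖ = 1) :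
    Module.finrank ℝ (W ⊓ (ℝ ∙ e)ᗮ : Submodule ℝ (V d)) < Module.finrank ℝ W := by
  apply Submodule.finrank_lt_finrank_of_lt
  refine lt_of_le_of_ne inf_le_left ?_
  intro h
  have h1 : e ∈ (W ⊓ (ℝ ∙ e)ᗮ : Submodule ℝ (V d)) := by rw [h]; exact heW
  have h2 : e ∈ (ℝ ∙ e)ᗮ := h1.2
  rw [Submodule.mem_orthogonal_singleton_iff_inner_right, real_inner_self_eq_norm_sq, he] at h2
  norm_num at h2

/-- Two successive blow-ups reduce the dimension. -/
theorem exists_descend (hn : 1 ≤ n) {C : ℝ} {μ : Measure (V d)} (h : ADR n C ⊤ μ)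
    (hR : Refl n μ) (hne : μ.support.Nonempty) {W : Submodule ℝ (V d)} (hsub : μ.support ⊆ W)
    (hW : ¬ ((W : Set (V d)) ⊆ μ.support)) :
    ∃ p ∈ μ.support, ∃ (r : ℕ → ℝ) (U : Ultrafilter ℕ) (ν ν' : Measure (V d)) (W' : Submodule ℝ (V d)),
      (∀ k, 0 < r k) ∧ Tendsto r U (𝓝 0) ∧
      WLim U (fun k => resc n p (r k) μ) ν ∧ ADR n C ⊤ ν ∧ Refl n ν ∧ (0 : V d) ∈ ν.support ∧
      WLim U (fun k => resc n 0 (r k) ν) ν' ∧ ADR n C ⊤ ν' ∧ Refl n ν' ∧ (0 : V d) ∈ ν'.support ∧
      ν'.support ⊆ W' ∧ Module.finrank ℝ W' < Module.finrank ℝ W := by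
  have hlf := lf_of_upper h.upperReg
  obtain ⟨p, hp, e, heW, he, ρ, hρ, htouch⟩ := exists_touching hsub hne hW
  set r : ℕ → ℝ := fun k => 1 / ((k : ℝ) + 1) with hr
  have hr0 : ∀ k, 0 < r k := fun k => by positivity
  set U : Ultrafilter ℕ := hyperfilter ℕ with hU
  have hUtop : (U : Filter ℕ) ≤ atTop := Nat.hyperfilter_le_atTop
  have hrl : Tendsto r U (𝓝 0) := tendsto_one_div_add_atTop_nhds_zero_nat.mono_left hUtop
  obtain ⟨ν, hν, hνA, hν0⟩ := exists_blowup h hp hr0 U
  have hνR : Refl n ν := by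
    apply refl_of_wLim_refl hn hν (C := C)
      (Eventually.of_forall fun k => (h.resc p (hr0 k) le_top : ADR n C ⊤ _).upperReg)
      (Eventually.of_forall fun k => hR.resc p (hr0 k))
  have hνlf := lf_of_upper hνA.upperReg
  have hνW : ν.support ⊆ W := support_blowup_subset hr0 hν hsub (hsub hp)
  have hνh : ∀ w ∈ ν.support, 0 ≤ inner ℝ w e := blowup_halfspace hρ he htouch hr0 hrl hν
  obtain ⟨ν', hν', hν'A, hν'0⟩ := exists_blowup hνA hν0 hr0 U
  have hν'R : Refl n ν' := by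
    apply refl_of_wLim_refl hn hν' (C := C)
      (Eventually.of_forall fun k => (hνA.resc 0 (hr0 k) le_top : ADR n C ⊤ _).upperReg)
      (Eventually.of_forall fun k => hνR.resc 0 (hr0 k))
  have hν'W : ν'.support ⊆ W := support_blowup_subset hr0 hν' hνW W.zero_mem
  have hν'h : ∀ w ∈ ν'.support, inner ℝ w e = 0 :=
    blowup_hyperplane hn hνA hνR hν0 he hνh hr0 hrl hν'
  refine ⟨p, hp, r, U, ν, ν', W ⊓ (ℝ ∙ e)ᗮ, hr0, hrl, hν, hνA, hνR, hν0, hν', hν'A, hν'R, hν'0,
    ?_, finrank_inf_orthogonal_lt heW he⟩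
  intro w hw
  refine ⟨hν'W hw, ?_⟩
  rw [SetLike.mem_coe, Submodule.mem_orthogonal_singleton_iff_inner_left]
  exact hν'h w hw

/-- descent: no reflectionless regular measure without flat balls. -/
theorem descent (hn : 1 ≤ n) {C ε : ℝ} (hε : 0 < ε) :
    ∀ (m : ℕ) (W : Submodule ℝ (V d)) (μ : Measure (V d)), Module.finrank ℝ W = m →
      μ.support ⊆ W → ADR n C ⊤ μ → Refl n μ → μ.support.Nonempty → NF n ε μ → False := by
  intro m
  induction m using Nat.strong_induction_on with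
  | _ m ih =>
    intro W μ hWm hsub h hR hne hNF
    rcases le_or_gt m n with hmn | hmn
    · -- flat
      obtain ⟨g, hg⟩ := exists_isometry_nsq_eq_zero (n := n) (W := W) (by rw [hWm]; exact hmn)
      obtain ⟨w, hw⟩ := hne
      have h1 := hNF w hw 1 one_pos g 0
      have h2 : ∫ z in ball w 1, nsq n (g z - 0) ∂μ = 0 := by
        have hlf := lf_of_upper h.upperReg
        have hae : ∀ᵐ y ∂μ, y ∈ μ.support := Measure.support_mem_ae
        rw [integral_eq_zero_of_ae]
        filter_upwards [ae_restrict_of_ae hae] with y hy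
        rw [sub_zero]
        exact hg y (hsub hy)
      rw [h2] at h1
      have : 0 < ε ^ 2 * (1 : ℝ) ^ (n + 2) := by positivity
      linarith
    · have hW : ¬ ((W : Set (V d)) ⊆ μ.support) := not_subspace_subset_support h (by omega)
      obtain ⟨p, hp, r, U, ν, ν', W', hr0, hrl, hν, hνA, hνR, hν0, hν', hν'A, hν'R, hν'0, hν'W,
        hlt⟩ := exists_descend hn h hR hne hsub hW
      have hNFν : NF n ε ν := nf_blowup hε (r0 := 1) one_pos
        (fun y hy _ s hs _ g b => hNF y hy s hs g b) hr0 hrl hν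
      have hNFν' : NF n ε ν' := nf_blowup hε (r0 := 1) one_pos
        (fun y hy _ s hs _ g b => hNFν y hy s hs g b) hr0 hrl hν'
      exact ih _ (by rw [← hWm]; exact hlt) W' ν' rfl hν'W hν'A hν'R ⟨0, hν'0⟩ hNFν'

end Crest.Agent.R085.Touch

namespace Crest.Agent.R085

open MeasureTheory Metric Set Filter
open scoped ENNReal NNReal Topology

/-- **M4.** Reflectionless regular measures are flat somewhere inside every ball. -/
theorem flatSomewhere {n d : ℕ} (hn : 1 ≤ n) (C : ℝ) : TFlatSomewhere n d C := by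
  intro μ h hR x hx r hr ε hε
  by_contra hcon
  push Not at hcon
  set ρ : ℕ → ℝ := fun k => 1 / ((k : ℝ) + 1) with hρ
  have hρ0 : ∀ k, 0 < ρ k := fun k => by positivity
  set U : Ultrafilter ℕ := hyperfilter ℕ with hU
  have hUtop : (U : Filter ℕ) ≤ atTop := Nat.hyperfilter_le_atTop
  have hρl : Tendsto ρ U (𝓝 0) := tendsto_one_div_add_atTop_nhds_zero_nat.mono_left hUtop
  obtain ⟨ν, hν, hνA, hν0⟩ := Touch.exists_blowup h hx hρ0 U
  have hlf := Touch.lf_of_upper h.upperReg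
  have hνR : Refl n ν := by
    apply refl_of_wLim_refl hn hν (C := C)
      (Eventually.of_forall fun k => (h.resc x (hρ0 k) le_top : ADR n C ⊤ _).upperReg)
      (Eventually.of_forall fun k => hR.resc x (hρ0 k))
  have hNF : Touch.NF n ε ν := Touch.nf_blowup hε hr
    (fun y hy hyx s hs hsr g b => (hcon y hy hyx s hs hsr g b).le) hρ0 hρl hν
  exact Touch.descent hn hε _ ⊤ ν rfl (by simp) hνA hνR ⟨0, hν0⟩ hNF

/-- A reflectionless `n`-regular measure supported in a subspace of dimension `≤ n` has full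
support there. -/
theorem support_eq_of_subset_subspace {n d : ℕ} (hn : 1 ≤ n) {C : ℝ} {μ : Measure (V d)}
    (h : ADR n C ⊤ μ) (hR : Refl n μ) (hne : μ.support.Nonempty) {W : Submodule ℝ (V d)}
    (hsub : μ.support ⊆ W) (hW : Module.finrank ℝ W ≤ n) : μ.support = W := by
  by_contra hcon
  have hW' : ¬ ((W : Set (V d)) ⊆ μ.support) := fun h' => hcon (hsub.antisymm h')
  obtain ⟨p, hp, r, U, ν, ν', W', hr0, hrl, hν, hνA, hνR, hν0, hν', hν'A, hν'R, hν'0, hν'W,
    hlt⟩ := Touch.exists_descend hn h hR hne hsub hW'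
  exact Touch.not_support_subset_subspace hν'A ⟨0, hν'0⟩ (by omega) hν'W

end Crest.Agent.R085
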